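import Mathlib

/-!
# Team RW.  Unit ENT (base file, written by helper142 so that all units share ONE set of definitions; owner of the proofs: helper77).

Finite Shannon entropy.  A finite probability space is a weight function on a `Fintype` (`Pm Ω`).
All information quantities are written with JOINT entropies, so that chain rules are identities:
`H(X|Y) = H(X,Y) - H(Y)`, `I(X;Y) = H(X)+H(Y)-H(X,Y)`, `I(X;Y|Z) = H(X,Z)+H(Y,Z)-H(X,Y,Z)-H(Z)`.
Natural logarithm throughout (`n` bits = `n * log 2`).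

Contents: `Pm`, `Pm.pr`, `Pm.ent`, `Pm.ex`, `Pm.cond`, `Pm.pi` (product), `Pm.copies` (conditionally i.i.d. copies) and the
contracts `en_*` used by EP, FL and the SABC assembly.  Add lemmas freely; do not change the definitions without telling channel rw.
-/

set_option autoImplicit false

open Finset

namespace Claimed.Agent.RW

/-- A finite probability space. -/
structure Pm (Ω : Type*) [Fintype Ω] where
  w : Ω → ℝ
  nonneg : ∀ ω, 0 ≤ w ω
  sum_one : ∑ ω, w ω = 1

variable {Ω : Type*} [Fintype Ω] {α β γ : Type*} [DecidableEq α] [DecidableEq β] [DecidableEq γ]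

/-- `P(X = x)`. -/
def Pm.pr (P : Pm Ω) (X : Ω → α) (x : α) : ℝ := ∑ ω with X ω = x, P.w ω

/-- Shannon entropy of the random variable `X` (nats). -/
noncomputable def Pm.ent (P : Pm Ω) (X : Ω → α) : ℝ :=
  ∑ x ∈ univ.image X, Real.negMulLog (P.pr X x)

/-- expectation -/
def Pm.ex (P : Pm Ω) (f : Ω → ℝ) : ℝ := ∑ ω, P.w ω * f ω

/-- Conditioning on `Y = y` (junk value `P` if the event is null). -/
noncomputable def Pm.cond (P : Pm Ω) (Y : Ω → β) (y : β) : Pm Ω :=
  if h : P.pr Y y = 0 then P else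
  { w := fun ω => if Y ω = y then P.w ω / P.pr Y y else 0
    nonneg := by
      intro ω
      split_ifs
      · exact div_nonneg (P.nonneg ω) (Finset.sum_nonneg fun i _ => P.nonneg i)
      · exact le_rfl
    sum_one := by
      rw [← Finset.sum_filter, ← Finset.sum_div]
      exact div_self h }

/-- Product of finitely many finite probability spaces. -/
noncomputable def Pm.pi {ι : Type*} [Fintype ι] [DecidableEq ι] (Q : ι → Pm Ω) : Pm (ι → Ω) where
  w := fun b => ∏ t, (Q t).w (b t)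
  nonneg := fun b => Finset.prod_nonneg fun t _ => (Q t).nonneg (b t)
  sum_one := by
    have h := Finset.prod_univ_sum (fun _ : ι => (Finset.univ : Finset Ω)) (fun t x => (Q t).w x)
    rw [Fintype.piFinset_univ] at h
    rw [← h]
    exact Finset.prod_eq_one fun t _ => (Q t).sum_one

/-- Conditionally i.i.d. copies: `ω.1 ~ P`; given `U ω.1 = x` the `ω.2 t` are i.i.d. with law `P(· | U = x)`. -/
noncomputable def Pm.copies (P : Pm Ω) (U : Ω → α) (ι : Type*) [Fintype ι] [DecidableEq ι] : Pm (Ω × (ι → Ω)) where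
  w := fun ω => P.w ω.1 * (Pm.pi fun _ : ι => P.cond U (U ω.1)).w ω.2
  nonneg := fun ω => mul_nonneg (P.nonneg _) ((Pm.pi fun _ : ι => P.cond U (U ω.1)).nonneg _)
  sum_one := by
    rw [Fintype.sum_prod_type]
    simp only [← Finset.mul_sum, Pm.sum_one, mul_one]


/-! ## helper lemmas -/

theorem en_pr_nonneg (P : Pm Ω) (X : Ω → α) (x : α) : 0 ≤ P.pr X x :=
  Finset.sum_nonneg fun i _ => P.nonneg i

theorem en_pr_le_one (P : Pm Ω) (X : Ω → α) (x : α) : P.pr X x ≤ 1 := by
  rw [← P.sum_one]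
  exact Finset.sum_le_sum_of_subset_of_nonneg (Finset.filter_subset _ _) fun i _ _ => P.nonneg i

theorem en_pr_pos (P : Pm Ω) (X : Ω → α) (ω : Ω) (h : P.w ω ≠ 0) : 0 < P.pr X (X ω) := by
  have h1 : 0 < P.w ω := lt_of_le_of_ne (P.nonneg ω) (Ne.symm h)
  refine lt_of_lt_of_le h1 ?_
  exact Finset.single_le_sum (f := P.w) (fun i _ => P.nonneg i) (by simp)

theorem en_w_eq_zero (P : Pm Ω) (X : Ω → α) (ω : Ω) (h : P.pr X (X ω) = 0) : P.w ω = 0 := by
  by_contra h1
  exact (en_pr_pos P X ω h1).ne' h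

theorem en_pr_eq_zero (P : Pm Ω) (X : Ω → α) (x : α) (h : x ∉ univ.image X) : P.pr X x = 0 := by
  unfold Pm.pr
  refine Finset.sum_eq_zero fun ω hω => ?_
  exact absurd (Finset.mem_image.2 ⟨ω, Finset.mem_univ ω, (Finset.mem_filter.1 hω).2⟩) h

/-- sums over `Ω` of `w ω * F (X ω)` are sums over the law of `X` -/
theorem en_sum_comp (P : Pm Ω) (X : Ω → α) (F : α → ℝ) :
    ∑ ω, P.w ω * F (X ω) = ∑ x ∈ univ.image X, P.pr X x * F x := by
  rw [← Finset.sum_fiberwise_of_maps_to (s := univ) (t := univ.image X) (g := X)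
    (fun ω _ => Finset.mem_image_of_mem X (Finset.mem_univ ω))]
  refine Finset.sum_congr rfl fun x _ => ?_
  rw [Pm.pr, Finset.sum_mul]
  refine Finset.sum_congr rfl fun ω hω => ?_
  rw [(Finset.mem_filter.1 hω).2]

theorem en_pr_sum (P : Pm Ω) (X : Ω → α) : ∑ x ∈ univ.image X, P.pr X x = 1 := by
  have h := en_sum_comp P X (fun _ => 1)
  simp only [mul_one] at h
  rw [← h, P.sum_one]

/-- the pointwise form of the entropy -/
theorem en_ent_eq_ex (P : Pm Ω) (X : Ω → α) :
    P.ent X = ∑ ω, P.w ω * (- Real.log (P.pr X (X ω))) := by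
  rw [en_sum_comp P X (fun x => - Real.log (P.pr X x))]
  unfold Pm.ent
  refine Finset.sum_congr rfl fun x _ => ?_
  rw [Real.negMulLog]
  ring

/-- the entropy may be computed on any finite set carrying the law -/
theorem en_ent_eq_sum (P : Pm Ω) (X : Ω → α) (S : Finset α) (hS : ∀ ω, P.w ω ≠ 0 → X ω ∈ S) :
    P.ent X = ∑ x ∈ S, Real.negMulLog (P.pr X x) := by
  have key : ∀ T : Finset α, (∀ ω, P.w ω ≠ 0 → X ω ∈ T) →
      ∑ x ∈ T, Real.negMulLog (P.pr X x) = ∑ x ∈ T ∪ univ.image X, Real.negMulLog (P.pr X x) := by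
    intro T hT
    refine Finset.sum_subset Finset.subset_union_left fun x _ hx => ?_
    have : P.pr X x = 0 := by
      unfold Pm.pr
      refine Finset.sum_eq_zero fun ω hω => ?_
      by_contra h
      exact hx ((Finset.mem_filter.1 hω).2 ▸ hT ω h)
    rw [this, Real.negMulLog_zero]
  have h1 := key S hS
  have h2 := key (univ.image X) (fun ω _ => Finset.mem_image_of_mem X (Finset.mem_univ ω))
  rw [Finset.union_self] at h2
  unfold Pm.ent
  rw [h1]
  refine Finset.sum_subset Finset.subset_union_right fun x _ hx => ?_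
  rw [en_pr_eq_zero P X x hx, Real.negMulLog_zero]

/-- equal laws have equal entropies (possibly on different spaces) -/
theorem en_ent_congr_pr {Ω' : Type*} [Fintype Ω'] (P : Pm Ω) (Q : Pm Ω') (X : Ω → α) (Y : Ω' → α)
    (h : ∀ x, P.pr X x = Q.pr Y x) : P.ent X = Q.ent Y := by
  rw [en_ent_eq_sum P X (univ.image X ∪ univ.image Y)
      (fun ω _ => Finset.mem_union_left _ (Finset.mem_image_of_mem X (Finset.mem_univ ω))),
    en_ent_eq_sum Q Y (univ.image X ∪ univ.image Y)
      (fun ω _ => Finset.mem_union_right _ (Finset.mem_image_of_mem Y (Finset.mem_univ ω)))]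
  exact Finset.sum_congr rfl fun x _ => by rw [h x]

/-- **Gibbs inequality.** -/
theorem en_gibbs (P : Pm Ω) (X : Ω → α) (q : α → ℝ) (hq : ∀ x, 0 ≤ q x)
    (hsum : ∑ x ∈ univ.image X, q x ≤ 1) (hpos : ∀ ω, P.w ω ≠ 0 → q (X ω) ≠ 0) :
    P.ent X ≤ ∑ ω, P.w ω * (- Real.log (q (X ω))) := by
  rw [en_sum_comp P X (fun x => - Real.log (q x))]
  unfold Pm.ent
  have hterm : ∀ x ∈ univ.image X,
      Real.negMulLog (P.pr X x) ≤ P.pr X x * (- Real.log (q x)) + (q x - P.pr X x) := by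
    intro x hx
    obtain ⟨ω0, -, rfl⟩ := Finset.mem_image.1 hx
    by_cases hp : P.pr X (X ω0) = 0
    · rw [hp, Real.negMulLog_zero]
      have := hq (X ω0)
      linarith
    · have hp' : 0 < P.pr X (X ω0) := lt_of_le_of_ne (en_pr_nonneg P X _) (Ne.symm hp)
      have hq' : 0 < q (X ω0) := by
        refine lt_of_le_of_ne (hq _) (Ne.symm ?_)
        obtain ⟨ω1, hω1, hw⟩ : ∃ ω1 ∈ univ.filter (fun ω => X ω = X ω0), P.w ω1 ≠ 0 := by
          by_contra hcon
          push Not at hcon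
          exact hp (Finset.sum_eq_zero hcon)
        rw [← (Finset.mem_filter.1 hω1).2]
        exact hpos ω1 hw
      have h1 := Real.log_le_sub_one_of_pos (div_pos hq' hp')
      rw [Real.log_div hq'.ne' hp'.ne'] at h1
      have h2 := mul_le_mul_of_nonneg_left h1 hp'.le
      have h3 : P.pr X (X ω0) * (q (X ω0) / P.pr X (X ω0) - 1) = q (X ω0) - P.pr X (X ω0) := by
        field_simp
      rw [h3] at h2
      rw [Real.negMulLog]
      nlinarith
  calc ∑ x ∈ univ.image X, Real.negMulLog (P.pr X x)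
      ≤ ∑ x ∈ univ.image X, (P.pr X x * (- Real.log (q x)) + (q x - P.pr X x)) :=
        Finset.sum_le_sum hterm
    _ = ∑ x ∈ univ.image X, P.pr X x * (- Real.log (q x)) +
        (∑ x ∈ univ.image X, q x - ∑ x ∈ univ.image X, P.pr X x) := by
        rw [Finset.sum_add_distrib, Finset.sum_sub_distrib]
    _ ≤ ∑ x ∈ univ.image X, P.pr X x * (- Real.log (q x)) := by
        rw [en_pr_sum]
        linarith

/-- marginal of a pair (first coordinate summed out) -/
theorem en_pr_marg (P : Pm Ω) (X : Ω → α) (Z : Ω → γ) (z : γ) :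
    ∑ x ∈ univ.image X, P.pr (fun ω => (X ω, Z ω)) (x, z) = P.pr Z z := by
  unfold Pm.pr
  rw [← Finset.sum_fiberwise_of_maps_to (s := univ.filter fun ω => Z ω = z) (t := univ.image X) (g := X)
    (fun ω _ => Finset.mem_image_of_mem X (Finset.mem_univ ω))]
  refine Finset.sum_congr rfl fun x _ => ?_
  rw [Finset.filter_filter]
  refine Finset.sum_congr ?_ fun _ _ => rfl
  ext ω
  simp only [Finset.mem_filter, Finset.mem_univ, true_and, Prod.mk.injEq]
  tauto

/-- a pointwise comparison principle -/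
theorem en_pr_congr_ae (P : Pm Ω) (X : Ω → α) (Y : Ω → β) (x : α) (y : β)
    (h : ∀ ω, P.w ω ≠ 0 → (X ω = x ↔ Y ω = y)) : P.pr X x = P.pr Y y := by
  unfold Pm.pr
  rw [Finset.sum_filter, Finset.sum_filter]
  refine Finset.sum_congr rfl fun ω _ => ?_
  by_cases hw : P.w ω = 0
  · simp [hw]
  · simp only [h ω hw]

theorem en_pr_mono_ae (P : Pm Ω) (X : Ω → α) (Y : Ω → β) (x : α) (y : β)
    (h : ∀ ω, P.w ω ≠ 0 → X ω = x → Y ω = y) : P.pr X x ≤ P.pr Y y := by
  unfold Pm.pr
  rw [Finset.sum_filter, Finset.sum_filter]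
  refine Finset.sum_le_sum fun ω _ => ?_
  by_cases hw : P.w ω = 0
  · simp [hw]
  · by_cases hx : X ω = x
    · simp [hx, h ω hw hx]
    · simp only [hx, if_false]
      split_ifs
      · exact P.nonneg ω
      · exact le_rfl

/-! ## basic contracts -/

theorem en_nonneg (P : Pm Ω) (X : Ω → α) : 0 ≤ P.ent X :=
  Finset.sum_nonneg fun x _ => Real.negMulLog_nonneg (en_pr_nonneg P X x) (en_pr_le_one P X x)

/-- `H(X) ≤ log #S` if `X ∈ S` almost surely. -/
theorem en_le_log_card (P : Pm Ω) (X : Ω → α) (S : Finset α) (hS : ∀ ω, P.w ω ≠ 0 → X ω ∈ S) :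
    P.ent X ≤ Real.log #S := by
  classical
  have hne : S.Nonempty := by
    by_contra hcon
    rw [Finset.not_nonempty_iff_eq_empty] at hcon
    have : ∀ ω, P.w ω = 0 := by
      intro ω
      by_contra h
      have := hS ω h
      simp [hcon] at this
    have h1 := P.sum_one
    simp [this] at h1
  have hc : (0 : ℝ) < #S := by exact_mod_cast Finset.card_pos.2 hne
  have h := en_gibbs P X (fun x => if x ∈ S then 1 / (#S : ℝ) else 0)
    (fun x => by
      show 0 ≤ if x ∈ S then 1 / (#S : ℝ) else 0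
      split_ifs
      · positivity
      · exact le_rfl)
    (by
      rw [← Finset.sum_filter]
      rw [Finset.sum_const, nsmul_eq_mul]
      have : ((#(Finset.filter (fun x => x ∈ S) (univ.image X)) : ℕ) : ℝ) ≤ #S := by
        exact_mod_cast Finset.card_le_card (fun x hx => (Finset.mem_filter.1 hx).2)
      rw [mul_one_div, div_le_one hc]
      exact this)
    (fun ω hω => by
      show (if X ω ∈ S then 1 / (#S : ℝ) else 0) ≠ 0
      rw [if_pos (hS ω hω)]
      positivity)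
  refine h.trans (le_of_eq ?_)
  have : ∀ ω, P.w ω * (- Real.log (if X ω ∈ S then 1 / (#S : ℝ) else 0)) = P.w ω * Real.log #S := by
    intro ω
    by_cases hw : P.w ω = 0
    · simp [hw]
    · rw [if_pos (hS ω hw), one_div, Real.log_inv, neg_neg]
  rw [Finset.sum_congr rfl fun ω _ => this ω, ← Finset.sum_mul, P.sum_one, one_mul]

/-- `log (1/η) ≤ H(X)` if all atoms of `X` are `≤ η`. -/
theorem en_ge_of_atoms (P : Pm Ω) (X : Ω → α) (η : ℝ) (hη : 0 < η) (h : ∀ x, P.pr X x ≤ η) :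
    - Real.log η ≤ P.ent X := by
  rw [en_ent_eq_ex]
  have h1 : - Real.log η = ∑ ω, P.w ω * (- Real.log η) := by
    rw [← Finset.sum_mul, P.sum_one, one_mul]
  rw [h1]
  refine Finset.sum_le_sum fun ω _ => ?_
  by_cases hw : P.w ω = 0
  · simp [hw]
  · refine mul_le_mul_of_nonneg_left ?_ (P.nonneg ω)
    exact neg_le_neg (Real.log_le_log (en_pr_pos P X ω hw) (h _))

/-- If `X` and `Y` determine each other almost surely, `H(X) = H(Y)`. -/
theorem en_congr (P : Pm Ω) (X : Ω → α) (Y : Ω → β) (f : α → β) (g : β → α)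
    (hf : ∀ ω, P.w ω ≠ 0 → Y ω = f (X ω)) (hg : ∀ ω, P.w ω ≠ 0 → X ω = g (Y ω)) : P.ent X = P.ent Y := by
  rw [en_ent_eq_ex, en_ent_eq_ex]
  refine Finset.sum_congr rfl fun ω _ => ?_
  by_cases hw : P.w ω = 0
  · simp [hw]
  · rw [en_pr_congr_ae P X Y (X ω) (Y ω)]
    intro ω' hw'
    constructor
    · intro h
      rw [hf ω' hw', hf ω hw, h]
    · intro h
      rw [hg ω' hw', hg ω hw, h]

/-- `H(X, f(X)) = H(X)`. -/
theorem en_pair_comp (P : Pm Ω) (X : Ω → α) (f : α → β) :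
    P.ent (fun ω => (X ω, f (X ω))) = P.ent X :=
  en_congr P _ X Prod.fst (fun x => (x, f x)) (fun _ _ => rfl) (fun _ _ => rfl)

/-- `H(X) ≤ H(X,Y)`. -/
theorem en_le_pair (P : Pm Ω) (X : Ω → α) (Y : Ω → β) :
    P.ent X ≤ P.ent (fun ω => (X ω, Y ω)) := by
  rw [en_ent_eq_ex, en_ent_eq_ex]
  refine Finset.sum_le_sum fun ω _ => ?_
  by_cases hw : P.w ω = 0
  · simp [hw]
  · refine mul_le_mul_of_nonneg_left ?_ (P.nonneg ω)
    refine neg_le_neg (Real.log_le_log (en_pr_pos P (fun ω => (X ω, Y ω)) ω hw) ?_)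
    exact en_pr_mono_ae P _ X _ _ (fun ω' _ h => congrArg Prod.fst h)

/-- `H(f(X)) ≤ H(X)`. -/
theorem en_comp_le (P : Pm Ω) (X : Ω → α) (f : α → β) :
    P.ent (fun ω => f (X ω)) ≤ P.ent X := by
  refine (en_le_pair P (fun ω => f (X ω)) X).trans (le_of_eq ?_)
  exact en_congr P _ X Prod.snd (fun x => (f x, x)) (fun _ _ => rfl) (fun _ _ => rfl)

/-- the total mass of the conditionally independent coupling is at most one -/
theorem en_submod_mass (P : Pm Ω) (X : Ω → α) (Y : Ω → β) (Z : Ω → γ) :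
    ∑ t ∈ univ.image (fun ω => (X ω, Y ω, Z ω)),
      P.pr (fun ω => (X ω, Z ω)) (t.1, t.2.2) * P.pr (fun ω => (Y ω, Z ω)) (t.2.1, t.2.2) / P.pr Z t.2.2 ≤ 1 := by
  have hsub : univ.image (fun ω => (X ω, Y ω, Z ω)) ⊆
      univ.image X ×ˢ (univ.image Y ×ˢ univ.image Z) := by
    intro t ht
    obtain ⟨ω, -, rfl⟩ := Finset.mem_image.1 ht
    simp only [Finset.mem_product, Finset.mem_image, Finset.mem_univ, true_and]
    exact ⟨⟨ω, rfl⟩, ⟨ω, rfl⟩, ⟨ω, rfl⟩⟩
  refine (Finset.sum_le_sum_of_subset_of_nonneg hsub fun t _ _ =>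
    div_nonneg (mul_nonneg (en_pr_nonneg P _ _) (en_pr_nonneg P _ _)) (en_pr_nonneg P _ _)).trans ?_
  rw [Finset.sum_product]
  simp only [Finset.sum_product]
  rw [Finset.sum_congr rfl fun x _ => Finset.sum_comm, Finset.sum_comm]
  have hz : ∀ z ∈ univ.image Z, ∑ x ∈ univ.image X, ∑ y ∈ univ.image Y,
      P.pr (fun ω => (X ω, Z ω)) (x, z) * P.pr (fun ω => (Y ω, Z ω)) (y, z) / P.pr Z z = P.pr Z z := by
    intro z _
    simp only [← Finset.sum_div]
    rw [← Finset.sum_mul_sum, en_pr_marg, en_pr_marg, mul_self_div_self]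
  rw [Finset.sum_congr rfl hz, en_pr_sum]

/-- **Submodularity** `H(X,Y,Z) + H(Z) ≤ H(X,Z) + H(Y,Z)`  (`I(X;Y|Z) ≥ 0`; Jensen for `negMulLog`). -/
theorem en_submod (P : Pm Ω) (X : Ω → α) (Y : Ω → β) (Z : Ω → γ) :
    P.ent (fun ω => (X ω, Y ω, Z ω)) + P.ent Z ≤
      P.ent (fun ω => (X ω, Z ω)) + P.ent (fun ω => (Y ω, Z ω)) := by
  have h := en_gibbs P (fun ω => (X ω, Y ω, Z ω))
    (fun t => P.pr (fun ω => (X ω, Z ω)) (t.1, t.2.2) * P.pr (fun ω => (Y ω, Z ω)) (t.2.1, t.2.2) / P.pr Z t.2.2)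
    (fun t => div_nonneg (mul_nonneg (en_pr_nonneg P _ _) (en_pr_nonneg P _ _)) (en_pr_nonneg P _ _))
    (en_submod_mass P X Y Z)
    (fun ω hω => by
      have h1 := en_pr_pos P (fun ω => (X ω, Z ω)) ω hω
      have h2 := en_pr_pos P (fun ω => (Y ω, Z ω)) ω hω
      have h3 := en_pr_pos P Z ω hω
      exact (div_pos (mul_pos h1 h2) h3).ne')
  rw [en_ent_eq_ex P Z, en_ent_eq_ex P (fun ω => (X ω, Z ω)), en_ent_eq_ex P (fun ω => (Y ω, Z ω))]
  refine (add_le_add_left h _).trans (le_of_eq ?_)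
  rw [← Finset.sum_add_distrib, ← Finset.sum_add_distrib]
  refine Finset.sum_congr rfl fun ω _ => ?_
  by_cases hw : P.w ω = 0
  · simp [hw]
  · have h1 := en_pr_pos P (fun ω => (X ω, Z ω)) ω hw
    have h2 := en_pr_pos P (fun ω => (Y ω, Z ω)) ω hw
    have h3 := en_pr_pos P Z ω hw
    simp only at h1 h2 ⊢
    rw [Real.log_div (mul_pos h1 h2).ne' h3.ne', Real.log_mul h1.ne' h2.ne']
    ring

theorem en_const (P : Pm Ω) (c : α) : P.ent (fun _ => c) = 0 := by
  rw [en_ent_eq_ex]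
  refine Finset.sum_eq_zero fun ω _ => ?_
  have : P.pr (fun _ : Ω => c) c = 1 := by
    unfold Pm.pr
    simp [P.sum_one]
  rw [this]
  simp

/-- subadditivity -/
theorem en_pair_le (P : Pm Ω) (X : Ω → α) (Y : Ω → β) :
    P.ent (fun ω => (X ω, Y ω)) ≤ P.ent X + P.ent Y := by
  have h := en_submod P X Y (fun _ => ())
  rw [en_const, add_zero] at h
  rw [en_congr P (fun ω => (X ω, Y ω, ())) (fun ω => (X ω, Y ω)) (fun t => (t.1, t.2.1))
      (fun t => (t.1, t.2, ())) (fun _ _ => rfl) (fun _ _ => rfl),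
    en_congr P (fun ω => (X ω, ())) X Prod.fst (fun t => (t, ())) (fun _ _ => rfl) (fun _ _ => rfl),
    en_congr P (fun ω => (Y ω, ())) Y Prod.fst (fun t => (t, ())) (fun _ _ => rfl) (fun _ _ => rfl)] at h
  exact h

theorem en_cond_w (P : Pm Ω) (Y : Ω → β) (y : β) (h : P.pr Y y ≠ 0) (ω : Ω) :
    (P.cond Y y).w ω = if Y ω = y then P.w ω / P.pr Y y else 0 := by
  unfold Pm.cond
  rw [dif_neg h]

theorem en_cond_pr (P : Pm Ω) (X : Ω → α) (Y : Ω → β) (y : β) (h : P.pr Y y ≠ 0) (x : α) :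
    (P.cond Y y).pr X x = P.pr (fun ω => (X ω, Y ω)) (x, y) / P.pr Y y := by
  unfold Pm.pr
  simp only [en_cond_w P Y y h]
  rw [Finset.sum_div, ← Finset.sum_filter, Finset.filter_filter]
  refine Finset.sum_congr ?_ fun _ _ => rfl
  ext ω
  simp only [Finset.mem_filter, Finset.mem_univ, true_and, Prod.mk.injEq]

/-- `P(Y=y) H(X | Y=y)` in pointwise form -/
theorem en_cond_ent (P : Pm Ω) (X : Ω → α) (Y : Ω → β) (y : β) :
    P.pr Y y * (P.cond Y y).ent X = ∑ ω with Y ω = y,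
      P.w ω * (- Real.log (P.pr (fun ω => (X ω, Y ω)) (X ω, Y ω)) + Real.log (P.pr Y (Y ω))) := by
  by_cases h : P.pr Y y = 0
  · rw [h, zero_mul]
    symm
    refine Finset.sum_eq_zero fun ω hω => ?_
    have : P.w ω = 0 := en_w_eq_zero P Y ω (by rw [(Finset.mem_filter.1 hω).2]; exact h)
    rw [this, zero_mul]
  · rw [en_ent_eq_ex, Finset.mul_sum, Finset.sum_filter]
    refine Finset.sum_congr rfl fun ω _ => ?_
    rw [en_cond_w P Y y h]
    by_cases hy : Y ω = y
    · rw [if_pos hy, if_pos hy]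
      by_cases hw : P.w ω = 0
      · simp [hw]
      · have h1 := en_pr_pos P (fun ω => (X ω, Y ω)) ω hw
        have h3 := en_pr_pos P Y ω hw
        rw [en_cond_pr P X Y y h, ← hy, Real.log_div h1.ne' h3.ne']
        field_simp
        ring
    · rw [if_neg hy, if_neg hy]
      simp

/-- `H(X,Y) = H(Y) + ∑_y P(Y=y) H(X | Y=y)`. -/
theorem en_pair_eq_cond (P : Pm Ω) (X : Ω → α) (Y : Ω → β) :
    P.ent (fun ω => (X ω, Y ω)) = P.ent Y + ∑ y ∈ univ.image Y, P.pr Y y * (P.cond Y y).ent X := by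
  rw [Finset.sum_congr rfl fun y _ => en_cond_ent P X Y y,
    Finset.sum_fiberwise_of_maps_to (s := univ) (t := univ.image Y) (g := Y)
      (fun ω _ => Finset.mem_image_of_mem Y (Finset.mem_univ ω)),
    en_ent_eq_ex P Y, en_ent_eq_ex P (fun ω => (X ω, Y ω)), ← Finset.sum_add_distrib]
  refine Finset.sum_congr rfl fun ω _ => ?_
  ring

/-! ## conditionally i.i.d. copies -/

/-! ### helpers of ENT-COPIES (helper32), prefix `en_cp_` -/

omit [DecidableEq β] [DecidableEq γ] in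
theorem en_cp_pr_eq_zero (P : Pm Ω) (X : Ω → α) (x : α) (hx : x ∉ univ.image X) : P.pr X x = 0 := by
  unfold Pm.pr
  refine Finset.sum_eq_zero fun ω hω => ?_
  exact absurd (mem_image.2 ⟨ω, mem_univ _, (mem_filter.1 hω).2⟩) hx

omit [DecidableEq β] [DecidableEq γ] in
/-- entropy as a sum over any finite set containing the values -/
theorem en_cp_ent_eq_sum (P : Pm Ω) (X : Ω → α) (S : Finset α) (hS : univ.image X ⊆ S) :
    P.ent X = ∑ x ∈ S, Real.negMulLog (P.pr X x) := by
  unfold Pm.ent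
  refine Finset.sum_subset hS fun x _ hx => ?_
  rw [en_cp_pr_eq_zero P X x hx, Real.negMulLog_zero]

omit [DecidableEq β] [DecidableEq γ] in
/-- the entropy depends only on the law -/
theorem en_cp_ent_congr {Ω' : Type*} [Fintype Ω'] (P : Pm Ω) (P' : Pm Ω') (X : Ω → α) (X' : Ω' → α)
    (h : ∀ x, P.pr X x = P'.pr X' x) : P.ent X = P'.ent X' := by
  rw [en_cp_ent_eq_sum P X (univ.image X ∪ univ.image X') subset_union_left,
    en_cp_ent_eq_sum P' X' (univ.image X ∪ univ.image X') subset_union_right]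
  exact Finset.sum_congr rfl fun x _ => by rw [h x]

omit [DecidableEq β] [DecidableEq γ] in
theorem en_cp_pr_eq_sum (P : Pm Ω) (X : Ω → α) (x : α) :
    P.pr X x = ∑ ω, P.w ω * (if X ω = x then 1 else 0) := by
  unfold Pm.pr
  rw [Finset.sum_filter]
  exact Finset.sum_congr rfl fun ω _ => by split_ifs <;> simp

omit [DecidableEq β] [DecidableEq γ] in
theorem en_cp_pr_ne_zero (P : Pm Ω) (U : Ω → α) (ω : Ω) (h : P.w ω ≠ 0) : P.pr U (U ω) ≠ 0 := by
  have h1 : P.w ω ≤ P.pr U (U ω) := by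
    unfold Pm.pr
    exact Finset.single_le_sum (f := P.w) (fun i _ => P.nonneg i) (mem_filter.2 ⟨mem_univ _, rfl⟩)
  have h2 : 0 < P.w ω := lt_of_le_of_ne (P.nonneg ω) (Ne.symm h)
  exact (lt_of_lt_of_le h2 h1).ne'

omit [DecidableEq β] [DecidableEq γ] in
theorem en_cp_cond_w (P : Pm Ω) (U : Ω → α) (x : α) (h : P.pr U x ≠ 0) (ω : Ω) :
    (P.cond U x).w ω = if U ω = x then P.w ω / P.pr U x else 0 := by
  unfold Pm.cond
  rw [dif_neg h]

omit [DecidableEq β] [DecidableEq γ] in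
/-- disintegration of `P` along `U`. -/
theorem en_cp_disint (P : Pm Ω) (U : Ω → α) (Φ : α → Ω → ℝ) :
    ∑ ω₁, P.w ω₁ * ∑ ω', (P.cond U (U ω₁)).w ω' * Φ (U ω₁) ω' = ∑ ω', P.w ω' * Φ (U ω') ω' := by
  have e1 : ∀ ω₁, P.w ω₁ * ∑ ω', (P.cond U (U ω₁)).w ω' * Φ (U ω₁) ω'
      = ∑ ω', (if U ω₁ = U ω' then P.w ω₁ else 0) * (P.w ω' / P.pr U (U ω') * Φ (U ω') ω') := by
    intro ω₁
    by_cases h : P.w ω₁ = 0
    · rw [h, zero_mul]
      symm
      refine Finset.sum_eq_zero fun ω' _ => ?_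
      simp
    · rw [Finset.mul_sum]
      refine Finset.sum_congr rfl fun ω' _ => ?_
      rw [en_cp_cond_w P U _ (en_cp_pr_ne_zero P U ω₁ h)]
      by_cases h2 : U ω' = U ω₁
      · rw [if_pos h2, if_pos h2.symm, h2]
      · rw [if_neg h2, if_neg (fun h3 => h2 h3.symm)]; ring
  simp only [e1]
  rw [Finset.sum_comm]
  refine Finset.sum_congr rfl fun ω' _ => ?_
  rw [← Finset.sum_mul]
  have e2 : ∑ ω₁, (if U ω₁ = U ω' then P.w ω₁ else 0) = P.pr U (U ω') := by
    unfold Pm.pr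
    rw [Finset.sum_filter]
  rw [e2]
  by_cases h : P.w ω' = 0
  · rw [h]; simp
  · have := en_cp_pr_ne_zero P U ω' h
    field_simp

section copies_helpers
variable {ι : Type*} [Fintype ι] [DecidableEq ι]

omit [DecidableEq α] [DecidableEq β] [DecidableEq γ] in
/-- one-coordinate marginal of a product -/
theorem en_cp_pi_marg (Q : ι → Pm Ω) (t : ι) (φ : Ω → ℝ) :
    ∑ b, (Pm.pi Q).w b * φ (b t) = ∑ ω, (Q t).w ω * φ ω := by
  have h := Finset.prod_univ_sum (fun _ : ι => (Finset.univ : Finset Ω))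
    (fun s x => (Q s).w x * (if s = t then φ x else 1))
  rw [Fintype.piFinset_univ] at h
  have e1 : ∀ b : ι → Ω, ∏ s, ((Q s).w (b s) * (if s = t then φ (b s) else 1))
      = (Pm.pi Q).w b * φ (b t) := by
    intro b
    rw [Finset.prod_mul_distrib, Finset.prod_ite_eq' univ t (fun s => φ (b s)), if_pos (mem_univ t)]
    rfl
  have e2 : ∏ s, ∑ x, (Q s).w x * (if s = t then φ x else 1) = ∑ ω, (Q t).w ω * φ ω := by
    rw [← Finset.mul_prod_erase univ _ (mem_univ t), Finset.prod_eq_one, mul_one]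
    · simp
    · intro s hs
      have hst : s ≠ t := (mem_erase.1 hs).1
      simp [hst, Pm.sum_one]
  rw [← e2, h]
  exact Finset.sum_congr rfl fun b _ => (e1 b).symm

omit [DecidableEq α] [DecidableEq γ] in
/-- law of a tuple of functions of the coordinates of a product -/
theorem en_cp_pi_pr_prod (Q : ι → Pm Ω) (f : ι → Ω → β) (y : ι → β) :
    (Pm.pi Q).pr (fun b t => f t (b t)) y = ∏ t, (Q t).pr (f t) (y t) := by
  unfold Pm.pr
  rw [Finset.prod_univ_sum]
  refine Finset.sum_congr ?_ (fun b _ => rfl)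
  ext b
  simp [Fintype.mem_piFinset, funext_iff]

omit [DecidableEq α] [DecidableEq γ] in
theorem en_cp_pi_ent_coord (Q : ι → Pm Ω) (t : ι) (f : Ω → β) :
    (Pm.pi Q).ent (fun b => f (b t)) = (Q t).ent f := by
  refine en_cp_ent_congr _ _ _ _ fun y => ?_
  rw [en_cp_pr_eq_sum, en_cp_pr_eq_sum]
  exact en_cp_pi_marg Q t (fun ω => if f ω = y then 1 else 0)

omit [Fintype ι] in
theorem en_cp_negMulLog_prod (T : Finset ι) (a : ι → ℝ) :
    Real.negMulLog (∏ t ∈ T, a t) = ∑ t ∈ T, (∏ s ∈ T.erase t, a s) * Real.negMulLog (a t) := by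
  induction T using Finset.induction_on with
  | empty => simp
  | insert t T ht ih =>
    rw [Finset.prod_insert ht, Real.negMulLog_mul, ih, Finset.sum_insert ht, Finset.erase_insert ht]
    congr 1
    rw [Finset.mul_sum]
    refine Finset.sum_congr rfl fun t' ht' => ?_
    have h1 : (insert t T).erase t' = insert t (T.erase t') := by
      rw [Finset.erase_insert_of_ne]
      rintro rfl
      exact ht ht'
    rw [h1, Finset.prod_insert (fun h => ht (Finset.mem_of_mem_erase h))]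
    ring

omit [DecidableEq β] [DecidableEq γ] in
theorem en_cp_sum_pr (P : Pm Ω) (X : Ω → α) : ∑ x ∈ univ.image X, P.pr X x = 1 := by
  unfold Pm.pr
  rw [Finset.sum_fiberwise_of_maps_to (fun ω _ => mem_image.2 ⟨ω, mem_univ _, rfl⟩)]
  exact P.sum_one

omit [DecidableEq α] [DecidableEq γ] in
/-- additivity of the entropy on a product -/
theorem en_cp_pi_ent_prod (Q : ι → Pm Ω) (f : ι → Ω → β) :
    (Pm.pi Q).ent (fun b t => f t (b t)) = ∑ t, (Q t).ent (f t) := by
  have hsub : univ.image (fun (b : ι → Ω) t => f t (b t)) ⊆ Fintype.piFinset (fun t => univ.image (f t)) := by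
    intro y hy
    obtain ⟨b, _, rfl⟩ := mem_image.1 hy
    exact Fintype.mem_piFinset.2 fun t => mem_image.2 ⟨b t, mem_univ _, rfl⟩
  rw [en_cp_ent_eq_sum _ _ _ hsub]
  simp only [en_cp_pi_pr_prod, en_cp_negMulLog_prod]
  rw [Finset.sum_comm]
  refine Finset.sum_congr rfl fun t _ => ?_
  have h := Finset.prod_univ_sum (fun s => univ.image (f s))
    (fun s z => if s = t then Real.negMulLog ((Q s).pr (f s) z) else (Q s).pr (f s) z)
  have e1 : ∀ y : ι → β, ∏ s, (if s = t then Real.negMulLog ((Q s).pr (f s) (y s)) else (Q s).pr (f s) (y s))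
      = (∏ s ∈ univ.erase t, (Q s).pr (f s) (y s)) * Real.negMulLog ((Q t).pr (f t) (y t)) := by
    intro y
    rw [← Finset.mul_prod_erase univ _ (mem_univ t), if_pos rfl, mul_comm]
    congr 1
    refine Finset.prod_congr rfl fun s hs => ?_
    rw [if_neg (mem_erase.1 hs).1]
  have e2 : ∏ s, ∑ z ∈ univ.image (f s),
      (if s = t then Real.negMulLog ((Q s).pr (f s) z) else (Q s).pr (f s) z) = (Q t).ent (f t) := by
    rw [← Finset.mul_prod_erase univ _ (mem_univ t), Finset.prod_eq_one, mul_one]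
    · simp only [if_true]
      rfl
    · intro s hs
      simp only [if_neg (mem_erase.1 hs).1]
      exact en_cp_sum_pr (Q s) (f s)
  rw [← e2, h]
  exact Finset.sum_congr rfl fun y _ => (e1 y).symm

omit [DecidableEq β] [DecidableEq γ] in
theorem en_cp_copies_pr_base (P : Pm Ω) (U : Ω → α) (x : α) :
    (P.copies U ι).pr (fun ω => U ω.1) x = P.pr U x := by
  rw [en_cp_pr_eq_sum, en_cp_pr_eq_sum, Fintype.sum_prod_type]
  refine Finset.sum_congr rfl fun ω₁ _ => ?_
  have e : ∑ b : ι → Ω, (P.copies U ι).w (ω₁, b) = P.w ω₁ := by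
    show ∑ b, P.w ω₁ * (Pm.pi fun _ : ι => P.cond U (U ω₁)).w b = _
    rw [← Finset.mul_sum, Pm.sum_one, mul_one]
  rw [← e, Finset.sum_mul]

omit [DecidableEq γ] in
/-- given `U = x` the copies have the product law -/
theorem en_cp_copies_cond_pr (P : Pm Ω) (U : Ω → α) (x : α) (hx : P.pr U x ≠ 0)
    (G : α → (ι → Ω) → β) (y : β) :
    ((P.copies U ι).cond (fun ω => U ω.1) x).pr (fun ω => G (U ω.1) ω.2) y
      = (Pm.pi fun _ : ι => P.cond U x).pr (G x) y := by
  rw [en_cp_pr_eq_sum, en_cp_pr_eq_sum, Fintype.sum_prod_type, Finset.sum_comm]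
  refine Finset.sum_congr rfl fun b _ => ?_
  have hx' : (P.copies U ι).pr (fun ω => U ω.1) x ≠ 0 := by rw [en_cp_copies_pr_base]; exact hx
  have e : ∀ ω₁, ((P.copies U ι).cond (fun ω => U ω.1) x).w (ω₁, b) * (if G (U ω₁) b = y then (1:ℝ) else 0)
     = (if U ω₁ = x then P.w ω₁ else 0) *
        ((Pm.pi fun _ : ι => P.cond U x).w b / P.pr U x * (if G x b = y then 1 else 0)) := by
    intro ω₁
    rw [en_cp_cond_w _ _ _ hx', en_cp_copies_pr_base]
    by_cases h : U ω₁ = x
    · rw [if_pos h, if_pos h]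
      show P.w ω₁ * (Pm.pi fun _ : ι => P.cond U (U ω₁)).w b / _ * _ = _
      rw [h]; ring
    · rw [if_neg h, if_neg h]; ring
  simp only [e]
  rw [← Finset.sum_mul]
  have e2 : ∑ ω₁, (if U ω₁ = x then P.w ω₁ else 0) = P.pr U x := by
    unfold Pm.pr; rw [Finset.sum_filter]
  rw [e2]
  field_simp

omit [DecidableEq γ] in
/-- chain rule for a function of the copies -/
theorem en_cp_copies_pair (P : Pm Ω) (U : Ω → α) (G : α → (ι → Ω) → β) :
    (P.copies U ι).ent (fun ω => (U ω.1, G (U ω.1) ω.2)) =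
      (P.copies U ι).ent (fun ω => U ω.1)
        + ∑ x ∈ univ.image U, P.pr U x * (Pm.pi fun _ : ι => P.cond U x).ent (G x) := by
  have h1 : (P.copies U ι).ent (fun ω => (U ω.1, G (U ω.1) ω.2))
      = (P.copies U ι).ent (fun ω => (G (U ω.1) ω.2, U ω.1)) :=
    en_congr _ _ _ Prod.swap Prod.swap (fun _ _ => rfl) (fun _ _ => rfl)
  rw [h1, en_pair_eq_cond]
  congr 1
  have himg : univ.image (fun ω : Ω × (ι → Ω) => U ω.1) = univ.image U := by
    ext x
    simp only [mem_image, mem_univ, true_and]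
    constructor
    · rintro ⟨ω, rfl⟩; exact ⟨ω.1, rfl⟩
    · rintro ⟨ω, rfl⟩; exact ⟨(ω, fun _ => ω), rfl⟩
  rw [himg]
  refine Finset.sum_congr rfl fun x _ => ?_
  rw [en_cp_copies_pr_base]
  by_cases hx : P.pr U x = 0
  · rw [hx, zero_mul, zero_mul]
  · congr 1
    exact en_cp_ent_congr _ _ _ _ (fun y => en_cp_copies_cond_pr P U x hx G y)

end copies_helpers


section copies
variable {ι : Type*} [Fintype ι] [DecidableEq ι]

/-- each copy, together with the conditioning variable, has the original law -/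
theorem en_copies_marg (P : Pm Ω) (U : Ω → α) (t : ι) (g : α → Ω → β) :
    (P.copies U ι).ent (fun ω => g (U ω.1) (ω.2 t)) = P.ent (fun ω => g (U ω) ω) := by
  refine en_cp_ent_congr _ _ _ _ fun y => ?_
  rw [en_cp_pr_eq_sum, en_cp_pr_eq_sum, Fintype.sum_prod_type]
  have e : ∀ ω₁ : Ω, ∑ b : ι → Ω, (P.copies U ι).w (ω₁, b) * (if g (U ω₁) (b t) = y then (1:ℝ) else 0)
      = P.w ω₁ * ∑ ω', (P.cond U (U ω₁)).w ω' * (if g (U ω₁) ω' = y then 1 else 0) := by
    intro ω₁
    rw [← en_cp_pi_marg (fun _ : ι => P.cond U (U ω₁)) t (fun ω' => if g (U ω₁) ω' = y then 1 else 0),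
      Finset.mul_sum]
    refine Finset.sum_congr rfl fun b _ => ?_
    show P.w ω₁ * (Pm.pi fun _ : ι => P.cond U (U ω₁)).w b * _ = _
    ring
  simp only [e]
  exact en_cp_disint P U (fun x ω' => if g x ω' = y then 1 else 0)

/-- the conditioning variable has the original law -/
theorem en_copies_base (P : Pm Ω) (U : Ω → α) (g : α → β) :
    (P.copies U ι).ent (fun ω => g (U ω.1)) = P.ent (fun ω => g (U ω)) := by
  refine en_cp_ent_congr _ _ _ _ fun y => ?_
  rw [en_cp_pr_eq_sum, en_cp_pr_eq_sum, Fintype.sum_prod_type]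
  refine Finset.sum_congr rfl fun ω₁ _ => ?_
  have e : ∑ b : ι → Ω, (P.copies U ι).w (ω₁, b) = P.w ω₁ := by
    show ∑ b, P.w ω₁ * (Pm.pi fun _ : ι => P.cond U (U ω₁)).w b = _
    rw [← Finset.mul_sum, Pm.sum_one, mul_one]
  rw [← e, Finset.sum_mul]

/-- conditional independence given `U`, entropy form -/
theorem en_copies_ci (P : Pm Ω) (U : Ω → α) (f : ι → Ω → β) :
    (P.copies U ι).ent (fun ω => (U ω.1, fun t => f t (ω.2 t))) =
      (P.copies U ι).ent (fun ω => U ω.1) +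
        ∑ t, ((P.copies U ι).ent (fun ω => (U ω.1, f t (ω.2 t))) - (P.copies U ι).ent (fun ω => U ω.1)) := by
  have h0 := en_cp_copies_pair (ι := ι) P U (fun _ b t => f t (b t))
  have ht : ∀ t, (P.copies U ι).ent (fun ω => (U ω.1, f t (ω.2 t))) - (P.copies U ι).ent (fun ω => U ω.1)
      = ∑ x ∈ univ.image U, P.pr U x * (P.cond U x).ent (f t) := by
    intro t
    have h1 := en_cp_copies_pair (ι := ι) P U (fun _ b => f t (b t))
    rw [h1, add_sub_cancel_left]
    refine Finset.sum_congr rfl fun x _ => ?_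
    rw [en_cp_pi_ent_coord (fun _ : ι => P.cond U x) t (f t)]
  rw [h0]
  congr 1
  simp only [ht]
  rw [Finset.sum_comm]
  refine Finset.sum_congr rfl fun x _ => ?_
  rw [en_cp_pi_ent_prod, Finset.mul_sum]

/-- `H(F(U, copies)) ≥ H(F | U) = ∑_x P(U=x) H_{product of P(.|U=x)}(F(x, .))`. -/
theorem en_copies_lower (P : Pm Ω) (U : Ω → α) (F : α → (ι → Ω) → β) :
    ∑ x ∈ univ.image U, P.pr U x * (Pm.pi fun _ : ι => P.cond U x).ent (F x) ≤
      (P.copies U ι).ent (fun ω => F (U ω.1) ω.2) := by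
  have h0 := en_cp_copies_pair (ι := ι) P U F
  have h1 := en_pair_le (P.copies U ι) (fun ω => U ω.1) (fun ω => F (U ω.1) ω.2)
  linarith

end copies

end Claimed.Agent.RW
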