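import Mathlib

/-!
# Team RW.  Unit F (Falconer, L² range), part A: Fourier representation of Gaussian quadratic forms.     Architect: helper117.  Prefix `fa`.

ONLY ITERATED INTEGRALS `∫ ξ₂, ∫ ξ₁, ..` over `ℝ` (no product measure, no complex valued statement).
* `faG α β a ξ₁ ξ₂ = exp(-πα(ξ₁+aξ₂)²) exp(-πβξ₂²)`  : sheared Gaussian weight on the frequency plane.
* `FaGood w`  : `w(·,ξ₂) cos(2π(·X+ξ₂Y))` is integrable for all `ξ₂`, and the inner integral is integrable in `ξ₂`  (all `X Y`).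
* `faK w X Y = ∫∫ w cos(2π(ξ₁X+ξ₂Y))`  : the kernel with Fourier transform `w`.
EXPORT `fa_compare`: a pointwise inequality between two finite combinations of Gaussian weights gives the inequality of the quadratic forms
`∑ m_x m_y K(p_x - p_y)` (ANY real weights `m`), because `∑ m_x m_y cos(2π ξ·(p_x-p_y)) = (∑ m cos)² + (∑ m sin)² ≥ 0`.

PLANS.
[FA-1] `fa_int_gauss`: `integral_cexp_quadratic (hb : b.re < 0) c d : ∫ cexp (b x² + c x + d) = (π / -b)^(1/2) cexp (d - c²/(4b))` with `b = -πα`, `c = -2παh + 2πiX`, `d = -παh² + 2πiφ`;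
   `d - c²/(4b) = 2πi(φ - hX) - πX²/α`; real parts (`integral_re` / `Complex.reCLM.integral_comp_comm`; integrability: `fa_integrable_gauss`).   Or: translate by `h` and use `fourierIntegral_gaussian_pi`.
   `fa_integrable_gauss`: `integrable_exp_neg_mul_sq` + `Integrable.comp_add_right` + `Integrable.mul_bdd`/`bdd_mul` (`|cos| ≤ 1`, continuity gives measurability).
   `fa_gauss_inner`: `fa_int_gauss` with `h = aξ₂`, `φ = ξ₂Y`.   `fa_gauss_good`, `fa_gauss_K`: the inner integral is `(√α)⁻¹ exp(-πX²/α) · exp(-πβξ₂²) cos(2πξ₂(Y-aX))`; `fa_int_gauss` again (`h = 0`, `φ = 0`).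
[FA-2] `fa_sum_good`, `fa_sum_K`: `integrable_finset_sum`, `integral_finset_sum`, `Integrable.const_mul`, `integral_const_mul`  (rewrite `(∑ c w) * cos = ∑ c * (w * cos)`).
   `fa_form_eq`: the same interchange for the double sum over `x y`;  `fa_P_nonneg`: `cos(u-v) = cos u cos v + sin u sin v`, `Finset.sum_mul_sum`.
   `fa_mono`: `fa_form_eq` for both, `integral_mono` twice (integrability of `w * P` from `FaGood` termwise).
-/

set_option autoImplicit false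

namespace Claimed.Agent.RW

open Finset MeasureTheory Real

/-- sheared Gaussian weight on the frequency plane -/
noncomputable def faG (α β a ξ₁ ξ₂ : ℝ) : ℝ := exp (-π * α * (ξ₁ + a * ξ₂) ^ 2) * exp (-π * β * ξ₂ ^ 2)

/-- admissible weights -/
def FaGood (w : ℝ → ℝ → ℝ) : Prop :=
  ∀ X Y : ℝ, (∀ ξ₂, Integrable fun ξ₁ => w ξ₁ ξ₂ * cos (2 * π * (ξ₁ * X + ξ₂ * Y))) ∧
    Integrable fun ξ₂ => ∫ ξ₁, w ξ₁ ξ₂ * cos (2 * π * (ξ₁ * X + ξ₂ * Y))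

/-- the kernel with Fourier transform `w` -/
noncomputable def faK (w : ℝ → ℝ → ℝ) (X Y : ℝ) : ℝ := ∫ ξ₂, ∫ ξ₁, w ξ₁ ξ₂ * cos (2 * π * (ξ₁ * X + ξ₂ * Y))

/-- the trigonometric square `|∑ m_x e(ξ·p_x)|²` -/
noncomputable def faP {X : Type} [Fintype X] (m : X → ℝ) (pt : X → ℝ × ℝ) (ξ₁ ξ₂ : ℝ) : ℝ :=
  ∑ x, ∑ y, m x * m y * cos (2 * π * (ξ₁ * ((pt x).1 - (pt y).1) + ξ₂ * ((pt x).2 - (pt y).2)))

/-! ### [FA-1] Gaussian integrals -/

theorem fa_integrable_gauss {α : ℝ} (hα : 0 < α) (h X φ : ℝ) :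
    Integrable fun t : ℝ => exp (-π * α * (t + h) ^ 2) * cos (2 * π * (t * X + φ)) := by
  have h1 : Integrable fun t : ℝ => exp (-(π * α) * (t + h) ^ 2) :=
    (integrable_exp_neg_mul_sq (b := π * α) (by positivity)).comp_add_right h
  have h2 : (fun t : ℝ => exp (-π * α * (t + h) ^ 2)) = fun t : ℝ => exp (-(π * α) * (t + h) ^ 2) := by
    funext t
    congr 1
    ring
  rw [← h2] at h1
  refine h1.mul_bdd (c := 1) ?_ (Filter.Eventually.of_forall fun t => ?_)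
  · exact (by fun_prop : Continuous fun t : ℝ => cos (2 * π * (t * X + φ))).aestronglyMeasurable
  · rw [Real.norm_eq_abs]
    exact abs_cos_le_one _

theorem fa_int_gauss {α : ℝ} (hα : 0 < α) (h X φ : ℝ) :
    ∫ t : ℝ, exp (-π * α * (t + h) ^ 2) * cos (2 * π * (t * X + φ)) =
      (sqrt α)⁻¹ * exp (-π * X ^ 2 / α) * cos (2 * π * (φ - h * X)) := by
  have hπα : 0 < π * α := by positivity
  obtain ⟨b, hb⟩ : ∃ b : ℂ, b = ((π * α : ℝ) : ℂ) := ⟨_, rfl⟩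
  obtain ⟨c, hc⟩ : ∃ c : ℂ, c = ((-(2 * π * α * h) : ℝ) : ℂ) + ((2 * π * X : ℝ) : ℂ) * Complex.I :=
    ⟨_, rfl⟩
  obtain ⟨d, hd⟩ : ∃ d : ℂ, d = ((-(π * α * h ^ 2) : ℝ) : ℂ) + ((2 * π * φ : ℝ) : ℂ) * Complex.I :=
    ⟨_, rfl⟩
  have hbre : 0 < b.re := by rw [hb, Complex.ofReal_re]; exact hπα
  have hbre' : (-b).re < 0 := by rw [Complex.neg_re]; linarith
  have key := integral_cexp_quadratic hbre' c d
  have hint := integrable_cexp_quadratic hbre c d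
  have hre : ∀ t : ℝ, (Complex.exp (-b * (t : ℂ) ^ 2 + c * t + d)).re =
      exp (-π * α * (t + h) ^ 2) * cos (2 * π * (t * X + φ)) := by
    intro t
    have h1 : -b * (t : ℂ) ^ 2 + c * t + d =
        ((-π * α * (t + h) ^ 2 : ℝ) : ℂ) + ((2 * π * (t * X + φ) : ℝ) : ℂ) * Complex.I := by
      rw [hb, hc, hd]
      push_cast
      ring
    rw [h1, Complex.exp_re]
    simp only [Complex.add_re, Complex.ofReal_re, Complex.mul_re, Complex.I_re, mul_zero,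
      Complex.ofReal_im, Complex.I_im, mul_one, sub_self, add_zero, Complex.add_im, Complex.mul_im,
      zero_add, zero_mul]
  have h2 : ∫ t : ℝ, exp (-π * α * (t + h) ^ 2) * cos (2 * π * (t * X + φ)) =
      (∫ t : ℝ, Complex.exp (-b * (t : ℂ) ^ 2 + c * t + d)).re := by
    have := integral_re hint
    simp only [RCLike.re_eq_complex_re] at this
    rw [← this]
    exact integral_congr_ae (Filter.Eventually.of_forall fun t => (hre t).symm)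
  rw [h2, key]
  have h3 : ((π : ℂ) / - -b) ^ (1 / 2 : ℂ) = (((sqrt α)⁻¹ : ℝ) : ℂ) := by
    have h4 : ((π : ℂ) / - -b) = ((α⁻¹ : ℝ) : ℂ) := by
      rw [hb, neg_neg]
      push_cast
      have : (π : ℂ) ≠ 0 := by exact_mod_cast pi_ne_zero
      have : (α : ℂ) ≠ 0 := by exact_mod_cast hα.ne'
      field_simp
    have h5 : (1 / 2 : ℂ) = ((1 / 2 : ℝ) : ℂ) := by push_cast; rfl
    rw [h4, h5, ← Complex.ofReal_cpow (by positivity), ← Real.sqrt_eq_rpow, Real.sqrt_inv]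
  have h6 : d - c ^ 2 / (4 * -b) =
      ((-π * X ^ 2 / α : ℝ) : ℂ) + ((2 * π * (φ - h * X) : ℝ) : ℂ) * Complex.I := by
    rw [hb, hc, hd]
    push_cast
    have h7 : (π : ℂ) ≠ 0 := by exact_mod_cast pi_ne_zero
    have h8 : (α : ℂ) ≠ 0 := by exact_mod_cast hα.ne'
    field_simp
    ring_nf
    rw [Complex.I_sq]
    ring
  rw [h3, h6, Complex.re_ofReal_mul, Complex.exp_re]
  simp only [Complex.add_re, Complex.ofReal_re, Complex.mul_re, Complex.I_re, mul_zero,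
    Complex.ofReal_im, Complex.I_im, mul_one, sub_self, add_zero, Complex.add_im, Complex.mul_im,
    zero_add, zero_mul]
  ring

theorem fa_gauss_inner {α : ℝ} (hα : 0 < α) (β a X Y ξ₂ : ℝ) :
    ∫ ξ₁, faG α β a ξ₁ ξ₂ * cos (2 * π * (ξ₁ * X + ξ₂ * Y)) =
      (sqrt α)⁻¹ * exp (-π * X ^ 2 / α) * (exp (-π * β * ξ₂ ^ 2) * cos (2 * π * (ξ₂ * (Y - a * X)))) := by
  have h1 : (fun ξ₁ => faG α β a ξ₁ ξ₂ * cos (2 * π * (ξ₁ * X + ξ₂ * Y))) = fun ξ₁ =>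
      exp (-π * β * ξ₂ ^ 2) * (exp (-π * α * (ξ₁ + a * ξ₂) ^ 2) * cos (2 * π * (ξ₁ * X + ξ₂ * Y))) := by
    funext ξ₁
    unfold faG
    ring
  rw [h1, integral_const_mul, fa_int_gauss hα]
  have h2 : ξ₂ * Y - a * ξ₂ * X = ξ₂ * (Y - a * X) := by ring
  rw [h2]
  ring

theorem fa_gauss_good {α β : ℝ} (hα : 0 < α) (hβ : 0 < β) (a : ℝ) : FaGood (faG α β a) := by
  intro X Y
  constructor
  · intro ξ₂
    have h1 : (fun ξ₁ => faG α β a ξ₁ ξ₂ * cos (2 * π * (ξ₁ * X + ξ₂ * Y))) = fun ξ₁ =>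
        exp (-π * β * ξ₂ ^ 2) * (exp (-π * α * (ξ₁ + a * ξ₂) ^ 2) * cos (2 * π * (ξ₁ * X + ξ₂ * Y))) := by
      funext ξ₁
      unfold faG
      ring
    rw [h1]
    exact (fa_integrable_gauss hα _ _ _).const_mul _
  · simp only [fa_gauss_inner hα]
    have h2 := fa_integrable_gauss hβ 0 (Y - a * X) 0
    simp only [add_zero] at h2
    exact h2.const_mul _

theorem fa_gauss_K {α β : ℝ} (hα : 0 < α) (hβ : 0 < β) (a X Y : ℝ) :
    faK (faG α β a) X Y = (sqrt α)⁻¹ * (sqrt β)⁻¹ * (exp (-π * X ^ 2 / α) * exp (-π * (Y - a * X) ^ 2 / β)) := by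
  unfold faK
  simp only [fa_gauss_inner hα]
  rw [integral_const_mul]
  have h2 := fa_int_gauss hβ 0 (Y - a * X) 0
  simp only [add_zero, zero_mul, sub_zero, mul_zero, cos_zero, mul_one] at h2
  rw [h2]
  ring

/-! ### [FA-2] linearity, positivity, monotonicity -/

theorem fa_sum_good {ι : Type} (s : Finset ι) (c : ι → ℝ) (w : ι → ℝ → ℝ → ℝ) (h : ∀ i ∈ s, FaGood (w i)) :
    FaGood fun ξ₁ ξ₂ => ∑ i ∈ s, c i * w i ξ₁ ξ₂ := by
  intro X Y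
  have h1 : ∀ ξ₁ ξ₂ : ℝ, (∑ i ∈ s, c i * w i ξ₁ ξ₂) * cos (2 * π * (ξ₁ * X + ξ₂ * Y)) =
      ∑ i ∈ s, c i * (w i ξ₁ ξ₂ * cos (2 * π * (ξ₁ * X + ξ₂ * Y))) := by
    intro ξ₁ ξ₂
    rw [Finset.sum_mul]
    exact Finset.sum_congr rfl fun i _ => by ring
  simp only [h1]
  constructor
  · intro ξ₂
    exact integrable_finsetSum s fun i hi => ((h i hi X Y).1 ξ₂).const_mul _
  · have h2 : ∀ ξ₂ : ℝ, ∫ ξ₁, ∑ i ∈ s, c i * (w i ξ₁ ξ₂ * cos (2 * π * (ξ₁ * X + ξ₂ * Y))) =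
        ∑ i ∈ s, c i * ∫ ξ₁, w i ξ₁ ξ₂ * cos (2 * π * (ξ₁ * X + ξ₂ * Y)) := by
      intro ξ₂
      rw [integral_finsetSum s fun i hi => ((h i hi X Y).1 ξ₂).const_mul _]
      exact Finset.sum_congr rfl fun i _ => integral_const_mul _ _
    simp only [h2]
    exact integrable_finsetSum s fun i hi => ((h i hi X Y).2).const_mul _

theorem fa_sum_K {ι : Type} (s : Finset ι) (c : ι → ℝ) (w : ι → ℝ → ℝ → ℝ) (h : ∀ i ∈ s, FaGood (w i)) (X Y : ℝ) :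
    faK (fun ξ₁ ξ₂ => ∑ i ∈ s, c i * w i ξ₁ ξ₂) X Y = ∑ i ∈ s, c i * faK (w i) X Y := by
  unfold faK
  have h1 : ∀ ξ₁ ξ₂ : ℝ, (∑ i ∈ s, c i * w i ξ₁ ξ₂) * cos (2 * π * (ξ₁ * X + ξ₂ * Y)) =
      ∑ i ∈ s, c i * (w i ξ₁ ξ₂ * cos (2 * π * (ξ₁ * X + ξ₂ * Y))) := by
    intro ξ₁ ξ₂
    rw [Finset.sum_mul]
    exact Finset.sum_congr rfl fun i _ => by ring
  have h2 : ∀ ξ₂ : ℝ, ∫ ξ₁, ∑ i ∈ s, c i * (w i ξ₁ ξ₂ * cos (2 * π * (ξ₁ * X + ξ₂ * Y))) =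
      ∑ i ∈ s, c i * ∫ ξ₁, w i ξ₁ ξ₂ * cos (2 * π * (ξ₁ * X + ξ₂ * Y)) := by
    intro ξ₂
    rw [integral_finsetSum s fun i hi => ((h i hi X Y).1 ξ₂).const_mul _]
    exact Finset.sum_congr rfl fun i _ => integral_const_mul _ _
  simp only [h1, h2]
  rw [integral_finsetSum s fun i hi => ((h i hi X Y).2).const_mul _]
  exact Finset.sum_congr rfl fun i _ => integral_const_mul _ _

theorem fa_P_nonneg {X : Type} [Fintype X] (m : X → ℝ) (pt : X → ℝ × ℝ) (ξ₁ ξ₂ : ℝ) : 0 ≤ faP m pt ξ₁ ξ₂ := by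
  have h1 : faP m pt ξ₁ ξ₂ =
      (∑ x, m x * cos (2 * π * (ξ₁ * (pt x).1 + ξ₂ * (pt x).2))) *
        (∑ x, m x * cos (2 * π * (ξ₁ * (pt x).1 + ξ₂ * (pt x).2))) +
      (∑ x, m x * sin (2 * π * (ξ₁ * (pt x).1 + ξ₂ * (pt x).2))) *
        (∑ x, m x * sin (2 * π * (ξ₁ * (pt x).1 + ξ₂ * (pt x).2))) := by
    unfold faP
    rw [Finset.sum_mul_sum, Finset.sum_mul_sum, ← Finset.sum_add_distrib]
    refine Finset.sum_congr rfl fun x _ => ?_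
    rw [← Finset.sum_add_distrib]
    refine Finset.sum_congr rfl fun y _ => ?_
    have h2 : 2 * π * (ξ₁ * ((pt x).1 - (pt y).1) + ξ₂ * ((pt x).2 - (pt y).2)) =
        2 * π * (ξ₁ * (pt x).1 + ξ₂ * (pt x).2) - 2 * π * (ξ₁ * (pt y).1 + ξ₂ * (pt y).2) := by ring
    rw [h2, cos_sub]
    ring
  rw [h1]
  exact add_nonneg (mul_self_nonneg _) (mul_self_nonneg _)

/-- integrability of `w P` at both levels, and the quadratic form as an integral -/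
theorem fa_form_eq {X : Type} [Fintype X] (m : X → ℝ) (pt : X → ℝ × ℝ) {w : ℝ → ℝ → ℝ} (hw : FaGood w) :
    (∀ ξ₂, Integrable fun ξ₁ => w ξ₁ ξ₂ * faP m pt ξ₁ ξ₂) ∧ (Integrable fun ξ₂ => ∫ ξ₁, w ξ₁ ξ₂ * faP m pt ξ₁ ξ₂) ∧
      ∑ x, ∑ y, m x * m y * faK w ((pt x).1 - (pt y).1) ((pt x).2 - (pt y).2) = ∫ ξ₂, ∫ ξ₁, w ξ₁ ξ₂ * faP m pt ξ₁ ξ₂ := by
  have h1 : ∀ ξ₁ ξ₂ : ℝ, w ξ₁ ξ₂ * faP m pt ξ₁ ξ₂ = ∑ x, ∑ y, m x * m y *
      (w ξ₁ ξ₂ * cos (2 * π * (ξ₁ * ((pt x).1 - (pt y).1) + ξ₂ * ((pt x).2 - (pt y).2)))) := by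
    intro ξ₁ ξ₂
    unfold faP
    rw [Finset.mul_sum]
    refine Finset.sum_congr rfl fun x _ => ?_
    rw [Finset.mul_sum]
    exact Finset.sum_congr rfl fun y _ => by ring
  have hi1 : ∀ (ξ₂ : ℝ) (x y : X), Integrable fun ξ₁ => m x * m y *
      (w ξ₁ ξ₂ * cos (2 * π * (ξ₁ * ((pt x).1 - (pt y).1) + ξ₂ * ((pt x).2 - (pt y).2)))) :=
    fun ξ₂ x y => ((hw _ _).1 ξ₂).const_mul _
  have h2 : ∀ ξ₂ : ℝ, ∫ ξ₁, ∑ x, ∑ y, m x * m y *
      (w ξ₁ ξ₂ * cos (2 * π * (ξ₁ * ((pt x).1 - (pt y).1) + ξ₂ * ((pt x).2 - (pt y).2)))) =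
      ∑ x, ∑ y, m x * m y *
        ∫ ξ₁, w ξ₁ ξ₂ * cos (2 * π * (ξ₁ * ((pt x).1 - (pt y).1) + ξ₂ * ((pt x).2 - (pt y).2))) := by
    intro ξ₂
    rw [integral_finsetSum _ fun x _ => integrable_finsetSum _ fun y _ => hi1 ξ₂ x y]
    refine Finset.sum_congr rfl fun x _ => ?_
    rw [integral_finsetSum _ fun y _ => hi1 ξ₂ x y]
    exact Finset.sum_congr rfl fun y _ => integral_const_mul _ _
  have hi2 : ∀ x y : X, Integrable fun ξ₂ => m x * m y *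
      ∫ ξ₁, w ξ₁ ξ₂ * cos (2 * π * (ξ₁ * ((pt x).1 - (pt y).1) + ξ₂ * ((pt x).2 - (pt y).2))) :=
    fun x y => ((hw _ _).2).const_mul _
  simp only [h1, h2]
  refine ⟨fun ξ₂ => integrable_finsetSum _ fun x _ => integrable_finsetSum _ fun y _ => hi1 ξ₂ x y,
    integrable_finsetSum _ fun x _ => integrable_finsetSum _ fun y _ => hi2 x y, ?_⟩
  rw [integral_finsetSum _ fun x _ => integrable_finsetSum _ fun y _ => hi2 x y]
  refine Finset.sum_congr rfl fun x _ => ?_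
  rw [integral_finsetSum _ fun y _ => hi2 x y]
  refine Finset.sum_congr rfl fun y _ => ?_
  rw [integral_const_mul]
  rfl

/-- **monotonicity**: the quadratic form is monotone in the Fourier transform of the kernel -/
theorem fa_mono {X : Type} [Fintype X] (m : X → ℝ) (pt : X → ℝ × ℝ) {w w' : ℝ → ℝ → ℝ} (hw : FaGood w) (hw' : FaGood w')
    (hle : ∀ ξ₁ ξ₂, w ξ₁ ξ₂ ≤ w' ξ₁ ξ₂) :
    ∑ x, ∑ y, m x * m y * faK w ((pt x).1 - (pt y).1) ((pt x).2 - (pt y).2) ≤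
      ∑ x, ∑ y, m x * m y * faK w' ((pt x).1 - (pt y).1) ((pt x).2 - (pt y).2) := by
  obtain ⟨a1, a2, a3⟩ := fa_form_eq m pt hw
  obtain ⟨b1, b2, b3⟩ := fa_form_eq m pt hw'
  rw [a3, b3]
  refine integral_mono a2 b2 fun ξ₂ => ?_
  refine integral_mono (a1 ξ₂) (b1 ξ₂) fun ξ₁ => ?_
  exact mul_le_mul_of_nonneg_right (hle ξ₁ ξ₂) (fa_P_nonneg m pt ξ₁ ξ₂)

/-! ### export -/

/-- **comparison of Gaussian quadratic forms** -/
theorem fa_compare {X T : Type} [Fintype X] [Fintype T] (m : X → ℝ) (pt : X → ℝ × ℝ) (ν sl : T → ℝ) {ρ : ℝ} (hρ : 0 < ρ)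
    (S : Finset ℕ) (c R : ℕ → ℝ) (hR : ∀ k ∈ S, 0 < R k)
    (hle : ∀ ξ₁ ξ₂, ∑ b, ν b * faG 1 (ρ ^ 2) (sl b) ξ₁ ξ₂ ≤ ∑ k ∈ S, c k * faG (1 / R k ^ 2) (1 / R k ^ 2) 0 ξ₁ ξ₂) :
    ∑ b, ν b * (ρ⁻¹ * ∑ x, ∑ y, m x * m y * (exp (-π * ((pt x).1 - (pt y).1) ^ 2) *
        exp (-π * (((pt x).2 - (pt y).2) - sl b * ((pt x).1 - (pt y).1)) ^ 2 / ρ ^ 2))) ≤
      ∑ k ∈ S, c k * (R k ^ 2 * ∑ x, ∑ y, m x * m y *
        exp (-π * R k ^ 2 * (((pt x).1 - (pt y).1) ^ 2 + ((pt x).2 - (pt y).2) ^ 2))) := by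
  have hg1 : ∀ b ∈ (Finset.univ : Finset T), FaGood (faG 1 (ρ ^ 2) (sl b)) :=
    fun b _ => fa_gauss_good one_pos (by positivity) _
  have hg2 : ∀ k ∈ S, FaGood (faG (1 / R k ^ 2) (1 / R k ^ 2) 0) := fun k hk => by
    have := hR k hk
    exact fa_gauss_good (by positivity) (by positivity) _
  have key := fa_mono m pt (fa_sum_good _ ν _ hg1) (fa_sum_good S c _ hg2) hle
  simp only [fa_sum_K _ ν _ hg1, fa_sum_K S c _ hg2] at key
  have hL : ∑ b, ν b * (ρ⁻¹ * ∑ x, ∑ y, m x * m y * (exp (-π * ((pt x).1 - (pt y).1) ^ 2) *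
        exp (-π * (((pt x).2 - (pt y).2) - sl b * ((pt x).1 - (pt y).1)) ^ 2 / ρ ^ 2))) =
      ∑ x, ∑ y, m x * m y * ∑ b, ν b *
        faK (faG 1 (ρ ^ 2) (sl b)) ((pt x).1 - (pt y).1) ((pt x).2 - (pt y).2) := by
    simp only [Finset.mul_sum]
    rw [Finset.sum_comm]
    refine Finset.sum_congr rfl fun x _ => ?_
    rw [Finset.sum_comm]
    refine Finset.sum_congr rfl fun y _ => ?_
    refine Finset.sum_congr rfl fun b _ => ?_
    rw [fa_gauss_K one_pos (by positivity), Real.sqrt_one, Real.sqrt_sq hρ.le, div_one]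
    ring
  have hRr : ∑ k ∈ S, c k * (R k ^ 2 * ∑ x, ∑ y, m x * m y *
        exp (-π * R k ^ 2 * (((pt x).1 - (pt y).1) ^ 2 + ((pt x).2 - (pt y).2) ^ 2))) =
      ∑ x, ∑ y, m x * m y * ∑ k ∈ S, c k *
        faK (faG (1 / R k ^ 2) (1 / R k ^ 2) 0) ((pt x).1 - (pt y).1) ((pt x).2 - (pt y).2) := by
    simp only [Finset.mul_sum]
    rw [Finset.sum_comm]
    refine Finset.sum_congr rfl fun x _ => ?_
    rw [Finset.sum_comm]
    refine Finset.sum_congr rfl fun y _ => ?_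
    refine Finset.sum_congr rfl fun k hk => ?_
    have hk0 := hR k hk
    rw [fa_gauss_K (by positivity) (by positivity), ← Real.exp_add]
    have h1 : (sqrt (1 / R k ^ 2))⁻¹ = R k := by
      rw [one_div, Real.sqrt_inv, Real.sqrt_sq hk0.le, inv_inv]
    have h2 : -π * ((pt x).1 - (pt y).1) ^ 2 / (1 / R k ^ 2) +
        -π * ((pt x).2 - (pt y).2 - 0 * ((pt x).1 - (pt y).1)) ^ 2 / (1 / R k ^ 2) =
        -π * R k ^ 2 * (((pt x).1 - (pt y).1) ^ 2 + ((pt x).2 - (pt y).2) ^ 2) := by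
      field_simp
      ring
    rw [h1, h2]
    ring
  rw [hL, hRr]
  exact key

end Claimed.Agent.RW
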