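import Claimed.Agent.RW.Kaufman
import Claimed.Agent.RW.FalcA

/-!
# Team RW.  Unit F (Falconer, L² range), part B: `M ≥ ρ^(-min(1,d+s-1)+α)`.     Architect: helper117.  Prefix `fa`.

FORMAT of `Kaufman.lean` / `Export.lean` (`ex_F` follows from `fa_planar`).  Points `pt x = (x₁,x₂)`, `|x₁| ≤ A`; slopes `|sl b| ≤ A`; `1 ≤ 2^J ρ ≤ 2`; `s ≤ 1`.
CHAIN  (`X = x₁-y₁`, `Y = x₂-y₂`, `m = μ ≥ 0`)
 1. `fa_en_le`  : `kfEn μ pt a ρ ≤ e^(π+4πA²) ∑ μ_x μ_y exp(-πX²) exp(-π(Y-aX)²/ρ²)`       (pointwise: `|Y-aX| ≤ ρ`, `|X| ≤ 2A`; all terms `≥ 0`).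
 2. `fa_compare` (part A) with the pointwise inequality `fa_weight` between the Fourier transforms:
      `∑_b ν_b exp(-π(ξ₁+a_bξ₂)²) exp(-πρ²ξ₂²) ≤ ∑_{k ≤ J} c_k exp(-π|ξ|²/R_k²)`,   `R_k = 3A 2^k`,   `c_k = e^π (J+1) faC s Cν (2^(1-k))^s`.
 3. `fa_gauss_sum` (Gaussian sums over a Frostman population; used for `ν` in 2. and for `μ` in 4.):
      `∑ w_i exp(-πλ² dist(pos i,z)²) ≤ (J+1) faC e · C · max(ρ,1/λ)^e`,   `faC e = e^(π/4) e^(e²/π)`.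
 4. `fa_iso` : `∑ μ_x μ_y exp(-πR_k²(X²+Y²)) ≤ (J+1) faC d Cμ (2^(1-k))^d`.
 5. `fa_pow` : `ρ (2^(1-k))^(s+d) 4^k ≤ 2^(s+d+2) ρ^(min 1 (d+s-1))`;  sum over `k ≤ J`.
PLANS.
[FB-1] `fa_gauss_sum`: `kf_shell` with `B_j = {dist ≤ 2^j r}` (`j < J`), `B_J = univ`, `r = max ρ (1/λ)`, `c_j = e^(π/4) exp(-π(2^j)²/4)`, `m_j = C (2^j r)^e` (`kf_frost_ext`; `2^J r ≥ 1`);
   first shell containing `i` (as in `kf_energy_pt`): `j = 0`: `exp ≤ 1 = c_0`; `j = i+1`: `dist > 2^i r`, `λ r ≥ 1`, so `λ² dist² ≥ 4^i = (2^j)²/4`.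
   `fa_tpow`: `t^e exp(-πt²/4) ≤ exp(e²/π)` for `t ≥ 1` (`t^e = exp(e log t) ≤ exp(e t)`, `e t - πt²/4 ≤ e²/π`).
[FB-2] `fa_weight`.  `N = ∑ ν_b exp(-π(ξ₁+a_bξ₂)²) ≤ 1`.  Region I `2A|ξ₂| ≤ |ξ₁|`: `|ξ₁+a_bξ₂| ≥ |ξ₁|/2`, `|ξ|² ≤ (5/4)ξ₁²`, so LHS `≤ exp(-πξ₁²/4) ≤ exp(-π|ξ|²/5) ≤ exp(-π|ξ|²/R_0²)`, `c_0 ≥ 1`.
   Region II `|ξ₁| < 2A T`, `T = |ξ₂| > 0`: `|ξ|² ≤ 5A²T²`, `exp(-π|ξ|²/R_k²) ≥ exp(-πT²/4^k)`; `(ξ₁+a_bξ₂)² = T² dist(a_b, -ξ₁/ξ₂)²`, `N ≤ (J+1) faC s Cν max(ρ,1/T)^s` (`fa_gauss_sum`).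
   (a) `T ≤ 1`: term `k = 0`, `c_0 e^(-π) ≥ 1`.  (b) `2^(k-1) < T ≤ 2^k`, `1 ≤ k ≤ J`: `max(ρ,1/T) ≤ 2^(1-k)`, term `k`.  (c) `T > 2^J`: `max = ρ ≤ 2^(1-J)`, `exp(-πρ²T²) ≤ exp(-πT²/4^J)`, term `J`.
[FB-3] glue: `fa_en_le`, `fa_iso`, `fa_pow`, `fa_energy`, `fa_falconer`, `fa_planar`  (helper117).
-/

set_option autoImplicit false

namespace Claimed.Agent.RW

open Finset Real

/-- the constant of the Gaussian shell sums -/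
noncomputable def faC (e : ℝ) : ℝ := exp (π / 4) * exp (e ^ 2 / π)

/-- the constant of `fa_energy` -/
noncomputable def faCF (A d s : ℝ) : ℝ := exp (π + 4 * π * A ^ 2) * (9 * A ^ 2 * exp π * faC s * faC d * 2 ^ (s + d + 2))

/-! ### [FB-1] Gaussian sums over a Frostman population -/

theorem fa_tpow {e t : ℝ} (he : 0 ≤ e) (ht : 1 ≤ t) : t ^ e * exp (-π * t ^ 2 / 4) ≤ exp (e ^ 2 / π) := by
  have ht0 : 0 < t := by linarith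
  rw [rpow_def_of_pos ht0, ← exp_add]
  apply exp_le_exp.2
  have h1 : log t ≤ t := (log_le_sub_one_of_pos ht0).trans (by linarith)
  have h2 : log t * e ≤ t * e := mul_le_mul_of_nonneg_right h1 he
  have h3 : t * e + -π * t ^ 2 / 4 ≤ e ^ 2 / π := by
    rw [le_div_iff₀ pi_pos]
    nlinarith [sq_nonneg (π * t / 2 - e), pi_pos]
  linarith

theorem fa_gauss_sum {ι Y : Type} [Fintype ι] [PseudoMetricSpace Y] {w : ι → ℝ} {pos : ι → Y} {C e ρ : ℝ}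
    (hw0 : ∀ i, 0 ≤ w i) (hw1 : ∑ i, w i ≤ 1) (hC : 1 ≤ C) (he : 0 ≤ e) (hρ : 0 < ρ) (hF : KfFrost w pos C e ρ)
    (J : ℕ) (hJ1 : 1 ≤ 2 ^ J * ρ) (z : Y) {lam : ℝ} (hlam : 0 < lam) :
    ∑ i, w i * exp (-π * lam ^ 2 * dist (pos i) z ^ 2) ≤ (J + 1) * faC e * C * max ρ (1 / lam) ^ e := by
  classical
  have hE := kf_frost_ext hw0 hw1 hC he hF
  set r := max ρ (1 / lam) with hr
  have hrρ : ρ ≤ r := le_max_left _ _
  have hr0 : 0 < r := lt_of_lt_of_le hρ hrρ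
  have hlr : 1 ≤ lam * r := by
    have h1 : 1 / lam ≤ r := le_max_right _ _
    rw [div_le_iff₀ hlam] at h1
    linarith
  have hpow : ∀ j : ℕ, (1 : ℝ) ≤ 2 ^ j := fun j => one_le_pow₀ (by norm_num)
  have hmain := kf_shell (μ := w) (g := fun i => exp (-π * lam ^ 2 * dist (pos i) z ^ 2)) hw0 J
    (fun j => if j < J then univ.filter (fun i => dist (pos i) z ≤ 2 ^ j * r) else univ)
    (fun j => exp (π / 4) * exp (-π * (2 ^ j) ^ 2 / 4)) (fun j => C * (2 ^ j * r) ^ e)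
    (fun j => by positivity) ?_ ?_
  · refine le_trans hmain ?_
    have hterm : ∀ j ∈ range (J + 1), exp (π / 4) * exp (-π * (2 ^ j) ^ 2 / 4) * (C * (2 ^ j * r) ^ e) ≤
        faC e * C * r ^ e := by
      intro j _
      have h1 := fa_tpow he (hpow j)
      rw [mul_rpow (by positivity) hr0.le]
      have h2 : 0 ≤ exp (π / 4) * C * r ^ e := by
        have := rpow_nonneg hr0.le e
        have : 0 ≤ C := by linarith
        positivity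
      calc exp (π / 4) * exp (-π * (2 ^ j) ^ 2 / 4) * (C * (((2 : ℝ) ^ j) ^ e * r ^ e))
          = exp (π / 4) * C * r ^ e * (((2 : ℝ) ^ j) ^ e * exp (-π * (2 ^ j) ^ 2 / 4)) := by ring
        _ ≤ exp (π / 4) * C * r ^ e * exp (e ^ 2 / π) := mul_le_mul_of_nonneg_left h1 h2
        _ = _ := by
          unfold faC
          ring
    refine le_trans (Finset.sum_le_sum hterm) ?_
    rw [Finset.sum_const, Finset.card_range, nsmul_eq_mul]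
    push_cast
    apply le_of_eq
    ring
  · intro j hj
    split_ifs with hjJ
    · refine hE z _ ?_
      have := hpow j
      nlinarith
    · have hjJ' : j = J := by omega
      subst hjJ'
      have h2 : (1 : ℝ) ≤ 2 ^ j * r := by
        have : (2 : ℝ) ^ j * ρ ≤ 2 ^ j * r := mul_le_mul_of_nonneg_left hrρ (by positivity)
        linarith
      have h3 : 1 ≤ ((2 : ℝ) ^ j * r) ^ e := one_le_rpow h2 he
      nlinarith
  · intro i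
    have hex : ∃ j, i ∈ (if j < J then univ.filter (fun i => dist (pos i) z ≤ 2 ^ j * r) else univ) :=
      ⟨J, by simp⟩
    have hjJ : Nat.find hex ≤ J := Nat.find_min' hex (by simp)
    refine ⟨Nat.find hex, hjJ, Nat.find_spec hex, ?_⟩
    set j := Nat.find hex with hjdef
    rw [← exp_add]
    apply exp_le_exp.2
    rcases Nat.eq_zero_or_pos j with h0 | h0
    · rw [h0]
      have : 0 ≤ π * lam ^ 2 * dist (pos i) z ^ 2 := by positivity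
      norm_num
      nlinarith
    · obtain ⟨l, hl⟩ : ∃ l, j = l + 1 := ⟨j - 1, by omega⟩
      have hnot := Nat.find_min hex (m := l) (by omega)
      rw [if_pos (by omega)] at hnot
      simp only [Finset.mem_filter, Finset.mem_univ, true_and, not_le] at hnot
      have h6 : (2 : ℝ) ^ (l + 1) = 2 * 2 ^ l := by ring
      rw [hl, h6]
      have h1 : (2 : ℝ) ^ l ≤ lam * dist (pos i) z := by
        have h2 : (2 : ℝ) ^ l * (lam * r) ≤ lam * dist (pos i) z := by nlinarith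
        have h3 : (2 : ℝ) ^ l * 1 ≤ 2 ^ l * (lam * r) := mul_le_mul_of_nonneg_left hlr (by positivity)
        linarith
      have h4 : ((2 : ℝ) ^ l) ^ 2 ≤ (lam * dist (pos i) z) ^ 2 := pow_le_pow_left₀ (by positivity) h1 2
      have h5 : π * ((2 : ℝ) ^ l) ^ 2 ≤ π * (lam * dist (pos i) z) ^ 2 := mul_le_mul_of_nonneg_left h4 pi_pos.le
      have h7 : -π * lam ^ 2 * dist (pos i) z ^ 2 = -(π * (lam * dist (pos i) z) ^ 2) := by ring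
      have h8 : -π * (2 * (2 : ℝ) ^ l) ^ 2 / 4 = -(π * ((2 : ℝ) ^ l) ^ 2) := by ring
      rw [h7, h8]
      linarith [pi_pos]

/-! ### [FB-2] domination of the weight -/

theorem fa_G_iso {R : ℝ} (ξ₁ ξ₂ : ℝ) : faG (1 / R ^ 2) (1 / R ^ 2) 0 ξ₁ ξ₂ = exp (-π * ((ξ₁ ^ 2 + ξ₂ ^ 2) / R ^ 2)) := by
  unfold faG
  rw [← exp_add]
  congr 1
  ring

theorem fa_C_one_le (e : ℝ) : 1 ≤ faC e := by
  unfold faC
  exact one_le_mul_of_one_le_of_one_le (one_le_exp (by positivity)) (one_le_exp (by positivity))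

theorem fa_weight {T : Type} [Fintype T] (ν sl : T → ℝ) (hν0 : ∀ b, 0 ≤ ν b) (hν1 : ∑ b, ν b ≤ 1) {A Cν s ρ : ℝ}
    (hA : 1 ≤ A) (hsl : ∀ b, |sl b| ≤ A) (hCν : 1 ≤ Cν) (hs : 0 ≤ s) (hρ : 0 < ρ) (hFν : KfFrost ν sl Cν s ρ)
    (J : ℕ) (hJ1 : 1 ≤ 2 ^ J * ρ) (hJ2 : 2 ^ J * ρ ≤ 2) (ξ₁ ξ₂ : ℝ) :
    ∑ b, ν b * faG 1 (ρ ^ 2) (sl b) ξ₁ ξ₂ ≤
      ∑ k ∈ range (J + 1), (exp π * ((J + 1) * faC s * Cν * (2 / 2 ^ k) ^ s)) *
        faG (1 / (3 * A * 2 ^ k) ^ 2) (1 / (3 * A * 2 ^ k) ^ 2) 0 ξ₁ ξ₂ := by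
  have hA0 : 0 < A := by linarith
  have hCs := fa_C_one_le s
  set D := ((J : ℝ) + 1) * faC s * Cν with hD
  have hD1 : 1 ≤ D := by
    have h1 : (1 : ℝ) ≤ (J : ℝ) + 1 := by
      have : (0 : ℝ) ≤ J := Nat.cast_nonneg _
      linarith
    exact one_le_mul_of_one_le_of_one_le (one_le_mul_of_one_le_of_one_le h1 hCs) hCν
  have hD0 : 0 < D := by linarith
  -- it suffices to find one dominating term
  suffices hex : ∃ k, k ≤ J ∧ ∑ b, ν b * faG 1 (ρ ^ 2) (sl b) ξ₁ ξ₂ ≤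
      (exp π * (D * (2 / 2 ^ k) ^ s)) * faG (1 / (3 * A * 2 ^ k) ^ 2) (1 / (3 * A * 2 ^ k) ^ 2) 0 ξ₁ ξ₂ by
    obtain ⟨k, hk, hle⟩ := hex
    refine le_trans hle (Finset.single_le_sum (f := fun k => (exp π * (D * (2 / 2 ^ k) ^ s)) *
      faG (1 / (3 * A * 2 ^ k) ^ 2) (1 / (3 * A * 2 ^ k) ^ 2) 0 ξ₁ ξ₂) (fun j _ => ?_)
      (Finset.mem_range.2 (by omega)))
    have := rpow_nonneg (show (0 : ℝ) ≤ 2 / 2 ^ j by positivity) s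
    unfold faG
    positivity
  -- the left hand side
  have hL : ∑ b, ν b * faG 1 (ρ ^ 2) (sl b) ξ₁ ξ₂ =
      exp (-π * ρ ^ 2 * ξ₂ ^ 2) * ∑ b, ν b * exp (-π * (ξ₁ + sl b * ξ₂) ^ 2) := by
    rw [Finset.mul_sum]
    refine Finset.sum_congr rfl fun b _ => ?_
    unfold faG
    rw [mul_one]
    ring
  have hN0 : 0 ≤ ∑ b, ν b * exp (-π * (ξ₁ + sl b * ξ₂) ^ 2) :=
    Finset.sum_nonneg fun b _ => mul_nonneg (hν0 b) (exp_pos _).le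
  have hE1 : exp (-π * ρ ^ 2 * ξ₂ ^ 2) ≤ 1 := by
    apply exp_le_one_iff.2
    have : 0 ≤ π * ρ ^ 2 * ξ₂ ^ 2 := by positivity
    linarith
  have hpk : ∀ k : ℕ, 1 ≤ (2 / (2 : ℝ) ^ k) ^ s → 1 ≤ D * (2 / 2 ^ k) ^ s := fun k h =>
    one_le_mul_of_one_le_of_one_le hD1 h
  rw [hL]
  by_cases hreg : 2 * A * |ξ₂| ≤ |ξ₁|
  · -- Region I
    refine ⟨0, Nat.zero_le _, ?_⟩
    rw [fa_G_iso]
    have hb : ∀ b, exp (-π * (ξ₁ + sl b * ξ₂) ^ 2) ≤ exp (-π * (ξ₁ ^ 2 / 4)) := by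
      intro b
      apply exp_le_exp.2
      have h1 : |sl b * ξ₂| ≤ A * |ξ₂| := by
        rw [abs_mul]
        exact mul_le_mul_of_nonneg_right (hsl b) (abs_nonneg _)
      have h2 : |ξ₁| / 2 ≤ |ξ₁ + sl b * ξ₂| := by
        have h3 : |ξ₁| ≤ |ξ₁ + sl b * ξ₂| + |sl b * ξ₂| := by
          have := abs_sub (ξ₁ + sl b * ξ₂) (sl b * ξ₂)
          simpa using this
        linarith
      have h4 : (|ξ₁| / 2) ^ 2 ≤ |ξ₁ + sl b * ξ₂| ^ 2 := pow_le_pow_left₀ (by positivity) h2 2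
      rw [sq_abs, div_pow, sq_abs] at h4
      nlinarith [pi_pos]
    have hN : ∑ b, ν b * exp (-π * (ξ₁ + sl b * ξ₂) ^ 2) ≤ exp (-π * (ξ₁ ^ 2 / 4)) := by
      calc ∑ b, ν b * exp (-π * (ξ₁ + sl b * ξ₂) ^ 2) ≤ ∑ b, ν b * exp (-π * (ξ₁ ^ 2 / 4)) :=
            Finset.sum_le_sum fun b _ => mul_le_mul_of_nonneg_left (hb b) (hν0 b)
        _ = (∑ b, ν b) * exp (-π * (ξ₁ ^ 2 / 4)) := by rw [Finset.sum_mul]
        _ ≤ 1 * exp (-π * (ξ₁ ^ 2 / 4)) := mul_le_mul_of_nonneg_right hν1 (exp_pos _).le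
        _ = _ := one_mul _
    have hiso : exp (-π * (ξ₁ ^ 2 / 4)) ≤ exp (-π * ((ξ₁ ^ 2 + ξ₂ ^ 2) / (3 * A * 2 ^ 0) ^ 2)) := by
      apply exp_le_exp.2
      have h5 : (2 * A * |ξ₂|) ^ 2 ≤ |ξ₁| ^ 2 := pow_le_pow_left₀ (by positivity) hreg 2
      rw [mul_pow, sq_abs, sq_abs] at h5
      have h6 : (ξ₁ ^ 2 + ξ₂ ^ 2) / (3 * A * 2 ^ 0) ^ 2 ≤ ξ₁ ^ 2 / 4 := by
        rw [div_le_div_iff₀ (by positivity) (by norm_num)]
        have hA2 : 1 ≤ A ^ 2 := one_le_pow₀ hA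
        nlinarith [sq_nonneg ξ₁, sq_nonneg ξ₂]
      nlinarith [pi_pos]
    have hc : 1 ≤ exp π * (D * (2 / 2 ^ 0) ^ s) :=
      one_le_mul_of_one_le_of_one_le (one_le_exp pi_pos.le) (hpk 0 (one_le_rpow (by norm_num) hs))
    calc exp (-π * ρ ^ 2 * ξ₂ ^ 2) * ∑ b, ν b * exp (-π * (ξ₁ + sl b * ξ₂) ^ 2)
        ≤ 1 * exp (-π * (ξ₁ ^ 2 / 4)) := mul_le_mul hE1 hN hN0 zero_le_one
      _ ≤ 1 * exp (-π * ((ξ₁ ^ 2 + ξ₂ ^ 2) / (3 * A * 2 ^ 0) ^ 2)) := by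
          rw [one_mul, one_mul]
          exact hiso
      _ ≤ _ := mul_le_mul_of_nonneg_right hc (exp_pos _).le
  · -- Region II
    push Not at hreg
    have hT : 0 < |ξ₂| := by
      by_contra h
      have h0 : |ξ₂| = 0 := le_antisymm (not_lt.1 h) (abs_nonneg _)
      rw [h0] at hreg
      have := abs_nonneg ξ₁
      linarith
    have hξ₂ : ξ₂ ≠ 0 := abs_pos.1 hT
    set Tt := |ξ₂| with hTt
    have hTsq : Tt ^ 2 = ξ₂ ^ 2 := sq_abs ξ₂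
    have hnorm : ξ₁ ^ 2 + ξ₂ ^ 2 ≤ 5 * A ^ 2 * Tt ^ 2 := by
      have h5 : |ξ₁| ^ 2 ≤ (2 * A * Tt) ^ 2 := pow_le_pow_left₀ (abs_nonneg _) hreg.le 2
      rw [sq_abs] at h5
      have hA2 : 1 ≤ A ^ 2 := one_le_pow₀ hA
      nlinarith [sq_nonneg Tt]
    -- lower bound of the isotropic Gaussians
    have hiso : ∀ k : ℕ, exp (-π * (Tt ^ 2 / (2 ^ k) ^ 2)) ≤
        exp (-π * ((ξ₁ ^ 2 + ξ₂ ^ 2) / (3 * A * 2 ^ k) ^ 2)) := by
      intro k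
      apply exp_le_exp.2
      have h6 : (ξ₁ ^ 2 + ξ₂ ^ 2) / (3 * A * 2 ^ k) ^ 2 ≤ Tt ^ 2 / (2 ^ k) ^ 2 := by
        rw [div_le_div_iff₀ (by positivity) (by positivity)]
        have h7 : (0 : ℝ) ≤ (2 ^ k) ^ 2 := by positivity
        have h8 : (ξ₁ ^ 2 + ξ₂ ^ 2) * (2 ^ k) ^ 2 ≤ 5 * A ^ 2 * Tt ^ 2 * (2 ^ k) ^ 2 :=
          mul_le_mul_of_nonneg_right hnorm h7
        have h9 : 0 ≤ A ^ 2 * Tt ^ 2 * (2 ^ k) ^ 2 := by positivity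
        nlinarith
      nlinarith [pi_pos]
    have hNtriv : ∑ b, ν b * exp (-π * (ξ₁ + sl b * ξ₂) ^ 2) ≤ 1 := by
      refine le_trans (Finset.sum_le_sum fun b _ => ?_) hν1
      have : exp (-π * (ξ₁ + sl b * ξ₂) ^ 2) ≤ 1 := by
        apply exp_le_one_iff.2
        have : 0 ≤ π * (ξ₁ + sl b * ξ₂) ^ 2 := by positivity
        linarith
      calc ν b * exp (-π * (ξ₁ + sl b * ξ₂) ^ 2) ≤ ν b * 1 := mul_le_mul_of_nonneg_left this (hν0 b)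
        _ = ν b := mul_one _
    have hNg : ∑ b, ν b * exp (-π * (ξ₁ + sl b * ξ₂) ^ 2) ≤ D * max ρ (1 / Tt) ^ s := by
      have h1 := fa_gauss_sum hν0 hν1 hCν hs hρ hFν J hJ1 (-ξ₁ / ξ₂) hT
      refine le_trans (le_of_eq ?_) h1
      refine Finset.sum_congr rfl fun b _ => ?_
      congr 2
      rw [Real.dist_eq, sq_abs, sq_abs]
      field_simp
      ring
    by_cases hT1 : Tt ≤ 1
    · -- (a)
      refine ⟨0, Nat.zero_le _, ?_⟩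
      rw [fa_G_iso]
      have h1 : exp (-π) ≤ exp (-π * ((ξ₁ ^ 2 + ξ₂ ^ 2) / (3 * A * 2 ^ 0) ^ 2)) := by
        refine le_trans (exp_le_exp.2 ?_) (hiso 0)
        have : Tt ^ 2 ≤ 1 := pow_le_one₀ hT.le hT1
        norm_num
        nlinarith [pi_pos]
      have h2 : 1 ≤ D * (2 / 2 ^ 0) ^ s := hpk 0 (one_le_rpow (by norm_num) hs)
      have h3 : exp π * exp (-π) = 1 := by rw [← exp_add]; simp
      calc exp (-π * ρ ^ 2 * ξ₂ ^ 2) * ∑ b, ν b * exp (-π * (ξ₁ + sl b * ξ₂) ^ 2)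
          ≤ 1 * 1 := mul_le_mul hE1 hNtriv hN0 zero_le_one
        _ = exp π * 1 * exp (-π) := by rw [mul_one, mul_one, h3]
        _ ≤ exp π * (D * (2 / 2 ^ 0) ^ s) * exp (-π * ((ξ₁ ^ 2 + ξ₂ ^ 2) / (3 * A * 2 ^ 0) ^ 2)) :=
          mul_le_mul (mul_le_mul_of_nonneg_left h2 (exp_pos _).le) h1 (exp_pos _).le (by positivity)
    · push Not at hT1
      -- common end of (b) and (c)
      have hend : ∀ k : ℕ, max ρ (1 / Tt) ≤ 2 / 2 ^ k →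
          exp (-π * ρ ^ 2 * ξ₂ ^ 2) ≤ exp π * exp (-π * (Tt ^ 2 / (2 ^ k) ^ 2)) →
          exp (-π * ρ ^ 2 * ξ₂ ^ 2) * ∑ b, ν b * exp (-π * (ξ₁ + sl b * ξ₂) ^ 2) ≤
            (exp π * (D * (2 / 2 ^ k) ^ s)) * faG (1 / (3 * A * 2 ^ k) ^ 2) (1 / (3 * A * 2 ^ k) ^ 2) 0 ξ₁ ξ₂ := by
        intro k hmax hexp
        rw [fa_G_iso]
        have h1 : max ρ (1 / Tt) ^ s ≤ (2 / 2 ^ k) ^ s :=
          rpow_le_rpow (le_trans hρ.le (le_max_left _ _)) hmax hs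
        have h2 : ∑ b, ν b * exp (-π * (ξ₁ + sl b * ξ₂) ^ 2) ≤ D * (2 / 2 ^ k) ^ s :=
          hNg.trans (mul_le_mul_of_nonneg_left h1 hD0.le)
        have h3 : exp (-π * ρ ^ 2 * ξ₂ ^ 2) ≤ exp π * exp (-π * ((ξ₁ ^ 2 + ξ₂ ^ 2) / (3 * A * 2 ^ k) ^ 2)) :=
          hexp.trans (mul_le_mul_of_nonneg_left (hiso k) (exp_pos _).le)
        calc exp (-π * ρ ^ 2 * ξ₂ ^ 2) * ∑ b, ν b * exp (-π * (ξ₁ + sl b * ξ₂) ^ 2)
            ≤ (exp π * exp (-π * ((ξ₁ ^ 2 + ξ₂ ^ 2) / (3 * A * 2 ^ k) ^ 2))) * (D * (2 / 2 ^ k) ^ s) :=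
              mul_le_mul h3 h2 hN0 (by positivity)
          _ = _ := by ring
      by_cases hTJ : Tt ≤ 2 ^ J
      · -- (b)
        have hex : ∃ k : ℕ, Tt ≤ 2 ^ k := ⟨J, hTJ⟩
        classical
        have hkJ : Nat.find hex ≤ J := Nat.find_min' hex hTJ
        have hspec := Nat.find_spec hex
        set k := Nat.find hex with hk
        have hk1 : 1 ≤ k := by
          by_contra h
          have h0 : k = 0 := by omega
          rw [h0] at hspec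
          norm_num at hspec
          linarith
        obtain ⟨l, hl⟩ : ∃ l, k = l + 1 := ⟨k - 1, by omega⟩
        have hnot := Nat.find_min hex (m := l) (by omega)
        push Not at hnot
        have hk0 : (0 : ℝ) < 2 ^ k := by positivity
        refine ⟨k, hkJ, hend k ?_ ?_⟩
        · apply max_le
          · rw [le_div_iff₀ hk0]
            have : (2 : ℝ) ^ k ≤ 2 ^ J := pow_le_pow_right₀ (by norm_num) hkJ
            nlinarith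
          · rw [div_le_div_iff₀ hT hk0, hl]
            have h6 : (2 : ℝ) ^ (l + 1) = 2 * 2 ^ l := by ring
            rw [h6]
            linarith
        · have h1 : Tt ^ 2 / (2 ^ k) ^ 2 ≤ 1 := by
            rw [div_le_one (by positivity)]
            exact pow_le_pow_left₀ hT.le hspec 2
          have h2 : (1 : ℝ) ≤ exp π * exp (-π * (Tt ^ 2 / (2 ^ k) ^ 2)) := by
            rw [← exp_add]
            apply one_le_exp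
            nlinarith [pi_pos]
          exact hE1.trans h2
      · -- (c)
        push Not at hTJ
        have hJ0 : (0 : ℝ) < 2 ^ J := by positivity
        refine ⟨J, le_rfl, hend J ?_ ?_⟩
        · apply max_le
          · rw [le_div_iff₀ hJ0]
            linarith
          · rw [div_le_div_iff₀ hT hJ0]
            linarith
        · have h1 : exp (-π * ρ ^ 2 * ξ₂ ^ 2) ≤ exp (-π * (Tt ^ 2 / (2 ^ J) ^ 2)) := by
            apply exp_le_exp.2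
            rw [← hTsq]
            have h2 : Tt ^ 2 / (2 ^ J) ^ 2 ≤ ρ ^ 2 * Tt ^ 2 := by
              rw [div_le_iff₀ (by positivity)]
              have h3 : (1 : ℝ) ≤ (2 ^ J * ρ) ^ 2 := one_le_pow₀ hJ1
              calc Tt ^ 2 = Tt ^ 2 * 1 := (mul_one _).symm
                _ ≤ Tt ^ 2 * (2 ^ J * ρ) ^ 2 := mul_le_mul_of_nonneg_left h3 (sq_nonneg _)
                _ = ρ ^ 2 * Tt ^ 2 * (2 ^ J) ^ 2 := by ring
            have h5 := mul_le_mul_of_nonneg_left h2 pi_pos.le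
            linarith
          have h4 : exp (-π * (Tt ^ 2 / (2 ^ J) ^ 2)) ≤ exp π * exp (-π * (Tt ^ 2 / (2 ^ J) ^ 2)) := by
            have h6 : 1 ≤ exp π := one_le_exp pi_pos.le
            calc exp (-π * (Tt ^ 2 / (2 ^ J) ^ 2)) = 1 * exp (-π * (Tt ^ 2 / (2 ^ J) ^ 2)) := (one_mul _).symm
              _ ≤ _ := mul_le_mul_of_nonneg_right h6 (exp_pos _).le
          exact h1.trans h4

/-! ### [FB-3] assembly -/

theorem fa_en_le {X : Type} [Fintype X] (μ : X → ℝ) (pt : X → ℝ × ℝ) (hμ0 : ∀ x, 0 ≤ μ x) {A ρ : ℝ} (hρ : 0 < ρ) (hpt : ∀ x, |(pt x).1| ≤ A) (a : ℝ) :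
    kfEn μ pt a ρ ≤ exp (π + 4 * π * A ^ 2) * ∑ x, ∑ y, μ x * μ y * (exp (-π * ((pt x).1 - (pt y).1) ^ 2) *
      exp (-π * (((pt x).2 - (pt y).2) - a * ((pt x).1 - (pt y).1)) ^ 2 / ρ ^ 2)) := by
  unfold kfEn
  rw [Finset.mul_sum]
  refine Finset.sum_le_sum fun x _ => ?_
  rw [Finset.mul_sum, Finset.sum_filter]
  refine Finset.sum_le_sum fun y _ => ?_
  have hnn : 0 ≤ exp (π + 4 * π * A ^ 2) * (μ x * μ y * (exp (-π * ((pt x).1 - (pt y).1) ^ 2) *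
      exp (-π * (((pt x).2 - (pt y).2) - a * ((pt x).1 - (pt y).1)) ^ 2 / ρ ^ 2))) := by
    have := hμ0 x
    have := hμ0 y
    positivity
  split_ifs with h
  · have h0 : kfProj a (pt x) - kfProj a (pt y) = ((pt x).2 - (pt y).2) - a * ((pt x).1 - (pt y).1) := by
      unfold kfProj
      ring
    rw [h0] at h
    set X' := (pt x).1 - (pt y).1 with hX
    set Z := ((pt x).2 - (pt y).2) - a * X' with hZ
    have hX2 : X' ^ 2 ≤ 4 * A ^ 2 := by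
      have h1 := abs_le.1 (hpt x)
      have h2 := abs_le.1 (hpt y)
      have h3 : |X'| ≤ 2 * A := by
        rw [abs_le]
        constructor <;> linarith [h1.1, h1.2, h2.1, h2.2]
      have h4 : X' ^ 2 = |X'| ^ 2 := (sq_abs X').symm
      rw [h4]
      nlinarith [abs_nonneg X']
    have hZ2 : Z ^ 2 / ρ ^ 2 ≤ 1 := by
      rw [div_le_one (by positivity)]
      have h4 : Z ^ 2 = |Z| ^ 2 := (sq_abs Z).symm
      rw [h4]
      exact pow_le_pow_left₀ (abs_nonneg Z) h 2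
    have h5 : 1 ≤ exp (π + 4 * π * A ^ 2) * (exp (-π * X' ^ 2) * exp (-π * Z ^ 2 / ρ ^ 2)) := by
      rw [← exp_add, ← exp_add]
      apply one_le_exp
      have h6 : -π * Z ^ 2 / ρ ^ 2 = -π * (Z ^ 2 / ρ ^ 2) := by ring
      rw [h6]
      nlinarith [pi_pos]
    have h7 : 0 ≤ μ x * μ y := mul_nonneg (hμ0 x) (hμ0 y)
    calc μ x * μ y = μ x * μ y * 1 := (mul_one _).symm
      _ ≤ μ x * μ y * (exp (π + 4 * π * A ^ 2) * (exp (-π * X' ^ 2) * exp (-π * Z ^ 2 / ρ ^ 2))) :=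
        mul_le_mul_of_nonneg_left h5 h7
      _ = _ := by ring
  · exact hnn

theorem fa_C_pos (e : ℝ) : 0 < faC e := by
  unfold faC
  positivity

theorem fa_iso {X : Type} [Fintype X] (μ : X → ℝ) (pt : X → ℝ × ℝ) (hμ0 : ∀ x, 0 ≤ μ x) (hμ1 : ∑ x, μ x ≤ 1) {A Cμ d ρ : ℝ} (hA : 1 ≤ A)
    (hCμ : 1 ≤ Cμ) (hd : 0 ≤ d) (hρ : 0 < ρ) (hFμ : KfFrost μ pt Cμ d ρ) (J : ℕ) (hJ1 : 1 ≤ 2 ^ J * ρ)
    (hJ2 : 2 ^ J * ρ ≤ 2) {k : ℕ} (hk : k ≤ J) :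
    ∑ x, ∑ y, μ x * μ y * exp (-π * (3 * A * 2 ^ k) ^ 2 * (((pt x).1 - (pt y).1) ^ 2 + ((pt x).2 - (pt y).2) ^ 2)) ≤
      (J + 1) * faC d * Cμ * (2 / 2 ^ k) ^ d := by
  have hk0 : (0 : ℝ) < 2 ^ k := by positivity
  have hR : 0 < 3 * A * 2 ^ k := by positivity
  have hB0 : 0 ≤ (J + 1) * faC d * Cμ * (2 / 2 ^ k) ^ d := by
    have := fa_C_pos d
    have := rpow_nonneg (show (0 : ℝ) ≤ 2 / 2 ^ k by positivity) d
    positivity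
  have hmax : max ρ (1 / (3 * A * 2 ^ k)) ≤ 2 / 2 ^ k := by
    apply max_le
    · rw [le_div_iff₀ hk0]
      have : (2 : ℝ) ^ k ≤ 2 ^ J := pow_le_pow_right₀ (by norm_num) hk
      nlinarith
    · rw [div_le_div_iff₀ hR hk0]
      nlinarith
  have hin : ∀ x, ∑ y, μ y * exp (-π * (3 * A * 2 ^ k) ^ 2 * (((pt x).1 - (pt y).1) ^ 2 + ((pt x).2 - (pt y).2) ^ 2)) ≤
      (J + 1) * faC d * Cμ * (2 / 2 ^ k) ^ d := by
    intro x
    have h1 := fa_gauss_sum hμ0 hμ1 hCμ hd hρ hFμ J hJ1 (pt x) hR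
    have h2 : (J + 1) * faC d * Cμ * max ρ (1 / (3 * A * 2 ^ k)) ^ d ≤ (J + 1) * faC d * Cμ * (2 / 2 ^ k) ^ d := by
      apply mul_le_mul_of_nonneg_left (rpow_le_rpow (le_trans hρ.le (le_max_left _ _)) hmax hd)
      have := fa_C_pos d
      positivity
    refine le_trans (Finset.sum_le_sum fun y _ => ?_) (h1.trans h2)
    apply mul_le_mul_of_nonneg_left _ (hμ0 y)
    apply exp_le_exp.2
    have h3 : dist (pt y) (pt x) ^ 2 ≤ ((pt x).1 - (pt y).1) ^ 2 + ((pt x).2 - (pt y).2) ^ 2 := by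
      rw [Prod.dist_eq, Real.dist_eq, Real.dist_eq]
      rcases max_cases |(pt y).1 - (pt x).1| |(pt y).2 - (pt x).2| with h | h
      · rw [h.1, sq_abs]
        nlinarith [sq_nonneg ((pt x).2 - (pt y).2)]
      · rw [h.1, sq_abs]
        nlinarith [sq_nonneg ((pt x).1 - (pt y).1)]
    have h4 : 0 ≤ π * (3 * A * 2 ^ k) ^ 2 := by positivity
    nlinarith [mul_le_mul_of_nonneg_left h3 h4]
  calc ∑ x, ∑ y, μ x * μ y * exp (-π * (3 * A * 2 ^ k) ^ 2 * (((pt x).1 - (pt y).1) ^ 2 + ((pt x).2 - (pt y).2) ^ 2))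
      = ∑ x, μ x * ∑ y, μ y * exp (-π * (3 * A * 2 ^ k) ^ 2 * (((pt x).1 - (pt y).1) ^ 2 + ((pt x).2 - (pt y).2) ^ 2)) := by
        refine Finset.sum_congr rfl fun x _ => ?_
        rw [Finset.mul_sum]
        exact Finset.sum_congr rfl fun y _ => by ring
    _ ≤ ∑ x, μ x * ((J + 1) * faC d * Cμ * (2 / 2 ^ k) ^ d) :=
        Finset.sum_le_sum fun x _ => mul_le_mul_of_nonneg_left (hin x) (hμ0 x)
    _ = (∑ x, μ x) * ((J + 1) * faC d * Cμ * (2 / 2 ^ k) ^ d) := by rw [Finset.sum_mul]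
    _ ≤ 1 * ((J + 1) * faC d * Cμ * (2 / 2 ^ k) ^ d) := mul_le_mul_of_nonneg_right hμ1 hB0
    _ = _ := one_mul _

theorem fa_pow {d s ρ : ℝ} (hd : 0 ≤ d) (hs : 0 ≤ s) (hρ : 0 < ρ) (hρ1 : ρ ≤ 1) {J k : ℕ} (hJ2 : 2 ^ J * ρ ≤ 2) (hk : k ≤ J) :
    ρ * ((2 / 2 ^ k) ^ s * (2 / 2 ^ k) ^ d * (2 ^ k) ^ 2) ≤ 2 ^ (s + d + 2) * ρ ^ min 1 (d + s - 1) := by
  have ht0 : (0 : ℝ) < 2 ^ k := by positivity
  have ht1 : (1 : ℝ) ≤ 2 ^ k := one_le_pow₀ (by norm_num)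
  have ht2 : (2 : ℝ) ^ k ≤ 2 / ρ := by
    rw [le_div_iff₀ hρ]
    have : (2 : ℝ) ^ k ≤ 2 ^ J := pow_le_pow_right₀ (by norm_num) hk
    nlinarith
  set t : ℝ := 2 ^ k with ht
  have e1 : (2 / t) ^ s * (2 / t) ^ d * t ^ 2 = 2 ^ (s + d) * t ^ (2 - s - d) := by
    rw [← rpow_add (by positivity), div_rpow (by norm_num) ht0.le, ← rpow_natCast t 2]
    rw [div_mul_eq_mul_div, mul_div_assoc, ← rpow_sub ht0]
    congr 2
    push_cast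
    ring
  rw [e1]
  have h2 : (0 : ℝ) < 2 ^ (s + d) := rpow_pos_of_pos (by norm_num) _
  have e2 : (2 : ℝ) ^ (s + d + 2) = 2 ^ (s + d) * 4 := by
    rw [rpow_add (by norm_num)]
    norm_num
  rw [e2]
  have key : ρ * t ^ (2 - s - d) ≤ 4 * ρ ^ min 1 (d + s - 1) := by
    by_cases hc : 0 ≤ 2 - s - d
    · have h3 : t ^ (2 - s - d) ≤ (2 / ρ) ^ (2 - s - d) := rpow_le_rpow ht0.le ht2 hc
      have h4 : (2 / ρ) ^ (2 - s - d) = 2 ^ (2 - s - d) * ρ ^ (-(2 - s - d)) := by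
        rw [div_rpow (by norm_num) hρ.le, rpow_neg hρ.le, div_eq_mul_inv]
      have h5 : (2 : ℝ) ^ (2 - s - d) ≤ 4 := by
        have : (2 : ℝ) ^ (2 - s - d) ≤ 2 ^ (2 : ℝ) := rpow_le_rpow_of_exponent_le (by norm_num) (by linarith)
        refine this.trans (le_of_eq ?_)
        norm_num
      have h6 : min 1 (d + s - 1) = d + s - 1 := min_eq_right (by linarith)
      have h7 : ρ * ρ ^ (-(2 - s - d)) = ρ ^ (d + s - 1) := by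
        nth_rewrite 1 [← rpow_one ρ]
        rw [← rpow_add hρ]
        congr 1
        ring
      have h8 : 0 < ρ ^ (-(2 - s - d)) := rpow_pos_of_pos hρ _
      rw [h6, ← h7]
      calc ρ * t ^ (2 - s - d) ≤ ρ * (2 ^ (2 - s - d) * ρ ^ (-(2 - s - d))) := by
            rw [← h4]
            exact mul_le_mul_of_nonneg_left h3 hρ.le
        _ ≤ ρ * (4 * ρ ^ (-(2 - s - d))) :=
            mul_le_mul_of_nonneg_left (mul_le_mul_of_nonneg_right h5 h8.le) hρ.le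
        _ = _ := by ring
    · push Not at hc
      have h3 : t ^ (2 - s - d) ≤ 1 := rpow_le_one_of_one_le_of_nonpos ht1 hc.le
      have h6 : min 1 (d + s - 1) = 1 := min_eq_left (by linarith)
      rw [h6, rpow_one]
      nlinarith
  calc ρ * (2 ^ (s + d) * t ^ (2 - s - d)) = 2 ^ (s + d) * (ρ * t ^ (2 - s - d)) := by ring
    _ ≤ 2 ^ (s + d) * (4 * ρ ^ min 1 (d + s - 1)) := mul_le_mul_of_nonneg_left key h2.le
    _ = _ := by ring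

/-- **second moment, L² range** -/
theorem fa_energy {X T : Type} [Fintype X] [Fintype T] (μ : X → ℝ) (ν : T → ℝ) (pt : X → ℝ × ℝ) (sl : T → ℝ) (hμ0 : ∀ x, 0 ≤ μ x) (hν0 : ∀ b, 0 ≤ ν b)
    (hμ1 : ∑ x, μ x ≤ 1) (hν1 : ∑ b, ν b ≤ 1) {A Cμ Cν d s ρ : ℝ} (hA : 1 ≤ A) (hpt : ∀ x, |(pt x).1| ≤ A)
    (hsl : ∀ b, |sl b| ≤ A) (hCμ : 1 ≤ Cμ) (hCν : 1 ≤ Cν) (hd : 0 ≤ d) (hs : 0 ≤ s) (hρ : 0 < ρ) (hρ1 : ρ ≤ 1)
    (hFμ : KfFrost μ pt Cμ d ρ) (hFν : KfFrost ν sl Cν s ρ) (J : ℕ) (hJ1 : 1 ≤ 2 ^ J * ρ) (hJ2 : 2 ^ J * ρ ≤ 2) :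
    ∑ b, ν b * kfEn μ pt (sl b) ρ ≤ faCF A d s * (J + 1) ^ 3 * Cμ * Cν * ρ ^ min 1 (d + s - 1) := by
  have hCs := fa_C_pos s
  have hCd := fa_C_pos d
  have hA0 : 0 < A := by linarith
  have hcmp := fa_compare μ pt ν sl hρ (range (J + 1))
    (fun k => exp π * ((J + 1) * faC s * Cν * (2 / 2 ^ k) ^ s)) (fun k => 3 * A * 2 ^ k)
    (fun k _ => by positivity) (fa_weight ν sl hν0 hν1 hA hsl hCν hs hρ hFν J hJ1 hJ2)
  -- the right hand side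
  have hrhs : ρ * ∑ k ∈ range (J + 1), exp π * ((J + 1) * faC s * Cν * (2 / 2 ^ k) ^ s) * ((3 * A * 2 ^ k) ^ 2 *
      ∑ x, ∑ y, μ x * μ y * exp (-π * (3 * A * 2 ^ k) ^ 2 * (((pt x).1 - (pt y).1) ^ 2 + ((pt x).2 - (pt y).2) ^ 2))) ≤
      9 * A ^ 2 * exp π * faC s * faC d * 2 ^ (s + d + 2) * (J + 1) ^ 3 * Cμ * Cν * ρ ^ min 1 (d + s - 1) := by
    rw [Finset.mul_sum]
    have hterm : ∀ k ∈ range (J + 1), ρ * (exp π * ((J + 1) * faC s * Cν * (2 / 2 ^ k) ^ s) * ((3 * A * 2 ^ k) ^ 2 *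
        ∑ x, ∑ y, μ x * μ y * exp (-π * (3 * A * 2 ^ k) ^ 2 * (((pt x).1 - (pt y).1) ^ 2 + ((pt x).2 - (pt y).2) ^ 2)))) ≤
        9 * A ^ 2 * exp π * faC s * faC d * 2 ^ (s + d + 2) * (J + 1) ^ 2 * Cμ * Cν * ρ ^ min 1 (d + s - 1) := by
      intro k hk
      have hkJ : k ≤ J := by have := Finset.mem_range.1 hk; omega
      have h1 := fa_iso μ pt hμ0 hμ1 hA hCμ hd hρ hFμ J hJ1 hJ2 hkJ
      have h2 := fa_pow hd hs hρ hρ1 hJ2 hkJ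
      have hp : 0 ≤ (2 / (2 : ℝ) ^ k) ^ s := rpow_nonneg (by positivity) _
      have h3 : 0 ≤ ρ * (exp π * ((J + 1) * faC s * Cν * (2 / 2 ^ k) ^ s) * (3 * A * 2 ^ k) ^ 2) := by
        have : 0 ≤ Cν := by linarith
        positivity
      have h4 : 0 ≤ 9 * A ^ 2 * exp π * faC s * faC d * (J + 1) ^ 2 * Cμ * Cν := by
        have : 0 ≤ Cν := by linarith
        have : 0 ≤ Cμ := by linarith
        positivity
      calc ρ * (exp π * ((J + 1) * faC s * Cν * (2 / 2 ^ k) ^ s) * ((3 * A * 2 ^ k) ^ 2 *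
            ∑ x, ∑ y, μ x * μ y * exp (-π * (3 * A * 2 ^ k) ^ 2 * (((pt x).1 - (pt y).1) ^ 2 + ((pt x).2 - (pt y).2) ^ 2))))
          = ρ * (exp π * ((J + 1) * faC s * Cν * (2 / 2 ^ k) ^ s) * (3 * A * 2 ^ k) ^ 2) *
            ∑ x, ∑ y, μ x * μ y * exp (-π * (3 * A * 2 ^ k) ^ 2 * (((pt x).1 - (pt y).1) ^ 2 + ((pt x).2 - (pt y).2) ^ 2)) := by
            ring
        _ ≤ ρ * (exp π * ((J + 1) * faC s * Cν * (2 / 2 ^ k) ^ s) * (3 * A * 2 ^ k) ^ 2) *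
            ((J + 1) * faC d * Cμ * (2 / 2 ^ k) ^ d) := mul_le_mul_of_nonneg_left h1 h3
        _ = 9 * A ^ 2 * exp π * faC s * faC d * (J + 1) ^ 2 * Cμ * Cν *
            (ρ * ((2 / 2 ^ k) ^ s * (2 / 2 ^ k) ^ d * (2 ^ k) ^ 2)) := by ring
        _ ≤ 9 * A ^ 2 * exp π * faC s * faC d * (J + 1) ^ 2 * Cμ * Cν *
            (2 ^ (s + d + 2) * ρ ^ min 1 (d + s - 1)) := mul_le_mul_of_nonneg_left h2 h4
        _ = _ := by ring
    refine le_trans (Finset.sum_le_sum hterm) ?_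
    rw [Finset.sum_const, Finset.card_range, nsmul_eq_mul]
    push_cast
    apply le_of_eq
    ring
  have hE : 0 ≤ exp (π + 4 * π * A ^ 2) := (exp_pos _).le
  calc ∑ b, ν b * kfEn μ pt (sl b) ρ
      ≤ ∑ b, ν b * (exp (π + 4 * π * A ^ 2) * ∑ x, ∑ y, μ x * μ y * (exp (-π * ((pt x).1 - (pt y).1) ^ 2) *
          exp (-π * (((pt x).2 - (pt y).2) - sl b * ((pt x).1 - (pt y).1)) ^ 2 / ρ ^ 2))) :=
        Finset.sum_le_sum fun b _ => mul_le_mul_of_nonneg_left (fa_en_le μ pt hμ0 hρ hpt (sl b)) (hν0 b)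
    _ = exp (π + 4 * π * A ^ 2) * (ρ * ∑ b, ν b * (ρ⁻¹ * ∑ x, ∑ y, μ x * μ y * (exp (-π * ((pt x).1 - (pt y).1) ^ 2) *
          exp (-π * (((pt x).2 - (pt y).2) - sl b * ((pt x).1 - (pt y).1)) ^ 2 / ρ ^ 2)))) := by
        rw [Finset.mul_sum, Finset.mul_sum]
        refine Finset.sum_congr rfl fun b _ => ?_
        have hgen : ∀ S : ℝ, ν b * (exp (π + 4 * π * A ^ 2) * S) =
            exp (π + 4 * π * A ^ 2) * (ρ * (ν b * (ρ⁻¹ * S))) := by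
          intro S
          have h1 : ρ * ρ⁻¹ = 1 := mul_inv_cancel₀ hρ.ne'
          calc ν b * (exp (π + 4 * π * A ^ 2) * S) = (1 : ℝ) * (ν b * (exp (π + 4 * π * A ^ 2) * S)) := (one_mul _).symm
            _ = (ρ * ρ⁻¹) * (ν b * (exp (π + 4 * π * A ^ 2) * S)) := by rw [h1]
            _ = _ := by ring
        exact hgen _
    _ ≤ exp (π + 4 * π * A ^ 2) * (9 * A ^ 2 * exp π * faC s * faC d * 2 ^ (s + d + 2) * (J + 1) ^ 3 * Cμ * Cν *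
          ρ ^ min 1 (d + s - 1)) :=
        mul_le_mul_of_nonneg_left ((mul_le_mul_of_nonneg_left hcmp hρ.le).trans hrhs) hE
    _ = _ := by
        unfold faCF
        ring

/-- **Falconer, explicit robust graph form** -/
theorem fa_falconer {X T : Type} [Fintype X] [Fintype T] (μ : X → ℝ) (ν : T → ℝ) (pt : X → ℝ × ℝ) (sl : T → ℝ) (hμ0 : ∀ x, 0 ≤ μ x) (hν0 : ∀ b, 0 ≤ ν b)
    (hμ1 : ∑ x, μ x ≤ 1) (hν1 : ∑ b, ν b ≤ 1) {A Cμ Cν d s ρ : ℝ} (hA : 1 ≤ A) (hpt : ∀ x, |(pt x).1| ≤ A)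
    (hsl : ∀ b, |sl b| ≤ A) (hCμ : 1 ≤ Cμ) (hCν : 1 ≤ Cν) (hd : 0 ≤ d) (hs : 0 ≤ s) (hρ : 0 < ρ) (hρ1 : ρ ≤ 1)
    (hFμ : KfFrost μ pt Cμ d ρ) (hFν : KfFrost ν sl Cν s ρ) (J : ℕ) (hJ1 : 1 ≤ 2 ^ J * ρ) (hJ2 : 2 ^ J * ρ ≤ 2)
    (G : Finset (X × T)) (M : ℕ) (cov : T → Finset ℝ) (hM : ∀ b, (cov b).card ≤ M)
    (hcov : ∀ b, KfCov (cov b) ρ {t | ∃ x, (x, b) ∈ G ∧ t = kfProj (sl b) (pt x)}) :
    (∑ p ∈ G, μ p.1 * ν p.2) ^ 2 ≤ M * (faCF A d s * (J + 1) ^ 3 * Cμ * Cν * ρ ^ min 1 (d + s - 1)) :=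
  (kf_graph μ ν pt sl hμ0 hν0 hν1 ρ G M cov hM hcov).trans (mul_le_mul_of_nonneg_left
    (fa_energy μ ν pt sl hμ0 hν0 hμ1 hν1 hA hpt hsl hCμ hCν hd hs hρ hρ1 hFμ hFν J hJ1 hJ2) (Nat.cast_nonneg _))

theorem fa_CF_one_le {A : ℝ} (hA : 1 ≤ A) {d s : ℝ} (hd : 0 ≤ d) (hs : 0 ≤ s) : 1 ≤ faCF A d s := by
  unfold faCF faC
  have h1 : 1 ≤ exp (π + 4 * π * A ^ 2) := one_le_exp (by positivity)
  have h2 : 1 ≤ exp π := one_le_exp pi_pos.le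
  have h3 : 1 ≤ exp (π / 4) := one_le_exp (by positivity)
  have h4 : 1 ≤ exp (s ^ 2 / π) := one_le_exp (by positivity)
  have h5 : 1 ≤ exp (d ^ 2 / π) := one_le_exp (by positivity)
  have h6 : (1 : ℝ) ≤ 2 ^ (s + d + 2) := one_le_rpow (by norm_num) (by linarith)
  have h7 : 1 ≤ 9 * A ^ 2 := by nlinarith
  have m1 : 1 ≤ exp (π / 4) * exp (s ^ 2 / π) := one_le_mul_of_one_le_of_one_le h3 h4
  have m2 : 1 ≤ exp (π / 4) * exp (d ^ 2 / π) := one_le_mul_of_one_le_of_one_le h3 h5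
  exact one_le_mul_of_one_le_of_one_le h1 (one_le_mul_of_one_le_of_one_le (one_le_mul_of_one_le_of_one_le
    (one_le_mul_of_one_le_of_one_le (one_le_mul_of_one_le_of_one_le h7 h2) m1) m2) h6)

/-- **Falconer in the format of the paper** -/
theorem fa_planar (d s α A : ℝ) (hd : 0 ≤ d) (hs : 0 ≤ s) (hα : 0 < α) (hA : 1 ≤ A) :
    ∃ η : ℝ, 0 < η ∧ ∃ ρ₁ : ℝ, 0 < ρ₁ ∧ ∀ ρ : ℝ, 0 < ρ → ρ < ρ₁ →
      ∀ (X T : Type) [Fintype X] [Fintype T] (μ : X → ℝ) (ν : T → ℝ) (pt : X → ℝ × ℝ) (sl : T → ℝ),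
        (∀ x, 0 ≤ μ x) → (∀ b, 0 ≤ ν b) → ∑ x, μ x ≤ 1 → ∑ b, ν b ≤ 1 → (∀ x, |(pt x).1| ≤ A) → (∀ b, |sl b| ≤ A) →
        KfFrost μ pt (ρ ^ (-η)) d ρ → KfFrost ν sl (ρ ^ (-η)) s ρ →
        ∀ (G : Finset (X × T)) (M : ℕ) (cov : T → Finset ℝ), ρ ^ η ≤ ∑ p ∈ G, μ p.1 * ν p.2 →
          (∀ b, (cov b).card ≤ M) →
          (∀ b, KfCov (cov b) ρ {t | ∃ x, (x, b) ∈ G ∧ t = kfProj (sl b) (pt x)}) →
          ρ ^ (-(min 1 (d + s - 1)) + α) ≤ M := by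
  have hη : 0 < α / 7 := by positivity
  have hK1 := fa_CF_one_le hA hd hs
  have hK : 0 ≤ faCF A d s := by linarith
  obtain ⟨ρ₁, hρ₁0, hρ₁1, hab⟩ := kf_log_absorb (faCF A d s) (α / 7) hK hη
  refine ⟨α / 7, hη, ρ₁, hρ₁0,
    fun ρ hρ0 hρ1 X T _ _ μ ν pt sl hμ0 hν0 hμ1 hν1 hpt hsl hFμ hFν G M cov hq hM hcov => ?_⟩
  have hρle : ρ ≤ 1 := by linarith
  obtain ⟨J, hJ1, hJ2⟩ := kf_exists_J hρ0 hρle
  have hC : 1 ≤ ρ ^ (-(α / 7)) := one_le_rpow_of_pos_of_le_one_of_nonpos hρ0 hρle (by linarith)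
  have hmain := fa_falconer μ ν pt sl hμ0 hν0 hμ1 hν1 hA hpt hsl hC hC hd hs hρ0 hρle hFμ hFν J hJ1 hJ2 G M cov hM hcov
  have hW := hab ρ hρ0 hρ1 J hJ2
  have hP : 0 < ρ ^ (α / 7) := rpow_pos_of_pos hρ0 _
  have hQ : 0 < ρ ^ min 1 (d + s - 1) := rpow_pos_of_pos hρ0 _
  have e1 : ρ ^ (-(α / 7)) = (ρ ^ (α / 7))⁻¹ := rpow_neg hρ0.le _
  have e2 : ρ ^ (-(min 1 (d + s - 1)) + α) = (ρ ^ min 1 (d + s - 1))⁻¹ * (ρ ^ (α / 7)) ^ 7 := by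
    rw [rpow_add hρ0, rpow_neg hρ0.le]
    congr 1
    rw [← rpow_mul_natCast hρ0.le]
    congr 1
    push_cast
    ring
  rw [e1] at hmain
  rw [e2]
  set P := ρ ^ (α / 7) with hPdef
  set Q := ρ ^ min 1 (d + s - 1) with hQdef
  set K := faCF A d s with hKdef
  have hJ0 : (0 : ℝ) ≤ (J : ℝ) + 1 := by positivity
  have hM0 : (0 : ℝ) ≤ M := Nat.cast_nonneg _
  -- `K (J+1)^3 P^3 ≤ 1`
  have h3 : K * ((J : ℝ) + 1) ^ 3 * P ^ 3 ≤ 1 := by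
    have h4 : 0 ≤ ((J : ℝ) + 1) * K * P := by positivity
    have h5 : (((J : ℝ) + 1) * K * P) ^ 3 ≤ 1 := pow_le_one₀ h4 hW
    have h6 : K * ((J : ℝ) + 1) ^ 3 * P ^ 3 ≤ (((J : ℝ) + 1) * K * P) ^ 3 := by
      have h7 : (((J : ℝ) + 1) * K * P) ^ 3 = K ^ 3 * (((J : ℝ) + 1) ^ 3 * P ^ 3) := by ring
      have h8 : K ≤ K ^ 3 := by
        have : 1 ≤ K ^ 2 := one_le_pow₀ hK1
        nlinarith
      rw [h7, mul_assoc]
      exact mul_le_mul_of_nonneg_right h8 (by positivity)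
    exact h6.trans h5
  have h1 : P ^ 2 ≤ M * (K * ((J : ℝ) + 1) ^ 3 * P⁻¹ * P⁻¹ * Q) :=
    le_trans (pow_le_pow_left₀ hP.le hq 2) hmain
  have h4 : P ^ 7 ≤ M * Q := by
    have h5 : P ^ 2 * P ^ 5 ≤ M * (K * ((J : ℝ) + 1) ^ 3 * P⁻¹ * P⁻¹ * Q) * P ^ 5 :=
      mul_le_mul_of_nonneg_right h1 (by positivity)
    have h6 : M * (K * ((J : ℝ) + 1) ^ 3 * P⁻¹ * P⁻¹ * Q) * P ^ 5 = M * Q * (K * ((J : ℝ) + 1) ^ 3 * P ^ 3) := by
      field_simp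
    have h7 : M * Q * (K * ((J : ℝ) + 1) ^ 3 * P ^ 3) ≤ M * Q * 1 := mul_le_mul_of_nonneg_left h3 (by positivity)
    calc P ^ 7 = P ^ 2 * P ^ 5 := by ring
      _ ≤ M * Q * (K * ((J : ℝ) + 1) ^ 3 * P ^ 3) := by rw [← h6]; exact h5
      _ ≤ M * Q := by rw [mul_one] at h7; exact h7
  rw [inv_mul_le_iff₀ hQ, mul_comm Q]
  exact h4

end Claimed.Agent.RW
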