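import Mathlib

/-!
# Team RW.  Unit K: Kaufman's projection estimate (exponent `min d s`), robust graph form.      Architect + prover: helper117.  Prefix `kf`.  SORRY-FREE.

FORMAT = Bochner-Riesz paper, Section 3, Theorem "Weighted projection bound with parameter tags" (`thm:planar-projection`), with the exponent
`min{1,d,(d+s)/2}` replaced by `min{d,s}`:  finite weighted populations of points `pt x ∈ ℝ²` (weights `μ`) and of tags `b` with slopes `sl b` (weights `ν`; different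
tags may share a slope), `π_a (x₁,x₂) = x₂ - a x₁`, an ARBITRARY incidence graph `G ⊆ X × T`, every tag covers the projections of its neighbours by `≤ M` intervals of length `ρ`.
Balls of `ℝ × ℝ` are SQUARES (sup metric of `ℝ × ℝ`); a euclidean ball hypothesis gives `KfFrost` with the constant multiplied by `2^(d/2)`.
A bounded factor `λ_b ∈ [1/Λ, Λ]` in front of `π` is absorbed by applying the theorems at the scale `Λ ρ`.

EXPORTS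
* `kf_cs`        : (one tag) `μ(K')² ≤ N · kfEn`  for every `K'` whose projection is covered by `N` intervals of length `ρ`  (Cauchy-Schwarz).
* `kf_energy`    : `∑_b ν b · kfEn (sl b) ≤ (J+1) (4A)^s 2^d Cμ Cν ρ^(min d s)`      (second moment; `1 ≤ 2^J ρ ≤ 2`).
* `kf_good_tags` : Markov: all tags outside a set of `ν`-mass `≤ 1/λ` have `kfEn ≤ λ ·` (the bound).
* `kf_graph`     : `(μ×ν)(G)² ≤ M ∑_b ν b · kfEn (sl b)`  (no Frostman hypothesis; also used by unit F).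
* `kf_kaufman`   : explicit graph form  `(μ×ν)(G)² ≤ M (J+1) (4A)^s 2^d Cμ Cν ρ^(min d s)`.
* `kf_planar`    : the `∃ η ρ₁` form of the paper.

PROOFS.
`kf_collision`: `(u,v) = pt x - pt y`, `Δ = max |u| |v|`.  If `|v - a u| ≤ ρ`, `|a| ≤ A`, `1 ≤ A`, `2ρ ≤ Δ` then `Δ ≤ ρ + A|u|`, so `|u| ≥ Δ/(2A)` and `|a - v/u| ≤ ρ/|u| ≤ 2Aρ/Δ`.
`kf_energy_pt`: fix `x`; shells `B_j = {y : dist ≤ 2^j ρ}` (`j < J`), `B_J` = everything; `μ(B_j) ≤ Cμ (2^j ρ)^d` (for radii `≥ 1`: total mass `≤ 1 ≤ Cμ r^d`);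
 for `y ∉ B_(j-1)` the collision set has `ν`-mass `≤ Cν (4A/2^j)^s` (trivial if `4A/2^j ≥ 1`; `4A/2^j ≥ 2Aρ ≥ ρ`).   `(ρ/R)^s R^d ≤ 2^d ρ^(min d s)` for `ρ ≤ R ≤ 2`.
`kf_cs`: choose for every `x ∈ K'` one interval `i(x)`; `μ(K') = ∑_i μ(K'_i)`, Cauchy-Schwarz, `∑_i μ(K'_i)² ≤` energy since `i(x) = i(y)` implies `|π x - π y| ≤ ρ`.
`kf_kaufman`: `q = ∑_b ν b μ(G_b) ≤ ∑_b ν b √(M kfEn_b)`, Cauchy-Schwarz in `b` (`∑ ν ≤ 1`).
`kf_planar`: `η = α/5`; `2^J ≤ 2/ρ`, so `(J+1) (4A)^s 2^d ≤ ρ^(-η)` for small `ρ`.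
-/

set_option autoImplicit false

namespace Claimed.Agent.RW

open Finset

/-- the projection `π_a (x₁,x₂) = x₂ - a x₁` -/
def kfProj (a : ℝ) (x : ℝ × ℝ) : ℝ := x.2 - a * x.1

/-- Frostman condition `w(B(z,r)) ≤ C r^e`, `ρ ≤ r ≤ 1`, for a finite weighted population in a metric space -/
def KfFrost {ι Y : Type} [Fintype ι] [PseudoMetricSpace Y] (w : ι → ℝ) (pos : ι → Y) (C e ρ : ℝ) : Prop :=
  ∀ (z : Y) (r : ℝ), ρ ≤ r → r ≤ 1 → ∑ i with dist (pos i) z ≤ r, w i ≤ C * r ^ e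

/-- collision energy of the projection `π_a` at scale `ρ` -/
noncomputable def kfEn {X : Type} [Fintype X] (μ : X → ℝ) (pt : X → ℝ × ℝ) (a ρ : ℝ) : ℝ :=
  ∑ x, ∑ y with |kfProj a (pt x) - kfProj a (pt y)| ≤ ρ, μ x * μ y

/-- `S` is covered by the intervals `[e, e+ρ]`, `e ∈ cov` -/
def KfCov (cov : Finset ℝ) (ρ : ℝ) (S : Set ℝ) : Prop := ∀ t ∈ S, ∃ e ∈ cov, e ≤ t ∧ t ≤ e + ρ

/-- the Frostman bound for all radii `≥ ρ` -/
theorem kf_frost_ext {ι Y : Type} [Fintype ι] [PseudoMetricSpace Y] {w : ι → ℝ} {pos : ι → Y} {C e ρ : ℝ}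
    (hw0 : ∀ i, 0 ≤ w i) (hw1 : ∑ i, w i ≤ 1) (hC : 1 ≤ C) (he : 0 ≤ e) (hF : KfFrost w pos C e ρ) (z : Y) (r : ℝ)
    (hr : ρ ≤ r) : ∑ i with dist (pos i) z ≤ r, w i ≤ C * r ^ e := by
  by_cases h1 : r ≤ 1
  · exact hF z r hr h1
  · push Not at h1
    have h2 : ∑ i with dist (pos i) z ≤ r, w i ≤ ∑ i, w i :=
      Finset.sum_le_sum_of_subset_of_nonneg (Finset.filter_subset _ _) fun i _ _ => hw0 i
    have h3 : 1 ≤ r ^ e := Real.one_le_rpow h1.le he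
    nlinarith

/-- the tags for which two far points collide have slopes in a short interval -/
theorem kf_collision {T : Type} [Fintype T] {ν : T → ℝ} {sl : T → ℝ} (hν0 : ∀ b, 0 ≤ ν b) {A Cν s ρ : ℝ} (hA : 1 ≤ A)
    (hsl : ∀ b, |sl b| ≤ A) (hρ : 0 < ρ)
    (hF : ∀ (z r : ℝ), ρ ≤ r → ∑ b with dist (sl b) z ≤ r, ν b ≤ Cν * r ^ s) {p q : ℝ × ℝ} {t : ℝ}
    (hΔ : 2 * ρ ≤ dist p q) (ht : 2 * A * ρ ≤ t * dist p q) (hρt : ρ ≤ t) :
    ∑ b with |kfProj (sl b) p - kfProj (sl b) q| ≤ ρ, ν b ≤ Cν * t ^ s := by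
  refine le_trans (Finset.sum_le_sum_of_subset_of_nonneg ?_ fun i _ _ => hν0 i) (hF ((p.2 - q.2) / (p.1 - q.1)) t hρt)
  intro b hb
  rw [Finset.mem_filter] at hb ⊢
  refine ⟨hb.1, ?_⟩
  have hb2 : |(p.2 - q.2) - sl b * (p.1 - q.1)| ≤ ρ := by
    have h0 : kfProj (sl b) p - kfProj (sl b) q = (p.2 - q.2) - sl b * (p.1 - q.1) := by
      unfold kfProj
      ring
    rw [← h0]
    exact hb.2
  set u := p.1 - q.1 with hu
  set v := p.2 - q.2 with hv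
  have hdist : dist p q = max |u| |v| := by
    rw [Prod.dist_eq, Real.dist_eq, Real.dist_eq]
  have hau : |sl b * u| ≤ A * |u| := by
    rw [abs_mul]
    exact mul_le_mul_of_nonneg_right (hsl b) (abs_nonneg u)
  have hv1 : |v| ≤ ρ + A * |u| := by
    have h1 : |v| ≤ |v - sl b * u| + |sl b * u| := by
      have := abs_add_le (v - sl b * u) (sl b * u)
      simpa using this
    linarith
  have hu1 : |u| ≤ ρ + A * |u| := by
    have := abs_nonneg u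
    nlinarith
  have hΔ1 : dist p q ≤ ρ + A * |u| := by
    rw [hdist]
    exact max_le hu1 hv1
  have hApos : 0 < A := by linarith
  have hupos : 0 < |u| := by
    by_contra h
    have h0 : |u| = 0 := le_antisymm (not_lt.1 h) (abs_nonneg u)
    rw [h0] at hΔ1
    linarith
  have hune : u ≠ 0 := abs_pos.1 hupos
  rw [Real.dist_eq]
  have h2 : sl b - v / u = -((v - sl b * u) / u) := by
    field_simp
    ring
  rw [h2, abs_neg, abs_div, div_le_iff₀ hupos]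
  refine le_trans hb2 ?_
  have ht0 : 0 ≤ t := by linarith
  have h3 : t * dist p q ≤ t * (ρ + A * |u|) := mul_le_mul_of_nonneg_left hΔ1 ht0
  have h4 : t * (2 * ρ) ≤ t * dist p q := mul_le_mul_of_nonneg_left hΔ ht0
  -- `t Δ ≤ 2 t A |u|`
  have h5 : t * dist p q ≤ 2 * (t * (A * |u|)) := by nlinarith
  have h6 : 2 * A * ρ ≤ 2 * A * (t * |u|) := by nlinarith
  have h7 : ρ ≤ t * |u| := le_of_mul_le_mul_left h6 (by positivity)
  exact h7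

/-- summation over a cover by shells -/
theorem kf_shell {X : Type} [Fintype X] [DecidableEq X] {μ g : X → ℝ} (hμ0 : ∀ x, 0 ≤ μ x) (J : ℕ) (B : ℕ → Finset X)
    (c m : ℕ → ℝ) (hc : ∀ j, 0 ≤ c j) (hB : ∀ j, j ≤ J → ∑ y ∈ B j, μ y ≤ m j)
    (hg : ∀ y, ∃ j, j ≤ J ∧ y ∈ B j ∧ g y ≤ c j) :
    ∑ y, μ y * g y ≤ ∑ j ∈ range (J + 1), c j * m j := by
  have h1 : ∀ y, μ y * g y ≤ ∑ j ∈ range (J + 1), if y ∈ B j then c j * μ y else 0 := by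
    intro y
    obtain ⟨j, hj, hy, hgy⟩ := hg y
    have h2 : (if y ∈ B j then c j * μ y else 0) ≤ ∑ j ∈ range (J + 1), if y ∈ B j then c j * μ y else 0 :=
      Finset.single_le_sum (f := fun j => if y ∈ B j then c j * μ y else 0)
        (fun k _ => by
          split_ifs
          · exact mul_nonneg (hc k) (hμ0 y)
          · exact le_rfl) (Finset.mem_range.2 (by omega))
    rw [if_pos hy] at h2
    refine le_trans ?_ h2
    rw [mul_comm]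
    exact mul_le_mul_of_nonneg_right hgy (hμ0 y)
  refine le_trans (Finset.sum_le_sum fun y _ => h1 y) ?_
  rw [Finset.sum_comm]
  refine Finset.sum_le_sum fun j hj => ?_
  rw [← Finset.sum_filter, Finset.filter_mem_eq_inter, Finset.univ_inter, ← Finset.mul_sum]
  exact mul_le_mul_of_nonneg_left (hB j (by have := Finset.mem_range.1 hj; omega)) (hc j)

theorem kf_pow {ρ R d s : ℝ} (hd : 0 ≤ d) (hs : 0 ≤ s) (hρ : 0 < ρ) (h1 : ρ ≤ R) (h2 : R ≤ 2) :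
    (ρ / R) ^ s * R ^ d ≤ 2 ^ d * ρ ^ min d s := by
  have hR : 0 < R := lt_of_lt_of_le hρ h1
  have hm0 : 0 ≤ min d s := le_min hd hs
  have hq0 : 0 < ρ / R := div_pos hρ hR
  have hq1 : ρ / R ≤ 1 := (div_le_one hR).2 h1
  have e1 : (ρ / R) ^ s ≤ (ρ / R) ^ min d s := Real.rpow_le_rpow_of_exponent_ge hq0 hq1 (min_le_right d s)
  have e2 : R ^ d = R ^ min d s * R ^ (d - min d s) := by
    rw [← Real.rpow_add hR]
    congr 1
    ring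
  have e3 : R ^ (d - min d s) ≤ 2 ^ (d - min d s) :=
    Real.rpow_le_rpow hR.le h2 (by linarith [min_le_left d s])
  have e4 : (2 : ℝ) ^ (d - min d s) ≤ 2 ^ d :=
    Real.rpow_le_rpow_of_exponent_le (by norm_num) (by linarith)
  have e5 : (ρ / R) ^ min d s * R ^ min d s = ρ ^ min d s := by
    rw [← Real.mul_rpow hq0.le hR.le, div_mul_cancel₀ _ hR.ne']
  have p1 : 0 ≤ R ^ d := Real.rpow_nonneg hR.le _
  have p2 : 0 ≤ ρ ^ min d s := Real.rpow_nonneg hρ.le _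
  calc (ρ / R) ^ s * R ^ d ≤ (ρ / R) ^ min d s * R ^ d := mul_le_mul_of_nonneg_right e1 p1
    _ = ρ ^ min d s * R ^ (d - min d s) := by rw [e2, ← mul_assoc, e5]
    _ ≤ ρ ^ min d s * 2 ^ d := mul_le_mul_of_nonneg_left (e3.trans e4) p2
    _ = 2 ^ d * ρ ^ min d s := mul_comm _ _

/-- second moment, one base point -/
theorem kf_energy_pt {X T : Type} [Fintype X] [Fintype T] (μ : X → ℝ) (ν : T → ℝ) (pt : X → ℝ × ℝ) (sl : T → ℝ)
    (hμ0 : ∀ x, 0 ≤ μ x) (hν0 : ∀ b, 0 ≤ ν b)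
    (hμ1 : ∑ x, μ x ≤ 1) (hν1 : ∑ b, ν b ≤ 1) {A Cμ Cν d s ρ : ℝ} (hA : 1 ≤ A) (hsl : ∀ b, |sl b| ≤ A)
    (hCμ : 1 ≤ Cμ) (hCν : 1 ≤ Cν) (hd : 0 ≤ d) (hs : 0 ≤ s) (hρ : 0 < ρ) (hFμ : KfFrost μ pt Cμ d ρ)
    (hFν : KfFrost ν sl Cν s ρ) (J : ℕ) (hJ1 : 1 ≤ 2 ^ J * ρ) (hJ2 : 2 ^ J * ρ ≤ 2) (x : X) :
    ∑ y, μ y * ∑ b with |kfProj (sl b) (pt x) - kfProj (sl b) (pt y)| ≤ ρ, ν b ≤
      (J + 1) * (4 * A) ^ s * 2 ^ d * Cμ * Cν * ρ ^ min d s := by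
  classical
  have hEμ := kf_frost_ext hμ0 hμ1 hCμ hd hFμ
  have hEν := kf_frost_ext hν0 hν1 hCν hs hFν
  have hA0 : 0 < A := by linarith
  have hpow : ∀ j : ℕ, (0 : ℝ) < 2 ^ j := fun j => by positivity
  have hmain := kf_shell (μ := μ)
    (g := fun y => ∑ b with |kfProj (sl b) (pt x) - kfProj (sl b) (pt y)| ≤ ρ, ν b) hμ0 J
    (fun j => if j < J then univ.filter (fun y => dist (pt y) (pt x) ≤ 2 ^ j * ρ) else univ)
    (fun j => Cν * (4 * A / 2 ^ j) ^ s) (fun j => Cμ * (2 ^ j * ρ) ^ d)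
    (fun j => mul_nonneg (by linarith) (Real.rpow_nonneg (by positivity) _)) ?_ ?_
  · refine le_trans hmain ?_
    have hterm : ∀ j ∈ range (J + 1), Cν * (4 * A / 2 ^ j) ^ s * (Cμ * (2 ^ j * ρ) ^ d) ≤
        (4 * A) ^ s * 2 ^ d * Cμ * Cν * ρ ^ min d s := by
      intro j hj
      have hjJ : j ≤ J := by have := Finset.mem_range.1 hj; omega
      have h1 : ρ ≤ 2 ^ j * ρ := by
        have : (1 : ℝ) ≤ 2 ^ j := one_le_pow₀ (by norm_num)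
        nlinarith
      have h2 : (2 : ℝ) ^ j * ρ ≤ 2 := by
        have : (2 : ℝ) ^ j ≤ 2 ^ J := pow_le_pow_right₀ (by norm_num) hjJ
        nlinarith
      have h3 := kf_pow hd hs hρ h1 h2
      have h4 : 4 * A / 2 ^ j = 4 * A * (ρ / (2 ^ j * ρ)) := by
        field_simp
      rw [h4, Real.mul_rpow (by positivity) (by positivity)]
      have h5 : 0 ≤ (4 * A) ^ s * Cμ * Cν := by
        have := Real.rpow_nonneg (show (0 : ℝ) ≤ 4 * A by positivity) s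
        positivity
      calc Cν * ((4 * A) ^ s * (ρ / (2 ^ j * ρ)) ^ s) * (Cμ * (2 ^ j * ρ) ^ d)
          = (4 * A) ^ s * Cμ * Cν * ((ρ / (2 ^ j * ρ)) ^ s * (2 ^ j * ρ) ^ d) := by ring
        _ ≤ (4 * A) ^ s * Cμ * Cν * (2 ^ d * ρ ^ min d s) := mul_le_mul_of_nonneg_left h3 h5
        _ = (4 * A) ^ s * 2 ^ d * Cμ * Cν * ρ ^ min d s := by ring
    refine le_trans (Finset.sum_le_sum hterm) ?_
    rw [Finset.sum_const, Finset.card_range, nsmul_eq_mul]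
    push_cast
    apply le_of_eq
    ring
  · intro j hj
    split_ifs with hjJ
    · refine hEμ (pt x) _ ?_
      have : (1 : ℝ) ≤ 2 ^ j := one_le_pow₀ (by norm_num)
      nlinarith
    · have hjJ' : j = J := by omega
      subst hjJ'
      have h3 : 1 ≤ ((2 : ℝ) ^ j * ρ) ^ d := Real.one_le_rpow hJ1 hd
      nlinarith
  · intro y
    have hex : ∃ j, y ∈ (if j < J then univ.filter (fun y => dist (pt y) (pt x) ≤ 2 ^ j * ρ) else univ) :=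
      ⟨J, by simp⟩
    have hjJ : Nat.find hex ≤ J := Nat.find_min' hex (by simp)
    refine ⟨Nat.find hex, hjJ, Nat.find_spec hex, ?_⟩
    set j := Nat.find hex with hjdef
    have htriv : ∑ b with |kfProj (sl b) (pt x) - kfProj (sl b) (pt y)| ≤ ρ, ν b ≤ 1 :=
      le_trans (Finset.sum_le_sum_of_subset_of_nonneg (Finset.filter_subset _ _) fun i _ _ => hν0 i) hν1
    by_cases ht : 1 ≤ 4 * A / 2 ^ j
    · have h3 : 1 ≤ (4 * A / 2 ^ j) ^ s := Real.one_le_rpow ht hs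
      nlinarith
    · push Not at ht
      rw [div_lt_one (hpow j)] at ht
      have hj1 : 1 ≤ j := by
        by_contra h
        have h0 : j = 0 := by omega
        rw [h0] at ht
        norm_num at ht
        linarith
      obtain ⟨i, hi⟩ : ∃ i, j = i + 1 := ⟨j - 1, by omega⟩
      have hnot := Nat.find_min hex (m := i) (by omega)
      rw [if_pos (by omega)] at hnot
      simp only [Finset.mem_filter, Finset.mem_univ, true_and, not_le] at hnot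
      rw [hi, pow_succ] at ht
      have hdist : dist (pt x) (pt y) = dist (pt y) (pt x) := dist_comm _ _
      have h2i : (2 : ℝ) ≤ 2 ^ i := by nlinarith
      refine kf_collision hν0 hA hsl hρ hEν ?_ ?_ ?_
      · rw [hdist]
        nlinarith
      · rw [hdist, hi, pow_succ]
        have h5 : 4 * A / (2 ^ i * 2) * (2 ^ i * ρ) = 2 * A * ρ := by
          field_simp
          ring
        rw [← h5]
        exact mul_le_mul_of_nonneg_left hnot.le (by positivity)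
      · rw [le_div_iff₀ (hpow j)]
        have h6 : (2 : ℝ) ^ j ≤ 2 ^ J := pow_le_pow_right₀ (by norm_num) hjJ
        nlinarith

/-- **second moment** -/
theorem kf_energy {X T : Type} [Fintype X] [Fintype T] (μ : X → ℝ) (ν : T → ℝ) (pt : X → ℝ × ℝ) (sl : T → ℝ) (hμ0 : ∀ x, 0 ≤ μ x) (hν0 : ∀ b, 0 ≤ ν b)
    (hμ1 : ∑ x, μ x ≤ 1) (hν1 : ∑ b, ν b ≤ 1) {A Cμ Cν d s ρ : ℝ} (hA : 1 ≤ A) (hsl : ∀ b, |sl b| ≤ A)
    (hCμ : 1 ≤ Cμ) (hCν : 1 ≤ Cν) (hd : 0 ≤ d) (hs : 0 ≤ s) (hρ : 0 < ρ) (hFμ : KfFrost μ pt Cμ d ρ)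
    (hFν : KfFrost ν sl Cν s ρ) (J : ℕ) (hJ1 : 1 ≤ 2 ^ J * ρ) (hJ2 : 2 ^ J * ρ ≤ 2) :
    ∑ b, ν b * kfEn μ pt (sl b) ρ ≤ (J + 1) * (4 * A) ^ s * 2 ^ d * Cμ * Cν * ρ ^ min d s := by
  have hpt := kf_energy_pt μ ν pt sl hμ0 hν0 hμ1 hν1 hA hsl hCμ hCν hd hs hρ hFμ hFν J hJ1 hJ2
  have hB0 : 0 ≤ (J + 1) * (4 * A) ^ s * 2 ^ d * Cμ * Cν * ρ ^ min d s := by
    have h1 := Real.rpow_nonneg (show (0 : ℝ) ≤ 4 * A by linarith) s
    have h2 := Real.rpow_nonneg (show (0 : ℝ) ≤ 2 by norm_num) d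
    have h3 := Real.rpow_nonneg hρ.le (min d s)
    have h4 : 0 ≤ Cμ := by linarith
    have h5 : 0 ≤ Cν := by linarith
    positivity
  have hre : ∑ b, ν b * kfEn μ pt (sl b) ρ =
      ∑ x, μ x * ∑ y, μ y * ∑ b with |kfProj (sl b) (pt x) - kfProj (sl b) (pt y)| ≤ ρ, ν b := by
    unfold kfEn
    simp only [Finset.sum_filter, Finset.mul_sum]
    rw [Finset.sum_comm]
    refine Finset.sum_congr rfl fun x _ => ?_
    rw [Finset.sum_comm]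
    refine Finset.sum_congr rfl fun y _ => ?_
    refine Finset.sum_congr rfl fun b _ => ?_
    split_ifs
    · ring
    · simp
  rw [hre]
  calc ∑ x, μ x * ∑ y, μ y * ∑ b with |kfProj (sl b) (pt x) - kfProj (sl b) (pt y)| ≤ ρ, ν b
      ≤ ∑ x, μ x * ((J + 1) * (4 * A) ^ s * 2 ^ d * Cμ * Cν * ρ ^ min d s) :=
        Finset.sum_le_sum fun x _ => mul_le_mul_of_nonneg_left (hpt x) (hμ0 x)
    _ = (∑ x, μ x) * ((J + 1) * (4 * A) ^ s * 2 ^ d * Cμ * Cν * ρ ^ min d s) := by rw [Finset.sum_mul]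
    _ ≤ 1 * ((J + 1) * (4 * A) ^ s * 2 ^ d * Cμ * Cν * ρ ^ min d s) := mul_le_mul_of_nonneg_right hμ1 hB0
    _ = _ := one_mul _

theorem kf_en_nonneg {X : Type} [Fintype X] {μ : X → ℝ} (hμ0 : ∀ x, 0 ≤ μ x) (pt : X → ℝ × ℝ) (a ρ : ℝ) :
    0 ≤ kfEn μ pt a ρ :=
  Finset.sum_nonneg fun x _ => Finset.sum_nonneg fun y _ => mul_nonneg (hμ0 x) (hμ0 y)

/-- **one tag**: Cauchy-Schwarz -/
theorem kf_cs {X : Type} [Fintype X] (μ : X → ℝ) (pt : X → ℝ × ℝ) (hμ0 : ∀ x, 0 ≤ μ x) (a ρ : ℝ) (K' : Finset X) (cov : Finset ℝ)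
    (hcov : KfCov cov ρ ((fun x => kfProj a (pt x)) '' (K' : Set X))) :
    (∑ x ∈ K', μ x) ^ 2 ≤ cov.card * kfEn μ pt a ρ := by
  classical
  have hex : ∀ x, ∃ e, x ∈ K' → e ∈ cov ∧ e ≤ kfProj a (pt x) ∧ kfProj a (pt x) ≤ e + ρ := by
    intro x
    by_cases hx : x ∈ K'
    · obtain ⟨e, he, h1, h2⟩ := hcov _ ⟨x, hx, rfl⟩
      exact ⟨e, fun _ => ⟨he, h1, h2⟩⟩
    · exact ⟨0, fun h => absurd h hx⟩
  choose i hi using hex
  have h1 : ∑ x ∈ K', μ x = ∑ e ∈ cov, ∑ x ∈ K' with i x = e, μ x :=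
    (Finset.sum_fiberwise_of_maps_to (fun x hx => (hi x hx).1) _).symm
  rw [h1]
  refine le_trans sq_sum_le_card_mul_sum_sq ?_
  refine mul_le_mul_of_nonneg_left ?_ (Nat.cast_nonneg _)
  have h2 : ∑ e ∈ cov, (∑ x ∈ K' with i x = e, μ x) ^ 2 =
      ∑ x ∈ K', ∑ y ∈ K' with i y = i x, μ x * μ y := by
    rw [← Finset.sum_fiberwise_of_maps_to (s := K') (t := cov) (g := i) (fun x hx => (hi x hx).1)]
    refine Finset.sum_congr rfl fun e _ => ?_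
    rw [sq, Finset.sum_mul_sum]
    refine Finset.sum_congr rfl fun x hx => ?_
    rw [(Finset.mem_filter.1 hx).2]
  rw [h2]
  unfold kfEn
  refine le_trans (Finset.sum_le_sum fun x hx => ?_)
    (Finset.sum_le_sum_of_subset_of_nonneg (Finset.subset_univ K')
      fun x _ _ => Finset.sum_nonneg fun y _ => mul_nonneg (hμ0 x) (hμ0 y))
  refine Finset.sum_le_sum_of_subset_of_nonneg ?_ fun y _ _ => mul_nonneg (hμ0 x) (hμ0 y)
  intro y hy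
  rw [Finset.mem_filter] at hy ⊢
  refine ⟨Finset.mem_univ _, ?_⟩
  have hx' := hi x hx
  have hy' := hi y hy.1
  rw [hy.2] at hy'
  rw [abs_le]
  constructor <;> linarith [hx'.2.1, hx'.2.2, hy'.2.1, hy'.2.2]

/-- **Markov**: most tags have small collision energy -/
theorem kf_good_tags {X T : Type} [Fintype X] [Fintype T] (μ : X → ℝ) (ν : T → ℝ) (pt : X → ℝ × ℝ) (sl : T → ℝ) (hμ0 : ∀ x, 0 ≤ μ x) (hν0 : ∀ b, 0 ≤ ν b)
    (hμ1 : ∑ x, μ x ≤ 1) (hν1 : ∑ b, ν b ≤ 1) {A Cμ Cν d s ρ : ℝ} (hA : 1 ≤ A) (hsl : ∀ b, |sl b| ≤ A)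
    (hCμ : 1 ≤ Cμ) (hCν : 1 ≤ Cν) (hd : 0 ≤ d) (hs : 0 ≤ s) (hρ : 0 < ρ) (hFμ : KfFrost μ pt Cμ d ρ)
    (hFν : KfFrost ν sl Cν s ρ) (J : ℕ) (hJ1 : 1 ≤ 2 ^ J * ρ) (hJ2 : 2 ^ J * ρ ≤ 2) {lam : ℝ} (hlam : 0 < lam) :
    ∑ b with lam * ((J + 1) * (4 * A) ^ s * 2 ^ d * Cμ * Cν * ρ ^ min d s) < kfEn μ pt (sl b) ρ, ν b ≤ 1 / lam := by
  have hE := kf_energy μ ν pt sl hμ0 hν0 hμ1 hν1 hA hsl hCμ hCν hd hs hρ hFμ hFν J hJ1 hJ2
  have hB0 : 0 < (J + 1) * (4 * A) ^ s * 2 ^ d * Cμ * Cν * ρ ^ min d s := by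
    have h1 := Real.rpow_pos_of_pos (show (0 : ℝ) < 4 * A by linarith) s
    have h2 := Real.rpow_pos_of_pos (show (0 : ℝ) < 2 by norm_num) d
    have h3 := Real.rpow_pos_of_pos hρ (min d s)
    have h4 : 0 < Cμ := by linarith
    have h5 : 0 < Cν := by linarith
    positivity
  set B := (J + 1) * (4 * A) ^ s * 2 ^ d * Cμ * Cν * ρ ^ min d s with hB
  have h1 : (∑ b with lam * B < kfEn μ pt (sl b) ρ, ν b) * (lam * B) ≤ ∑ b, ν b * kfEn μ pt (sl b) ρ := by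
    rw [Finset.sum_mul]
    refine le_trans (Finset.sum_le_sum fun b hb => ?_)
      (Finset.sum_le_sum_of_subset_of_nonneg (Finset.filter_subset _ _)
        fun b _ _ => mul_nonneg (hν0 b) (kf_en_nonneg hμ0 pt _ _))
    exact mul_le_mul_of_nonneg_left (Finset.mem_filter.1 hb).2.le (hν0 b)
  rw [le_div_iff₀ hlam]
  have h2 : (∑ b with lam * B < kfEn μ pt (sl b) ρ, ν b) * lam * B ≤ 1 * B := by
    rw [mul_assoc, one_mul]
    exact h1.trans hE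
  exact le_of_mul_le_mul_right h2 hB0

/-- **graph form of Cauchy-Schwarz** (no Frostman hypothesis): `(μ×ν)(G)² ≤ M ∑_b ν_b kfEn_b` -/
theorem kf_graph {X T : Type} [Fintype X] [Fintype T] (μ : X → ℝ) (ν : T → ℝ) (pt : X → ℝ × ℝ) (sl : T → ℝ)
    (hμ0 : ∀ x, 0 ≤ μ x) (hν0 : ∀ b, 0 ≤ ν b) (hν1 : ∑ b, ν b ≤ 1) (ρ : ℝ)
    (G : Finset (X × T)) (M : ℕ) (cov : T → Finset ℝ) (hM : ∀ b, (cov b).card ≤ M)
    (hcov : ∀ b, KfCov (cov b) ρ {t | ∃ x, (x, b) ∈ G ∧ t = kfProj (sl b) (pt x)}) :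
    (∑ p ∈ G, μ p.1 * ν p.2) ^ 2 ≤ M * ∑ b, ν b * kfEn μ pt (sl b) ρ := by
  classical
  have h1 : ∑ p ∈ G, μ p.1 * ν p.2 = ∑ b, ν b * ∑ x with (x, b) ∈ G, μ x := by
    have h0 : ∑ p ∈ G, μ p.1 * ν p.2 = ∑ p : X × T, if p ∈ G then μ p.1 * ν p.2 else 0 := by
      rw [← Finset.sum_filter, Finset.filter_mem_eq_inter, Finset.univ_inter]
    rw [h0, Fintype.sum_prod_type_right]
    refine Finset.sum_congr rfl fun b _ => ?_
    rw [Finset.mul_sum, Finset.sum_filter]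
    refine Finset.sum_congr rfl fun x _ => ?_
    split_ifs
    · ring
    · rfl
  have hcs : ∀ b, (∑ x with (x, b) ∈ G, μ x) ^ 2 ≤ M * kfEn μ pt (sl b) ρ := by
    intro b
    refine le_trans (kf_cs μ pt hμ0 (sl b) ρ (univ.filter fun x => (x, b) ∈ G) (cov b) ?_) ?_
    · intro t ht
      obtain ⟨x, hx, rfl⟩ := ht
      exact hcov b _ ⟨x, (Finset.mem_filter.1 (Finset.mem_coe.1 hx)).2, rfl⟩
    · exact mul_le_mul_of_nonneg_right (by exact_mod_cast hM b) (kf_en_nonneg hμ0 pt _ _)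
  rw [h1]
  have h2 : (∑ b, ν b * ∑ x with (x, b) ∈ G, μ x) ^ 2 ≤
      (∑ b, ν b) * ∑ b, ν b * (∑ x with (x, b) ∈ G, μ x) ^ 2 :=
    Finset.sum_sq_le_sum_mul_sum_of_sq_le_mul _ (fun b _ => hν0 b)
      (fun b _ => mul_nonneg (hν0 b) (sq_nonneg _)) (fun b _ => le_of_eq (by ring))
  have h3 : ∑ b, ν b * (∑ x with (x, b) ∈ G, μ x) ^ 2 ≤ ∑ b, ν b * (M * kfEn μ pt (sl b) ρ) :=
    Finset.sum_le_sum fun b _ => mul_le_mul_of_nonneg_left (hcs b) (hν0 b)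
  have h4 : ∑ b, ν b * (M * kfEn μ pt (sl b) ρ) = M * ∑ b, ν b * kfEn μ pt (sl b) ρ := by
    rw [Finset.mul_sum]
    exact Finset.sum_congr rfl fun b _ => by ring
  have h5 : 0 ≤ ∑ b, ν b * (∑ x with (x, b) ∈ G, μ x) ^ 2 :=
    Finset.sum_nonneg fun b _ => mul_nonneg (hν0 b) (sq_nonneg _)
  calc (∑ b, ν b * ∑ x with (x, b) ∈ G, μ x) ^ 2
      ≤ (∑ b, ν b) * ∑ b, ν b * (∑ x with (x, b) ∈ G, μ x) ^ 2 := h2
    _ ≤ 1 * ∑ b, ν b * (∑ x with (x, b) ∈ G, μ x) ^ 2 := mul_le_mul_of_nonneg_right hν1 h5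
    _ ≤ M * ∑ b, ν b * kfEn μ pt (sl b) ρ := by rw [one_mul, ← h4]; exact h3

/-- **Kaufman, explicit robust graph form** -/
theorem kf_kaufman {X T : Type} [Fintype X] [Fintype T] (μ : X → ℝ) (ν : T → ℝ) (pt : X → ℝ × ℝ) (sl : T → ℝ) (hμ0 : ∀ x, 0 ≤ μ x) (hν0 : ∀ b, 0 ≤ ν b)
    (hμ1 : ∑ x, μ x ≤ 1) (hν1 : ∑ b, ν b ≤ 1) {A Cμ Cν d s ρ : ℝ} (hA : 1 ≤ A) (hsl : ∀ b, |sl b| ≤ A)
    (hCμ : 1 ≤ Cμ) (hCν : 1 ≤ Cν) (hd : 0 ≤ d) (hs : 0 ≤ s) (hρ : 0 < ρ) (hFμ : KfFrost μ pt Cμ d ρ)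
    (hFν : KfFrost ν sl Cν s ρ) (J : ℕ) (hJ1 : 1 ≤ 2 ^ J * ρ) (hJ2 : 2 ^ J * ρ ≤ 2)
    (G : Finset (X × T)) (M : ℕ) (cov : T → Finset ℝ) (hM : ∀ b, (cov b).card ≤ M)
    (hcov : ∀ b, KfCov (cov b) ρ {t | ∃ x, (x, b) ∈ G ∧ t = kfProj (sl b) (pt x)}) :
    (∑ p ∈ G, μ p.1 * ν p.2) ^ 2 ≤ M * ((J + 1) * (4 * A) ^ s * 2 ^ d * Cμ * Cν * ρ ^ min d s) :=
  (kf_graph μ ν pt sl hμ0 hν0 hν1 ρ G M cov hM hcov).trans (mul_le_mul_of_nonneg_left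
    (kf_energy μ ν pt sl hμ0 hν0 hμ1 hν1 hA hsl hCμ hCν hd hs hρ hFμ hFν J hJ1 hJ2) (Nat.cast_nonneg _))

/-- the number of dyadic scales -/
theorem kf_exists_J {ρ : ℝ} (hρ0 : 0 < ρ) (hρ1 : ρ ≤ 1) : ∃ J : ℕ, 1 ≤ 2 ^ J * ρ ∧ 2 ^ J * ρ ≤ 2 := by
  have hex : ∃ J : ℕ, 1 ≤ (2 : ℝ) ^ J * ρ := by
    obtain ⟨J, hJ⟩ := pow_unbounded_of_one_lt (1 / ρ) (show (1 : ℝ) < 2 by norm_num)
    refine ⟨J, ?_⟩
    rw [div_lt_iff₀ hρ0] at hJ
    exact hJ.le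
  classical
  refine ⟨Nat.find hex, Nat.find_spec hex, ?_⟩
  rcases Nat.eq_zero_or_pos (Nat.find hex) with h0 | h0
  · rw [h0]
    simp only [pow_zero, one_mul]
    linarith
  · obtain ⟨i, hi⟩ : ∃ i, Nat.find hex = i + 1 := ⟨Nat.find hex - 1, by omega⟩
    have hnot := Nat.find_min hex (m := i) (by omega)
    rw [hi, pow_succ]
    push Not at hnot
    nlinarith

/-- the logarithmic factor is absorbed by a small power -/
theorem kf_log_absorb (K η : ℝ) (hK : 0 ≤ K) (hη : 0 < η) :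
    ∃ ρ₁ : ℝ, 0 < ρ₁ ∧ ρ₁ ≤ 1 ∧ ∀ ρ : ℝ, 0 < ρ → ρ < ρ₁ → ∀ J : ℕ, 2 ^ J * ρ ≤ 2 → (J + 1) * K * ρ ^ η ≤ 1 := by
  have h1 : Filter.Tendsto (fun x : ℝ => Real.log x * x ^ η) (nhdsWithin 0 (Set.Ioi 0)) (nhds 0) :=
    tendsto_log_mul_rpow_nhdsGT_zero hη
  have h2 : Filter.Tendsto (fun x : ℝ => x ^ η) (nhdsWithin 0 (Set.Ioi 0)) (nhds 0) := by
    have h3 := (Real.continuousAt_rpow_const 0 η (Or.inr hη.le)).tendsto
    rw [Real.zero_rpow hη.ne'] at h3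
    exact tendsto_nhdsWithin_of_tendsto_nhds h3
  have h4 : Filter.Tendsto (fun x : ℝ => 2 * K * x ^ η - K / Real.log 2 * (Real.log x * x ^ η))
      (nhdsWithin 0 (Set.Ioi 0)) (nhds (2 * K * 0 - K / Real.log 2 * 0)) :=
    (h2.const_mul _).sub (h1.const_mul _)
  have h5 : ∀ᶠ x : ℝ in nhdsWithin 0 (Set.Ioi 0), 2 * K * x ^ η - K / Real.log 2 * (Real.log x * x ^ η) < 1 :=
    h4.eventually_lt_const (by norm_num)
  obtain ⟨u, hu, hsub⟩ := mem_nhdsGT_iff_exists_Ioo_subset.1 h5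
  have hu0 : (0 : ℝ) < u := hu
  refine ⟨min u 1, lt_min hu0 one_pos, min_le_right _ _, fun ρ hρ0 hρ1 J hJ => ?_⟩
  have h6 : 2 * K * ρ ^ η - K / Real.log 2 * (Real.log ρ * ρ ^ η) < 1 :=
    hsub ⟨hρ0, lt_of_lt_of_le hρ1 (min_le_left _ _)⟩
  have hl2 : 0 < Real.log 2 := Real.log_pos (by norm_num)
  have h7 : (J : ℝ) * Real.log 2 + Real.log ρ ≤ Real.log 2 := by
    have h8 := Real.log_le_log (by positivity) hJ
    rw [Real.log_mul (by positivity) hρ0.ne', Real.log_pow] at h8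
    exact h8
  have h9 : (J : ℝ) + 1 ≤ 2 - Real.log ρ / Real.log 2 := by
    rw [le_sub_iff_add_le, ← le_sub_iff_add_le', div_le_iff₀ hl2]
    nlinarith
  have hP : 0 ≤ ρ ^ η := Real.rpow_nonneg hρ0.le _
  have h10 : ((J : ℝ) + 1) * K * ρ ^ η ≤ (2 - Real.log ρ / Real.log 2) * K * ρ ^ η :=
    mul_le_mul_of_nonneg_right (mul_le_mul_of_nonneg_right h9 hK) hP
  have h11 : (2 - Real.log ρ / Real.log 2) * K * ρ ^ η =
      2 * K * ρ ^ η - K / Real.log 2 * (Real.log ρ * ρ ^ η) := by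
    field_simp
  linarith

/-- **Kaufman in the format of the paper** (BR Theorem 3.2 with exponent `min d s`) -/
theorem kf_planar (d s α A : ℝ) (hd : 0 ≤ d) (hs : 0 ≤ s) (hα : 0 < α) (hA : 1 ≤ A) :
    ∃ η : ℝ, 0 < η ∧ ∃ ρ₁ : ℝ, 0 < ρ₁ ∧ ∀ ρ : ℝ, 0 < ρ → ρ < ρ₁ →
      ∀ (X T : Type) [Fintype X] [Fintype T] (μ : X → ℝ) (ν : T → ℝ) (pt : X → ℝ × ℝ) (sl : T → ℝ),
        (∀ x, 0 ≤ μ x) → (∀ b, 0 ≤ ν b) → ∑ x, μ x ≤ 1 → ∑ b, ν b ≤ 1 → (∀ b, |sl b| ≤ A) →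
        KfFrost μ pt (ρ ^ (-η)) d ρ → KfFrost ν sl (ρ ^ (-η)) s ρ →
        ∀ (G : Finset (X × T)) (M : ℕ) (cov : T → Finset ℝ), ρ ^ η ≤ ∑ p ∈ G, μ p.1 * ν p.2 →
          (∀ b, (cov b).card ≤ M) →
          (∀ b, KfCov (cov b) ρ {t | ∃ x, (x, b) ∈ G ∧ t = kfProj (sl b) (pt x)}) →
          ρ ^ (-(min d s) + α) ≤ M := by
  have hη : 0 < α / 5 := by positivity
  have hK : 0 ≤ (4 * A) ^ s * 2 ^ d :=
    mul_nonneg (Real.rpow_nonneg (by linarith) _) (Real.rpow_nonneg (by norm_num) _)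
  obtain ⟨ρ₁, hρ₁0, hρ₁1, hab⟩ := kf_log_absorb ((4 * A) ^ s * 2 ^ d) (α / 5) hK hη
  refine ⟨α / 5, hη, ρ₁, hρ₁0, fun ρ hρ0 hρ1 X T _ _ μ ν pt sl hμ0 hν0 hμ1 hν1 hsl hFμ hFν G M cov hq hM hcov => ?_⟩
  have hρle : ρ ≤ 1 := by linarith
  obtain ⟨J, hJ1, hJ2⟩ := kf_exists_J hρ0 hρle
  have hC : 1 ≤ ρ ^ (-(α / 5)) := Real.one_le_rpow_of_pos_of_le_one_of_nonpos hρ0 hρle (by linarith)
  have hmain := kf_kaufman μ ν pt sl hμ0 hν0 hμ1 hν1 hA hsl hC hC hd hs hρ0 hFμ hFν J hJ1 hJ2 G M cov hM hcov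
  have hW := hab ρ hρ0 hρ1 J hJ2
  have hP : 0 < ρ ^ (α / 5) := Real.rpow_pos_of_pos hρ0 _
  have hQ : 0 < ρ ^ min d s := Real.rpow_pos_of_pos hρ0 _
  have e1 : ρ ^ (-(α / 5)) = (ρ ^ (α / 5))⁻¹ := Real.rpow_neg hρ0.le _
  have e2 : ρ ^ (-(min d s) + α) = (ρ ^ min d s)⁻¹ * (ρ ^ (α / 5)) ^ 5 := by
    rw [Real.rpow_add hρ0, Real.rpow_neg hρ0.le]
    congr 1
    rw [← Real.rpow_mul_natCast hρ0.le]
    congr 1
    push_cast
    ring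
  rw [e1] at hmain
  rw [e2]
  set P := ρ ^ (α / 5) with hPdef
  set Q := ρ ^ min d s with hQdef
  set W := ((J : ℝ) + 1) * ((4 * A) ^ s * 2 ^ d) with hWdef
  have hW0 : 0 ≤ W := mul_nonneg (by positivity) hK
  have h1 : P ^ 2 ≤ M * (W * P⁻¹ * P⁻¹ * Q) := by
    have h2 : P ^ 2 ≤ (∑ p ∈ G, μ p.1 * ν p.2) ^ 2 := pow_le_pow_left₀ hP.le hq 2
    refine le_trans h2 (le_trans hmain (le_of_eq ?_))
    rw [hWdef]
    ring
  have h3 : W * P ≤ 1 := hW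
  have hM0 : (0 : ℝ) ≤ M := Nat.cast_nonneg _
  -- `P^5 ≤ M Q`
  have h4 : P ^ 5 ≤ M * Q := by
    have h5 : P ^ 2 * P ^ 3 ≤ M * (W * P⁻¹ * P⁻¹ * Q) * P ^ 3 := mul_le_mul_of_nonneg_right h1 (by positivity)
    have h6 : M * (W * P⁻¹ * P⁻¹ * Q) * P ^ 3 = M * Q * (W * P) := by
      field_simp
    have h7 : M * Q * (W * P) ≤ M * Q * 1 := mul_le_mul_of_nonneg_left h3 (by positivity)
    calc P ^ 5 = P ^ 2 * P ^ 3 := by ring
      _ ≤ M * Q * (W * P) := by rw [← h6]; exact h5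
      _ ≤ M * Q := by rw [mul_one] at h7; exact h7
  rw [inv_mul_le_iff₀ hQ, mul_comm Q]
  exact h4

end Claimed.Agent.RW
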