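import Claimed.Agent.RW.Sabc
import Claimed.Agent.RW.Kaufman

/-!
# Team RW.  Unit W1 (prefix `w1`): the real-variable export `ex_W1` from the integer theorem `sabc_main`.     Architect: helper69.

`w1_main` = `ex_W1` of `Export.lean` with `ExTest` unpacked.

## Discretisation  (`D = 2^n`, `10 A² < ρ D ≤ 20 A²`)
  `b̃ = (x₁+A)/(4A) ∈ [0,1/2]`,  `c̃ = (A - sl)/(4A) ∈ [0,1/2]`,  `ã = (x₂ - A (x₁+A))/(16A²)`   (shear);
  IDENTITY  `(x₂ - sl x₁)/(16A²) = ã + c̃ b̃ + sl/(16A)`.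
  `b = ⌊D b̃⌋₊ = w1b`, `c = ⌊D c̃⌋₊ = w1c`, `a = ⌊D ã⌋ = w1a`;  `w1q = (a,b)`;  `w1z b = -A + 4A (b+1/2)/D` = centre of the `x₁`-cell `b`.
* `w1_approx` : `|a + ecb n c b - (D v/(16A²) - D sl/(16A))| ≤ 3`, `v = kfProj sl p`.
* `w1_count`  : an interval of length `ρ` of values `v` gives `≤ 8` integers (`D ρ/(16A²) ≤ 5/4`): the integer image has `≤ 8 M` elements.
* `w1_square` : the fibre of `w1q` through `p` lies in ONE closed `ρ`-square whose centre has first coordinate `w1z b`.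
   So `lamS (a,b) := μ(fibre) ≤ ρ^(σ-χ) Λ b`, `Λ b := lam {j : |xr j - w1z b| ≤ Aρ}`.
* `w1_lam_frost` : `∑_{b in a dyadic cell of level l} Λ b ≤ C₁ C 2^(-min(β,1) l)`  (every `j` is counted `≤ 10A²+1` times: `w1_overlap`; interval covering: `w1_interval`).
   `μB := Λ/(C₁ ρ^(-χ))`.
* `w1_nu_frost`  : the same for the tags.
* `w1_mass`      : the push-forward graph has at least the mass of `G`.
* `w1_pow`       : conversions between powers of `ρ` and of `2^n`.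
* `w1_core`      : GLUE at one scale.     `w1_main` : choice of `χ = χS/4`, `ρ₁`, `n`.
-/

set_option autoImplicit false

open Finset

namespace Claimed.Agent.RW

/-- integer first coordinate -/
noncomputable def w1b (A : ℝ) (n : ℕ) (p : ℝ × ℝ) : ℕ := ⌊(2 : ℝ) ^ n * ((p.1 + A) / (4 * A))⌋₊

/-- integer slope -/
noncomputable def w1c (A : ℝ) (n : ℕ) (s : ℝ) : ℕ := ⌊(2 : ℝ) ^ n * ((A - s) / (4 * A))⌋₊

/-- integer sheared second coordinate -/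
noncomputable def w1a (A : ℝ) (n : ℕ) (p : ℝ × ℝ) : ℤ := ⌊(2 : ℝ) ^ n * ((p.2 - A * (p.1 + A)) / (16 * A ^ 2))⌋

/-- the cell of a point -/
noncomputable def w1q (A : ℝ) (n : ℕ) (p : ℝ × ℝ) : ℤ × ℕ := (w1a A n p, w1b A n p)

/-- centre of the `x₁`-cell `b` -/
noncomputable def w1z (A : ℝ) (n : ℕ) (b : ℕ) : ℝ := -A + 4 * A * ((b : ℝ) + 1 / 2) / (2 : ℝ) ^ n

/-- the constant of `w1_lam_frost` -/
noncomputable def w1C1 (A : ℝ) : ℝ := ((⌊10 * A ^ 2⌋₊ + 1 : ℕ) : ℝ) * (⌈3 * A⌉₊ : ℝ) * (20 * A ^ 2)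

/-- the constant of `w1_nu_frost` -/
noncomputable def w1C2 (A : ℝ) : ℝ := (⌈2 * A⌉₊ : ℝ) * (20 * A ^ 2)

/-! ### Leaves -/

theorem w1_ratio {A x : ℝ} (hA : 1 ≤ A) (hx : |x| ≤ A) : 0 ≤ (x + A) / (4 * A) ∧ (x + A) / (4 * A) ≤ 1 / 2 := by
  have hA0 : 0 < 4 * A := by linarith
  rw [abs_le] at hx
  constructor
  · apply div_nonneg <;> linarith [hx.1]
  · rw [div_le_iff₀ hA0]; linarith [hx.2]

theorem w1_floor_lt (n : ℕ) (t : ℝ) (h0 : 0 ≤ t) (h1 : t ≤ 1 / 2) : ⌊(2 : ℝ) ^ n * t⌋₊ < 2 ^ n := by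
  have hD : (0 : ℝ) < (2 : ℝ) ^ n := by positivity
  rw [Nat.floor_lt (by positivity)]
  push_cast
  nlinarith

/-- LEAF W1-LT -/
theorem w1_b_lt {A : ℝ} (hA : 1 ≤ A) (n : ℕ) (p : ℝ × ℝ) (hp : |p.1| ≤ A) : w1b A n p < 2 ^ n := by
  obtain ⟨h0, h1⟩ := w1_ratio hA hp
  exact w1_floor_lt n _ h0 h1

/-- LEAF W1-LT -/
theorem w1_c_lt {A : ℝ} (hA : 1 ≤ A) (n : ℕ) (s : ℝ) (hs : |s| ≤ A) : w1c A n s < 2 ^ n := by
  obtain ⟨h0, h1⟩ := w1_ratio hA (x := -s) (by rwa [abs_neg])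
  have e : (A - s) / (4 * A) = (-s + A) / (4 * A) := by ring
  unfold w1c
  rw [e]
  exact w1_floor_lt n _ h0 h1

/-- LEAF W1-APPROX.  `D c̃ · D b̃ - c b = (D c̃ - c) D b̃ + c (D b̃ - b) ≤ D/2 + D/2`, so `c b / D ∈ [D c̃ b̃ - 1, D c̃ b̃]`; two floors cost `≤ 2`;
then the IDENTITY of the header. -/
theorem w1_approx {A : ℝ} (hA : 1 ≤ A) (n : ℕ) (p : ℝ × ℝ) (s : ℝ) (hp : |p.1| ≤ A) (hs : |s| ≤ A) :
    |((w1a A n p + ecb n (w1c A n s) (w1b A n p) : ℤ) : ℝ)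
        - ((2 : ℝ) ^ n / (16 * A ^ 2) * kfProj s p - (2 : ℝ) ^ n * s / (16 * A))| ≤ 3 := by
  have hA0 : 0 < A := by linarith
  obtain ⟨hb0, hb1⟩ := w1_ratio hA hp
  obtain ⟨hc0, hc1⟩ := w1_ratio hA (x := -s) (by rwa [abs_neg])
  have ec : (-s + A) / (4 * A) = (A - s) / (4 * A) := by ring
  rw [ec] at hc0 hc1
  set D : ℝ := (2 : ℝ) ^ n with hDdef
  have hD : 0 < D := by positivity
  set bt : ℝ := (p.1 + A) / (4 * A) with hbt
  set ct : ℝ := (A - s) / (4 * A) with hct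
  set at' : ℝ := (p.2 - A * (p.1 + A)) / (16 * A ^ 2) with hat
  have hid : D / (16 * A ^ 2) * kfProj s p - D * s / (16 * A) = D * at' + D * (ct * bt) := by
    rw [hbt, hct, hat]
    unfold kfProj
    field_simp
    ring
  rw [hid]
  have ha1 : ((w1a A n p : ℤ) : ℝ) ≤ D * at' := Int.floor_le _
  have ha2 : D * at' < (w1a A n p : ℝ) + 1 := Int.lt_floor_add_one _
  have hb2 : ((w1b A n p : ℕ) : ℝ) ≤ D * bt := Nat.floor_le (by positivity)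
  have hb3 : D * bt < (w1b A n p : ℝ) + 1 := Nat.lt_floor_add_one _
  have hc2 : ((w1c A n s : ℕ) : ℝ) ≤ D * ct := Nat.floor_le (by positivity)
  have hc3 : D * ct < (w1c A n s : ℝ) + 1 := Nat.lt_floor_add_one _
  set a := w1a A n p
  set b := w1b A n p
  set c := w1c A n s
  have he1 : (((c * b / 2 ^ n : ℕ) : ℕ) : ℝ) * D ≤ (c : ℝ) * b := by
    have := Nat.div_mul_le_self (c * b) (2 ^ n)
    have h2 : (((c * b / 2 ^ n * 2 ^ n : ℕ) : ℕ) : ℝ) ≤ ((c * b : ℕ) : ℝ) := by exact_mod_cast this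
    push_cast at h2
    exact h2
  have he2 : (c : ℝ) * b < D * ((((c * b / 2 ^ n : ℕ) : ℕ) : ℝ) + 1) := by
    have := Nat.lt_mul_div_succ (c * b) (Nat.pos_of_ne_zero (pow_ne_zero n two_ne_zero) : 0 < 2 ^ n)
    have h2 : ((c * b : ℕ) : ℝ) < ((2 ^ n * (c * b / 2 ^ n + 1) : ℕ) : ℝ) := by exact_mod_cast this
    push_cast at h2
    exact h2
  have ecast : ((a + ecb n c b : ℤ) : ℝ) = (a : ℝ) + (((c * b / 2 ^ n : ℕ) : ℕ) : ℝ) := by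
    unfold ecb
    push_cast
    rfl
  rw [ecast]
  set e : ℝ := (((c * b / 2 ^ n : ℕ) : ℕ) : ℝ) with he
  have hb00 : (0 : ℝ) ≤ b := Nat.cast_nonneg _
  have hc00 : (0 : ℝ) ≤ c := Nat.cast_nonneg _
  -- `c b ≤ D² ct bt`
  have h1 : (c : ℝ) * b ≤ D * (D * (ct * bt)) := by
    have : (c : ℝ) * b ≤ (D * ct) * (D * bt) := mul_le_mul hc2 hb2 hb00 (by positivity)
    calc (c : ℝ) * b ≤ (D * ct) * (D * bt) := this
      _ = D * (D * (ct * bt)) := by ring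
  have h2 : D * (D * (ct * bt)) - (c : ℝ) * b ≤ D := by
    have e1 : D * (D * (ct * bt)) - (c : ℝ) * b = (D * ct - c) * (D * bt) + c * (D * bt - b) := by ring
    have e2 : (D * ct - c) * (D * bt) ≤ 1 * (D * (1 / 2)) := by
      apply mul_le_mul (by linarith) (by nlinarith) (by positivity) (by norm_num)
    have e3 : (c : ℝ) * (D * bt - b) ≤ (D * (1 / 2)) * 1 := by
      apply mul_le_mul (by nlinarith) (by linarith) (by linarith) (by positivity)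
    rw [e1]
    linarith
  have h3 : e ≤ D * (ct * bt) := by
    have : e * D ≤ (D * (ct * bt)) * D := by linarith
    exact le_of_mul_le_mul_right this hD
  have h4 : D * (ct * bt) - 2 < e := by
    have : (D * (ct * bt) - 2) * D < e * D := by nlinarith
    exact lt_of_mul_lt_mul_right this hD.le
  rw [abs_le]
  constructor <;> linarith

/-- LEAF W1-COUNT.  `s i ∈ [E-3, E+3+5/4]`, `E = c e - τ`: `s i = ⌈E-3⌉ + k`, `k ∈ {0..7}`; the image is contained in the image of `cov ×ˢ range 8`. -/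
theorem w1_count {ι : Type*} (F : Finset ι) (s : ι → ℤ) (v : ι → ℝ) (cov : Finset ℝ) (c τ ρ : ℝ) (hc : 0 ≤ c)
    (hcρ : c * ρ ≤ 5 / 4) (hs : ∀ i ∈ F, |(s i : ℝ) - (c * v i - τ)| ≤ 3)
    (hcov : ∀ i ∈ F, ∃ e ∈ cov, e ≤ v i ∧ v i ≤ e + ρ) : (F.image s).card ≤ 8 * cov.card := by
  classical
  have hsub : F.image s ⊆ (cov ×ˢ range 8).image (fun x : ℝ × ℕ => ⌈c * x.1 - τ - 3⌉ + (x.2 : ℤ)) := by
    intro y hy
    obtain ⟨i, hi, rfl⟩ := Finset.mem_image.1 hy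
    obtain ⟨e, he, h1, h2⟩ := hcov i hi
    have h3 := hs i hi
    rw [abs_le] at h3
    have h4 : c * e ≤ c * v i := mul_le_mul_of_nonneg_left h1 hc
    have h5 : c * v i ≤ c * e + c * ρ := by
      have := mul_le_mul_of_nonneg_left h2 hc
      linarith
    have h6 : ⌈c * e - τ - 3⌉ ≤ s i := Int.ceil_le.2 (by linarith [h3.1])
    have h7 : s i - ⌈c * e - τ - 3⌉ < 8 := by
      have h8 : c * e - τ - 3 ≤ (⌈c * e - τ - 3⌉ : ℝ) := Int.le_ceil _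
      have : ((s i - ⌈c * e - τ - 3⌉ : ℤ) : ℝ) < ((8 : ℤ) : ℝ) := by
        push_cast
        linarith [h3.2]
      exact_mod_cast this
    refine Finset.mem_image.2 ⟨(e, (s i - ⌈c * e - τ - 3⌉).toNat), ?_, ?_⟩
    · rw [Finset.mem_product]
      refine ⟨he, Finset.mem_range.2 ?_⟩
      simp only
      omega
    · simp only
      rw [Int.toNat_of_nonneg (by omega)]
      ring
  calc (F.image s).card ≤ ((cov ×ˢ range 8).image (fun x : ℝ × ℕ => ⌈c * x.1 - τ - 3⌉ + (x.2 : ℤ))).card :=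
        Finset.card_le_card hsub
    _ ≤ (cov ×ˢ range 8).card := Finset.card_image_le
    _ = 8 * cov.card := by rw [Finset.card_product, card_range, mul_comm]

/-- LEAF W1-SQUARE.  `|x₁ - z| ≤ 2A/D`, `|x₂ - z₂| ≤ A · 2A/D + 8A²/D = 10A²/D < ρ`.  (`dist` on `ℝ × ℝ` is the sup metric: `Prod.dist_eq`.) -/
theorem w1_square {A ρ : ℝ} (hA : 1 ≤ A) (n : ℕ) (hD : 10 * A ^ 2 < ρ * (2 : ℝ) ^ n) (p : ℝ × ℝ) (hp : |p.1| ≤ A) :
    dist p (w1z A n (w1b A n p),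
      A * (w1z A n (w1b A n p) + A) + 16 * A ^ 2 * ((w1a A n p : ℝ) + 1 / 2) / (2 : ℝ) ^ n) ≤ ρ := by
  have hA0 : 0 < A := by linarith
  obtain ⟨hb0, hb1⟩ := w1_ratio hA hp
  set D : ℝ := (2 : ℝ) ^ n with hDdef
  have hDp : 0 < D := by positivity
  have ha1 : ((w1a A n p : ℤ) : ℝ) ≤ D * ((p.2 - A * (p.1 + A)) / (16 * A ^ 2)) := Int.floor_le _
  have ha2 : D * ((p.2 - A * (p.1 + A)) / (16 * A ^ 2)) < (w1a A n p : ℝ) + 1 := Int.lt_floor_add_one _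
  have hb2 : ((w1b A n p : ℕ) : ℝ) ≤ D * ((p.1 + A) / (4 * A)) := Nat.floor_le (by positivity)
  have hb3 : D * ((p.1 + A) / (4 * A)) < (w1b A n p : ℝ) + 1 := Nat.lt_floor_add_one _
  set a : ℝ := (w1a A n p : ℝ)
  set b : ℝ := (w1b A n p : ℝ)
  have hz : w1z A n (w1b A n p) = -A + 4 * A * (b + 1 / 2) / D := rfl
  rw [hz]
  -- rescaled inequalities
  have e1 : D * ((p.1 + A) / (4 * A)) = D * (p.1 + A) / (4 * A) := by ring
  have e2 : D * ((p.2 - A * (p.1 + A)) / (16 * A ^ 2)) = D * (p.2 - A * (p.1 + A)) / (16 * A ^ 2) := by ring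
  rw [e1] at hb2 hb3
  rw [e2] at ha1 ha2
  rw [le_div_iff₀ (by positivity)] at hb2 ha1
  rw [div_lt_iff₀ (by positivity)] at hb3 ha2
  have hA2 : A ≤ A ^ 2 := by nlinarith
  have k1 : |p.1 - (-A + 4 * A * (b + 1 / 2) / D)| ≤ 2 * A / D := by
    have e : p.1 - (-A + 4 * A * (b + 1 / 2) / D) = (D * (p.1 + A) - 4 * A * (b + 1 / 2)) / D := by
      field_simp
      ring
    rw [e, abs_div, abs_of_pos hDp]
    apply div_le_div_of_nonneg_right _ hDp.le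
    rw [abs_le]
    constructor <;> nlinarith
  have k2 : |p.2 - (A * (-A + 4 * A * (b + 1 / 2) / D + A) + 16 * A ^ 2 * (a + 1 / 2) / D)| ≤ 10 * A ^ 2 / D := by
    have e : p.2 - (A * (-A + 4 * A * (b + 1 / 2) / D + A) + 16 * A ^ 2 * (a + 1 / 2) / D) =
        ((D * (p.2 - A * (p.1 + A)) - 16 * A ^ 2 * (a + 1 / 2)) + A * (D * (p.1 + A) - 4 * A * (b + 1 / 2))) / D := by
      field_simp
      ring
    rw [e, abs_div, abs_of_pos hDp]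
    apply div_le_div_of_nonneg_right _ hDp.le
    rw [abs_le]
    constructor <;> nlinarith
  have k3 : 10 * A ^ 2 / D ≤ ρ := by
    rw [div_le_iff₀ hDp]; exact hD.le
  have k4 : 2 * A / D ≤ 10 * A ^ 2 / D := by
    apply div_le_div_of_nonneg_right _ hDp.le
    nlinarith
  rw [Prod.dist_eq, Real.dist_eq, Real.dist_eq]
  exact max_le (by linarith) (by linarith)

theorem w1_cell_exists (r x : ℝ) (K : ℕ) (hK : 1 ≤ K) (h0 : 0 ≤ x) (h1 : x ≤ 2 * K * r) :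
    ∃ k < K, 2 * (k : ℝ) * r ≤ x ∧ x ≤ 2 * ((k : ℝ) + 1) * r := by
  induction K, hK using Nat.le_induction with
  | base => exact ⟨0, by norm_num, by simpa using h0, by simpa using h1⟩
  | succ K hK ih =>
    by_cases h : x ≤ 2 * K * r
    · obtain ⟨k, hk, h2, h3⟩ := ih h
      exact ⟨k, by omega, h2, h3⟩
    · push Not at h
      refine ⟨K, by omega, h.le, ?_⟩
      push_cast at h1
      exact h1

/-- LEAF W1-INTERVAL.  The interval `[u, u + 2Kr]` is covered by the `K` balls of radius `r` with centres `u + (2k+1) r`, `k < K`. -/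
theorem w1_interval {ι : Type} [Fintype ι] (w : ι → ℝ) (pos : ι → ℝ) (hw : ∀ i, 0 ≤ w i) (C e ρ : ℝ) (hρ : 0 < ρ)
    (hF : KfFrost w pos C e ρ) (r : ℝ) (hr : ρ ≤ r) (hr1 : r ≤ 1) (K : ℕ) (hK : 1 ≤ K) (u : ℝ) :
    ∑ i with (u ≤ pos i ∧ pos i ≤ u + 2 * K * r), w i ≤ K * (C * r ^ e) := by
  classical
  have h1 : ∑ i with (u ≤ pos i ∧ pos i ≤ u + 2 * K * r), w i ≤
      ∑ k ∈ range K, ∑ i with dist (pos i) (u + (2 * (k : ℝ) + 1) * r) ≤ r, w i := by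
    simp only [Finset.sum_filter]
    rw [Finset.sum_comm]
    refine Finset.sum_le_sum fun i _ => ?_
    have hnn : ∀ k ∈ range K, 0 ≤ (if dist (pos i) (u + (2 * (k : ℝ) + 1) * r) ≤ r then w i else 0) := by
      intro k _
      split_ifs
      · exact hw i
      · exact le_rfl
    split_ifs with hP
    · obtain ⟨k, hk, h2, h3⟩ := w1_cell_exists r (pos i - u) K hK (by linarith [hP.1]) (by linarith [hP.2])
      refine le_trans ?_ (Finset.single_le_sum hnn (Finset.mem_range.2 hk))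
      rw [if_pos]
      rw [Real.dist_eq, abs_le]
      constructor <;> linarith
    · exact Finset.sum_nonneg hnn
  refine le_trans h1 ?_
  calc ∑ k ∈ range K, ∑ i with dist (pos i) (u + (2 * (k : ℝ) + 1) * r) ≤ r, w i
      ≤ ∑ k ∈ range K, C * r ^ e := Finset.sum_le_sum fun k _ => hF _ r hr hr1
    _ = K * (C * r ^ e) := by rw [Finset.sum_const, card_range, nsmul_eq_mul]

theorem w1_pow_aux {x B σ : ℝ} (hx : 0 < x) (hB : 1 ≤ B) (hσ0 : 0 ≤ σ) (hσ1 : σ ≤ 1) (k : ℕ)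
    (h : x * (2 : ℝ) ^ k ≤ B) : x ^ σ ≤ B * (2 : ℝ) ^ (-(σ * k)) := by
  have t0 : (0 : ℝ) < 2 := by norm_num
  have hk : (0 : ℝ) < (2 : ℝ) ^ k := by positivity
  have h1 : x ≤ B * ((2 : ℝ) ^ k)⁻¹ := by
    rw [← div_eq_mul_inv, le_div_iff₀ hk]; exact h
  have hB0 : 0 ≤ B := by linarith
  calc x ^ σ ≤ (B * ((2 : ℝ) ^ k)⁻¹) ^ σ := Real.rpow_le_rpow hx.le h1 hσ0
    _ = B ^ σ * (((2 : ℝ) ^ k)⁻¹) ^ σ := Real.mul_rpow hB0 (by positivity)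
    _ ≤ B * (((2 : ℝ) ^ k)⁻¹) ^ σ := by
        apply mul_le_mul_of_nonneg_right _ (by positivity)
        calc B ^ σ ≤ B ^ (1 : ℝ) := Real.rpow_le_rpow_of_exponent_le hB hσ1
          _ = B := Real.rpow_one B
    _ = B * (2 : ℝ) ^ (-(σ * k)) := by
        congr 1
        rw [← Real.rpow_natCast, ← Real.rpow_neg t0.le, ← Real.rpow_mul t0.le]
        congr 1
        ring

/-- LEAF W1-RPOW.  `r = max (2^-l) ρ ≤ 1`, `r ≤ 20A² 2^-l`; `r^e ≤ r^(min e 1) ≤ (20A²)^(min e 1) 2^(-(min e 1) l)`. -/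
theorem w1_rpow_bound {A ρ e : ℝ} (hA : 1 ≤ A) (hρ : 0 < ρ) (hρ1 : ρ ≤ 1) (he : 0 < e) (n l : ℕ) (hl : l ≤ n)
    (hD : ρ * (2 : ℝ) ^ n ≤ 20 * A ^ 2) :
    (max ((2 : ℝ) ^ (-(l : ℝ))) ρ) ^ e ≤ 20 * A ^ 2 * (2 : ℝ) ^ (-(min e 1 * l)) := by
  have t0 : (0 : ℝ) < 2 := by norm_num
  have hB : (1 : ℝ) ≤ 20 * A ^ 2 := by nlinarith
  have hl0 : (0 : ℝ) < (2 : ℝ) ^ l := by positivity
  have e1 : (2 : ℝ) ^ (-(l : ℝ)) = ((2 : ℝ) ^ l)⁻¹ := by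
    rw [Real.rpow_neg t0.le, Real.rpow_natCast]
  have h2l : (1 : ℝ) ≤ (2 : ℝ) ^ l := one_le_pow₀ (by norm_num)
  have hr0 : 0 < max ((2 : ℝ) ^ (-(l : ℝ))) ρ := lt_max_of_lt_right hρ
  have hr1 : max ((2 : ℝ) ^ (-(l : ℝ))) ρ ≤ 1 := by
    apply max_le _ hρ1
    rw [e1]
    exact inv_le_one_of_one_le₀ h2l
  have hr2 : max ((2 : ℝ) ^ (-(l : ℝ))) ρ * (2 : ℝ) ^ l ≤ 20 * A ^ 2 := by
    rw [max_mul_of_nonneg _ _ hl0.le]
    apply max_le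
    · rw [e1, inv_mul_cancel₀ hl0.ne']; exact hB
    · refine le_trans ?_ hD
      apply mul_le_mul_of_nonneg_left _ hρ.le
      exact pow_le_pow_right₀ (by norm_num) hl
  calc (max ((2 : ℝ) ^ (-(l : ℝ))) ρ) ^ e ≤ (max ((2 : ℝ) ^ (-(l : ℝ))) ρ) ^ (min e 1) :=
        Real.rpow_le_rpow_of_exponent_ge hr0 hr1 (min_le_left _ _)
    _ ≤ 20 * A ^ 2 * (2 : ℝ) ^ (-(min e 1 * l)) :=
        w1_pow_aux hr0 hB (le_min he.le zero_le_one) (min_le_right _ _) l hr2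

/-- LEAF W1-OVERLAP.  The `b ∈ S` lie in a real interval of length `2Aρ · D/(4A) = ρD/2 ≤ 10A²`. -/
theorem w1_overlap {A ρ : ℝ} (hA : 1 ≤ A) (hρ : 0 < ρ) (n : ℕ) (hD : ρ * (2 : ℝ) ^ n ≤ 20 * A ^ 2) (y : ℝ) (S : Finset ℕ)
    (hS : ∀ b ∈ S, dist y (w1z A n b) ≤ A * ρ) : S.card ≤ ⌊10 * A ^ 2⌋₊ + 1 := by
  rcases S.eq_empty_or_nonempty with rfl | hne
  · simp
  set m := S.min' hne with hm
  have hmS : m ∈ S := S.min'_mem hne
  have hsub : S ⊆ Finset.Icc m (m + ⌊10 * A ^ 2⌋₊) := by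
    intro b hb
    rw [Finset.mem_Icc]
    refine ⟨S.min'_le b hb, ?_⟩
    have h1 := hS b hb
    have h2 := hS m hmS
    rw [Real.dist_eq, abs_le] at h1 h2
    have hDp : (0 : ℝ) < (2 : ℝ) ^ n := by positivity
    have hA0 : 0 < A := by linarith
    have h3 : w1z A n b - w1z A n m = 4 * A * ((b : ℝ) - m) / (2 : ℝ) ^ n := by
      unfold w1z
      field_simp
      ring
    have h4 : 4 * A * ((b : ℝ) - m) / (2 : ℝ) ^ n ≤ 2 * (A * ρ) := by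
      rw [← h3]; linarith [h1.1, h1.2, h2.1, h2.2]
    rw [div_le_iff₀ hDp] at h4
    have h5 : (b : ℝ) - m ≤ 10 * A ^ 2 := by
      have : 4 * A * ((b : ℝ) - m) ≤ 4 * A * (10 * A ^ 2) := by nlinarith
      exact le_of_mul_le_mul_left this (by positivity)
    have h6 : b - m ≤ ⌊10 * A ^ 2⌋₊ := by
      apply Nat.le_floor
      rw [Nat.cast_sub (S.min'_le b hb)]
      exact h5
    omega
  calc S.card ≤ (Finset.Icc m (m + ⌊10 * A ^ 2⌋₊)).card := Finset.card_le_card hsub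
    _ = ⌊10 * A ^ 2⌋₊ + 1 := by rw [Nat.card_Icc]; omega

theorem w1_div_bounds (n l : ℕ) (hl : l ≤ n) (b j : ℕ) (h : b / 2 ^ (n - l) = j) :
    (j : ℝ) * (2 : ℝ) ^ (-(l : ℝ)) * (2 : ℝ) ^ n ≤ b ∧ (b : ℝ) + 1 ≤ ((j : ℝ) + 1) * (2 : ℝ) ^ (-(l : ℝ)) * (2 : ℝ) ^ n := by
  have t0 : (0 : ℝ) < 2 := by norm_num
  have e1 : (2 : ℝ) ^ (-(l : ℝ)) * (2 : ℝ) ^ n = (2 : ℝ) ^ (n - l) := by
    rw [Real.rpow_neg t0.le, Real.rpow_natCast, pow_sub₀ _ (by norm_num) hl]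
    ring
  have hpos : 0 < 2 ^ (n - l) := Nat.pos_of_ne_zero (pow_ne_zero _ two_ne_zero)
  have h1 := Nat.div_mul_le_self b (2 ^ (n - l))
  have h2 := Nat.lt_mul_div_succ b hpos
  rw [h] at h1 h2
  have h1' : ((j * 2 ^ (n - l) : ℕ) : ℝ) ≤ (b : ℝ) := by exact_mod_cast h1
  have h2' : ((b + 1 : ℕ) : ℝ) ≤ ((2 ^ (n - l) * (j + 1) : ℕ) : ℝ) := by exact_mod_cast h2
  push_cast at h1' h2'
  rw [mul_assoc, mul_assoc, e1]
  constructor <;> linarith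

/-- LEAF W1-LAMFROST.  Swap the sums (`Finset.sum_comm'` / indicator form): `= ∑_i lam i · #{b in the cell : |xr i - w1z b| ≤ Aρ}`; the number is `≤ ⌊10A²⌋₊+1`
(`w1_overlap`) and vanishes unless `u ≤ xr i ≤ u + 2 ⌈3A⌉₊ r`, `u = -A + 4A j 2^-l - Aρ`, `r = max (2^-l) ρ` (because `w1z b ∈ [-A + 4A j 2^-l, -A + 4A (j+1) 2^-l]`);
`w1_interval`, `w1_rpow_bound`. -/
theorem w1_lam_frost {A ρ β C : ℝ} (hA : 1 ≤ A) (hρ : 0 < ρ) (hρ1 : ρ ≤ 1) (hβ : 0 < β) (hC : 0 ≤ C) (n : ℕ)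
    (hD : ρ * (2 : ℝ) ^ n ≤ 20 * A ^ 2) {J : Type} [Fintype J] (lam xr : J → ℝ) (hlam : ∀ j, 0 ≤ lam j)
    (hF : KfFrost lam xr C β ρ) (l : ℕ) (hl : l ≤ n) (j : ℕ) :
    ∑ b ∈ range (2 ^ n) with b / 2 ^ (n - l) = j, ∑ i with dist (xr i) (w1z A n b) ≤ A * ρ, lam i
      ≤ w1C1 A * C * (2 : ℝ) ^ (-(min β 1 * l)) := by
  classical
  have t0 : (0 : ℝ) < 2 := by norm_num
  have hA0 : 0 < A := by linarith
  have hDp : (0 : ℝ) < (2 : ℝ) ^ n := by positivity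
  set B : Finset ℕ := (range (2 ^ n)).filter fun b => b / 2 ^ (n - l) = j with hB
  set r : ℝ := max ((2 : ℝ) ^ (-(l : ℝ))) ρ with hr
  set K : ℕ := ⌈3 * A⌉₊ with hK
  set u : ℝ := -A + 4 * A * j * (2 : ℝ) ^ (-(l : ℝ)) - A * ρ with hu
  set N : ℕ := ⌊10 * A ^ 2⌋₊ + 1 with hN
  have hK1 : 1 ≤ K := Nat.one_le_iff_ne_zero.2 (Nat.ceil_pos.2 (by linarith)).ne'
  have hKA : 3 * A ≤ K := Nat.le_ceil _
  have hr0 : ρ ≤ r := le_max_right _ _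
  have hrl : (2 : ℝ) ^ (-(l : ℝ)) ≤ r := le_max_left _ _
  have hr1 : r ≤ 1 := by
    apply max_le _ hρ1
    apply Real.rpow_le_one_of_one_le_of_nonpos (by norm_num)
    simp
  have hrpos : 0 < r := lt_of_lt_of_le hρ hr0
  have s1 : ∑ b ∈ B, ∑ i with dist (xr i) (w1z A n b) ≤ A * ρ, lam i ≤
      ∑ i with (u ≤ xr i ∧ xr i ≤ u + 2 * K * r), (N : ℝ) * lam i := by
    simp only [Finset.sum_filter (s := (Finset.univ : Finset J))]
    rw [Finset.sum_comm]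
    refine Finset.sum_le_sum fun i _ => ?_
    rw [← Finset.sum_filter, Finset.sum_const, nsmul_eq_mul]
    have hcard : ((B.filter fun b => dist (xr i) (w1z A n b) ≤ A * ρ).card : ℝ) ≤ N := by
      exact_mod_cast w1_overlap hA hρ n hD (xr i) _ (fun b hb => (Finset.mem_filter.1 hb).2)
    split_ifs with hP
    · exact mul_le_mul_of_nonneg_right hcard (hlam i)
    · have hemp : (B.filter fun b => dist (xr i) (w1z A n b) ≤ A * ρ) = ∅ := by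
        rw [Finset.filter_eq_empty_iff]
        intro b hb hdist
        apply hP
        obtain ⟨h1, h2⟩ := w1_div_bounds n l hl b j (Finset.mem_filter.1 hb).2
        rw [Real.dist_eq, abs_le] at hdist
        have hz1 : -A + 4 * A * j * (2 : ℝ) ^ (-(l : ℝ)) ≤ w1z A n b := by
          unfold w1z
          have : 4 * A * j * (2 : ℝ) ^ (-(l : ℝ)) ≤ 4 * A * ((b : ℝ) + 1 / 2) / (2 : ℝ) ^ n := by
            rw [le_div_iff₀ hDp]
            nlinarith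
          linarith
        have hz2 : w1z A n b ≤ -A + 4 * A * (j + 1) * (2 : ℝ) ^ (-(l : ℝ)) := by
          unfold w1z
          have : 4 * A * ((b : ℝ) + 1 / 2) / (2 : ℝ) ^ n ≤ 4 * A * (j + 1) * (2 : ℝ) ^ (-(l : ℝ)) := by
            rw [div_le_iff₀ hDp]
            nlinarith
          linarith
        have hlen : 4 * A * (2 : ℝ) ^ (-(l : ℝ)) + 2 * (A * ρ) ≤ 2 * K * r := by
          have a1 : 4 * A * (2 : ℝ) ^ (-(l : ℝ)) ≤ 4 * A * r := by nlinarith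
          have a2 : 2 * (A * ρ) ≤ 2 * A * r := by nlinarith
          have a3 : 6 * A * r ≤ 2 * K * r := by nlinarith
          linarith
        constructor
        · rw [hu]; linarith [hdist.1]
        · rw [hu]; linarith [hdist.2]
      rw [hemp]
      simp
  refine le_trans s1 ?_
  rw [← Finset.mul_sum]
  have s2 := w1_interval lam xr hlam C β ρ hρ hF r hr0 hr1 K hK1 u
  have s3 := w1_rpow_bound hA hρ hρ1 hβ n l hl hD
  rw [← hr] at s3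
  have hN0 : (0 : ℝ) ≤ N := Nat.cast_nonneg _
  have hK0 : (0 : ℝ) ≤ K := Nat.cast_nonneg _
  calc (N : ℝ) * ∑ i with (u ≤ xr i ∧ xr i ≤ u + 2 * K * r), lam i
      ≤ (N : ℝ) * (K * (C * r ^ β)) := mul_le_mul_of_nonneg_left s2 hN0
    _ ≤ (N : ℝ) * (K * (C * (20 * A ^ 2 * (2 : ℝ) ^ (-(min β 1 * l))))) := by gcongr
    _ = w1C1 A * C * (2 : ℝ) ^ (-(min β 1 * l)) := by
        unfold w1C1
        ring

/-- LEAF W1-NUFROST.  `w1c (sl t) / 2^(n-l) = j` forces `A - 4A (j+1) 2^-l ≤ sl t ≤ A - 4A j 2^-l`: an interval of length `4A 2^-l ≤ 2 ⌈2A⌉₊ r`;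
`w1_interval`, `w1_rpow_bound`. -/
theorem w1_nu_frost {A ρ γ C : ℝ} (hA : 1 ≤ A) (hρ : 0 < ρ) (hρ1 : ρ ≤ 1) (hγ : 0 < γ) (hC : 0 ≤ C) (n : ℕ)
    (hD : ρ * (2 : ℝ) ^ n ≤ 20 * A ^ 2) {T : Type} [Fintype T] (ν sl : T → ℝ) (hν : ∀ t, 0 ≤ ν t) (hsl : ∀ t, |sl t| ≤ A)
    (hF : KfFrost ν sl C γ ρ) (l : ℕ) (hl : l ≤ n) (j : ℕ) :
    ∑ t with w1c A n (sl t) / 2 ^ (n - l) = j, ν t ≤ w1C2 A * C * (2 : ℝ) ^ (-(min γ 1 * l)) := by
  classical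
  have t0 : (0 : ℝ) < 2 := by norm_num
  have hA0 : 0 < A := by linarith
  have hDp : (0 : ℝ) < (2 : ℝ) ^ n := by positivity
  set r : ℝ := max ((2 : ℝ) ^ (-(l : ℝ))) ρ with hr
  set K : ℕ := ⌈2 * A⌉₊ with hK
  set u : ℝ := A - 4 * A * (j + 1) * (2 : ℝ) ^ (-(l : ℝ)) with hu
  have hK1 : 1 ≤ K := Nat.one_le_iff_ne_zero.2 (Nat.ceil_pos.2 (by linarith)).ne'
  have hKA : 2 * A ≤ K := Nat.le_ceil _
  have hr0 : ρ ≤ r := le_max_right _ _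
  have hrl : (2 : ℝ) ^ (-(l : ℝ)) ≤ r := le_max_left _ _
  have hr1 : r ≤ 1 := by
    apply max_le _ hρ1
    apply Real.rpow_le_one_of_one_le_of_nonpos (by norm_num)
    simp
  have hrpos : 0 < r := lt_of_lt_of_le hρ hr0
  have hl0 : 0 < (2 : ℝ) ^ (-(l : ℝ)) := Real.rpow_pos_of_pos t0 _
  have s1 : ∑ t with w1c A n (sl t) / 2 ^ (n - l) = j, ν t ≤ ∑ t with (u ≤ sl t ∧ sl t ≤ u + 2 * K * r), ν t := by
    apply Finset.sum_le_sum_of_subset_of_nonneg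
    · intro t ht
      rw [Finset.mem_filter] at ht ⊢
      refine ⟨ht.1, ?_⟩
      obtain ⟨h1, h2⟩ := w1_div_bounds n l hl _ j ht.2
      have hs := hsl t
      rw [abs_le] at hs
      have hnn : 0 ≤ (2 : ℝ) ^ n * ((A - sl t) / (4 * A)) := by
        apply mul_nonneg hDp.le
        apply div_nonneg <;> linarith [hs.2]
      have hc2 : ((w1c A n (sl t) : ℕ) : ℝ) ≤ (2 : ℝ) ^ n * ((A - sl t) / (4 * A)) := Nat.floor_le hnn
      have hc3 : (2 : ℝ) ^ n * ((A - sl t) / (4 * A)) < (w1c A n (sl t) : ℝ) + 1 := Nat.lt_floor_add_one _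
      have k1 : (j : ℝ) * (2 : ℝ) ^ (-(l : ℝ)) ≤ (A - sl t) / (4 * A) := by
        have : (j : ℝ) * (2 : ℝ) ^ (-(l : ℝ)) * (2 : ℝ) ^ n ≤ ((A - sl t) / (4 * A)) * (2 : ℝ) ^ n := by linarith
        exact le_of_mul_le_mul_right this hDp
      have k2 : (A - sl t) / (4 * A) ≤ ((j : ℝ) + 1) * (2 : ℝ) ^ (-(l : ℝ)) := by
        have : ((A - sl t) / (4 * A)) * (2 : ℝ) ^ n ≤ ((j : ℝ) + 1) * (2 : ℝ) ^ (-(l : ℝ)) * (2 : ℝ) ^ n := by linarith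
        exact le_of_mul_le_mul_right this hDp
      rw [le_div_iff₀ (by positivity)] at k1
      rw [div_le_iff₀ (by positivity)] at k2
      have hlen : 4 * A * (2 : ℝ) ^ (-(l : ℝ)) ≤ 2 * K * r := by
        have a1 : 4 * A * (2 : ℝ) ^ (-(l : ℝ)) ≤ 4 * A * r := by nlinarith
        have a3 : 4 * A * r ≤ 2 * K * r := by nlinarith
        linarith
      constructor
      · rw [hu]; linarith
      · rw [hu]; linarith
    · intro i _ _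
      exact hν i
  refine le_trans s1 ?_
  have s2 := w1_interval ν sl hν C γ ρ hρ hF r hr0 hr1 K hK1 u
  have s3 := w1_rpow_bound hA hρ hρ1 hγ n l hl hD
  rw [← hr] at s3
  have hK0 : (0 : ℝ) ≤ K := Nat.cast_nonneg _
  calc ∑ t with (u ≤ sl t ∧ sl t ≤ u + 2 * K * r), ν t
      ≤ (K * (C * r ^ γ)) := s2
    _ ≤ (K * (C * (20 * A ^ 2 * (2 : ℝ) ^ (-(min γ 1 * l))))) := by gcongr
    _ = w1C2 A * C * (2 : ℝ) ^ (-(min γ 1 * l)) := by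
        unfold w1C2
        ring

/-- LEAF W1-MASS.  `Finset.sum_fiberwise_of_maps_to` for `p ↦ (q p.1, p.2)`; on the fibre over `g` the map `p ↦ p.1` is injective into `{x | q x = g.1}` and `ν p.2 = ν g.2`. -/
theorem w1_mass {X T : Type} [Fintype X] [Fintype T] [DecidableEq T] (μ : X → ℝ) (ν : T → ℝ) (hμ : ∀ x, 0 ≤ μ x)
    (hν : ∀ t, 0 ≤ ν t) (q : X → ℤ × ℕ) (G : Finset (X × T)) :
    ∑ p ∈ G, μ p.1 * ν p.2 ≤ ∑ g ∈ G.image (fun p => (q p.1, p.2)), (∑ x with q x = g.1, μ x) * ν g.2 := by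
  classical
  rw [← Finset.sum_fiberwise_of_maps_to (s := G) (t := G.image (fun p => (q p.1, p.2)))
    (g := fun p => (q p.1, p.2)) (fun p hp => Finset.mem_image_of_mem _ hp)]
  refine Finset.sum_le_sum fun g _ => ?_
  have h1 : ∑ p ∈ G with (q p.1, p.2) = g, μ p.1 * ν p.2 = (∑ p ∈ G with (q p.1, p.2) = g, μ p.1) * ν g.2 := by
    rw [Finset.sum_mul]
    refine Finset.sum_congr rfl fun p hp => ?_
    rw [Finset.mem_filter] at hp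
    rw [← hp.2]
  rw [h1]
  refine mul_le_mul_of_nonneg_right ?_ (hν _)
  have hinj : Set.InjOn (fun p : X × T => p.1) (G.filter fun p => (q p.1, p.2) = g : Finset (X × T)) := by
    intro p hp p' hp' h
    rw [Finset.mem_coe, Finset.mem_filter] at hp hp'
    have h2 : p.2 = p'.2 := by
      have a1 := congrArg Prod.snd hp.2
      have a2 := congrArg Prod.snd hp'.2
      simp only at a1 a2
      rw [a1, a2]
    exact Prod.ext h h2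
  rw [← Finset.sum_image (f := μ) hinj]
  apply Finset.sum_le_sum_of_subset_of_nonneg
  · intro x hx
    obtain ⟨p, hp, rfl⟩ := Finset.mem_image.1 hx
    rw [Finset.mem_filter] at hp ⊢
    exact ⟨Finset.mem_univ _, congrArg Prod.fst hp.2⟩
  · intro i _ _
    exact hμ i

/-- LEAF W1-POW (a): `2^-n ≤ ρ` -/
theorem w1_pow_a {A ρ χ : ℝ} (hA : 1 ≤ A) (hρ : 0 < ρ) (hχ : 0 ≤ χ) (n : ℕ) (hD : 10 * A ^ 2 < ρ * (2 : ℝ) ^ n) :
    ρ ^ (-χ) ≤ (2 : ℝ) ^ (χ * n) := by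
  have t0 : (0 : ℝ) < 2 := by norm_num
  have hn : (0 : ℝ) < (2 : ℝ) ^ n := by positivity
  have h1 : ρ⁻¹ ≤ (2 : ℝ) ^ n := by
    rw [inv_le_iff_one_le_mul₀ hρ]
    nlinarith
  calc ρ ^ (-χ) = (ρ⁻¹) ^ χ := by rw [Real.rpow_neg hρ.le, Real.inv_rpow hρ.le]
    _ ≤ ((2 : ℝ) ^ n) ^ χ := Real.rpow_le_rpow (by positivity) h1 hχ
    _ = (2 : ℝ) ^ (χ * n) := by
        rw [← Real.rpow_natCast, ← Real.rpow_mul t0.le]
        congr 1
        ring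

/-- LEAF W1-POW (b): `ρ ≤ 20A² 2^-n`, `0 ≤ σ ≤ 1` -/
theorem w1_pow_b {A ρ σ : ℝ} (hA : 1 ≤ A) (hρ : 0 < ρ) (hσ0 : 0 ≤ σ) (hσ1 : σ ≤ 1) (n : ℕ)
    (hD : ρ * (2 : ℝ) ^ n ≤ 20 * A ^ 2) : ρ ^ σ ≤ 20 * A ^ 2 * (2 : ℝ) ^ (-(σ * n)) := by
  exact w1_pow_aux hρ (by nlinarith) hσ0 hσ1 n hD

/-! ### Glue -/

theorem w1_C1_pos {A : ℝ} (hA : 1 ≤ A) : 0 < w1C1 A := by
  unfold w1C1
  have h1 : (0 : ℝ) < (⌈3 * A⌉₊ : ℝ) := by
    have : 0 < ⌈3 * A⌉₊ := Nat.ceil_pos.2 (by linarith)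
    exact_mod_cast this
  have h2 : (0 : ℝ) < ((⌊10 * A ^ 2⌋₊ + 1 : ℕ) : ℝ) := by exact_mod_cast Nat.succ_pos _
  positivity

theorem w1_C2_nonneg {A : ℝ} (hA : 1 ≤ A) : 0 ≤ w1C2 A := by
  unfold w1C2
  positivity

/-- `ρ^(σ-χ) (C₁ ρ^(-χ)) ≤ 2^(-(σ-χS) n)` -/
theorem w1_pow_c {A ρ σ χ χS : ℝ} (hA : 1 ≤ A) (hρ : 0 < ρ) (hσ0 : 0 ≤ σ) (hσ1 : σ ≤ 1) (hχ : 0 ≤ χ) (n : ℕ)
    (hD1 : 10 * A ^ 2 < ρ * (2 : ℝ) ^ n) (hD2 : ρ * (2 : ℝ) ^ n ≤ 20 * A ^ 2)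
    (h1 : 20 * A ^ 2 * w1C1 A ≤ (2 : ℝ) ^ ((χS - 2 * χ) * n)) :
    ρ ^ (σ - χ) * (w1C1 A * ρ ^ (-χ)) ≤ (2 : ℝ) ^ (-((σ - χS) * n)) := by
  have ha := w1_pow_a hA hρ hχ n hD1
  have hb := w1_pow_b hA hρ hσ0 hσ1 n hD2
  have hC := (w1_C1_pos hA).le
  have e1 : ρ ^ (σ - χ) = ρ ^ σ * ρ ^ (-χ) := by rw [← Real.rpow_add hρ]; ring_nf
  have p0 : 0 ≤ ρ ^ (-χ) := (Real.rpow_pos_of_pos hρ _).le
  have p1 : 0 ≤ ρ ^ σ := (Real.rpow_pos_of_pos hρ _).le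
  have t0 : (0 : ℝ) < 2 := by norm_num
  have q1 : 0 ≤ (2 : ℝ) ^ (χ * n) := (Real.rpow_pos_of_pos t0 _).le
  have q2 : 0 ≤ (2 : ℝ) ^ (-(σ * n)) := (Real.rpow_pos_of_pos t0 _).le
  have hA2 : 0 ≤ 20 * A ^ 2 := by positivity
  calc ρ ^ (σ - χ) * (w1C1 A * ρ ^ (-χ)) = ρ ^ σ * (ρ ^ (-χ) * ρ ^ (-χ)) * w1C1 A := by rw [e1]; ring
    _ ≤ (20 * A ^ 2 * (2 : ℝ) ^ (-(σ * n))) * ((2 : ℝ) ^ (χ * n) * (2 : ℝ) ^ (χ * n)) * w1C1 A := by
        gcongr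
    _ = (20 * A ^ 2 * w1C1 A) * ((2 : ℝ) ^ (-(σ * n)) * ((2 : ℝ) ^ (χ * n) * (2 : ℝ) ^ (χ * n))) := by ring
    _ ≤ (2 : ℝ) ^ ((χS - 2 * χ) * n) * ((2 : ℝ) ^ (-(σ * n)) * ((2 : ℝ) ^ (χ * n) * (2 : ℝ) ^ (χ * n))) := by
        gcongr
    _ = (2 : ℝ) ^ (-((σ - χS) * n)) := by
        rw [← Real.rpow_add t0, ← Real.rpow_add t0, ← Real.rpow_add t0]
        congr 1
        ring

/-- **GLUE at one scale** -/
theorem w1_core {β γ σ A χS χ ρ : ℝ} (hβ : 0 < β) (hγ : 0 < γ) (hσ0 : 0 ≤ σ) (hσ1 : σ ≤ 1) (hA : 1 ≤ A)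
    (hχ : 0 < χ) (hχS : χ ≤ χS) (hρ : 0 < ρ) (hρ1 : ρ ≤ 1) (n : ℕ)
    (hS : SabcAt σ (min β 1) (min γ 1) χS n)
    (hD1 : 10 * A ^ 2 < ρ * (2 : ℝ) ^ n) (hD2 : ρ * (2 : ℝ) ^ n ≤ 20 * A ^ 2)
    (h1 : 20 * A ^ 2 * w1C1 A ≤ (2 : ℝ) ^ ((χS - 2 * χ) * n))
    (h2 : w1C2 A ≤ (2 : ℝ) ^ ((χS - χ) * n))
    (h3 : 8 ≤ (2 : ℝ) ^ ((χS - χ) * n))
    (X T J : Type) [Fintype X] [Fintype T] [Fintype J] (μ : X → ℝ) (ν : T → ℝ) (pt : X → ℝ × ℝ) (sl : T → ℝ)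
    (G : Finset (X × T)) (M : ℕ) (lam xr : J → ℝ)
    (hμ : ∀ x, 0 ≤ μ x) (hν : ∀ b, 0 ≤ ν b) (hμ1 : ∑ x, μ x ≤ 1) (hν1 : ∑ b, ν b ≤ 1)
    (hpt : ∀ x, |(pt x).1| ≤ A ∧ |(pt x).2| ≤ A) (hsl : ∀ b, |sl b| ≤ A)
    (hFν : KfFrost ν sl (ρ ^ (-χ)) γ ρ) (hG : ρ ^ χ ≤ ∑ p ∈ G, μ p.1 * ν p.2)
    (hcov : ∃ cov : T → Finset ℝ, (∀ b, (cov b).card ≤ M) ∧
          ∀ b, KfCov (cov b) ρ {t | ∃ x, (x, b) ∈ G ∧ t = kfProj (sl b) (pt x)})
    (hlam : ∀ j, 0 ≤ lam j) (hFlam : KfFrost lam xr (ρ ^ (-χ)) β ρ)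
    (hU : ∀ z : ℝ × ℝ, ∑ x with dist (pt x) z ≤ ρ, μ x ≤ ρ ^ (σ - χ) * ∑ j with dist (xr j) z.1 ≤ A * ρ, lam j) :
    ρ ^ (-σ - χ) ≤ (M : ℝ) := by
  classical
  obtain ⟨cov, hcard, hcv⟩ := hcov
  have t0 : (0 : ℝ) < 2 := by norm_num
  have t1 : (1 : ℝ) ≤ 2 := by norm_num
  have hρχ : 0 < ρ ^ (-χ) := Real.rpow_pos_of_pos hρ _
  set q : X → ℤ × ℕ := fun x => w1q A n (pt x) with hq
  set Λ : ℕ → ℝ := fun b => ∑ i with dist (xr i) (w1z A n b) ≤ A * ρ, lam i with hΛ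
  set κ : ℝ := w1C1 A * ρ ^ (-χ) with hκdef
  have hκ : 0 < κ := mul_pos (w1_C1_pos hA) hρχ
  have hΛ0 : ∀ b, 0 ≤ Λ b := fun b => Finset.sum_nonneg fun i _ => hlam i
  set lamS : ℤ × ℕ → ℝ := fun p => ∑ x with q x = p, μ x with hlamS
  set μB : ℕ → ℝ := fun b => Λ b / κ with hμB
  have hμB0 : ∀ b, 0 ≤ μB b := fun b => div_nonneg (hΛ0 b) hκ.le
  set GS : Finset ((ℤ × ℕ) × T) := G.image (fun p => (q p.1, p.2)) with hGS
  -- Frostman for `μB`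
  have hfroB : ∀ l, l ≤ n → ∀ j, ∑ b ∈ range (2 ^ n) with b / 2 ^ (n - l) = j, μB b ≤ (2 : ℝ) ^ (-(min β 1 * l)) := by
    intro l hl j
    have := w1_lam_frost hA hρ hρ1 hβ hρχ.le n hD2 lam xr hlam hFlam l hl j
    rw [hμB]
    simp only []
    rw [← Finset.sum_div, div_le_iff₀ hκ]
    calc _ ≤ w1C1 A * ρ ^ (-χ) * (2 : ℝ) ^ (-(min β 1 * l)) := this
      _ = (2 : ℝ) ^ (-(min β 1 * l)) * κ := by rw [hκdef]; ring
  have key := hS T (univ.image q) lamS (range (2 ^ n)) μB ν (fun t => w1c A n (sl t)) GS (8 * (M : ℝ))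
    (fun p _ => Finset.sum_nonneg fun x _ => hμ x) (fun b _ => hμB0 b) hν ?_ ?_ hν1 ?_
    (fun b hb => Finset.mem_range.1 hb) (fun t => w1_c_lt hA n _ (hsl t)) ?_ ?_ ?_ ?_ ?_ ?_
  · -- conclusion
    have e1 : ρ ^ (-σ - χ) ≤ (2 : ℝ) ^ ((σ + χ) * n) := by
      have := w1_pow_a hA hρ (by linarith : 0 ≤ σ + χ) n hD1
      have e : -σ - χ = -(σ + χ) := by ring
      rw [e]
      exact this
    have e2 : (2 : ℝ) ^ ((σ + χ) * n) * (2 : ℝ) ^ ((χS - χ) * n) = (2 : ℝ) ^ ((σ + χS) * n) := by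
      rw [← Real.rpow_add t0]
      congr 1
      ring
    have p1 : 0 < (2 : ℝ) ^ ((σ + χ) * n) := Real.rpow_pos_of_pos t0 _
    have e3 : (2 : ℝ) ^ ((σ + χ) * n) * 8 ≤ (2 : ℝ) ^ ((σ + χS) * n) := by
      rw [← e2]
      exact mul_le_mul_of_nonneg_left h3 p1.le
    linarith
  · -- total mass of `lamS`
    have : ∑ p ∈ univ.image q, lamS p = ∑ x, μ x :=
      Finset.sum_fiberwise_of_maps_to (fun x _ => Finset.mem_image_of_mem q (Finset.mem_univ x)) μ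
    rw [this]
    exact hμ1
  · -- total mass of `μB`
    have := hfroB 0 (Nat.zero_le n) 0
    have e : (range (2 ^ n)).filter (fun b => b / 2 ^ (n - 0) = 0) = range (2 ^ n) := by
      apply Finset.filter_true_of_mem
      intro b hb
      exact Nat.div_eq_of_lt (by simpa using hb)
    rw [e] at this
    simpa using this
  · -- second coordinates
    intro p hp
    obtain ⟨x, -, rfl⟩ := Finset.mem_image.1 hp
    exact Finset.mem_range.2 (w1_b_lt hA n _ (hpt x).1)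
  · -- form (U)
    intro p hp
    obtain ⟨x0, -, rfl⟩ := Finset.mem_image.1 hp
    set z : ℝ × ℝ := (w1z A n (w1b A n (pt x0)),
      A * (w1z A n (w1b A n (pt x0)) + A) + 16 * A ^ 2 * ((w1a A n (pt x0) : ℝ) + 1 / 2) / (2 : ℝ) ^ n) with hz
    have s1 : lamS (q x0) ≤ ∑ x with dist (pt x) z ≤ ρ, μ x := by
      apply Finset.sum_le_sum_of_subset_of_nonneg
      · intro x hx
        rw [Finset.mem_filter] at hx ⊢
        refine ⟨hx.1, ?_⟩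
        have hx2 : w1q A n (pt x) = w1q A n (pt x0) := hx.2
        have ha : w1a A n (pt x) = w1a A n (pt x0) := congrArg Prod.fst hx2
        have hb : w1b A n (pt x) = w1b A n (pt x0) := congrArg Prod.snd hx2
        have := w1_square hA n hD1 (pt x) (hpt x).1
        rw [ha, hb] at this
        exact this
      · intro i _ _
        exact hμ i
    have s2 := hU z
    have s3 : Λ (w1b A n (pt x0)) = κ * μB (w1b A n (pt x0)) := by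
      rw [hμB]
      field_simp
    have s4 := w1_pow_c hA hρ hσ0 hσ1 hχ.le n hD1 hD2 h1
    calc lamS (q x0) ≤ ρ ^ (σ - χ) * Λ (w1b A n (pt x0)) := le_trans s1 s2
      _ = (ρ ^ (σ - χ) * κ) * μB (w1b A n (pt x0)) := by rw [s3]; ring
      _ ≤ (2 : ℝ) ^ (-((σ - χS) * n)) * μB (w1b A n (pt x0)) :=
        mul_le_mul_of_nonneg_right s4 (hμB0 _)
  · -- Frostman `μB`
    intro l hl j
    refine le_trans (hfroB l hl j) ?_
    apply Real.rpow_le_rpow_of_exponent_le t1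
    have : 0 ≤ χS * n := mul_nonneg (by linarith) (Nat.cast_nonneg n)
    linarith
  · -- Frostman `ν`
    intro l hl j
    have := w1_nu_frost hA hρ hρ1 hγ hρχ.le n hD2 ν sl hν hsl hFν l hl j
    refine le_trans this ?_
    have ha := w1_pow_a hA hρ hχ.le n hD1
    have p2 : 0 ≤ (2 : ℝ) ^ (-(min γ 1 * l)) := (Real.rpow_pos_of_pos t0 _).le
    have p3 : 0 ≤ (2 : ℝ) ^ ((χS - χ) * n) := (Real.rpow_pos_of_pos t0 _).le
    calc w1C2 A * ρ ^ (-χ) * (2 : ℝ) ^ (-(min γ 1 * l))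
        ≤ (2 : ℝ) ^ ((χS - χ) * n) * (2 : ℝ) ^ (χ * n) * (2 : ℝ) ^ (-(min γ 1 * l)) := by
          gcongr
      _ = (2 : ℝ) ^ (χS * n - min γ 1 * l) := by
          rw [← Real.rpow_add t0, ← Real.rpow_add t0]
          congr 1
          ring
  · -- `GS ⊆ Pt ×ˢ univ`
    intro g hg
    obtain ⟨p, -, rfl⟩ := Finset.mem_image.1 hg
    exact Finset.mem_product.2 ⟨Finset.mem_image_of_mem q (Finset.mem_univ _), Finset.mem_univ _⟩
  · -- mass of the graph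
    have m1 := w1_mass μ ν hμ hν q G
    have m2 : (2 : ℝ) ^ (-(χS * n)) ≤ ρ ^ χ := by
      have ha := w1_pow_a hA hρ hχ.le n hD1
      have e1 : ρ ^ χ = (ρ ^ (-χ))⁻¹ := by rw [Real.rpow_neg hρ.le, inv_inv]
      have e2 : (2 : ℝ) ^ (-(χS * n)) = ((2 : ℝ) ^ (χS * n))⁻¹ := Real.rpow_neg t0.le _
      rw [e1, e2]
      apply inv_anti₀ hρχ
      refine le_trans ha ?_
      apply Real.rpow_le_rpow_of_exponent_le t1
      exact mul_le_mul_of_nonneg_right hχS (Nat.cast_nonneg n)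
    exact le_trans m2 (le_trans hG m1)
  · -- the image
    intro t
    have c1 : ((GS.filter fun g => g.2 = t).image fun g => g.1.1 + ecb n (w1c A n (sl t)) g.1.2)
        = ((G.filter fun p => p.2 = t).image fun p => w1a A n (pt p.1) + ecb n (w1c A n (sl t)) (w1b A n (pt p.1))) := by
      ext s
      simp only [Finset.mem_image, Finset.mem_filter, hGS]
      constructor
      · rintro ⟨g, ⟨⟨p, hp, rfl⟩, hgt⟩, rfl⟩
        exact ⟨p, ⟨hp, hgt⟩, rfl⟩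
      · rintro ⟨p, ⟨hp, hpt'⟩, rfl⟩
        exact ⟨(q p.1, p.2), ⟨⟨p, hp, rfl⟩, hpt'⟩, rfl⟩
    rw [c1]
    have hA2 : 0 < 16 * A ^ 2 := by positivity
    have c2 := w1_count (G.filter fun p => p.2 = t)
      (fun p => w1a A n (pt p.1) + ecb n (w1c A n (sl t)) (w1b A n (pt p.1)))
      (fun p => kfProj (sl t) (pt p.1)) (cov t) ((2 : ℝ) ^ n / (16 * A ^ 2)) ((2 : ℝ) ^ n * sl t / (16 * A)) ρ
      (by positivity)
      (by
        rw [div_mul_eq_mul_div, div_le_iff₀ hA2]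
        nlinarith)
      (fun p _ => w1_approx hA n (pt p.1) (sl t) (hpt p.1).1 (hsl t))
      (fun p hp => by
        rw [Finset.mem_filter] at hp
        obtain ⟨e, he, h5, h6⟩ := hcv t (kfProj (sl t) (pt p.1)) ⟨p.1, by rw [← hp.2]; exact hp.1, rfl⟩
        exact ⟨e, he, h5, h6⟩)
    have c3 : ((8 * (cov t).card : ℕ) : ℝ) ≤ 8 * (M : ℝ) := by
      push_cast
      have : ((cov t).card : ℝ) ≤ M := by exact_mod_cast hcard t
      linarith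
    exact le_trans (by exact_mod_cast c2) c3

theorem w1_large (K c : ℝ) (hc : 0 < c) : ∃ N : ℕ, ∀ n : ℕ, N ≤ n → K ≤ (2 : ℝ) ^ (c * n) := by
  have h1 : (1 : ℝ) < (2 : ℝ) ^ c := Real.one_lt_rpow (by norm_num) hc
  obtain ⟨N, hN⟩ := pow_unbounded_of_one_lt K h1
  refine ⟨N, fun n hn => ?_⟩
  rw [Real.rpow_mul (by norm_num), Real.rpow_natCast]
  exact le_trans hN.le (pow_le_pow_right₀ h1.le hn)

theorem w1_scale {A ρ : ℝ} (hA : 1 ≤ A) (hρ : 0 < ρ) (hρ1 : ρ ≤ 1) :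
    ∃ n : ℕ, 10 * A ^ 2 < ρ * (2 : ℝ) ^ n ∧ ρ * (2 : ℝ) ^ n ≤ 20 * A ^ 2 := by
  have hx : 1 ≤ 10 * A ^ 2 / ρ := by
    rw [le_div_iff₀ hρ]
    nlinarith
  obtain ⟨n, h1, h2⟩ := exists_nat_pow_near hx (by norm_num : (1 : ℝ) < 2)
  refine ⟨n + 1, ?_, ?_⟩
  · rw [div_lt_iff₀ hρ] at h2
    linarith
  · rw [le_div_iff₀ hρ] at h1
    rw [pow_succ]
    linarith

/-- **W1** = `ex_W1` of `Export.lean` with `ExTest` unpacked. -/
theorem w1_main (β γ σ A : ℝ) (hβ : 0 < β) (hγ : 0 < γ) (hσ0 : 0 ≤ σ) (hσ : σ < min 1 (β + γ)) (hA : 1 ≤ A) :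
    ∃ χ : ℝ, 0 < χ ∧ ∃ ρ₁ : ℝ, 0 < ρ₁ ∧ ∀ ρ : ℝ, 0 < ρ → ρ < ρ₁ →
      ∀ (X T J : Type) [Fintype X] [Fintype T] [Fintype J] (μ : X → ℝ) (ν : T → ℝ) (pt : X → ℝ × ℝ) (sl : T → ℝ)
        (G : Finset (X × T)) (M : ℕ) (lam xr : J → ℝ),
        (∀ x, 0 ≤ μ x) → (∀ b, 0 ≤ ν b) → ∑ x, μ x ≤ 1 → ∑ b, ν b ≤ 1 →
        (∀ x, |(pt x).1| ≤ A ∧ |(pt x).2| ≤ A) → (∀ b, |sl b| ≤ A) →
        KfFrost ν sl (ρ ^ (-χ)) γ ρ → ρ ^ χ ≤ ∑ p ∈ G, μ p.1 * ν p.2 →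
        (∃ cov : T → Finset ℝ, (∀ b, (cov b).card ≤ M) ∧
          ∀ b, KfCov (cov b) ρ {t | ∃ x, (x, b) ∈ G ∧ t = kfProj (sl b) (pt x)}) →
        (∀ j, 0 ≤ lam j) → KfFrost lam xr (ρ ^ (-χ)) β ρ →
        (∀ z : ℝ × ℝ, ∑ x with dist (pt x) z ≤ ρ, μ x ≤ ρ ^ (σ - χ) * ∑ j with dist (xr j) z.1 ≤ A * ρ, lam j) →
        ρ ^ (-σ - χ) ≤ (M : ℝ) := by
  have hσ1 : σ < 1 := lt_of_lt_of_le hσ (min_le_left _ _)
  have hσ2 : σ < β + γ := lt_of_lt_of_le hσ (min_le_right _ _)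
  have hα : σ < min 1 (min β 1 + min γ 1) := by
    apply lt_min hσ1
    rcases le_total β 1 with h | h <;> rcases le_total γ 1 with h' | h'
    · rw [min_eq_left h, min_eq_left h']; exact hσ2
    · rw [min_eq_left h, min_eq_right h']; linarith
    · rw [min_eq_right h, min_eq_left h']; linarith
    · rw [min_eq_right h, min_eq_right h']; linarith
  obtain ⟨χS, hχS, n0, hn0⟩ := sabc_main σ (min β 1) (min γ 1) (lt_min hβ one_pos) (min_le_right _ _)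
    (lt_min hγ one_pos) (min_le_right _ _) hα
  obtain ⟨N1, hN1⟩ := w1_large (20 * A ^ 2 * w1C1 A) (χS - 2 * (χS / 4)) (by linarith)
  obtain ⟨N2, hN2⟩ := w1_large (w1C2 A) (χS - χS / 4) (by linarith)
  obtain ⟨N3, hN3⟩ := w1_large 8 (χS - χS / 4) (by linarith)
  set N : ℕ := max (max n0 N1) (max N2 N3) with hN
  refine ⟨χS / 4, by positivity, (1 / 2 : ℝ) ^ N, by positivity, ?_⟩
  intro ρ hρ hρN X T J _ _ _ μ ν pt sl G M lam xr a1 a2 a3 a4 a5 a6 a7 a8 a9 a10 a11 a12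
  have hρ1 : ρ ≤ 1 := le_trans hρN.le (pow_le_one₀ (by norm_num) (by norm_num))
  obtain ⟨n, hD1, hD2⟩ := w1_scale hA hρ hρ1
  have hn : N ≤ n := by
    by_contra hlt
    push Not at hlt
    have h1 : (2 : ℝ) ^ n ≤ (2 : ℝ) ^ N := pow_le_pow_right₀ (by norm_num) hlt.le
    have h2 : ρ * (2 : ℝ) ^ N < 1 := by
      have : (1 / 2 : ℝ) ^ N * (2 : ℝ) ^ N = 1 := by
        rw [← mul_pow]; norm_num
      calc ρ * (2 : ℝ) ^ N < (1 / 2 : ℝ) ^ N * (2 : ℝ) ^ N := by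
            apply mul_lt_mul_of_pos_right hρN (by positivity)
        _ = 1 := this
    have h3 : ρ * (2 : ℝ) ^ n ≤ ρ * (2 : ℝ) ^ N := mul_le_mul_of_nonneg_left h1 hρ.le
    nlinarith
  have b0 : n0 ≤ n := le_trans (le_trans (le_max_left _ _) (le_max_left _ _)) hn
  have b1 : N1 ≤ n := le_trans (le_trans (le_max_right _ _) (le_max_left _ _)) hn
  have b2 : N2 ≤ n := le_trans (le_trans (le_max_left _ _) (le_max_right _ _)) hn
  have b3 : N3 ≤ n := le_trans (le_trans (le_max_right _ _) (le_max_right _ _)) hn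
  exact w1_core hβ hγ hσ0 hσ1.le hA (by positivity) (by linarith) hρ hρ1 n (hn0 n b0) hD1 hD2 (hN1 n b1) (hN2 n b2)
    (hN3 n b3) X T J μ ν pt sl G M lam xr a1 a2 a3 a4 a5 a6 a7 a8 a9 a10 a11 a12

end Claimed.Agent.RW
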