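import Claimed.Agent.RW.W2Cfg
import Claimed.Agent.RW.W1

/-!
# Team RW.  Unit W2, file 4/4: the two global refinements, the numerics, `w2_main`.      Architect: helper236.
(Overall proof: header of `W2Base.lean`.)

* `w2_stage1` (leaf W2-STAGE1).  `S1 = {e ∈ G : not thin}` has mass `≤ q0/4` (`w2_thin_most`), `S2 = {e ∈ G : tag not typical}` has mass `≤ (∑ μ) ν(non typical) ≤ q0/4` (`w2_tag_most`,
  `(n+1)²+2A+2 ≤ (2A+3)(n+2)²`).  Every typical tag gets a window `(i0,i1) ∈ [0,n]²` (`w2_tag_window`, choice).  Pigeonhole over the `(n+1)²` classes.  `K = max K_thin (2A+3)`.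
* `w2_stage2` (leaf W2-STAGE2).  `w2_tag` for every tag `b` (fibre `Gb = {p : (p,b) ∈ G1}`, cover `cov b`), choice of `Gk b`, `G2 = {(p,b) ∈ G1 : p ∈ Gk b}`;
  mass of `G1 \ G2` `= ∑_b ν b μ(Gb \ Gk b) ≤ K l`.
* `w2_num` (leaf W2-NUM).  Pure real analysis: `(n+2) √(4K) ρ^(η/2) ≤ 1` by `kf_log_absorb` (`J = n+1`);  `logb 2 (ρ^(-3η)) ≤ 3η(n+1) ≤ 6ηn ≤ cn`;
  `((1/2)^d)^(-χ) = 2^(χd) ≥ 2^(χcn) ≥ (2ρ)^(-χc)`  and  `K 2^(χc) ≤ ρ^(-χc/2)` for small `ρ`.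
* `w2_main`: PROVED from these and `w2_core`, `w1_main`.
-/

set_option autoImplicit false

namespace Claimed.Agent.RW

open Finset
open scoped Classical

/-- **first refinement**: thin pairs, tags of one window class -/
theorem w2_stage1 (A s u γ : ℝ) (hA : 1 ≤ A) (hu : 0 < u) (hus : u < s) (hγ : 0 < γ) (hγu : γ < u) (hu1 : u ≤ 1) :
    ∃ K : ℝ, 1 ≤ K ∧ ∃ c : ℝ, 0 < c ∧ ∃ n₀ : ℕ, ∀ (X T : Type) [Fintype X] [Fintype T] (μ : X → ℝ) (ν : T → ℝ)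
      (pt : X → ℝ × ℝ) (sl : T → ℝ) (Cμ Cν ρ Θ l q0 : ℝ) (n : ℕ) (G : Finset (X × T)),
      (∀ x, 0 ≤ μ x) → (∀ b, 0 ≤ ν b) → ∑ x, μ x ≤ 1 → ∑ b, ν b ≤ 1 → (∀ b, |sl b| ≤ A) →
      1 ≤ Cμ → 1 ≤ Cν → 0 < ρ → ρ ≤ (1 / 2 : ℝ) ^ n → (1 / 2 : ℝ) ^ (n + 1) < ρ → 0 < Θ → 0 < l → l ≤ 1 → n₀ ≤ n →
      ExHered μ pt Cμ s ρ → KfFrost ν sl Cν u ρ →
      q0 ≤ ∑ e ∈ G, μ e.1 * ν e.2 →
      K * ((n : ℝ) + 2) ^ 2 * Cμ * Cν / Θ ≤ q0 / 4 → K * ((n : ℝ) + 2) ^ 2 * l ≤ q0 / 4 → Real.logb 2 (Cν / l) ≤ c * n →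
      ∃ (i0 i1 : ℕ) (G1 : Finset (X × T)), G1 ⊆ G ∧ i0 ≤ i1 ∧ i1 ≤ n ∧ i1 ≤ 2 * i0 ∧ c * n ≤ (i1 : ℝ) - i0 ∧
        (∀ e ∈ G1, W2Thin μ pt u Θ ρ (sl e.2) e.1 ∧ W2Win ν sl γ i0 i1 e.2) ∧
        q0 / (2 * ((n : ℝ) + 1) ^ 2) ≤ ∑ e ∈ G1, μ e.1 * ν e.2 := by
  obtain ⟨Kt, hKt, hthin⟩ := w2_thin_most A s u hA hu hus
  obtain ⟨c, hc, n₀, hwin⟩ := w2_tag_window u γ hγ hγu hu1
  refine ⟨max Kt (2 * A + 3), le_trans hKt (le_max_left _ _), c, hc, n₀, ?_⟩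
  intro X T _ _ μ ν pt sl Cμ Cν ρ Θ l q0 n G hμ0 hν0 hμ1 hν1 hsl hCμ hCν hρ hρn hnρ hΘ hl hl1 hn hH hF hq hc1 hc2 hlog
  obtain ⟨K, hKdef⟩ : ∃ K : ℝ, K = max Kt (2 * A + 3) := ⟨_, rfl⟩
  rw [← hKdef] at hc1 hc2
  have hKKt : Kt ≤ K := by rw [hKdef]; exact le_max_left _ _
  have hKA : 2 * A + 3 ≤ K := by rw [hKdef]; exact le_max_right _ _
  have hK0 : 0 < K := by linarith
  have hn0 : (0 : ℝ) ≤ n := Nat.cast_nonneg n
  have hf0 : ∀ e : X × T, 0 ≤ μ e.1 * ν e.2 := fun e => mul_nonneg (hμ0 _) (hν0 _)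
  have hq0 : 0 < q0 := by
    have : 0 < K * ((n : ℝ) + 2) ^ 2 * l := by positivity
    linarith
  have hρ1 : ρ ≤ 1 := hρn.trans (pow_le_one₀ (by norm_num) (by norm_num))
  -- the non thin pairs
  have hS1 : ∑ e ∈ G.filter (fun e => ¬ W2Thin μ pt u Θ ρ (sl e.2) e.1), μ e.1 * ν e.2 ≤ q0 / 4 := by
    refine le_trans (hthin X T μ ν pt sl Cμ Cν ρ Θ n hμ0 hν0 hμ1 hν1 hsl hCμ hCν hρ hρ1 hnρ hΘ hH hF _
      fun q hq => (mem_filter.1 hq).2) (le_trans ?_ hc1)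
    gcongr
  -- the pairs with a non typical tag
  have hS2 : ∑ e ∈ G.filter (fun e => ¬ W2Typ ν sl l n e.2), μ e.1 * ν e.2 ≤ q0 / 4 := by
    have h1 : G.filter (fun e => ¬ W2Typ ν sl l n e.2) ⊆
        (univ : Finset X) ×ˢ (univ.filter fun b => ¬ W2Typ ν sl l n b) := by
      intro e he
      rw [mem_product]
      exact ⟨mem_univ _, mem_filter.2 ⟨mem_univ _, (mem_filter.1 he).2⟩⟩
    have h2 := w2_tag_most ν sl hν0 hν1 A hA hsl l hl.le n (univ.filter fun b => ¬ W2Typ ν sl l n b)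
      fun b hb => (mem_filter.1 hb).2
    have h3 : 0 ≤ ∑ b ∈ univ.filter (fun b => ¬ W2Typ ν sl l n b), ν b := sum_nonneg fun b _ => hν0 b
    calc ∑ e ∈ G.filter (fun e => ¬ W2Typ ν sl l n e.2), μ e.1 * ν e.2
        ≤ ∑ e ∈ (univ : Finset X) ×ˢ (univ.filter fun b => ¬ W2Typ ν sl l n b), μ e.1 * ν e.2 :=
          sum_le_sum_of_subset_of_nonneg h1 fun e _ _ => hf0 e
      _ = (∑ x, μ x) * ∑ b ∈ univ.filter (fun b => ¬ W2Typ ν sl l n b), ν b := by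
          rw [sum_product, sum_mul_sum]
      _ ≤ 1 * ((((n : ℝ) + 1) ^ 2 + 2 * A + 2) * l) := mul_le_mul hμ1 h2 h3 (by norm_num)
      _ ≤ K * ((n : ℝ) + 2) ^ 2 * l := by
          rw [one_mul]
          refine mul_le_mul_of_nonneg_right ?_ hl.le
          have h4 : ((n : ℝ) + 1) ^ 2 + 2 * A + 2 ≤ (2 * A + 3) * ((n : ℝ) + 2) ^ 2 := by nlinarith
          exact h4.trans (mul_le_mul_of_nonneg_right hKA (by positivity))
      _ ≤ q0 / 4 := hc2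
  -- the good pairs
  obtain ⟨G', hG'⟩ : ∃ G' : Finset (X × T),
      G' = G.filter fun e => W2Thin μ pt u Θ ρ (sl e.2) e.1 ∧ W2Typ ν sl l n e.2 := ⟨_, rfl⟩
  have hGm : q0 / 2 ≤ ∑ e ∈ G', μ e.1 * ν e.2 := by
    have h1 : G ⊆ G' ∪ (G.filter (fun e => ¬ W2Thin μ pt u Θ ρ (sl e.2) e.1) ∪
        G.filter (fun e => ¬ W2Typ ν sl l n e.2)) := by
      intro e he
      rw [hG']
      simp only [mem_union, mem_filter]
      by_cases h2 : W2Thin μ pt u Θ ρ (sl e.2) e.1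
      · by_cases h3 : W2Typ ν sl l n e.2
        · exact Or.inl ⟨he, h2, h3⟩
        · exact Or.inr (Or.inr ⟨he, h3⟩)
      · exact Or.inr (Or.inl ⟨he, h2⟩)
    have h2 : ∑ e ∈ G, μ e.1 * ν e.2 ≤ ∑ e ∈ G', μ e.1 * ν e.2 +
        (∑ e ∈ G.filter (fun e => ¬ W2Thin μ pt u Θ ρ (sl e.2) e.1), μ e.1 * ν e.2 +
          ∑ e ∈ G.filter (fun e => ¬ W2Typ ν sl l n e.2), μ e.1 * ν e.2) := by
      have hun : ∀ S S' : Finset (X × T), ∑ e ∈ S ∪ S', μ e.1 * ν e.2 ≤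
          ∑ e ∈ S, μ e.1 * ν e.2 + ∑ e ∈ S', μ e.1 * ν e.2 := by
        intro S S'
        rw [← sum_union_inter]
        exact le_add_of_nonneg_right (sum_nonneg fun e _ => hf0 e)
      refine le_trans (sum_le_sum_of_subset_of_nonneg h1 fun e _ _ => hf0 e) ?_
      refine le_trans (hun _ _) ?_
      gcongr
      exact hun _ _
    linarith
  -- windows
  have hw : ∀ b : T, ∃ p : ℕ × ℕ, W2Typ ν sl l n b →
      p.1 ≤ p.2 ∧ p.2 ≤ n ∧ p.2 ≤ 2 * p.1 ∧ c * n ≤ (p.2 : ℝ) - p.1 ∧ W2Win ν sl γ p.1 p.2 b := by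
    intro b
    by_cases hb : W2Typ ν sl l n b
    · obtain ⟨i0, i1, h⟩ := hwin T ν sl Cν ρ l n b hν0 hν1 hCν hl hl1 hρ hρn hn hlog hF hb
      exact ⟨(i0, i1), fun _ => h⟩
    · exact ⟨(0, 0), fun h => absurd h hb⟩
  choose win hwinp using hw
  -- pigeonhole
  have hmaps : ∀ e ∈ G', win e.2 ∈ range (n + 1) ×ˢ range (n + 1) := by
    intro e he
    rw [hG', mem_filter] at he
    obtain ⟨h1, h2, -⟩ := hwinp e.2 he.2.2
    rw [mem_product, mem_range, mem_range]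
    omega
  have hfib := sum_fiberwise_of_maps_to (s := G') (t := range (n + 1) ×ˢ range (n + 1)) (g := fun e => win e.2)
    hmaps (fun e => μ e.1 * ν e.2)
  have hne : (range (n + 1) ×ˢ range (n + 1)).Nonempty := ⟨(0, 0), by simp⟩
  have hsum : ∑ _p ∈ range (n + 1) ×ˢ range (n + 1), q0 / (2 * ((n : ℝ) + 1) ^ 2) ≤
      ∑ p ∈ range (n + 1) ×ˢ range (n + 1), ∑ e ∈ G' with win e.2 = p, μ e.1 * ν e.2 := by
    rw [hfib, sum_const, card_product, card_range, nsmul_eq_mul]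
    refine le_trans (le_of_eq ?_) hGm
    push_cast
    field_simp
  obtain ⟨p, -, hp⟩ := exists_le_of_sum_le hne hsum
  have hpos : 0 < ∑ e ∈ G' with win e.2 = p, μ e.1 * ν e.2 := lt_of_lt_of_le (by positivity) hp
  have hne' : (G'.filter fun e => win e.2 = p).Nonempty := by
    rcases (G'.filter fun e => win e.2 = p).eq_empty_or_nonempty with h | h
    · rw [h, sum_empty] at hpos
      exact absurd hpos (lt_irrefl _)
    · exact h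
  obtain ⟨e0, he0⟩ := hne'
  rw [mem_filter, hG', mem_filter] at he0
  obtain ⟨a1, a2, a3, a4, -⟩ := hwinp e0.2 he0.1.2.2
  rw [he0.2] at a1 a2 a3 a4
  refine ⟨p.1, p.2, G'.filter fun e => win e.2 = p, ?_, a1, a2, a3, a4, ?_, hp⟩
  · rw [hG']
    exact (filter_subset _ _).trans (filter_subset _ _)
  · intro e he
    rw [mem_filter, hG', mem_filter] at he
    have h5 := (hwinp e.2 he.1.2.2).2.2.2.2
    rw [he.2] at h5
    exact ⟨he.1.2.1, h5⟩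

/-- **second refinement**: `w2_tag` on every fibre -/
theorem w2_stage2 (A u : ℝ) (hA : 1 ≤ A) (hu : 0 < u) :
    ∃ K : ℝ, 1 ≤ K ∧ ∀ (X T : Type) [Fintype X] [Fintype T] (μ : X → ℝ) (ν : T → ℝ) (pt : X → ℝ × ℝ) (sl : T → ℝ)
      (ρ Θ l w r : ℝ) (M : ℕ) (G G1 : Finset (X × T)) (cov : T → Finset ℝ),
      (∀ x, 0 ≤ μ x) → (∀ b, 0 ≤ ν b) → ∑ x, μ x ≤ 1 → ∑ b, ν b ≤ 1 → (∀ b, |sl b| ≤ A) →
      0 < ρ → ρ ≤ r → r ≤ w → w ≤ 1 / 4 → 1 ≤ Θ → 0 < l → 1 ≤ M →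
      G1 ⊆ G → (∀ e ∈ G1, W2Thin μ pt u Θ ρ (sl e.2) e.1) →
      (∀ b, (cov b).card ≤ M) → (∀ b, KfCov (cov b) ρ {t | ∃ x, (x, b) ∈ G ∧ t = kfProj (sl b) (pt x)}) →
      ∃ G2 : Finset (X × T), G2 ⊆ G1 ∧ ∑ e ∈ G1 \ G2, μ e.1 * ν e.2 ≤ K * l ∧
        (∀ (b : T) (t0 : ℝ), ∃ c' : Finset ℝ,
          KfCov c' r ((fun x => kfProj (sl b) (pt x)) '' {p | (p, b) ∈ G2 ∧ |kfProj (sl b) (pt p) - t0| ≤ (A + 1) * w}) ∧
          (c'.card : ℝ) ≤ K * M * Θ ^ 2 * (ρ / r) ^ u * w ^ u / l ^ 2) ∧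
        (∀ e ∈ G2, l ^ 2 / (K * M * Θ * (ρ / w) ^ u) ≤
          ∑ x with (x, e.2) ∈ G1 ∧ |kfProj (sl e.2) (pt x) - kfProj (sl e.2) (pt e.1)| ≤ w, μ x) := by
  obtain ⟨K, hK, hT⟩ := w2_tag A u hA hu
  refine ⟨K, hK, ?_⟩
  intro X T _ _ μ ν pt sl ρ Θ l w r M G G1 cov hμ0 hν0 hμ1 hν1 hsl hρ hρr hrw hw hΘ hl hM hG1 hthin hcard hcov
  have hb : ∀ b : T, ∃ Gk : Finset X, Gk ⊆ (univ.filter fun p => (p, b) ∈ G1) ∧
      ∑ x ∈ (univ.filter fun p => (p, b) ∈ G1) \ Gk, μ x ≤ K * l ∧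
        (∀ t0 : ℝ, ∃ c' : Finset ℝ,
          KfCov c' r ((fun x => kfProj (sl b) (pt x)) '' {p | p ∈ Gk ∧ |kfProj (sl b) (pt p) - t0| ≤ (A + 1) * w}) ∧
          (c'.card : ℝ) ≤ K * M * Θ ^ 2 * (ρ / r) ^ u * w ^ u / l ^ 2) ∧
        (∀ p ∈ Gk, l ^ 2 / (K * M * Θ * (ρ / w) ^ u) ≤
          ∑ x ∈ (univ.filter fun p => (p, b) ∈ G1) with |kfProj (sl b) (pt x) - kfProj (sl b) (pt p)| ≤ w, μ x) := by
    intro b
    refine hT X μ pt (sl b) ρ Θ l w r M (univ.filter fun p => (p, b) ∈ G1) (cov b) hμ0 hμ1 (hsl b) hρ hρr hrw hw hΘ hl hM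
      ?_ ?_ (hcard b)
    · intro p hp
      exact hthin (p, b) (mem_filter.1 hp).2
    · intro t ht
      obtain ⟨x, hx, rfl⟩ := ht
      exact hcov b _ ⟨x, hG1 (mem_filter.1 (mem_coe.1 hx)).2, rfl⟩
  choose Gk hGk1 hGk2 hGk3 hGk4 using hb
  have hmem : ∀ (p : X) (b : T), (p, b) ∈ G1.filter (fun e => e.1 ∈ Gk e.2) ↔ p ∈ Gk b := by
    intro p b
    rw [mem_filter]
    exact ⟨fun h => h.2, fun h => ⟨(mem_filter.1 (hGk1 b h)).2, h⟩⟩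
  refine ⟨G1.filter fun e => e.1 ∈ Gk e.2, filter_subset _ _, ?_, ?_, ?_⟩
  · have e1 : ∑ e ∈ G1 \ G1.filter (fun e => e.1 ∈ Gk e.2), μ e.1 * ν e.2
        = ∑ b, ν b * ∑ x ∈ (univ.filter fun p => (p, b) ∈ G1) \ Gk b, μ x := by
      have e2 : G1 \ G1.filter (fun e => e.1 ∈ Gk e.2)
          = (univ : Finset (X × T)).filter fun e => e ∈ G1 ∧ e.1 ∉ Gk e.2 := by
        ext e
        simp only [mem_sdiff, mem_filter, mem_univ, true_and, not_and]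
        exact ⟨fun h => ⟨h.1, h.2 h.1⟩, fun h => ⟨h.1, fun _ => h.2⟩⟩
      rw [e2, sum_filter, Fintype.sum_prod_type_right]
      refine sum_congr rfl fun b _ => ?_
      have e3 : (univ.filter fun p => (p, b) ∈ G1) \ Gk b = univ.filter fun p => (p, b) ∈ G1 ∧ p ∉ Gk b := by
        ext p
        simp only [mem_sdiff, mem_filter, mem_univ, true_and]
      rw [e3, sum_filter, mul_sum]
      refine sum_congr rfl fun x _ => ?_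
      split_ifs
      · ring
      · ring
    rw [e1]
    calc ∑ b, ν b * ∑ x ∈ (univ.filter fun p => (p, b) ∈ G1) \ Gk b, μ x
        ≤ ∑ b, ν b * (K * l) := sum_le_sum fun b _ => mul_le_mul_of_nonneg_left (hGk2 b) (hν0 b)
      _ = (∑ b, ν b) * (K * l) := by rw [sum_mul]
      _ ≤ 1 * (K * l) := mul_le_mul_of_nonneg_right hν1 (by positivity)
      _ = K * l := one_mul _
  · intro b t0
    obtain ⟨c', h1, h2⟩ := hGk3 b t0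
    refine ⟨c', ?_, h2⟩
    simp only [hmem]
    exact h1
  · intro e he
    have h1 := hGk4 e.2 e.1 ((hmem e.1 e.2).1 he)
    rw [filter_filter] at h1
    exact h1

/-- powers of `1/2` as real powers of `2` -/
theorem w2_num_half (k : ℕ) (z : ℝ) : ((1 / 2 : ℝ) ^ k) ^ z = (2 : ℝ) ^ (-((k : ℝ) * z)) := by
  rw [← Real.rpow_natCast, ← Real.rpow_mul (by norm_num), one_div, Real.inv_rpow (by norm_num),
    ← Real.rpow_neg (by norm_num)]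

/-- **numerics** -/
theorem w2_num (K c χ η ε ρ' : ℝ) (n₀ : ℕ) (hK : 1 ≤ K) (hc : 0 < c) (hχ : 0 < χ) (hη : 0 < η) (hε : 0 < ε) (hρ' : 0 < ρ')
    (h1 : 15 * η + ε ≤ χ * c / 2) (h2 : 6 * η ≤ c) :
    ∃ ρ₁ : ℝ, 0 < ρ₁ ∧ ρ₁ ≤ 1 ∧ ∀ (ρ : ℝ) (n : ℕ), 0 < ρ → ρ < ρ₁ → (1 / 2 : ℝ) ^ (n + 1) < ρ → ρ ≤ (1 / 2 : ℝ) ^ n →
      n₀ ≤ n ∧ 2 ≤ c * n ∧ 4 * K * ((n : ℝ) + 2) ^ 2 * ρ ^ η ≤ 1 ∧ Real.logb 2 ((ρ ^ η)⁻¹ / (ρ ^ η) ^ 2) ≤ c * n ∧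
      ∀ d : ℕ, c * n ≤ d → (1 / 2 : ℝ) ^ d < ρ' ∧ K * ((ρ ^ η)⁻¹) ^ 15 * ρ ^ (-ε) ≤ ((1 / 2 : ℝ) ^ d) ^ (-χ) := by
  obtain ⟨D, hD⟩ := exists_pow_lt_of_lt_one hρ' (show (1 / 2 : ℝ) < 1 by norm_num)
  obtain ⟨N1, hN1⟩ := exists_nat_ge ((D + 2 : ℝ) / c)
  obtain ⟨N, hN⟩ : ∃ N : ℕ, N = max (max n₀ N1) 1 := ⟨_, rfl⟩
  have hNn0 : n₀ ≤ N := by rw [hN]; exact le_trans (le_max_left _ _) (le_max_left _ _)
  have hNN1 : N1 ≤ N := by rw [hN]; exact le_trans (le_max_right _ _) (le_max_left _ _)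
  have hN1' : 1 ≤ N := by rw [hN]; exact le_max_right _ _
  have hcN : (D : ℝ) + 2 ≤ c * N := by
    have h3 : (D + 2 : ℝ) / c ≤ N := hN1.trans (by exact_mod_cast hNN1)
    rw [div_le_iff₀ hc] at h3
    linarith
  obtain ⟨ρa, hρa0, hρa1, hA⟩ := kf_log_absorb (Real.sqrt (4 * K)) (η / 2) (Real.sqrt_nonneg _) (by positivity)
  obtain ⟨a, ha⟩ : ∃ a : ℝ, a = χ * c / 2 := ⟨_, rfl⟩
  have ha0 : 0 < a := by rw [ha]; positivity
  obtain ⟨B, hB⟩ : ∃ B : ℝ, B = K * (2 : ℝ) ^ (χ * c) := ⟨_, rfl⟩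
  have h2χ : 0 < (2 : ℝ) ^ (χ * c) := Real.rpow_pos_of_pos (by norm_num) _
  have hB0 : 0 < B := by rw [hB]; positivity
  obtain ⟨ρ3, hρ3⟩ : ∃ ρ3 : ℝ, ρ3 = B ^ (-(1 / a)) := ⟨_, rfl⟩
  have hρ30 : 0 < ρ3 := by rw [hρ3]; exact Real.rpow_pos_of_pos hB0 _
  refine ⟨min (min ρa ρ3) ((1 / 2 : ℝ) ^ N), lt_min (lt_min hρa0 hρ30) (by positivity),
    le_trans (min_le_left _ _) (le_trans (min_le_left _ _) hρa1), ?_⟩
  intro ρ n hρ0 hρlt hn1 hn2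
  have hρρa : ρ < ρa := lt_of_lt_of_le hρlt (le_trans (min_le_left _ _) (min_le_left _ _))
  have hρρ3 : ρ < ρ3 := lt_of_lt_of_le hρlt (le_trans (min_le_left _ _) (min_le_right _ _))
  have hρN : ρ < (1 / 2 : ℝ) ^ N := lt_of_lt_of_le hρlt (min_le_right _ _)
  have hρ1 : ρ < 1 := lt_of_lt_of_le hρρa hρa1
  have hNn : N ≤ n := by
    by_contra hcon
    push Not at hcon
    have h3 : (1 / 2 : ℝ) ^ N ≤ (1 / 2 : ℝ) ^ (n + 1) :=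
      pow_le_pow_of_le_one (by norm_num) (by norm_num) (by omega)
    linarith
  have hNnr : (N : ℝ) ≤ n := by exact_mod_cast hNn
  have hn1r : (1 : ℝ) ≤ n := by exact_mod_cast hN1'.trans hNn
  have hcn : (D : ℝ) + 2 ≤ c * n := hcN.trans (mul_le_mul_of_nonneg_left hNnr hc.le)
  have hD0 : (0 : ℝ) ≤ D := Nat.cast_nonneg D
  refine ⟨hNn0.trans hNn, by linarith, ?_, ?_, ?_⟩
  · -- absorbing the logarithm
    have h3 : (2 : ℝ) ^ (n + 1) * ρ ≤ 2 := by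
      calc (2 : ℝ) ^ (n + 1) * ρ ≤ (2 : ℝ) ^ (n + 1) * (1 / 2 : ℝ) ^ n := by gcongr
        _ = 2 * ((2 : ℝ) * (1 / 2)) ^ n := by rw [pow_succ, mul_pow]; ring
        _ = 2 := by norm_num
    have h4 := hA ρ hρ0 hρρa (n + 1) h3
    push_cast at h4
    have h5 : 0 ≤ ((n : ℝ) + 1 + 1) * Real.sqrt (4 * K) * ρ ^ (η / 2) := by positivity
    have h6 : (((n : ℝ) + 1 + 1) * Real.sqrt (4 * K) * ρ ^ (η / 2)) ^ 2 ≤ 1 := pow_le_one₀ h5 h4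
    have h7 : (ρ ^ (η / 2)) ^ 2 = ρ ^ η := by
      rw [← Real.rpow_natCast, ← Real.rpow_mul hρ0.le]
      congr 1
      push_cast
      ring
    have h8 : Real.sqrt (4 * K) ^ 2 = 4 * K := Real.sq_sqrt (by positivity)
    calc 4 * K * ((n : ℝ) + 2) ^ 2 * ρ ^ η
        = (((n : ℝ) + 1 + 1) * Real.sqrt (4 * K) * ρ ^ (η / 2)) ^ 2 := by
          rw [mul_pow, mul_pow, h7, h8]; ring
      _ ≤ 1 := h6
  · -- the logarithm
    have h3 : (ρ ^ η)⁻¹ / (ρ ^ η) ^ 2 = ρ ^ (-(3 * η)) := by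
      rw [← Real.rpow_neg hρ0.le, ← Real.rpow_natCast, ← Real.rpow_mul hρ0.le, ← Real.rpow_sub hρ0]
      congr 1
      push_cast
      ring
    rw [h3, Real.logb_rpow_eq_mul_logb_of_pos hρ0]
    have h4 : -((n : ℝ) + 1) < Real.logb 2 ρ := by
      have h5 := (Real.logb_lt_logb_iff (by norm_num : (1 : ℝ) < 2) (by positivity) hρ0).2 hn1
      have h6 : Real.logb 2 ((1 / 2 : ℝ) ^ (n + 1)) = -((n : ℝ) + 1) := by
        rw [← Real.rpow_natCast, Real.logb_rpow_eq_mul_logb_of_pos (by norm_num), one_div, Real.logb_inv,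
          Real.logb_self_eq_one (by norm_num)]
        push_cast
        ring
      rw [h6] at h5
      exact h5
    have h5 : -(3 * η) * Real.logb 2 ρ ≤ 3 * η * ((n : ℝ) + 1) := by nlinarith
    have h6 : 3 * η * ((n : ℝ) + 1) ≤ 6 * η * n := by nlinarith
    have h7 : 6 * η * n ≤ c * n := mul_le_mul_of_nonneg_right h2 (by linarith)
    linarith
  · intro d hd
    constructor
    · have h3 : (D : ℝ) ≤ d := by linarith
      have h4 : D ≤ d := by exact_mod_cast h3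
      exact lt_of_le_of_lt (pow_le_pow_of_le_one (by norm_num) (by norm_num) h4) hD
    · have hρa' : 0 < ρ ^ a := Real.rpow_pos_of_pos hρ0 _
      -- `B ρ^a ≤ 1`
      have h3 : B * ρ ^ a ≤ 1 := by
        have h4 : ρ ^ a ≤ ρ3 ^ a := Real.rpow_le_rpow hρ0.le hρρ3.le ha0.le
        have h5 : ρ3 ^ a = B⁻¹ := by
          rw [hρ3, ← Real.rpow_mul hB0.le, ← Real.rpow_neg_one]
          congr 1
          field_simp
        rw [h5] at h4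
        calc B * ρ ^ a ≤ B * B⁻¹ := by gcongr
          _ = 1 := mul_inv_cancel₀ hB0.ne'
      have e1 : K * ((ρ ^ η)⁻¹) ^ 15 * ρ ^ (-ε) = K * ρ ^ (-(15 * η) - ε) := by
        rw [← Real.rpow_neg hρ0.le, ← Real.rpow_natCast, ← Real.rpow_mul hρ0.le, mul_assoc, ← Real.rpow_add hρ0]
        congr 2
        push_cast
        ring
      rw [e1, w2_num_half]
      have h4 : ρ ^ (-(15 * η) - ε) ≤ ρ ^ (-a) :=
        Real.rpow_le_rpow_of_exponent_ge hρ0 hρ1.le (by rw [ha]; linarith)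
      have h5 : K * ρ ^ (-a) ≤ (2 * ρ) ^ (-(χ * c)) := by
        have h6 : (2 * ρ) ^ (-(χ * c)) = ((2 : ℝ) ^ (χ * c))⁻¹ * (ρ ^ a)⁻¹ * (ρ ^ a)⁻¹ := by
          have h8 : ρ ^ (χ * c) = ρ ^ a * ρ ^ a := by
            rw [← Real.rpow_add hρ0]
            congr 1
            rw [ha]; ring
          rw [Real.mul_rpow (by norm_num) hρ0.le, Real.rpow_neg (by norm_num), Real.rpow_neg hρ0.le, h8, mul_inv, mul_assoc]
        rw [h6, Real.rpow_neg hρ0.le]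
        have h7 : K ≤ ((2 : ℝ) ^ (χ * c))⁻¹ * (ρ ^ a)⁻¹ := by
          rw [← mul_inv]
          rw [hB] at h3
          have h9 : K * ((2 : ℝ) ^ (χ * c) * ρ ^ a) ≤ 1 := by linarith
          have h10 : 0 < (2 : ℝ) ^ (χ * c) * ρ ^ a := by positivity
          rw [← one_div, le_div_iff₀ h10]
          exact h9
        exact mul_le_mul_of_nonneg_right h7 (by positivity)
      have h6 : (2 * ρ) ^ (-(χ * c)) ≤ ((1 / 2 : ℝ) ^ n) ^ (-(χ * c)) := by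
        apply Real.rpow_le_rpow_of_nonpos (by positivity)
        · have : (1 / 2 : ℝ) ^ (n + 1) = (1 / 2 : ℝ) ^ n / 2 := by rw [pow_succ]; ring
          rw [this] at hn1
          linarith
        · have : 0 < χ * c := by positivity
          linarith
      rw [w2_num_half] at h6
      have h7 : (2 : ℝ) ^ (-((n : ℝ) * -(χ * c))) ≤ (2 : ℝ) ^ (-((d : ℝ) * -χ)) := by
        apply Real.rpow_le_rpow_of_exponent_le (by norm_num)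
        have := mul_le_mul_of_nonneg_left hd hχ.le
        linarith
      calc K * ρ ^ (-(15 * η) - ε) ≤ K * ρ ^ (-a) := by gcongr
        _ ≤ _ := h5.trans (h6.trans h7)

/-- `w1_main` in the form used by `w2_core` -/
theorem w2_W1At (β γ σ A : ℝ) (hβ : 0 < β) (hγ : 0 < γ) (hσ0 : 0 ≤ σ) (hσ : σ < min 1 (β + γ)) (hA : 1 ≤ A) :
    ∃ χ : ℝ, 0 < χ ∧ ∃ ρ₁ : ℝ, 0 < ρ₁ ∧ ∀ δ : ℝ, 0 < δ → δ < ρ₁ → ExW1At β γ σ A χ δ := by
  obtain ⟨χ, hχ, ρ₁, hρ₁, h⟩ := w1_main β γ σ A hβ hγ hσ0 hσ hA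
  refine ⟨χ, hχ, ρ₁, hρ₁, fun ρ h0 h1 X T J _ _ _ μ ν pt sl G M lam xr hT hl hF hU => ?_⟩
  obtain ⟨a1, a2, a3, a4, a5, a6, a7, a8, a9⟩ := hT
  exact h ρ h0 h1 X T J μ ν pt sl G M lam xr a1 a2 a3 a4 a5 a6 a7 a8 a9 hl hF hU

/-- Frostman from hereditary Frostman -/
theorem w2_hered_frost {ι Y : Type} [Fintype ι] [PseudoMetricSpace Y] {w : ι → ℝ} {pos : ι → Y} {C s ρ : ℝ}
    (hw0 : ∀ i, 0 ≤ w i) (hw1 : ∑ i, w i ≤ 1) (hC : 0 ≤ C) (hρ : 0 < ρ) (h : ExHered w pos C s ρ) : KfFrost w pos C s ρ := by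
  intro z r hr hr1
  have h1 := h z r 1 hr hr1 le_rfl
  rw [div_one] at h1
  refine h1.trans ?_
  have h2 : ∑ i with dist (pos i) z ≤ 1, w i ≤ 1 :=
    (Finset.sum_le_sum_of_subset_of_nonneg (Finset.filter_subset _ _) (fun i _ _ => hw0 i)).trans hw1
  have h3 : 0 ≤ C * r ^ s := mul_nonneg hC (Real.rpow_nonneg (hρ.le.trans hr) _)
  nlinarith

set_option maxHeartbeats 1000000 in
/-- **W2 for fixed exponents** -/
theorem w2_main (s u A : ℝ) (hu : 0 < u) (hus : u < s) (hs1 : s ≤ 1) (hA : 1 ≤ A) :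
    ∃ ε : ℝ, 0 < ε ∧ ∃ η : ℝ, 0 < η ∧ ∃ ρ₁ : ℝ, 0 < ρ₁ ∧ ∀ ρ : ℝ, 0 < ρ → ρ < ρ₁ →
      ∀ (X T : Type) [Fintype X] [Fintype T] (μ : X → ℝ) (ν : T → ℝ) (pt : X → ℝ × ℝ) (sl : T → ℝ)
        (G : Finset (X × T)) (M : ℕ),
        ExTest ρ η A u μ ν pt sl G M → ExHered μ pt (ρ ^ (-η)) s ρ →
        ρ ^ (-u - ε) ≤ (M : ℝ) := by
  have hκ0 : 0 < min u (s - u) / 2 := by
    have : 0 < min u (s - u) := lt_min hu (by linarith)
    linarith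
  obtain ⟨κ, hκ⟩ : ∃ κ, κ = min u (s - u) / 2 := ⟨_, rfl⟩
  have hκu : κ ≤ u / 2 := by rw [hκ]; have := min_le_left u (s - u); linarith
  have hκs : κ ≤ (s - u) / 2 := by rw [hκ]; have := min_le_right u (s - u); linarith
  rw [← hκ] at hκ0
  have hγ0 : 0 < u - κ := by linarith
  have hγu : u - κ < u := by linarith
  have hu1 : u ≤ 1 := by linarith
  have hγ1 : u - κ ≤ 1 := by linarith
  have hσ : u < min 1 ((s - u) + (u - κ)) := lt_min (by linarith) (by linarith)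
  obtain ⟨χ, hχ, ρ', hρ', hW1⟩ := w2_W1At (s - u) (u - κ) u (2 * A + 3) (by linarith) hγ0 hu.le hσ (by linarith)
  obtain ⟨K1, hK1, c, hc, n₀, hS1⟩ := w2_stage1 A s u (u - κ) hA hu hus hγ0 hγu hu1
  obtain ⟨K2, hK2, hS2⟩ := w2_stage2 A u hA hu
  obtain ⟨K3, hK3, hCore⟩ := w2_core A s u (u - κ) hA hu hus hγ0 hγ1
  obtain ⟨η, hη⟩ : ∃ η, η = min (χ * c / 60) (c / 6) := ⟨_, rfl⟩
  have hη0 : 0 < η := by rw [hη]; exact lt_min (by positivity) (by positivity)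
  have hη1 : 15 * η + χ * c / 4 ≤ χ * c / 2 := by
    have := min_le_left (χ * c / 60) (c / 6); rw [← hη] at this; linarith
  have hη2 : 6 * η ≤ c := by
    have := min_le_right (χ * c / 60) (c / 6); rw [← hη] at this; linarith
  have hK12 : 1 ≤ K1 * K2 := by nlinarith
  have hK : 1 ≤ K1 * K2 * K3 := by nlinarith
  obtain ⟨ρ₁, hρ₁0, hρ₁1, hnum⟩ :=
    w2_num (K1 * K2 * K3) c χ η (χ * c / 4) ρ' n₀ hK hc hχ hη0 (by positivity) hρ' hη1 hη2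
  refine ⟨χ * c / 4, by positivity, η, hη0, ρ₁, hρ₁0, fun ρ hρ0 hρ1 X T _ _ μ ν pt sl G M hT hH => ?_⟩
  obtain ⟨hμ0, hν0, hμ1, hν1, hpt, hsl, hFν, hmass, cov, hcard, hcov⟩ := hT
  have hρlt1 : ρ < 1 := lt_of_lt_of_le hρ1 hρ₁1
  obtain ⟨n, hn1, hn2⟩ := exists_nat_pow_near_of_lt_one hρ0 hρlt1.le (show (0 : ℝ) < 1 / 2 by norm_num) (by norm_num)
  obtain ⟨hn0, hcn, hlog, hlogb, hd⟩ := hnum ρ n hρ0 hρ1 hn1 hn2
  by_contra hM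
  push Not at hM
  obtain ⟨x, hx⟩ : ∃ x, x = ρ ^ η := ⟨_, rfl⟩
  obtain ⟨e, he⟩ : ∃ e, e = ρ ^ (-(χ * c / 4)) := ⟨_, rfl⟩
  have hx0 : 0 < x := by rw [hx]; exact Real.rpow_pos_of_pos hρ0 _
  have hx1 : x ≤ 1 := by rw [hx]; exact Real.rpow_le_one hρ0.le hρlt1.le hη0.le
  have hxinv : ρ ^ (-η) = x⁻¹ := by rw [hx, Real.rpow_neg hρ0.le]
  have he1 : 1 ≤ e := by
    rw [he]; exact Real.one_le_rpow_of_pos_of_le_one_of_nonpos hρ0 hρlt1.le (by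
      have : 0 < χ * c / 4 := by positivity
      linarith)
  rw [hxinv] at hFν hH
  rw [← hx] at hmass hlog hlogb hd
  rw [← he] at hd
  obtain ⟨y, hy⟩ : ∃ y, y = x⁻¹ := ⟨_, rfl⟩
  rw [← hy] at hFν hH hlogb hd
  have hy1 : 1 ≤ y := by rw [hy]; exact (one_le_inv₀ hx0).2 hx1
  have hy0 : 0 < y := by linarith
  have hxy : x * y = 1 := by rw [hy]; exact mul_inv_cancel₀ hx0.ne'
  -- `M ρ^u < e`
  have hρu : 0 < ρ ^ u := Real.rpow_pos_of_pos hρ0 _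
  have hMe : (M : ℝ) * ρ ^ u < e := by
    have h1 : (M : ℝ) * ρ ^ u < ρ ^ (-u - χ * c / 4) * ρ ^ u := mul_lt_mul_of_pos_right hM hρu
    rw [← Real.rpow_add hρ0] at h1
    rw [he]
    convert h1 using 2
    ring
  -- `1 ≤ M`
  have hM1 : 1 ≤ M := by
    have hne : G.Nonempty := by
      rcases G.eq_empty_or_nonempty with h | h
      · rw [h, Finset.sum_empty] at hmass; linarith
      · exact h
    obtain ⟨⟨p, b⟩, hpb⟩ := hne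
    obtain ⟨e', he', -⟩ := hcov b (kfProj (sl b) (pt p)) ⟨p, hpb, rfl⟩
    exact (Finset.card_pos.2 ⟨e', he'⟩).trans_le (hcard b)
  have hM0 : (0 : ℝ) < M := by exact_mod_cast hM1
  have hN2 : (0 : ℝ) < ((n : ℝ) + 2) ^ 2 := by positivity
  have hK1le : K1 ≤ K1 * K2 * K3 := by
    calc K1 = K1 * 1 * 1 := by ring
      _ ≤ K1 * K2 * K3 := by gcongr
  have hK2le : K2 ≤ K1 * K2 * K3 := by
    calc K2 = 1 * K2 * 1 := by ring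
      _ ≤ K1 * K2 * K3 := by gcongr
  have hlog1 : 4 * K1 * ((n : ℝ) + 2) ^ 2 * x ≤ 1 := by
    refine le_trans ?_ hlog
    gcongr
  have hlog2 : 4 * K2 * ((n : ℝ) + 2) ^ 2 * x ≤ 1 := by
    refine le_trans ?_ hlog
    gcongr
  have hlog0 : 4 * ((n : ℝ) + 2) ^ 2 * x ≤ 1 := by
    refine le_trans ?_ hlog
    calc 4 * ((n : ℝ) + 2) ^ 2 * x = 4 * 1 * ((n : ℝ) + 2) ^ 2 * x := by ring
      _ ≤ 4 * (K1 * K2 * K3) * ((n : ℝ) + 2) ^ 2 * x := by gcongr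
  -- stage 1
  have hc2 : K1 * ((n : ℝ) + 2) ^ 2 * x ^ 2 ≤ x / 4 := by
    calc K1 * ((n : ℝ) + 2) ^ 2 * x ^ 2 = (4 * K1 * ((n : ℝ) + 2) ^ 2 * x) * (x / 4) := by ring
      _ ≤ 1 * (x / 4) := by gcongr
      _ = x / 4 := one_mul _
  have hc1 : K1 * ((n : ℝ) + 2) ^ 2 * y * y / y ^ 4 ≤ x / 4 := by
    have h1 : K1 * ((n : ℝ) + 2) ^ 2 * y * y / y ^ 4 = K1 * ((n : ℝ) + 2) ^ 2 * x ^ 2 := by
      rw [hy]; field_simp
    rw [h1]; exact hc2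
  obtain ⟨i0, i1, G1, hG1, h01, h1n, h12, hwin, hG1p, hG1m⟩ :=
    hS1 X T μ ν pt sl y y ρ (y ^ 4) (x ^ 2) x n G hμ0 hν0 hμ1 hν1 hsl hy1 hy1 hρ0 hn2 hn1 (by positivity) (by positivity)
      (pow_le_one₀ hx0.le hx1) hn0 hH hFν hmass hc1 hc2 hlogb
  -- scales
  have hi0 : 2 ≤ i0 := by
    have h1 : (2 : ℝ) ≤ (i1 : ℝ) - i0 := hcn.trans hwin
    have h2 : (i0 : ℝ) + 2 ≤ i1 := by linarith
    have h3 : i0 + 2 ≤ i1 := by exact_mod_cast h2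
    omega
  obtain ⟨w, hw⟩ : ∃ w : ℝ, w = (1 / 2 : ℝ) ^ i0 := ⟨_, rfl⟩
  obtain ⟨r, hr⟩ : ∃ r : ℝ, r = (1 / 2 : ℝ) ^ i1 := ⟨_, rfl⟩
  obtain ⟨δ, hδ⟩ : ∃ δ : ℝ, δ = (1 / 2 : ℝ) ^ (i1 - i0) := ⟨_, rfl⟩
  have hw0 : 0 < w := by rw [hw]; positivity
  have hr0 : 0 < r := by rw [hr]; positivity
  have hδ0 : 0 < δ := by rw [hδ]; positivity
  have hrwδ : r = w * δ := by rw [hr, hw, hδ, ← pow_add]; congr 1; omega
  have hρr : ρ ≤ r := by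
    rw [hr]; exact hn2.trans (pow_le_pow_of_le_one (by norm_num) (by norm_num) h1n)
  have hrw : r ≤ w := by rw [hr, hw]; exact pow_le_pow_of_le_one (by norm_num) (by norm_num) h01
  have hw4 : w ≤ 1 / 4 := by
    rw [hw]; exact (pow_le_pow_of_le_one (by norm_num) (by norm_num) hi0).trans (by norm_num)
  have hΘ1 : 1 ≤ y ^ 4 := one_le_pow₀ hy1
  -- stage 2
  obtain ⟨G2, hG21, hloss, hP1, hP2⟩ :=
    hS2 X T μ ν pt sl ρ (y ^ 4) (x ^ 3) w r M G G1 cov hμ0 hν0 hμ1 hν1 hsl hρ0 hρr hrw hw4 hΘ1 (by positivity) hM1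
      hG1 (fun e he => (hG1p e he).1) hcard hcov
  obtain ⟨q, hq⟩ : ∃ q : ℝ, q = x / (4 * ((n : ℝ) + 1) ^ 2) := ⟨_, rfl⟩
  have hN1 : (0 : ℝ) < ((n : ℝ) + 1) ^ 2 := by positivity
  have hN12 : ((n : ℝ) + 1) ^ 2 ≤ ((n : ℝ) + 2) ^ 2 := by
    have : (0 : ℝ) ≤ n := Nat.cast_nonneg n
    nlinarith
  have hq0 : 0 < q := by rw [hq]; positivity
  have hqm : q ≤ ∑ e ∈ G2, μ e.1 * ν e.2 := by
    have h1 := Finset.sum_sdiff (f := fun e : X × T => μ e.1 * ν e.2) hG21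
    have h2 : K2 * x ^ 3 ≤ x / (4 * ((n : ℝ) + 1) ^ 2) := by
      rw [le_div_iff₀ (by positivity)]
      calc K2 * x ^ 3 * (4 * ((n : ℝ) + 1) ^ 2) = (4 * K2 * ((n : ℝ) + 1) ^ 2 * x) * x * x := by ring
        _ ≤ (4 * K2 * ((n : ℝ) + 2) ^ 2 * x) * x * x := by gcongr
        _ ≤ 1 * 1 * x := by gcongr
        _ = x := by ring
    have h3 : x / (2 * ((n : ℝ) + 1) ^ 2) = 2 * (x / (4 * ((n : ℝ) + 1) ^ 2)) := by field_simp; ring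
    rw [h3] at hG1m
    rw [hq]
    linarith
  -- the big bound
  have hdd : c * n ≤ ((i1 - i0 : ℕ) : ℝ) := by rw [Nat.cast_sub h01]; exact hwin
  obtain ⟨hδρ, hbig⟩ := hd (i1 - i0) hdd
  rw [← hδ] at hδρ hbig
  have hypow : ∀ a : ℕ, a ≤ 15 → y ^ a ≤ y ^ 15 := fun a ha => pow_le_pow_right₀ hy1 ha
  have hy15 : 0 < y ^ 15 := by positivity
  -- thresholds
  obtain ⟨thr, hthr⟩ : ∃ thr : ℝ, thr = (x ^ 3) ^ 2 / (K2 * M * y ^ 4 * (ρ / w) ^ u) := ⟨_, rfl⟩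
  have hρw : 0 < (ρ / w) ^ u := Real.rpow_pos_of_pos (by positivity) _
  have hthr0 : 0 < thr := by rw [hthr]; positivity
  have hwu : 0 < w ^ u := Real.rpow_pos_of_pos hw0 _
  have hb1 : K3 / q ≤ δ ^ (-χ) := by
    refine le_trans ?_ hbig
    have h1 : K3 / q = K3 * (4 * ((n : ℝ) + 1) ^ 2) * y := by rw [hq, hy]; field_simp
    have h2 : 4 * ((n : ℝ) + 1) ^ 2 ≤ y := by
      have h3 : 4 * ((n : ℝ) + 1) ^ 2 * x ≤ 1 := by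
        refine le_trans ?_ hlog0
        gcongr
      calc 4 * ((n : ℝ) + 1) ^ 2 = 4 * ((n : ℝ) + 1) ^ 2 * x * y := by rw [mul_assoc, hxy, mul_one]
        _ ≤ 1 * y := mul_le_mul_of_nonneg_right h3 hy0.le
        _ = y := one_mul y
    rw [h1]
    calc K3 * (4 * ((n : ℝ) + 1) ^ 2) * y ≤ K3 * y * y := by gcongr
      _ = K3 * y ^ 2 := by ring
      _ ≤ K3 * y ^ 15 := by gcongr; norm_num
      _ = 1 * K3 * y ^ 15 * 1 := by ring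
      _ ≤ K1 * K2 * K3 * y ^ 15 * e := by gcongr
  have hb2 : K3 * y ^ 4 ≤ δ ^ (-χ) := by
    refine le_trans ?_ hbig
    calc K3 * y ^ 4 ≤ K3 * y ^ 15 := by gcongr; norm_num
      _ = 1 * K3 * y ^ 15 * 1 := by ring
      _ ≤ K1 * K2 * K3 * y ^ 15 * e := by gcongr
  have hb3 : K3 * y ^ 4 * y * w ^ u / thr ≤ δ ^ (-χ) := by
    refine le_trans ?_ hbig
    have h1 : K3 * y ^ 4 * y * w ^ u / thr = K2 * K3 * y ^ 15 * (M * ρ ^ u) := by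
      rw [hthr, Real.div_rpow hρ0.le hw0.le, hy]; field_simp
    rw [h1]
    calc K2 * K3 * y ^ 15 * (M * ρ ^ u) ≤ K2 * K3 * y ^ 15 * e := by gcongr
      _ = 1 * (K2 * K3 * y ^ 15 * e) := by ring
      _ ≤ K1 * (K2 * K3 * y ^ 15 * e) := by gcongr
      _ = K1 * K2 * K3 * y ^ 15 * e := by ring
  -- core
  obtain ⟨Hr, hHr⟩ : ∃ Hr : ℝ, Hr = K2 * M * (y ^ 4) ^ 2 * (ρ / r) ^ u * w ^ u / (x ^ 3) ^ 2 := ⟨_, rfl⟩
  have hHr0 : 0 ≤ Hr := by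
    rw [hHr]
    have : 0 < (ρ / r) ^ u := Real.rpow_pos_of_pos (by positivity) _
    positivity
  rw [← hHr] at hP1
  rw [← hthr] at hP2
  have hP1' : ∀ (b : T) (t0 : ℝ), ∃ c' : Finset ℝ,
      KfCov c' ((1 / 2 : ℝ) ^ i1) ((fun x => kfProj (sl b) (pt x)) ''
        {p | (p, b) ∈ G2 ∧ |kfProj (sl b) (pt p) - t0| ≤ (A + 1) * (1 / 2 : ℝ) ^ i0}) ∧ c'.card ≤ ⌊Hr⌋₊ := by
    intro b t0
    obtain ⟨c', h1, h2⟩ := hP1 b t0
    rw [hr, hw] at h1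
    exact ⟨c', h1, Nat.le_floor h2⟩
  rw [hw] at hP2 hb3
  rw [hδ] at hb1 hb2 hb3 hδρ
  have hfin := hCore X T μ ν pt sl y (y ^ 4) ρ q thr χ ⌊Hr⌋₊ i0 i1 G1 G2 hμ0 hν0 hμ1 hν1 hpt hsl hy1 hΘ1 hρ0 hq0 hthr0 hχ
    (by omega) h01 h12 (hr ▸ hρr) (w2_hered_frost hμ0 hμ1 hy0.le hρ0 hH) hG1p hG21 hqm hP1' hP2
    (hW1 _ (by positivity) hδρ) hb1 hb3 hb2
  rw [← hδ] at hfin
  have h1 : δ ^ (-u - χ) ≤ Hr := hfin.trans (Nat.floor_le hHr0)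
  have hδu : 0 < δ ^ (-u) := Real.rpow_pos_of_pos hδ0 _
  have h2 : Hr = K2 * y ^ 14 * (M * ρ ^ u) * δ ^ (-u) := by
    rw [hHr, hrwδ, Real.div_rpow hρ0.le (by positivity), Real.mul_rpow hw0.le hδ0.le, Real.rpow_neg hδ0.le, hy]
    have : 0 < δ ^ u := Real.rpow_pos_of_pos hδ0 _
    field_simp
  have h3 : Hr < δ ^ (-χ) * δ ^ (-u) := by
    rw [h2]
    refine mul_lt_mul_of_pos_right (lt_of_lt_of_le ?_ hbig) hδu
    calc K2 * y ^ 14 * (M * ρ ^ u) < K2 * y ^ 14 * e := by gcongr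
      _ ≤ K2 * y ^ 15 * e := by gcongr; norm_num
      _ = 1 * K2 * 1 * y ^ 15 * e := by ring
      _ ≤ K1 * K2 * K3 * y ^ 15 * e := by gcongr
  rw [← Real.rpow_add hδ0] at h3
  have h4 : -χ + -u = -u - χ := by ring
  rw [h4] at h3
  linarith

end Claimed.Agent.RW
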