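import Claimed.Agent.RW.ExDefs
import Claimed.Agent.RW.FalcB
import Claimed.Agent.RW.W1
import Claimed.Agent.RW.W2Main

/-!
# Team RW.  Unit EXPORT (prefix `ex`): the consumer interface.   (helper236, with helper7, helper69)

What the box papers call "Ren--Wang Thm 4.1" (BR Thm 3.1/3.2, Sphere Thm 3.1/Lemma 3.2) is used ONLY through the four statements below
(table of all uses with line numbers: origin/helper236:notes/RW/a_weakest.md).  All four have the format of BR Thm 3.2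
("weighted projection bound with parameter tags") in the Lean dress of `Kaufman.lean` (helper117: `kfProj`, `KfFrost`, `KfCov`):
a finite point population `(pt, μ)` in the plane, a finite population of TAGS `(sl, ν)` (`sl b` = slope of the tag `b`; different tags may share a slope),
an incidence graph `G` of product mass `≥ ρ^η`, and for every tag `b` the set `{ y - sl(b) x : (x,y) a neighbour of b }` is covered by `M` intervals of length `ρ`.
Conclusion: a lower bound for `M`.   Balls of `ℝ × ℝ` are squares.  Bounded factors in front of the projection: apply the theorem at the scale `Λρ`.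

* `ex_K`  (Kaufman)            point law Frostman `d`, slopes Frostman `s`:                `M ≥ ρ^(-min(d,s)+α)`.      [in `ExDefs.lean`, with the definitions `ExTest`, `ExHered`]
     BR 7 l.1092 (dimensions s,s).
* `ex_F`  (Falconer, L²)       point law Frostman `d`, slopes Frostman `s`:                `M ≥ ρ^(-min(1,d+s-1)+α)`.
     BR 7 eq. (rate-tied-q) (only "q > 2-s ⟹ z ≥ 1" is used);  Sphere 4 l.169 (`E-τ < E+σ-1` because `σ > 1-s`, `τ ≥ s`).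
* `ex_W1` (= SABC)             point law with `y`-fibres of exponent `σ` over a Frostman-`β` reference law of `x`, slopes Frostman `γ`,
                               `σ < min(1,β+γ)`:                                            `M ≥ ρ^(-σ-χ)`.
     BR 7 l.709 (4 chains), l.807 (m = 1, at precision ρ^d, σ = g(d)/d), l.1240, l.1350;  Sphere Prop 3.4, Prop 3.7.
     The hypothesis `hU` is implied by product domination `μ ≤ K lam ⊗ α`, `α` with atoms `≤ ρ^(σ-χ')` (BR), and by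
     "atoms of μ ≤ ρ^(σ+β-χ'), x-marginal Frostman β on ≤ ρ^(-β-χ') cells" (Sphere; helper297) after deleting the light cells.
* `ex_W2` (gain over Kaufman)  point law HEREDITARILY Frostman `s ≤ 1`, slopes Frostman `u ∈ [τ, s-τ]`:   `M ≥ ρ^(-u-ε)`, `ε = ε(s,τ) > 0`.
     BR Prop 7.x (directional bootstrap, l.975): the iteration `u ↦ (s+u)/2` is replaced by `u ↦ u + ε(s,τ)`, finitely many steps reach `s - τ`.

PROOF PLANS.
F : Gaussian mollifier; `‖π_θ μ_ρ‖₂² = ∫ |μ^(τ e_θ)|² G(ρτ) dτ`; `μ^ = (μ/χ)^ * χ^` (χ Gaussian) makes `|μ^|²` locally constant; the Frostman bound of `ν`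
    gives the weight `≲ Σ_k R_k^(-s) exp(-π|ξ|²/R_k²)`; `∫ |μ'^|² exp(-π|ξ|²/R²) = R² Σ m_i m_j exp(-πR²|p_i-p_j|²) ≲ R^(2-d)`.  Only Gaussian integrals.
W1: discretisation to `Sabc` (integer form): `n = ⌊log₂ 1/ρ⌋ - c(A)`, affine normalisation of `x`, `sl` to `[0,1)`; this shears `y` by a multiple of `x`
    (harmless for `hU`: a sheared ρ-cell meets O(A²) cells) and translates the image by a function of the tag (harmless for the covering number).
    SABC is needed in the form (U): a law `μ` on pairs `(a,b)` with `μ(a,b) ≤ δ^(σ-χ) μ_B(b)`, `μ_B` Frostman β  (product form = special case; same proof: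
    `H(a,b) ≥ (σ-χ)n + E[-log μ_B(b)] + log p`, and `μ_B(B^q) ≥ δ^(2χ) p` because a fixed `b` has `≤ |S_c0|` partners `a` in `G*`).
W2: helper142 13:35Z / helper77 class K(t): window `[x0,x1]`, `x1 ≤ 2 x0` of the slope law (window lemma, notes a_weakest 2.3), `w = ρ^x0 > r = ρ^x1`, `δ' = r/w`;
    in a typical `w`-tube `T` of direction `θ0`: `A = π_θ0(K ∩ T)` at resolution `r` (exponent `u` if there is no gain: Kaufman above `w`, inside `w`-squares, below `r`),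
    `B` = positions along `T` at resolution `δ'` (Frostman `s-u` by the Kaufman second moment on children), `C` = slopes in the `w`-interval of `θ0` (Frostman `≈ u`);
    `hU` from robust Kaufman in the `w`-squares; `ex_W1` with `(σ,β,γ) = (u+, s-u, u-)`, margin `s-u ≥ τ`.
-/

set_option autoImplicit false

namespace Claimed.Agent.RW

open Finset

/-- **F** (Falconer, L² range) -/
theorem ex_F (d s α A : ℝ) (hd : 0 < d) (hs : 0 < s) (hs1 : s ≤ 1) (hα : 0 < α) (hA : 1 ≤ A) :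
    ∃ η : ℝ, 0 < η ∧ ∃ ρ₁ : ℝ, 0 < ρ₁ ∧ ∀ ρ : ℝ, 0 < ρ → ρ < ρ₁ →
      ∀ (X T : Type) [Fintype X] [Fintype T] (μ : X → ℝ) (ν : T → ℝ) (pt : X → ℝ × ℝ) (sl : T → ℝ)
        (G : Finset (X × T)) (M : ℕ),
        ExTest ρ η A s μ ν pt sl G M → KfFrost μ pt (ρ ^ (-η)) d ρ →
        ρ ^ (-(min 1 (d + s - 1)) + α) ≤ (M : ℝ) := by
  obtain ⟨η, hη, ρ₁, hρ₁, h⟩ := fa_planar d s α A hd.le hs.le hα hA
  refine ⟨η, hη, ρ₁, hρ₁, fun ρ h0 h1 X T _ _ μ ν pt sl G M hT hF => ?_⟩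
  obtain ⟨a1, a2, a3, a4, a5, a6, a7, a8, cov, a9, a10⟩ := hT
  exact h ρ h0 h1 X T μ ν pt sl a1 a2 a3 a4 (fun x => (a5 x).1) a6 hF a7 G M cov a8 a9 a10

/-- **W1** (strong ABC at the sharp threshold, real-variable form).  `(xr, lam)` is the reference law of the first coordinate. -/
theorem ex_W1 (β γ σ A : ℝ) (hβ : 0 < β) (hγ : 0 < γ) (hσ0 : 0 ≤ σ) (hσ : σ < min 1 (β + γ)) (hA : 1 ≤ A) :
    ∃ χ : ℝ, 0 < χ ∧ ∃ ρ₁ : ℝ, 0 < ρ₁ ∧ ∀ ρ : ℝ, 0 < ρ → ρ < ρ₁ →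
      ∀ (X T J : Type) [Fintype X] [Fintype T] [Fintype J] (μ : X → ℝ) (ν : T → ℝ) (pt : X → ℝ × ℝ) (sl : T → ℝ)
        (G : Finset (X × T)) (M : ℕ) (lam xr : J → ℝ),
        ExTest ρ χ A γ μ ν pt sl G M →
        (∀ j, 0 ≤ lam j) → KfFrost lam xr (ρ ^ (-χ)) β ρ →
        (∀ z : ℝ × ℝ, ∑ x with dist (pt x) z ≤ ρ, μ x ≤ ρ ^ (σ - χ) * ∑ j with dist (xr j) z.1 ≤ A * ρ, lam j) →
        ρ ^ (-σ - χ) ≤ (M : ℝ) := by
  obtain ⟨χ, hχ, ρ₁, hρ₁, h⟩ := w1_main β γ σ A hβ hγ hσ0 hσ hA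
  refine ⟨χ, hχ, ρ₁, hρ₁, fun ρ h0 h1 X T J _ _ _ μ ν pt sl G M lam xr hT hl hF hU => ?_⟩
  obtain ⟨a1, a2, a3, a4, a5, a6, a7, a8, a9⟩ := hT
  exact h ρ h0 h1 X T J μ ν pt sl G M lam xr a1 a2 a3 a4 a5 a6 a7 a8 a9 hl hF hU

/-- a finite family of positive numbers has a positive lower bound -/
theorem ex_pos_lb {ι : Type} (t : Finset ι) (f : ι → ℝ) (hf : ∀ i, 0 < f i) : ∃ m : ℝ, 0 < m ∧ ∀ i ∈ t, m ≤ f i := by
  classical
  induction t using Finset.induction_on with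
  | empty => exact ⟨1, one_pos, fun i hi => absurd hi (Finset.notMem_empty i)⟩
  | insert a t _ ih =>
    obtain ⟨m, hm, h⟩ := ih
    refine ⟨min m (f a), lt_min hm (hf a), fun i hi => ?_⟩
    rcases Finset.mem_insert.1 hi with rfl | hi
    · exact min_le_right _ _
    · exact (min_le_left _ _).trans (h i hi)

/-- the test at the exponent `u` with small losses implies the test at a nearby exponent `v` -/
theorem ex_test_nearby {X T : Type} [Fintype X] [Fintype T] {ρ η η' A u v : ℝ} {μ : X → ℝ} {ν : T → ℝ} {pt : X → ℝ × ℝ}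
    {sl : T → ℝ} {G : Finset (X × T)} {M : ℕ} (hρ0 : 0 < ρ) (hρ1 : ρ < 1) (hη : η ≤ η' / 2) (hη' : 0 < η') (huv : v - η' / 2 < u)
    (h : ExTest ρ η A u μ ν pt sl G M) : ExTest ρ η' A v μ ν pt sl G M := by
  obtain ⟨a1, a2, a3, a4, a5, a6, a7, a8, a9⟩ := h
  refine ⟨a1, a2, a3, a4, a5, a6, ?_, ?_, a9⟩
  · intro z r hr hr1
    refine (a7 z r hr hr1).trans ?_
    have hr0 : 0 < r := hρ0.trans_le hr
    have h1 : r ^ u = r ^ v * r ^ (u - v) := by rw [← Real.rpow_add hr0]; congr 1; ring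
    have h2 : r ^ (u - v) ≤ ρ ^ (-(η' / 2)) := by
      rcases le_total 0 (u - v) with h0 | h0
      · exact (Real.rpow_le_one hr0.le hr1 h0).trans
          (Real.one_le_rpow_of_pos_of_le_one_of_nonpos hρ0 hρ1.le (by linarith))
      · exact (Real.rpow_le_rpow_of_nonpos hρ0 hr h0).trans
          (Real.rpow_le_rpow_of_exponent_ge hρ0 hρ1.le (by linarith))
    have h3 : ρ ^ (-η) ≤ ρ ^ (-(η' / 2)) := Real.rpow_le_rpow_of_exponent_ge hρ0 hρ1.le (by linarith)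
    have h4 : ρ ^ (-η') = ρ ^ (-(η' / 2)) * ρ ^ (-(η' / 2)) := by rw [← Real.rpow_add hρ0]; congr 1; ring
    have h5 : 0 < r ^ v := Real.rpow_pos_of_pos hr0 _
    have h6 : 0 < r ^ (u - v) := Real.rpow_pos_of_pos hr0 _
    have h7 : 0 < ρ ^ (-η) := Real.rpow_pos_of_pos hρ0 _
    rw [h1, h4]
    calc ρ ^ (-η) * (r ^ v * r ^ (u - v)) = ρ ^ (-η) * r ^ (u - v) * r ^ v := by ring
      _ ≤ ρ ^ (-(η' / 2)) * ρ ^ (-(η' / 2)) * r ^ v := by gcongr
  · exact (Real.rpow_le_rpow_of_exponent_ge hρ0 hρ1.le (by linarith)).trans a8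

/-- **W2** (gain over Kaufman for hereditarily Frostman planar laws, uniform on compact sets of exponents).
From `w2_main` (fixed exponent) by compactness of `[τ, s-τ]`: the data `(ε_v/2, η_v/2)` work for all `u ∈ (v - η_v/2, v + ε_v/2)`. -/
theorem ex_W2 (s τ A : ℝ) (hτ : 0 < τ) (hs1 : s ≤ 1) (hA : 1 ≤ A) :
    ∃ ε : ℝ, 0 < ε ∧ ∃ η : ℝ, 0 < η ∧ ∃ ρ₁ : ℝ, 0 < ρ₁ ∧ ∀ u : ℝ, τ ≤ u → u ≤ s - τ → ∀ ρ : ℝ, 0 < ρ → ρ < ρ₁ →
      ∀ (X T : Type) [Fintype X] [Fintype T] (μ : X → ℝ) (ν : T → ℝ) (pt : X → ℝ × ℝ) (sl : T → ℝ)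
        (G : Finset (X × T)) (M : ℕ),
        ExTest ρ η A u μ ν pt sl G M → ExHered μ pt (ρ ^ (-η)) s ρ →
        ρ ^ (-u - ε) ≤ (M : ℝ) := by
  have H : ∀ v : ℝ, ∃ ε η ρ₁ : ℝ, 0 < ε ∧ 0 < η ∧ 0 < ρ₁ ∧ (τ ≤ v → v ≤ s - τ → ∀ ρ : ℝ, 0 < ρ → ρ < ρ₁ →
      ∀ (X T : Type) [Fintype X] [Fintype T] (μ : X → ℝ) (ν : T → ℝ) (pt : X → ℝ × ℝ) (sl : T → ℝ)
        (G : Finset (X × T)) (M : ℕ),
        ExTest ρ η A v μ ν pt sl G M → ExHered μ pt (ρ ^ (-η)) s ρ → ρ ^ (-v - ε) ≤ (M : ℝ)) := by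
    intro v
    by_cases hv : τ ≤ v ∧ v ≤ s - τ
    · obtain ⟨ε, hε, η, hη, ρ₁, hρ₁, h⟩ := w2_main s v A (by linarith [hv.1]) (by linarith [hv.2]) hs1 hA
      exact ⟨ε, η, ρ₁, hε, hη, hρ₁, fun _ _ => h⟩
    · exact ⟨1, 1, 1, one_pos, one_pos, one_pos, fun h1 h2 => absurd ⟨h1, h2⟩ hv⟩
  choose εf ηf ρf hε hη hρ hmain using H
  obtain ⟨t, ht, hcover⟩ := (isCompact_Icc (a := τ) (b := s - τ)).elim_nhds_subcover
    (fun v => Set.Ioo (v - ηf v / 2) (v + εf v / 2))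
    (fun v _ => Ioo_mem_nhds (by linarith [hη v]) (by linarith [hε v]))
  obtain ⟨ε, hε0, hεt⟩ := ex_pos_lb t (fun v => εf v / 2) (fun v => by linarith [hε v])
  obtain ⟨η, hη0, hηt⟩ := ex_pos_lb t (fun v => ηf v / 2) (fun v => by linarith [hη v])
  obtain ⟨ρ₁, hρ₁0, hρt⟩ := ex_pos_lb t ρf hρ
  refine ⟨ε, hε0, η, hη0, min ρ₁ 1, lt_min hρ₁0 one_pos, fun u hu1 hu2 ρ hρ0 hρ1 X T _ _ μ ν pt sl G M hT hH => ?_⟩
  have hρlt1 : ρ < 1 := lt_of_lt_of_le hρ1 (min_le_right _ _)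
  have hmem := hcover (show u ∈ Set.Icc τ (s - τ) from ⟨hu1, hu2⟩)
  simp only [Set.mem_iUnion, Set.mem_Ioo, exists_prop] at hmem
  obtain ⟨v, hvt, hv1, hv2⟩ := hmem
  have hvI := ht v hvt
  have hT' : ExTest ρ (ηf v) A v μ ν pt sl G M := ex_test_nearby hρ0 hρlt1 (hηt v hvt) (hη v) hv1 hT
  have hμ0 : ∀ x, 0 ≤ μ x := hT.1
  have hH' : ExHered μ pt (ρ ^ (-ηf v)) s ρ := by
    intro z r₂ r₁ h1 h2 h3
    refine (hH z r₂ r₁ h1 h2 h3).trans ?_
    have h4 : ρ ^ (-η) ≤ ρ ^ (-ηf v) := Real.rpow_le_rpow_of_exponent_ge hρ0 hρlt1.le (by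
      have := hηt v hvt
      linarith [hη v])
    have h5 : 0 ≤ (r₂ / r₁) ^ s := Real.rpow_nonneg (div_nonneg (hρ0.le.trans h1) ((hρ0.le.trans h1).trans h2)) _
    have h6 : 0 ≤ ∑ i with dist (pt i) z ≤ r₁, μ i := Finset.sum_nonneg fun i _ => hμ0 i
    gcongr
  have h := hmain v hvI.1 hvI.2 ρ hρ0 (lt_of_lt_of_le hρ1 ((min_le_left _ _).trans (hρt v hvt))) X T μ ν pt sl G M hT' hH'
  refine le_trans (Real.rpow_le_rpow_of_exponent_ge hρ0 hρlt1.le ?_) h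
  have := hεt v hvt
  linarith

end Claimed.Agent.RW
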