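import Claimed.Agent.RW.Kaufman

/-!
# Team RW.  Unit EXPORT (prefix `ex`), light part: the definitions `ExHered`, `ExTest` of the consumer interface, and `ex_K`.     (helper236)
The interface itself (four theorems, table of uses, plans) is `RW/Export.lean`.  The files `W2*.lean` import only this file, so that they do not depend on the SABC chain.
-/

set_option autoImplicit false

namespace Claimed.Agent.RW

open Finset

/-- HEREDITARY Frostman condition (grid free): concentric balls (= squares in `ℝ × ℝ`) -/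
def ExHered {ι Y : Type} [Fintype ι] [PseudoMetricSpace Y] (w : ι → ℝ) (pos : ι → Y) (C s ρ : ℝ) : Prop :=
  ∀ (z : Y) (r₂ r₁ : ℝ), ρ ≤ r₂ → r₂ ≤ r₁ → r₁ ≤ 1 →
    ∑ i with dist (pos i) z ≤ r₂, w i ≤ C * (r₂ / r₁) ^ s * ∑ i with dist (pos i) z ≤ r₁, w i

/-- the common hypotheses of the four projection tests: (sub)probability populations, bounded domains, slopes Frostman `s` with loss `ρ^(-η)`,
graph of product mass `≥ ρ^η`, projection of the neighbours of every tag covered by `M` intervals of length `ρ`. -/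
def ExTest {X T : Type} [Fintype X] [Fintype T] (ρ η A s : ℝ) (μ : X → ℝ) (ν : T → ℝ) (pt : X → ℝ × ℝ) (sl : T → ℝ)
    (G : Finset (X × T)) (M : ℕ) : Prop :=
  (∀ x, 0 ≤ μ x) ∧ (∀ b, 0 ≤ ν b) ∧ ∑ x, μ x ≤ 1 ∧ ∑ b, ν b ≤ 1 ∧
  (∀ x, |(pt x).1| ≤ A ∧ |(pt x).2| ≤ A) ∧ (∀ b, |sl b| ≤ A) ∧
  KfFrost ν sl (ρ ^ (-η)) s ρ ∧ ρ ^ η ≤ ∑ p ∈ G, μ p.1 * ν p.2 ∧
  ∃ cov : T → Finset ℝ, (∀ b, (cov b).card ≤ M) ∧
    ∀ b, KfCov (cov b) ρ {t | ∃ x, (x, b) ∈ G ∧ t = kfProj (sl b) (pt x)}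

/-- **K** (Kaufman, robust graph form with tags) -/
theorem ex_K (d s α A : ℝ) (hd : 0 ≤ d) (hs : 0 ≤ s) (hα : 0 < α) (hA : 1 ≤ A) :
    ∃ η : ℝ, 0 < η ∧ ∃ ρ₁ : ℝ, 0 < ρ₁ ∧ ∀ ρ : ℝ, 0 < ρ → ρ < ρ₁ →
      ∀ (X T : Type) [Fintype X] [Fintype T] (μ : X → ℝ) (ν : T → ℝ) (pt : X → ℝ × ℝ) (sl : T → ℝ)
        (G : Finset (X × T)) (M : ℕ),
        ExTest ρ η A s μ ν pt sl G M → KfFrost μ pt (ρ ^ (-η)) d ρ →
        ρ ^ (-(min d s) + α) ≤ (M : ℝ) := by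
  obtain ⟨η, hη, ρ₁, hρ₁, h⟩ := kf_planar d s α A hd hs hα hA
  refine ⟨η, hη, ρ₁, hρ₁, fun ρ h0 h1 X T _ _ μ ν pt sl G M hT hF => ?_⟩
  obtain ⟨a1, a2, a3, a4, -, a6, a7, a8, cov, a9, a10⟩ := hT
  exact h ρ h0 h1 X T μ ν pt sl a1 a2 a3 a4 a6 hF a7 G M cov a8 a9 a10

end Claimed.Agent.RW
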