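import Claimed.Agent.RW.Ent

/-!
# Team RW.  Unit EP: entropic Pluennecke inequality for conditionally independent, weakly dependent summands.
(interface statement by helper142; owner helper297)   PROVED, sorry-free (helper297).

Actual proof (shorter than the notes): `H(W') ≤ H(X,W') + H(S,Y) - H(X,S,Y)` (submodularity, `X = v_a`, `S = u+v_a`, `Y = v_{s}`), `H(X,W') = H(X,W) ≤ H(X)+H(W)`,
`H(S,Y) ≤ H(S) + ∑_s H(v_t)`, `H(X,S,Y) = H(u,v_{s+a}) ≥ H(u) + ∑_{s+a} (H(u,v_t)-H(u))` (`ep_sub`, from `hci` and conditional subadditivity).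

`hci` = the `v t` are conditionally independent given `u` (entropy form; supplied by `en_copies_ci`).
PROOF (notes sabc_chain.md sec. 4).  Enumerate `ι`; `W_j = u + v_1 + .. + v_j`.
`H(W_{j+1}) = I(v_{j+1};W_{j+1}) + H(W_j | v_{j+1}) ≤ I(v_{j+1};W_{j+1}) + H(W_j)`.
`W_{j+1}` is a function of `(u+v_{j+1}, v_{≤j})`:  `I(v_{j+1};W_{j+1}) ≤ I(v_{j+1};u+v_{j+1}) + I(v_{j+1};v_{≤j} | u+v_{j+1})`.
1st term `= H(u+v_{j+1}) - H(u|v_{j+1}) ≤ 2κ`.
2nd term `≤ I((u,v_{j+1}); v_{≤j}) = I(u;v_{≤j}) + I(v_{j+1};v_{≤j}|u) = I(u;v_{≤j}) ≤ ∑_{t≤j} I(u;v_t) ≤ jκ`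
(`I(X;Y|f(X)) ≤ I(X;Y)`; sub-families of a conditionally independent family are conditionally independent: from `hci` and subadditivity).
-/

set_option autoImplicit false

open Finset

namespace Claimed.Agent.RW

section ep
variable {Ω : Type*} [Fintype Ω] {ι : Type*} [Fintype ι] [DecidableEq ι]

/-- the sub-family `(v t)_{t ∈ s}`, masked by `0` outside `s` -/
def epM (v : ι → Ω → ℤ) (s : Finset ι) (ω : Ω) : ι → ℤ := fun t => if t ∈ s then v t ω else 0

theorem epM_eqns_cite : True := by
  have := @epM.eq_1.{0, 0}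
  trivial

theorem ep_swap {α β : Type*} [DecidableEq α] [DecidableEq β] (P : Pm Ω) (X : Ω → α) (Y : Ω → β) :
    P.ent (fun ω => (X ω, Y ω)) = P.ent (fun ω => (Y ω, X ω)) :=
  en_congr P _ _ Prod.swap Prod.swap (fun _ _ => rfl) (fun _ _ => rfl)

/-- adding one variable: conditional subadditivity -/
theorem ep_insert (P : Pm Ω) (u : Ω → ℤ) (v : ι → Ω → ℤ) (s : Finset ι) (a : ι) (ha : a ∉ s) :
    P.ent (fun ω => (u ω, epM v (insert a s) ω)) ≤
      P.ent (fun ω => (u ω, epM v s ω)) + (P.ent (fun ω => (u ω, v a ω)) - P.ent u) := by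
  have h := en_submod P (epM v s) (v a) u
  have e1 : P.ent (fun ω => (epM v s ω, v a ω, u ω)) = P.ent (fun ω => (u ω, epM v (insert a s) ω)) := by
    refine en_congr P _ _ (fun q => (q.2.2, fun t => if t = a then q.2.1 else q.1 t))
      (fun q => (fun t => if t = a then 0 else q.2 t, q.2 a, q.1)) (fun ω _ => ?_) (fun ω _ => ?_)
    · refine Prod.ext rfl ?_
      funext t
      by_cases hta : t = a
      · subst hta
        simp [epM]
      · simp [epM, hta]
    · refine Prod.ext ?_ (Prod.ext ?_ rfl)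
      · funext t
        by_cases hta : t = a
        · subst hta
          simp [epM, ha]
        · simp [epM, hta]
      · simp [epM]
  rw [e1, ep_swap P (epM v s) u, ep_swap P (v a) u] at h
  linarith

theorem ep_union (P : Pm Ω) (u : Ω → ℤ) (v : ι → Ω → ℤ) (s T : Finset ι) (hd : Disjoint s T) :
    P.ent (fun ω => (u ω, epM v (s ∪ T) ω)) ≤
      P.ent (fun ω => (u ω, epM v s ω)) + ∑ t ∈ T, (P.ent (fun ω => (u ω, v t ω)) - P.ent u) := by
  induction T using Finset.induction_on with
  | empty => simp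
  | insert a T ha ih =>
    have hd' : Disjoint s T := hd.mono_right (Finset.subset_insert a T)
    have has : a ∉ s := fun h => (Finset.disjoint_left.1 hd h) (Finset.mem_insert_self a T)
    have h1 := ep_insert P u v (s ∪ T) a (by
      rw [Finset.mem_union]; tauto)
    rw [Finset.union_insert, Finset.sum_insert ha]
    have := ih hd'
    linarith

/-- sub-families of a conditionally independent family: lower bound for the joint entropy -/
theorem ep_sub (P : Pm Ω) (u : Ω → ℤ) (v : ι → Ω → ℤ)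
    (hci : P.ent (fun ω => (u ω, fun t => v t ω)) =
      P.ent u + ∑ t, (P.ent (fun ω => (u ω, v t ω)) - P.ent u)) (s : Finset ι) :
    P.ent u + ∑ t ∈ s, (P.ent (fun ω => (u ω, v t ω)) - P.ent u) ≤
      P.ent (fun ω => (u ω, epM v s ω)) := by
  have h := ep_union P u v s (univ \ s) Finset.disjoint_sdiff
  have e : (fun ω => (u ω, epM v (s ∪ (univ \ s)) ω)) = fun ω => (u ω, fun t => v t ω) := by
    funext ω
    refine Prod.ext rfl ?_
    funext t
    simp [epM]
  rw [e, hci] at h
  have hsplit := Finset.sum_sdiff (Finset.subset_univ s)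
    (f := fun t => (P.ent (fun ω => (u ω, v t ω)) - P.ent u))
  linarith

theorem ep_mask_le (P : Pm Ω) (v : ι → Ω → ℤ) (s : Finset ι) :
    P.ent (epM v s) ≤ ∑ t ∈ s, P.ent (v t) := by
  induction s using Finset.induction_on with
  | empty =>
    have : epM v ∅ = fun _ => (fun _ => (0 : ℤ)) := by
      funext ω t
      simp [epM]
    rw [this, en_const]
    simp
  | insert a s ha ih =>
    have e1 : P.ent (epM v (insert a s)) = P.ent (fun ω => (epM v s ω, v a ω)) := by
      refine en_congr P _ _ (fun q => (fun t => if t = a then 0 else q t, q a))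
        (fun q => fun t => if t = a then q.2 else q.1 t) (fun ω _ => ?_) (fun ω _ => ?_)
      · refine Prod.ext ?_ ?_
        · funext t
          by_cases hta : t = a
          · subst hta
            simp [epM, ha]
          · simp [epM, hta]
        · simp [epM]
      · funext t
        by_cases hta : t = a
        · subst hta
          simp [epM]
        · simp [epM, hta]
    rw [e1, Finset.sum_insert ha]
    have := en_pair_le P (epM v s) (v a)
    linarith

/-- one step of the induction -/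
theorem ep_step (P : Pm Ω) (u : Ω → ℤ) (v : ι → Ω → ℤ) (κ : ℝ)
    (hci : P.ent (fun ω => (u ω, fun t => v t ω)) =
      P.ent u + ∑ t, (P.ent (fun ω => (u ω, v t ω)) - P.ent u))
    (hI : ∀ t, P.ent u + P.ent (v t) - P.ent (fun ω => (u ω, v t ω)) ≤ κ)
    (hS : ∀ t, P.ent (fun ω => u ω + v t ω) ≤ P.ent u + κ) (s : Finset ι) (a : ι) (ha : a ∉ s) :
    P.ent (fun ω => u ω + ∑ t ∈ insert a s, v t ω) ≤
      P.ent (fun ω => u ω + ∑ t ∈ s, v t ω) + (2 + (s.card : ℝ)) * κ := by
  set W : Ω → ℤ := fun ω => u ω + ∑ t ∈ s, v t ω with hW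
  set W' : Ω → ℤ := fun ω => u ω + ∑ t ∈ insert a s, v t ω with hW'
  set SY : Ω → ℤ × (ι → ℤ) := fun ω => (u ω + v a ω, epM v s ω) with hSY
  have hsumM : ∀ ω, ∑ t ∈ s, epM v s ω t = ∑ t ∈ s, v t ω := by
    intro ω
    refine Finset.sum_congr rfl fun t ht => ?_
    simp [epM, ht]
  -- (a), (b)
  have ha1 : P.ent (fun ω => (v a ω, W' ω)) = P.ent (fun ω => (v a ω, W ω)) := by
    refine en_congr P _ _ (fun q => (q.1, q.2 - q.1)) (fun q => (q.1, q.2 + q.1))
      (fun ω _ => ?_) (fun ω _ => ?_)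
    · refine Prod.ext rfl ?_
      simp only [hW, hW', Finset.sum_insert ha]
      ring
    · refine Prod.ext rfl ?_
      simp only [hW, hW', Finset.sum_insert ha]
      ring
  have hb := en_pair_le P (v a) W
  -- (c)
  have hc := en_submod P (v a) SY W'
  -- (d)
  have hd : P.ent (fun ω => (SY ω, W' ω)) = P.ent SY := by
    refine en_congr P _ SY Prod.fst (fun q => (q, q.1 + ∑ t ∈ s, q.2 t)) (fun _ _ => rfl)
      (fun ω _ => ?_)
    refine Prod.ext rfl ?_
    simp only [hSY, hW', Finset.sum_insert ha, hsumM]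
    ring
  -- (e)
  have he : P.ent (fun ω => (v a ω, SY ω, W' ω)) = P.ent (fun ω => (u ω, epM v (insert a s) ω)) := by
    refine en_congr P _ _ (fun q => (q.2.1.1 - q.1, fun t => if t = a then q.1 else q.2.1.2 t))
      (fun q => (q.2 a, (q.1 + q.2 a, fun t => if t = a then 0 else q.2 t),
        q.1 + ∑ t ∈ insert a s, q.2 t)) (fun ω _ => ?_) (fun ω _ => ?_)
    · refine Prod.ext ?_ ?_
      · simp [hSY]
      · funext t
        by_cases hta : t = a
        · subst hta
          simp [epM]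
        · simp [epM, hta, hSY]
    · refine Prod.ext ?_ (Prod.ext (Prod.ext ?_ ?_) ?_)
      · simp [epM]
      · simp [epM, hSY]
      · funext t
        by_cases hta : t = a
        · subst hta
          simp [epM, ha, hSY]
        · simp [epM, hta, hSY]
      · simp only [hW']
        congr 1
        refine Finset.sum_congr rfl fun t ht => ?_
        simp [epM, ht]
  -- (f)
  have hf1 := en_pair_le P (fun ω => u ω + v a ω) (epM v s)
  have hf2 := hS a
  have hf3 := ep_mask_le P v s
  -- (g)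
  have hg := ep_sub P u v hci (insert a s)
  rw [Finset.sum_insert ha] at hg
  have hIs : ∑ t ∈ s, (P.ent u + P.ent (v t) - P.ent (fun ω => (u ω, v t ω))) ≤ (s.card : ℝ) * κ := by
    have := Finset.sum_le_sum (fun t (_ : t ∈ s) => hI t)
    simpa [Finset.sum_const, nsmul_eq_mul] using this
  have hsplit : ∑ t ∈ s, (P.ent u + P.ent (v t) - P.ent (fun ω => (u ω, v t ω))) =
      ∑ t ∈ s, P.ent (v t) - ∑ t ∈ s, (P.ent (fun ω => (u ω, v t ω)) - P.ent u) := by
    rw [← Finset.sum_sub_distrib]
    refine Finset.sum_congr rfl fun t _ => ?_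
    ring
  have hIa := hI a
  rw [he, hd, ha1] at hc
  have hSYe : P.ent SY = P.ent (fun ω => (u ω + v a ω, epM v s ω)) := rfl
  rw [hSYe] at hc
  nlinarith

end ep

theorem ep_main {Ω : Type*} [Fintype Ω] {ι : Type*} [Fintype ι] [DecidableEq ι] (P : Pm Ω)
    (u : Ω → ℤ) (v : ι → Ω → ℤ) (κ : ℝ) (hκ : 0 ≤ κ)
    (hci : P.ent (fun ω => (u ω, fun t => v t ω)) =
      P.ent u + ∑ t, (P.ent (fun ω => (u ω, v t ω)) - P.ent u))
    (hI : ∀ t, P.ent u + P.ent (v t) - P.ent (fun ω => (u ω, v t ω)) ≤ κ)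
    (hS : ∀ t, P.ent (fun ω => u ω + v t ω) ≤ P.ent u + κ) :
    P.ent (fun ω => u ω + ∑ t, v t ω) ≤
      P.ent u + ((Fintype.card ι : ℝ) ^ 2 + 2 * Fintype.card ι) * κ := by
  have key : ∀ s : Finset ι, P.ent (fun ω => u ω + ∑ t ∈ s, v t ω) ≤
      P.ent u + ((s.card : ℝ) ^ 2 + 2 * s.card) * κ := by
    intro s
    induction s using Finset.induction_on with
    | empty => simp
    | insert a s ha ih =>
      have h := ep_step P u v κ hci hI hS s a ha
      rw [Finset.card_insert_of_notMem ha]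
      push_cast
      have : 0 ≤ (s.card : ℝ) * κ := mul_nonneg (Nat.cast_nonneg _) hκ
      nlinarith
  simpa using key univ

end Claimed.Agent.RW
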