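import Claimed.Agent.RW.FlDef

/-!
# Team RW.  Unit FL: a dead level kills at most `k R` blocks.   LEAF FL-COUNT.   PROVED (helper297).   (pure `Finset` combinatorics)

`flY \ flYl ⊆ image (fun (i, x, r) => x + z i - r) (univ ×ˢ flDead ×ˢ Icc 2 R)`: a block `w ∈ flY` without live witness has a witness `(i,x,r)` with `x ∈ hiSet`, `x ∉ hiSet \ flDead`, i.e. `x ∈ flDead`, and `w = x + z i - r`.
`Finset.card_image_le`, `Finset.card_product`, `Nat.card_Icc` (`#Icc 2 R = R - 1 ≤ R`), `Finset.card_sdiff`-type inequality `#flY ≤ #flYl + #(flY \ flYl)` (`Finset.card_le_card_sdiff_add_card`).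
-/

set_option autoImplicit false

open Finset

namespace Claimed.Agent.RW

theorem fl_count {Ω : Type} [Fintype Ω] (ε : ℝ) (Q : Pm Ω) (b : Ω → ℕ) (L m R : ℕ) (N : ℕ → ℕ) {k : ℕ}
    (z : Fin k → ℕ) :
    (flY ε L m R N z).card ≤ (flYl ε Q b L m R N z).card + k * R * (flDead ε Q b L m N).card := by
  classical
  have hsub : flY ε L m R N z ⊆ flYl ε Q b L m R N z ∪
      ((univ : Finset (Fin k)) ×ˢ (flDead ε Q b L m N ×ˢ Finset.Icc 2 R)).image
        (fun q => q.2.1 + z q.1 - q.2.2) := by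
    intro w hw
    obtain ⟨hwm, i, x, hx, r, hr, hwr, hxz⟩ := (fl_mem_flY ε L m R N z w).1 hw
    by_cases hxd : x ∈ flDead ε Q b L m N
    · refine Finset.mem_union_right _ (Finset.mem_image.2 ⟨(i, x, r), ?_, ?_⟩)
      · exact Finset.mem_product.2 ⟨Finset.mem_univ i, Finset.mem_product.2 ⟨hxd, hr⟩⟩
      · show x + z i - r = w
        omega
    · exact Finset.mem_union_left _ ((fl_mem_flYl ε Q b L m R N z w).2
        ⟨hwm, i, x, Finset.mem_sdiff.2 ⟨hx, hxd⟩, r, hr, hwr, hxz⟩)
  refine (Finset.card_le_card hsub).trans ((Finset.card_union_le _ _).trans ?_)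
  refine Nat.add_le_add_left (Finset.card_image_le.trans ?_) _
  rw [Finset.card_product, Finset.card_product, Finset.card_univ, Fintype.card_fin, Nat.card_Icc]
  have h1 : R + 1 - 2 ≤ R := by omega
  calc k * ((flDead ε Q b L m N).card * (R + 1 - 2))
      ≤ k * ((flDead ε Q b L m N).card * R) :=
        Nat.mul_le_mul_left _ (Nat.mul_le_mul_left _ h1)
    _ = k * R * (flDead ε Q b L m N).card := by ring

end Claimed.Agent.RW
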