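import Claimed.Agent.RW.FlWin
import Claimed.Agent.RW.FlCount

/-!
# Team RW.  Unit FL: entropy of long sums of dilates of i.i.d. samples from a measure of almost full entropy on a uniform tree.
(interface statement by helper142; owners helper297 + helper71; uses FLAT = helper77's LEM F, E6, E7)

Setting: `n = m*L`, `B'` uniform tree with branching `N`, `X = hiSet ε L m N`.  `Q` a law, `b : Ω → ℕ` with values in `B'`,
deficit `def = log #B' - H(b)`.  Slopes `c0, c i` with `2^(n-(z i+1)L) ≤ |c i - c0| < 2^(n-z i L)`.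
`v^i(x) = ecb n (c i) x - ecb n c0 x = (c i - c0) x / 2^n + O(1)`.  `V = ∑_{i<k, j<k'} v^i(b_ij)`, `b_ij` i.i.d. `~ b`.
`flY` = blocks `w < m` with `w + r = x + z i`, `x ∈ X`, `2 ≤ r ≤ R`, `x + z i + 3 ≤ m`.
CLAIM: `H(V) ≥ (1-ε)(L-C0) log 2 (#flY - k R def / ((εL/2) log 2))`.

PROOF (notes 5.4).  `V_l := ⌊V / 2^(n-lL)⌋`.  Chain rule over ALIGNED blocks: `H(V) ≥ H(V_m) = ∑_{l<m} (H(V_{l+1}) - H(V_l))`, every term `≥ 0`... (`V_l` is a function of `V_{l+1}`).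
`h_x := H(cell_{x+1} b | cell_x b) ≤ log N x`, `∑_x (log N x - h_x) = def`: all but `def/((εL/2) log 2)` of the `x ∈ X` are LIVE: `h_x ≥ (εL/2) log 2`.
Live `x`: with probability `≥ ε/4` the level-`x` component of `b` has entropy `≥ (εL/4) log 2` at level `x+1`, hence standard deviation `≥ 2^(n-(x+1)L)` (E6).
`w = x + z i - r ∈ flY`, `x` live: condition on `ω_w` = everything except the positions of `b_ij` (`j < k'`) inside their level-`x` cells: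
`H(V_{w+1}) - H(V_w) ≥ H(V_{w+1}|ω_w) - H(V_w|ω_w)` (submodularity).  Given `ω_w`: `V = const + ∑_j ξ_j`, `ξ_j` independent, supports of length
`≤ 2^(n-(w+r)L) + 2 ≤ 2^(n-(w+1)L)`, `S² = ∑ Var ξ_j ≥ (ε k'/8) 4^(n-(w+r+2)L) ≥ 4^(n-wL)` with probability `≥ 1-ε` (Chebyshev), if `k' ≥ k0(R,L,ε)`.
LEM F + E7: `H(V_{w+1}|ω_w) ≥ log(S/2^(n-(w+1)L)) - C`;  E6: `H(V_w|ω_w) ≤ log(S/2^(n-wL) + 1) + C`.

CUT (helper297, 15:00Z).  Definitions `ecb`, `flY` moved UNCHANGED to `FlDef.lean`.  `fl_main` is PROVED below from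
`fl_window` (`FlWin.lean`: a block with a live witness is filled), `fl_chain` (`FlChain.lean`), `fl_count` (`FlCount.lean`), `fl_dead` (`FlLive.lean`).
Leaves: FL-IF (`FlIf.lean`, glue to FLAT), FL-PI, FL-CHERN, FL-CHAIN, FL-LIVE, FL-COUNT, FL-ARITH, FL-VAR; glue FL-WIN.
-/

set_option autoImplicit false

open Finset

namespace Claimed.Agent.RW

/-- the counting part of `fl_main` -/
theorem fl_main_aux (ε : ℝ) (hε : 0 < ε) (hε1 : ε < 1) (R L : ℕ) (hL1 : 1 ≤ L) (C0 : ℝ) (hLC : C0 ≤ L)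
    (k' k m : ℕ) (B' : Finset ℕ) (N : ℕ → ℕ) (hT : UTree (m * L) L m B' N)
    (Ω : Type) [Fintype Ω] (Q : Pm Ω) (b : Ω → ℕ) (hb : ∀ ω, Q.w ω ≠ 0 → b ω ∈ B')
    (c0 : ℕ) (c z : Fin k → ℕ)
    (hwin : ∀ (i : Fin k) (x r w : ℕ), 2 ≤ r → r ≤ R → w + r = x + z i → x + z i + 3 ≤ m →
      ε * L / 2 * Real.log 2 ≤ flh Q b (m * L) L x →
      (1 - ε) * ((L : ℝ) - C0) * Real.log 2 ≤
        (Pm.pi fun _ : Fin k × Fin k' => Q).ent
          (fun β => (∑ p, flv (m * L) c0 (c p.1) (b (β p))) / (2 : ℤ) ^ (m * L - (w + 1) * L)) -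
        (Pm.pi fun _ : Fin k × Fin k' => Q).ent
          (fun β => (∑ p, flv (m * L) c0 (c p.1) (b (β p))) / (2 : ℤ) ^ (m * L - w * L))) :
    (1 - ε) * ((L : ℝ) - C0) * Real.log 2 *
        (((flY ε L m R N z).card : ℝ) - k * R * (Real.log B'.card - Q.ent b) / (ε * L / 2 * Real.log 2)) ≤
      (Pm.pi fun _ : Fin k × Fin k' => Q).ent (fun β => ∑ p, flv (m * L) c0 (c p.1) (b (β p))) := by
  have hlog2 : 0 < Real.log 2 := Real.log_pos (by norm_num)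
  have hLpos : (0 : ℝ) < L := by exact_mod_cast hL1
  have hcc0 : 0 ≤ (1 - ε) * ((L : ℝ) - C0) * Real.log 2 := by
    have h1 : 0 ≤ 1 - ε := by linarith
    have h2 : 0 ≤ (L : ℝ) - C0 := by linarith
    exact mul_nonneg (mul_nonneg h1 h2) hlog2.le
  have hchain := fl_chain (Pm.pi fun _ : Fin k × Fin k' => Q)
    (fun β => ∑ p, flv (m * L) c0 (c p.1) (b (β p))) L m
    (flYl ε Q b L m R N z) (fl_flYl_subset ε Q b L m R N z) ((1 - ε) * ((L : ℝ) - C0) * Real.log 2)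
    (by
      intro w hw
      obtain ⟨-, i, x, hx, r, hr, hwr, hxz⟩ := (fl_mem_flYl ε Q b L m R N z w).1 hw
      obtain ⟨hxhi, hxd⟩ := Finset.mem_sdiff.1 hx
      have hlive : ε * L / 2 * Real.log 2 ≤ flh Q b (m * L) L x := by
        by_contra hcon
        exact hxd ((fl_mem_flDead ε Q b L m N x).2 ⟨hxhi, not_le.1 hcon⟩)
      obtain ⟨hr2, hrR⟩ := Finset.mem_Icc.1 hr
      exact hwin i x r w hr2 hrR hwr hxz hlive)
  have hcount : ((flY ε L m R N z).card : ℝ) ≤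
      (flYl ε Q b L m R N z).card + k * R * (flDead ε Q b L m N).card := by
    exact_mod_cast fl_count ε Q b L m R N z
  have hdead := fl_dead ε hε L m B' N hT Q b hb
  have hden : 0 < ε * L / 2 * Real.log 2 := by positivity
  have hdead' : ((flDead ε Q b L m N).card : ℝ) ≤
      (Real.log B'.card - Q.ent b) / (ε * L / 2 * Real.log 2) := by
    rwa [le_div_iff₀ hden]
  have hkR : (0 : ℝ) ≤ k * R := by positivity
  have hfin : ((flY ε L m R N z).card : ℝ) -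
      k * R * (Real.log B'.card - Q.ent b) / (ε * L / 2 * Real.log 2) ≤ (flYl ε Q b L m R N z).card := by
    have := mul_le_mul_of_nonneg_left hdead' hkR
    rw [mul_div_assoc]
    linarith
  exact (mul_le_mul_of_nonneg_left hfin hcc0).trans hchain

theorem fl_main (ε : ℝ) (hε : 0 < ε) (hε1 : ε < 1) (R : ℕ) (hR : 2 ≤ R) :
    ∃ C0 : ℝ, ∃ L0 : ℕ, ∀ L, L0 ≤ L → ∃ k0 : ℕ, ∀ k', k0 ≤ k' →
      ∀ (k m : ℕ) (B' : Finset ℕ) (N : ℕ → ℕ), UTree (m * L) L m B' N →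
      ∀ (Ω : Type) [Fintype Ω] (Q : Pm Ω) (b : Ω → ℕ), (∀ ω, Q.w ω ≠ 0 → b ω ∈ B') →
      ∀ (c0 : ℕ) (c z : Fin k → ℕ), c0 < 2 ^ (m * L) → (∀ i, c i < 2 ^ (m * L)) →
      (∀ i, (2 : ℤ) ^ (m * L - (z i + 1) * L) ≤ |(c i : ℤ) - c0| ∧ |(c i : ℤ) - c0| < (2 : ℤ) ^ (m * L - z i * L)) →
      (1 - ε) * ((L : ℝ) - C0) * Real.log 2 *
          (((flY ε L m R N z).card : ℝ) - k * R * (Real.log B'.card - Q.ent b) / (ε * L / 2 * Real.log 2)) ≤
        (Pm.pi fun _ : Fin k × Fin k' => Q).ent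
          (fun β => ∑ p, (ecb (m * L) (c p.1) (b (β p)) - ecb (m * L) c0 (b (β p)))) := by
  obtain ⟨C0, L0, hwin⟩ := fl_window ε hε hε1 R hR
  refine ⟨C0, max (max L0 ⌈C0⌉₊) 1, fun L hL => ?_⟩
  have hL0 : L0 ≤ L := le_trans (le_trans (le_max_left _ _) (le_max_left _ _)) hL
  have hLC : C0 ≤ L := by
    have h1 : ⌈C0⌉₊ ≤ L := le_trans (le_trans (le_max_right _ _) (le_max_left _ _)) hL
    exact (Nat.le_ceil C0).trans (by exact_mod_cast h1)
  have hL1 : 1 ≤ L := le_trans (le_max_right _ _) hL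
  obtain ⟨k0, hk0⟩ := hwin L hL0
  refine ⟨k0, fun k' hk' k m B' N hT Ω _ Q b hb c0 c z _ _ hcz => ?_⟩
  exact fl_main_aux ε hε hε1 R L hL1 C0 hLC k' k m B' N hT Ω Q b hb c0 c z
    (fun i x r w h1 h2 h3 h4 h5 => hk0 k' hk' k m Ω Q b c0 c z hcz i x r w h1 h2 h3 h4 h5)

end Claimed.Agent.RW
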