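import Claimed.Agent.RW.FlIf

/-!
# Team RW.  Unit FL: arithmetic of the summand `flv n c0 c x = ⌊c x/2^n⌋ - ⌊c0 x/2^n⌋`.   LEAVES FL-ARITH (`fl_flv_approx`, `fl_diam`), FL-VAR (`fl_var_lower`).   ALL PROVED (helper297).

* `fl_flv_approx`: `t - 1 < ⌊t⌋ ≤ t` for both floors (`Nat.cast_div_le`, `Nat.lt_div_mul_add`/`Nat.div_add_mod`; or `Nat.floor_div_eq_div`).
* `fl_diam`: same level-`x` cell ⟹ `|y - y'| < 2^(n-xL)` (`Nat.div_add_mod`, `Nat.mod_lt`), `|D| |y-y'| / 2^n < 2^(n-(x+z)L) =: 2^a`, `a = n-(w+r)L ≥ 3L`, so `|ξ-ξ'| < 2^a + 2`; integers: `≤ 2^a + 1 ≤ 2^(a+1) ≤ 2^(n-(w+1)L)` (`r ≥ 2`, `L ≥ 1`).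
* `fl_var_lower`: `C7 := log 37 / 2 + C6` (`fl_if_e6`).  `s = 2^(n-(x+1)L)`, `W = cell_{x+1} b = b / s`, `D = c - c0`, `λ = D s / 2^n`, `|λ| ≥ u1 := 2^(n-(x+z+2)L) ≥ 1`.
  `|ξ - D b/2^n| < 1`, `|b/s - W| < 1` ⟹ `|W - ξ/λ| < 2` ⟹ `(W-W')² ≤ 2 (ξ-ξ')²/λ² + 32` ⟹ `var2 W ≤ 2 var2 ξ / λ² + 32` (`flt_sum_ww`).
  If `var2 ξ < 2 u1²` then `var2 W < 36` and `H(W) ≤ log 37/2 + C6` (entropy of the `ℕ`-valued `W` = entropy of its cast to `ℤ`: `en_congr` with `Int.toNat`).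
-/

set_option autoImplicit false

open Finset

namespace Claimed.Agent.RW

theorem fl_floor_bd (A D : ℕ) (hD : 0 < D) :
    ((A / D : ℕ) : ℝ) ≤ (A : ℝ) / D ∧ (A : ℝ) / D < ((A / D : ℕ) : ℝ) + 1 := by
  have hD' : (0 : ℝ) < D := by exact_mod_cast hD
  have h1 : (A : ℝ) = D * ((A / D : ℕ) : ℝ) + ((A % D : ℕ) : ℝ) := by
    exact_mod_cast (Nat.div_add_mod A D).symm
  have h2 : ((A % D : ℕ) : ℝ) < D := by exact_mod_cast Nat.mod_lt A hD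
  have h3 : (0 : ℝ) ≤ ((A % D : ℕ) : ℝ) := Nat.cast_nonneg _
  constructor
  · rw [le_div_iff₀ hD']
    nlinarith
  · rw [div_lt_iff₀ hD']
    nlinarith

theorem fl_flv_approx (n c0 c x : ℕ) :
    |((flv n c0 c x : ℤ) : ℝ) - ((c : ℝ) - c0) * x / 2 ^ n| < 1 := by
  have hD : 0 < 2 ^ n := by positivity
  obtain ⟨a1, a2⟩ := fl_floor_bd (c * x) (2 ^ n) hD
  obtain ⟨b1, b2⟩ := fl_floor_bd (c0 * x) (2 ^ n) hD
  have e : ((c : ℝ) - c0) * x / 2 ^ n = ((c * x : ℕ) : ℝ) / ((2 ^ n : ℕ) : ℝ) -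
      ((c0 * x : ℕ) : ℝ) / ((2 ^ n : ℕ) : ℝ) := by
    push_cast
    ring
  have e2 : ((flv n c0 c x : ℤ) : ℝ) = ((c * x / 2 ^ n : ℕ) : ℝ) - ((c0 * x / 2 ^ n : ℕ) : ℝ) := by
    unfold flv ecb
    rw [Int.cast_sub, Int.cast_natCast, Int.cast_natCast]
  rw [e, e2, abs_lt]
  constructor <;> linarith

theorem fl_cell_close (s y y' : ℕ) (hs : 0 < s) (h : y / s = y' / s) :
    |(y : ℝ) - y'| < s := by
  have h1 : (y : ℝ) = s * ((y / s : ℕ) : ℝ) + ((y % s : ℕ) : ℝ) := by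
    exact_mod_cast (Nat.div_add_mod y s).symm
  have h2 : (y' : ℝ) = s * ((y' / s : ℕ) : ℝ) + ((y' % s : ℕ) : ℝ) := by
    exact_mod_cast (Nat.div_add_mod y' s).symm
  have h3 : ((y % s : ℕ) : ℝ) < s := by exact_mod_cast Nat.mod_lt y hs
  have h4 : ((y' % s : ℕ) : ℝ) < s := by exact_mod_cast Nat.mod_lt y' hs
  have h5 : (0 : ℝ) ≤ ((y % s : ℕ) : ℝ) := Nat.cast_nonneg _
  have h6 : (0 : ℝ) ≤ ((y' % s : ℕ) : ℝ) := Nat.cast_nonneg _
  rw [h] at h1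
  rw [h1, h2, abs_lt]
  constructor <;> linarith

theorem fl_diam (L m x zi w r c0 c : ℕ) (hL : 1 ≤ L) (hr : 2 ≤ r) (hw : w + r = x + zi)
    (hx : x + zi + 3 ≤ m) (hd : |(c : ℤ) - c0| < (2 : ℤ) ^ (m * L - zi * L)) (y y' : ℕ)
    (hyy : cell (m * L) L x y = cell (m * L) L x y') :
    |flv (m * L) c0 c y - flv (m * L) c0 c y'| ≤ (2 : ℤ) ^ (m * L - (w + 1) * L) := by
  -- exponents
  have hxz : (x + zi) * L ≤ m * L := Nat.mul_le_mul_right L (by omega)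
  have hsplit : (x + zi) * L = x * L + zi * L := by ring
  obtain ⟨a, ha⟩ : ∃ a, a = m * L - (x + zi) * L := ⟨_, rfl⟩
  have e1 : (m * L - zi * L) + (m * L - x * L) = m * L + a := by omega
  have e2 : a + 1 ≤ m * L - (w + 1) * L := by
    have h1 : (x + zi) * L = (w + 1) * L + (r - 1) * L := by
      rw [← hw, ← Nat.add_mul]
      congr 1
      omega
    have h2 : 1 ≤ (r - 1) * L := Nat.mul_pos (by omega) hL
    omega
  have hclose := fl_cell_close (2 ^ (m * L - x * L)) y y' (by positivity) hyy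
  have hdR : |(c : ℝ) - c0| < (2 : ℝ) ^ (m * L - zi * L) := by
    have : (((|(c : ℤ) - c0| : ℤ)) : ℝ) < (((2 : ℤ) ^ (m * L - zi * L) : ℤ) : ℝ) := by exact_mod_cast hd
    push_cast at this
    exact this
  push_cast at hclose
  have hprod : |((c : ℝ) - c0) * y / 2 ^ (m * L) - ((c : ℝ) - c0) * y' / 2 ^ (m * L)| < (2 : ℝ) ^ a := by
    have e : ((c : ℝ) - c0) * y / 2 ^ (m * L) - ((c : ℝ) - c0) * y' / 2 ^ (m * L) =
        ((c : ℝ) - c0) * ((y : ℝ) - y') / 2 ^ (m * L) := by ring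
    rw [e, abs_div, abs_mul, abs_of_pos (by positivity : (0 : ℝ) < 2 ^ (m * L)), div_lt_iff₀ (by positivity),
      ← pow_add, add_comm a, ← e1, pow_add]
    exact mul_lt_mul'' hdR hclose (abs_nonneg _) (abs_nonneg _)
  have h1 := fl_flv_approx (m * L) c0 c y
  have h2 := fl_flv_approx (m * L) c0 c y'
  have hreal : |((flv (m * L) c0 c y : ℤ) : ℝ) - ((flv (m * L) c0 c y' : ℤ) : ℝ)| < (2 : ℝ) ^ a + 2 := by
    rw [abs_lt] at h1 h2 hprod ⊢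
    constructor <;> linarith [h1.1, h1.2, h2.1, h2.2, hprod.1, hprod.2]
  have hint : |flv (m * L) c0 c y - flv (m * L) c0 c y'| < (2 : ℤ) ^ a + 2 := by
    have : ((|flv (m * L) c0 c y - flv (m * L) c0 c y'| : ℤ) : ℝ) < (((2 : ℤ) ^ a + 2 : ℤ) : ℝ) := by
      push_cast
      exact hreal
    exact_mod_cast this
  have hpow : (2 : ℤ) ^ a + 1 ≤ (2 : ℤ) ^ (m * L - (w + 1) * L) := by
    have h3 : (2 : ℤ) ^ (a + 1) ≤ (2 : ℤ) ^ (m * L - (w + 1) * L) :=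
      pow_le_pow_right₀ (by norm_num) e2
    have h4 : (1 : ℤ) ≤ (2 : ℤ) ^ a := one_le_pow₀ (by norm_num)
    rw [pow_succ] at h3
    linarith
  linarith

/-- pointwise comparison of the level-`(x+1)` cells with the summands -/
theorem fl_var_pt (n s c0 c y y' : ℕ) (hs : 0 < s) (u1 : ℝ) (hu1 : 1 ≤ u1)
    (hlam : u1 ≤ |((c : ℝ) - c0) * s / 2 ^ n|) :
    u1 ^ 2 * (((y / s : ℕ) : ℝ) - ((y' / s : ℕ) : ℝ)) ^ 2 ≤
      2 * (((flv n c0 c y : ℤ) : ℝ) - ((flv n c0 c y' : ℤ) : ℝ)) ^ 2 + 18 * u1 ^ 2 := by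
  have hs' : (0 : ℝ) < s := by exact_mod_cast hs
  obtain ⟨a1, a2⟩ := fl_floor_bd y s hs
  obtain ⟨b1, b2⟩ := fl_floor_bd y' s hs
  have h1 := fl_flv_approx n c0 c y
  have h2 := fl_flv_approx n c0 c y'
  set lam : ℝ := ((c : ℝ) - c0) * s / 2 ^ n with hlamdef
  set W : ℝ := ((y / s : ℕ) : ℝ)
  set W' : ℝ := ((y' / s : ℕ) : ℝ)
  set ξ : ℝ := ((flv n c0 c y : ℤ) : ℝ)
  set ξ' : ℝ := ((flv n c0 c y' : ℤ) : ℝ)
  have e1 : ((c : ℝ) - c0) * y / 2 ^ n = lam * ((y : ℝ) / s) := by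
    rw [hlamdef]; field_simp
  have e2 : ((c : ℝ) - c0) * y' / 2 ^ n = lam * ((y' : ℝ) / s) := by
    rw [hlamdef]; field_simp
  rw [e1] at h1
  rw [e2] at h2
  -- `|lam| (|W - W'| - 1) ≤ |ξ - ξ'| + 2`
  have hp : |W - W'| ≤ |(y : ℝ) / s - (y' : ℝ) / s| + 1 := by
    have : |(W - W') - ((y : ℝ) / s - (y' : ℝ) / s)| ≤ 1 := by
      rw [abs_le]; constructor <;> linarith
    have h3 := abs_sub_abs_le_abs_sub (W - W') ((y : ℝ) / s - (y' : ℝ) / s)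
    linarith
  have hq : |lam| * |(y : ℝ) / s - (y' : ℝ) / s| ≤ |ξ - ξ'| + 2 := by
    rw [← abs_mul]
    have : |lam * ((y : ℝ) / s - (y' : ℝ) / s) - (ξ - ξ')| ≤ 2 := by
      rw [abs_lt] at h1 h2
      rw [abs_le]; constructor <;> nlinarith [h1.1, h1.2, h2.1, h2.2]
    have h3 := abs_sub_abs_le_abs_sub (lam * ((y : ℝ) / s - (y' : ℝ) / s)) (ξ - ξ')
    linarith
  have hkey : u1 * (|W - W'| - 1) ≤ |ξ - ξ'| + 2 := by
    by_cases ht : |W - W'| ≤ 1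
    · have : u1 * (|W - W'| - 1) ≤ 0 := mul_nonpos_of_nonneg_of_nonpos (by linarith) (by linarith)
      have := abs_nonneg (ξ - ξ')
      linarith
    · push Not at ht
      calc u1 * (|W - W'| - 1) ≤ |lam| * (|W - W'| - 1) :=
            mul_le_mul_of_nonneg_right hlam (by linarith)
        _ ≤ |lam| * |(y : ℝ) / s - (y' : ℝ) / s| :=
            mul_le_mul_of_nonneg_left (by linarith) (abs_nonneg _)
        _ ≤ _ := hq
  have ht0 := abs_nonneg (W - W')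
  have hv0 := abs_nonneg (ξ - ξ')
  have hle : u1 * |W - W'| ≤ |ξ - ξ'| + 3 * u1 := by nlinarith
  have hsq : (u1 * |W - W'|) ^ 2 ≤ (|ξ - ξ'| + 3 * u1) ^ 2 :=
    pow_le_pow_left₀ (by positivity) hle 2
  have e3 : (u1 * |W - W'|) ^ 2 = u1 ^ 2 * (W - W') ^ 2 := by
    rw [mul_pow, sq_abs]
  have e4 : (|ξ - ξ'| + 3 * u1) ^ 2 ≤ 2 * (ξ - ξ') ^ 2 + 18 * u1 ^ 2 := by
    have : |ξ - ξ'| ^ 2 = (ξ - ξ') ^ 2 := sq_abs _
    nlinarith [sq_nonneg (|ξ - ξ'| - 3 * u1)]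
  linarith

theorem fl_var_lower : ∃ C7 : ℝ, 0 ≤ C7 ∧ ∀ (L m x zi c0 c : ℕ), x + zi + 3 ≤ m →
    (2 : ℤ) ^ (m * L - (zi + 1) * L) ≤ |(c : ℤ) - c0| →
    ∀ (Ω : Type) [Fintype Ω] (Q' : Pm Ω) (b : Ω → ℕ),
    C7 < Q'.ent (fun ω => cell (m * L) L (x + 1) (b ω)) →
    2 * ((2 : ℝ) ^ (m * L - (x + zi + 2) * L)) ^ 2 ≤
      Q'.var2 (fun ω => (flv (m * L) c0 c (b ω) : ℝ)) := by
  obtain ⟨C6, hC6, hE⟩ := fl_if_e6
  refine ⟨Real.log 37 / 2 + C6, by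
    have : 0 ≤ Real.log 37 := Real.log_nonneg (by norm_num)
    positivity, ?_⟩
  intro L m x zi c0 c hx hd Ω _ Q' b hent
  by_contra hcon
  push Not at hcon
  set u1 : ℝ := (2 : ℝ) ^ (m * L - (x + zi + 2) * L) with hu1def
  have hu1 : 1 ≤ u1 := one_le_pow₀ (by norm_num)
  have hu1pos : 0 < u1 := by linarith
  -- `|lam| ≥ u1`
  have hexp : (m * L - (zi + 1) * L) + (m * L - (x + 1) * L) = m * L + (m * L - (x + zi + 2) * L) := by
    have h1 : (x + zi + 2) * L ≤ m * L := Nat.mul_le_mul_right L (by omega)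
    have h2 : (x + zi + 2) * L = (zi + 1) * L + (x + 1) * L := by ring
    omega
  have hdR : (2 : ℝ) ^ (m * L - (zi + 1) * L) ≤ |(c : ℝ) - c0| := by
    have : (((2 : ℤ) ^ (m * L - (zi + 1) * L) : ℤ) : ℝ) ≤ ((|(c : ℤ) - c0| : ℤ) : ℝ) := by
      exact_mod_cast hd
    push_cast at this
    exact this
  have hlam : u1 ≤ |((c : ℝ) - c0) * ((2 ^ (m * L - (x + 1) * L) : ℕ) : ℝ) / 2 ^ (m * L)| := by
    push_cast
    rw [abs_div, abs_mul, abs_of_pos (by positivity : (0 : ℝ) < 2 ^ (m * L)),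
      abs_of_pos (by positivity : (0 : ℝ) < 2 ^ (m * L - (x + 1) * L)), le_div_iff₀ (by positivity),
      hu1def, ← pow_add, add_comm _ (m * L), ← hexp, pow_add]
    exact mul_le_mul_of_nonneg_right hdR (by positivity)
  -- entropy of the cast
  have hcast : Q'.ent (fun ω => cell (m * L) L (x + 1) (b ω)) =
      Q'.ent (fun ω => ((cell (m * L) L (x + 1) (b ω) : ℕ) : ℤ)) :=
    en_congr Q' _ _ (fun a : ℕ => (a : ℤ)) Int.toNat (fun _ _ => rfl) (fun _ _ => by simp)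
  have hE' := hE Ω Q' (fun ω => ((cell (m * L) L (x + 1) (b ω) : ℕ) : ℤ))
  -- variance comparison
  have hvar : u1 ^ 2 * Q'.var2 (fun ω => (((cell (m * L) L (x + 1) (b ω) : ℕ) : ℤ) : ℝ)) ≤
      2 * Q'.var2 (fun ω => (flv (m * L) c0 c (b ω) : ℝ)) + 18 * u1 ^ 2 := by
    have h18 : 18 * u1 ^ 2 = ∑ ω, ∑ ω', Q'.w ω * Q'.w ω' * (18 * u1 ^ 2) := by
      simp_rw [← Finset.sum_mul]
      rw [flt_sum_ww, one_mul]
    unfold Pm.var2
    rw [h18, Finset.mul_sum, Finset.mul_sum, ← Finset.sum_add_distrib]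
    refine Finset.sum_le_sum fun ω _ => ?_
    rw [Finset.mul_sum, Finset.mul_sum, ← Finset.sum_add_distrib]
    refine Finset.sum_le_sum fun ω' _ => ?_
    have hpt := fl_var_pt (m * L) (2 ^ (m * L - (x + 1) * L)) c0 c (b ω) (b ω') (by positivity) u1 hu1 hlam
    have hww := mul_nonneg (Q'.nonneg ω) (Q'.nonneg ω')
    have := mul_le_mul_of_nonneg_left hpt hww
    simp only [cell, Int.cast_natCast]
    nlinarith
  have hW22 : Q'.var2 (fun ω => (((cell (m * L) L (x + 1) (b ω) : ℕ) : ℤ) : ℝ)) ≤ 36 := by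
    have h2 : u1 ^ 2 * Q'.var2 (fun ω => (((cell (m * L) L (x + 1) (b ω) : ℕ) : ℤ) : ℝ)) ≤
        u1 ^ 2 * 36 := by nlinarith
    exact le_of_mul_le_mul_left h2 (by positivity)
  have hlog : Real.log (1 + Q'.var2 (fun ω => (((cell (m * L) L (x + 1) (b ω) : ℕ) : ℤ) : ℝ))) ≤
      Real.log 37 := by
    refine Real.log_le_log ?_ (by linarith)
    have := flt_var2_nonneg Q' (fun ω => (((cell (m * L) L (x + 1) (b ω) : ℕ) : ℤ) : ℝ))
    linarith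
  rw [hcast] at hent
  linarith

end Claimed.Agent.RW
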