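import Claimed.Agent.RW.FlDef

/-!
# Team RW.  Unit FL: chain rule over aligned blocks; conditioning lowers window entropies.   LEAF FL-CHAIN.

* `fl_div_mono`: `V / 2^c = (V / 2^a) / 2^(c-a)` (`Int.ediv_ediv_eq_ediv_mul`/`Int.ediv_ediv`, `pow_add`), then `en_comp_le`.
* `fl_chain`: `H(V) = H(V/2^0) ≥ H(V/2^0) - H(V/2^(mL)) = ∑_{w<m} (H(V/2^(mL-(w+1)L)) - H(V/2^(mL-wL)))` (`Finset.sum_range_sub`), every term `≥ 0` (`fl_div_mono`),
  the terms `w ∈ Gd` are `≥ c` (`Finset.sum_le_sum_of_subset_of_nonneg`, `Finset.card_nsmul_le_sum`).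
* `fl_cond_window`: `H(A1,G) + H(A0) ≤ H(A1) + H(A0,G)` is `en_submod P A1 G A0` with `H(A1,G,A0) = H(A1,G)`, `H(A1,A0) = H(A1)` (`en_congr`, `A0 = φ(A1)`);
  `en_pair_eq_cond` for `(A1,G)` and `(A0,G)`.
-/

set_option autoImplicit false

open Finset

namespace Claimed.Agent.RW

variable {Ω : Type} [Fintype Ω]

theorem fl_div_mono (P : Pm Ω) (V : Ω → ℤ) (a c : ℕ) (hac : a ≤ c) :
    P.ent (fun ω => V ω / (2 : ℤ) ^ c) ≤ P.ent (fun ω => V ω / (2 : ℤ) ^ a) := by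
  have h := en_comp_le P (fun ω => V ω / (2 : ℤ) ^ a) (fun j => j / (2 : ℤ) ^ (c - a))
  have e : ∀ ω, V ω / (2 : ℤ) ^ a / (2 : ℤ) ^ (c - a) = V ω / (2 : ℤ) ^ c := by
    intro ω
    rw [Int.ediv_ediv_of_nonneg (by positivity), ← pow_add, Nat.add_sub_cancel' hac]
  simp only [e] at h
  exact h

theorem fl_chain (P : Pm Ω) (V : Ω → ℤ) (L m : ℕ) (Gd : Finset ℕ) (hGd : Gd ⊆ range m) (c : ℝ)
    (hc : ∀ w ∈ Gd, c ≤ P.ent (fun ω => V ω / (2 : ℤ) ^ (m * L - (w + 1) * L)) -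
      P.ent (fun ω => V ω / (2 : ℤ) ^ (m * L - w * L))) :
    c * Gd.card ≤ P.ent V := by
  have htel := Finset.sum_range_sub (fun w => P.ent (fun ω => V ω / (2 : ℤ) ^ (m * L - w * L))) m
  have h0 : P.ent (fun ω => V ω / (2 : ℤ) ^ (m * L - m * L)) = P.ent V := by
    simp
  rw [h0] at htel
  have hnn := en_nonneg P (fun ω => V ω / (2 : ℤ) ^ (m * L - 0 * L))
  calc c * Gd.card = ∑ w ∈ Gd, c := by rw [Finset.sum_const, nsmul_eq_mul, mul_comm]
    _ ≤ ∑ w ∈ Gd, (P.ent (fun ω => V ω / (2 : ℤ) ^ (m * L - (w + 1) * L)) -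
          P.ent (fun ω => V ω / (2 : ℤ) ^ (m * L - w * L))) := Finset.sum_le_sum hc
    _ ≤ ∑ w ∈ range m, (P.ent (fun ω => V ω / (2 : ℤ) ^ (m * L - (w + 1) * L)) -
          P.ent (fun ω => V ω / (2 : ℤ) ^ (m * L - w * L))) := by
        refine Finset.sum_le_sum_of_subset_of_nonneg hGd fun w _ _ => ?_
        refine sub_nonneg.2 (fl_div_mono P V _ _ ?_)
        have : w * L ≤ (w + 1) * L := Nat.mul_le_mul_right L (Nat.le_succ w)
        omega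
    _ ≤ P.ent V := by
        rw [htel]
        linarith

theorem fl_cond_window {γ : Type} [DecidableEq γ] (P : Pm Ω) (A1 A0 : Ω → ℤ) (φ : ℤ → ℤ)
    (hφ : ∀ ω, A0 ω = φ (A1 ω)) (G : Ω → γ) :
    ∑ g ∈ univ.image G, P.pr G g * ((P.cond G g).ent A1 - (P.cond G g).ent A0) ≤
      P.ent A1 - P.ent A0 := by
  have h1 := en_pair_eq_cond P A1 G
  have h0 := en_pair_eq_cond P A0 G
  have hs := en_submod P A1 G A0
  rw [en_congr P (fun ω => (A1 ω, G ω, A0 ω)) (fun ω => (A1 ω, G ω)) (fun t => (t.1, t.2.1))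
      (fun t => (t.1, t.2, φ t.1)) (fun _ _ => rfl) (fun ω _ => by simp only [hφ ω]),
    en_congr P (fun ω => (A1 ω, A0 ω)) A1 Prod.fst (fun t => (t, φ t)) (fun _ _ => rfl)
      (fun ω _ => by simp only [hφ ω]),
    en_congr P (fun ω => (G ω, A0 ω)) (fun ω => (A0 ω, G ω)) Prod.swap Prod.swap (fun _ _ => rfl)
      (fun _ _ => rfl)] at hs
  simp only [mul_sub, Finset.sum_sub_distrib]
  linarith

end Claimed.Agent.RW
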