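import Claimed.Agent.RW.FlPi

/-!
# Team RW.  Unit FL: a Chernoff bound on product spaces.   LEAF FL-CHERN.

`T(β) = #{t ∈ J : A(β_t)}`, `β_t` i.i.d. `~ Q`, `Q(A) ≥ p`.  Then `P(T ≤ p #J / 2) ≤ exp(-p #J / 8)`.
PROOF.  `F_t(ω) = if t ∈ J then (if A ω then e⁻¹ else 1) else 1`; `∏_t F_t(β_t) = exp(-T(β))` (`Finset.prod_ite`, `Finset.prod_const`, `Real.exp_nat_mul`);
`fl_pi_ex_prod`: `E exp(-T) = (1 - q(1-e⁻¹))^{#J}`, `q = Q(A) ≥ p`; `1 - y ≤ exp(-y)` (`Real.add_one_le_exp`): `≤ exp(-#J p (1-e⁻¹))`.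
Markov: on the event `exp(-T) ≥ exp(-p #J/2)`.  `1 - e⁻¹ - 1/2 ≥ 1/8` because `e ≥ 2.7` (`Real.exp_one_gt_d9`).
-/

set_option autoImplicit false

open Finset

namespace Claimed.Agent.RW

open Classical in
theorem fl_chernoff {Ω : Type} [Fintype Ω] (Q : Pm Ω) (A : Ω → Prop) (p : ℝ) (hp0 : 0 ≤ p)
    (hp : p ≤ ∑ ω with A ω, Q.w ω) {ι : Type} [Fintype ι] [DecidableEq ι] (J : Finset ι) :
    ∑ β with (((J.filter fun t => A (β t)).card : ℝ) ≤ p * J.card / 2), (Pm.pi fun _ : ι => Q).w β ≤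
      Real.exp (-(p * J.card / 8)) := by
  obtain ⟨e1, he1⟩ : ∃ e1 : ℝ, e1 = Real.exp (-1) := ⟨_, rfl⟩
  have he1pos : 0 < e1 := he1 ▸ Real.exp_pos _
  have he1le : e1 ≤ 3 / 8 := by
    rw [he1, Real.exp_neg, inv_le_comm₀ (Real.exp_pos _) (by norm_num)]
    have := Real.exp_one_gt_d9
    norm_num
    linarith
  obtain ⟨q, hq⟩ : ∃ q : ℝ, q = ∑ ω with A ω, Q.w ω := ⟨_, rfl⟩
  rw [← hq] at hp
  have hq1 : q ≤ 1 := by
    rw [hq, ← Q.sum_one]
    exact Finset.sum_le_sum_of_subset_of_nonneg (Finset.filter_subset _ _) fun i _ _ => Q.nonneg i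
  have hprod := fl_pi_ex_prod (fun _ : ι => Q)
    (fun t ω => if t ∈ J then (if A ω then e1 else 1) else 1)
  have hL : ∀ β : ι → Ω, ∏ t, (if t ∈ J then (if A (β t) then e1 else 1) else 1) =
      Real.exp (-((J.filter fun t => A (β t)).card : ℝ)) := by
    intro β
    rw [Finset.prod_ite_mem, Finset.univ_inter, ← Finset.prod_filter, Finset.prod_const, he1,
      ← Real.exp_nat_mul]
    congr 1
    ring
  have hR : ∀ t : ι, Q.ex (fun ω => if t ∈ J then (if A ω then e1 else 1) else 1) =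
      if t ∈ J then 1 - q * (1 - e1) else 1 := by
    intro t
    unfold Pm.ex
    by_cases ht : t ∈ J
    · simp only [ht, if_true]
      have : ∀ ω, Q.w ω * (if A ω then e1 else 1) = Q.w ω - (if A ω then Q.w ω else 0) * (1 - e1) := by
        intro ω
        split_ifs <;> ring
      rw [Finset.sum_congr rfl fun ω _ => this ω, Finset.sum_sub_distrib, ← Finset.sum_mul, Q.sum_one,
        ← Finset.sum_filter, ← hq]
    · simp only [ht, if_false, mul_one, Q.sum_one]
  simp only [hL, hR] at hprod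
  rw [Finset.prod_ite_mem, Finset.univ_inter, Finset.prod_const] at hprod
  have hbase0 : 0 ≤ 1 - q * (1 - e1) := by nlinarith
  have hbase : 1 - q * (1 - e1) ≤ Real.exp (-(p * (5 / 8))) := by
    have h1 := Real.add_one_le_exp (-(p * (5 / 8)))
    have h2 : p * (5 / 8) ≤ q * (1 - e1) := by nlinarith
    linarith
  have hE : (Pm.pi fun _ : ι => Q).ex (fun β => Real.exp (-((J.filter fun t => A (β t)).card : ℝ))) ≤
      Real.exp (-(p * (5 / 8) * J.card)) := by
    rw [hprod]
    calc (1 - q * (1 - e1)) ^ J.card ≤ Real.exp (-(p * (5 / 8))) ^ J.card :=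
          pow_le_pow_left₀ hbase0 hbase _
      _ = Real.exp (-(p * (5 / 8) * J.card)) := by
          rw [← Real.exp_nat_mul]
          congr 1
          ring
  have hM : ∑ β with (((J.filter fun t => A (β t)).card : ℝ) ≤ p * J.card / 2), (Pm.pi fun _ : ι => Q).w β ≤
      Real.exp (p * J.card / 2) *
        (Pm.pi fun _ : ι => Q).ex (fun β => Real.exp (-((J.filter fun t => A (β t)).card : ℝ))) := by
    unfold Pm.ex
    rw [Finset.sum_filter, Finset.mul_sum]
    refine Finset.sum_le_sum fun β _ => ?_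
    have hw := (Pm.pi fun _ : ι => Q).nonneg β
    split_ifs with h
    · have h1 : 1 ≤ Real.exp (p * J.card / 2) * Real.exp (-((J.filter fun t => A (β t)).card : ℝ)) := by
        rw [← Real.exp_add]
        apply Real.one_le_exp
        linarith
      calc (Pm.pi fun _ : ι => Q).w β = (Pm.pi fun _ : ι => Q).w β * 1 := (mul_one _).symm
        _ ≤ (Pm.pi fun _ : ι => Q).w β *
            (Real.exp (p * J.card / 2) * Real.exp (-((J.filter fun t => A (β t)).card : ℝ))) :=
            mul_le_mul_of_nonneg_left h1 hw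
        _ = _ := by ring
    · positivity
  refine hM.trans ((mul_le_mul_of_nonneg_left hE (Real.exp_pos _).le).trans (le_of_eq ?_))
  rw [← Real.exp_add]
  congr 1
  ring

end Claimed.Agent.RW
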