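import Claimed.Agent.RW.TreeDefs

/-!
# Team RW.  Unit TREE, leaf TREE-CLASS: dyadic pigeonholing of the fibre masses.

`M = ∑_P w > 0`.  `P₁ = {x ∈ P : M / 2^(n+1) ≤ w x}`; `#P ≤ 2^n` (`P ⊆ range (2^n)`), so the dropped mass is `≤ 2^n · M / 2^(n+1) = M/2`.
Every `x ∈ P₁` has `w x ≤ M` (`Finset.single_le_sum`), hence lies in one of the `n+2` sets
`C i = {x ∈ P₁ : M / 2^i ≤ w x ∧ w x ≤ 2 * (M / 2^i)}`, `i ≤ n+1`
(induction on `k`: `M / 2^k ≤ t ≤ M → ∃ i ≤ k, M / 2^i ≤ t ≤ 2 M / 2^i`).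
So `M / 2 ≤ ∑_{P₁} w ≤ ∑_{i < n+2} ∑_{C i} w` and some `C i` has mass `≥ M / (2 (n+2))`; `a = M / 2^i`.
-/

set_option autoImplicit false

open Finset

namespace Claimed.Agent.RW

theorem tree_class_aux (M : ℝ) (hM : 0 < M) (k : ℕ) (t : ℝ) (h1 : M / 2 ^ k ≤ t) (h2 : t ≤ M) :
    ∃ i, i ≤ k ∧ M / 2 ^ i ≤ t ∧ t ≤ 2 * (M / 2 ^ i) := by
  induction k with
  | zero => exact ⟨0, le_rfl, h1, by simp; linarith⟩
  | succ k ih =>
    by_cases h : M / 2 ^ k ≤ t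
    · obtain ⟨i, hi, h3⟩ := ih h
      exact ⟨i, by omega, h3⟩
    · refine ⟨k + 1, le_rfl, h1, ?_⟩
      have e : 2 * (M / 2 ^ (k + 1)) = M / 2 ^ k := by
        rw [pow_succ]
        field_simp
      rw [e]
      exact (not_le.1 h).le

theorem tree_class (n : ℕ) (P : Finset ℕ) (hP : ∀ x ∈ P, x < 2 ^ n) (w : ℕ → ℝ) (hw : ∀ x ∈ P, 0 ≤ w x)
    (hM : 0 < ∑ x ∈ P, w x) :
    ∃ P₀ ⊆ P, ∃ a : ℝ, 0 < a ∧ (∀ x ∈ P₀, a ≤ w x ∧ w x ≤ 2 * a) ∧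
      (∑ x ∈ P, w x) / (2 * ((n : ℝ) + 2)) ≤ ∑ x ∈ P₀, w x := by
  classical
  obtain ⟨M, hMdef⟩ : ∃ M : ℝ, M = ∑ x ∈ P, w x := ⟨_, rfl⟩
  rw [← hMdef] at hM ⊢
  obtain ⟨P₁, hP₁⟩ : ∃ P₁ : Finset ℕ, P₁ = P.filter fun x => M / 2 ^ (n + 1) ≤ w x := ⟨_, rfl⟩
  have hcard : (P.card : ℝ) ≤ 2 ^ n := by
    have h1 : P ⊆ range (2 ^ n) := fun x hx => mem_range.2 (hP x hx)
    have h2 := card_le_card h1
    rw [card_range] at h2
    exact_mod_cast h2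
  have hdrop : ∑ x ∈ P with ¬ (M / 2 ^ (n + 1) ≤ w x), w x ≤ M / 2 := by
    calc ∑ x ∈ P with ¬ (M / 2 ^ (n + 1) ≤ w x), w x
        ≤ ∑ x ∈ P with ¬ (M / 2 ^ (n + 1) ≤ w x), M / 2 ^ (n + 1) :=
          sum_le_sum fun x hx => (not_le.1 (mem_filter.1 hx).2).le
      _ ≤ ∑ _x ∈ P, M / 2 ^ (n + 1) :=
          sum_le_sum_of_subset_of_nonneg (filter_subset _ _) fun _ _ _ => by positivity
      _ = (P.card : ℝ) * (M / 2 ^ (n + 1)) := by rw [sum_const, nsmul_eq_mul]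
      _ ≤ 2 ^ n * (M / 2 ^ (n + 1)) := mul_le_mul_of_nonneg_right hcard (by positivity)
      _ = M / 2 := by
          rw [pow_succ]
          field_simp
  have hkeep : M / 2 ≤ ∑ x ∈ P₁, w x := by
    have hsplit := sum_filter_add_sum_filter_not P (fun x => M / 2 ^ (n + 1) ≤ w x) w
    rw [← hP₁, ← hMdef] at hsplit
    linarith
  have hex : ∀ x, x ∈ P₁ → ∃ i, i ≤ n + 1 ∧ M / 2 ^ i ≤ w x ∧ w x ≤ 2 * (M / 2 ^ i) := by
    intro x hx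
    rw [hP₁, mem_filter] at hx
    refine tree_class_aux M hM (n + 1) (w x) hx.2 ?_
    rw [hMdef]
    exact single_le_sum hw hx.1
  choose! f hf using hex
  have hfib : ∑ i ∈ range (n + 2), ∑ x ∈ P₁ with f x = i, w x = ∑ x ∈ P₁, w x :=
    sum_fiberwise_of_maps_to (fun x hx => mem_range.2 (by have := (hf x hx).1; omega)) _
  have hsum : ∑ _i ∈ range (n + 2), M / (2 * ((n : ℝ) + 2)) ≤ ∑ i ∈ range (n + 2), ∑ x ∈ P₁ with f x = i, w x := by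
    rw [hfib, sum_const, card_range, nsmul_eq_mul]
    refine le_trans (le_of_eq ?_) hkeep
    push_cast
    field_simp
  obtain ⟨i, -, hi⟩ := exists_le_of_sum_le (by simp) hsum
  refine ⟨P₁.filter fun x => f x = i, ?_, M / 2 ^ i, by positivity, ?_, hi⟩
  · intro x hx
    have := (mem_filter.1 hx).1
    rw [hP₁] at this
    exact (mem_filter.1 this).1
  · intro x hx
    rw [mem_filter] at hx
    have := (hf x hx.1).2
    rwa [hx.2] at this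

end Claimed.Agent.RW
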