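import Claimed.Agent.RW.TreeLevel

/-!
# Team RW.  Unit TREE, leaf TREE-PRUNE: every nonempty set of positions contains a uniform tree with `#P ≤ (2L+2)^m #P'`.

Induction on `m` (generalising `P`).  `m = 0`: `P' = P`, no branch condition.
Step `m → m+1`: `tree_prune_level` gives `i`, `Q ⊆ P`.  `Qb = Q.image (· / 2^L)` consists of numbers `< 2^(m*L)`
(`Nat.div_lt_of_lt_mul`, `(m+1)*L = m*L + L`).  Induction hypothesis for `Qb`: `Qb' ⊆ Qb`, `N'`.
`P' = Q.filter (fun x => x / 2^L ∈ Qb')`, `N = fun l => if l < m then N' l else 2^i`.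
* `#Q = 2^i #Qb`, `#P' = 2^i #Qb'` (`Finset.card_eq_sum_card_fiberwise`; the fibre of `P'` over `c ∈ Qb'` is the fibre of `Q`);
* `P'.image (· / 2^L) = Qb'`;
* branch at `l < m`: by `cell_shift` (for `l` and `l+1 ≤ m`) the set is the image under `cell (m*L) L (l+1)` of
  `{c ∈ Qb' : cell (m*L) L l c = cell (m*L) L l (x / 2^L)}`;
* branch at `l = m`: `cell_top` (level `m+1`) and `cell_shift` + `cell_top` (level `m`): the set is `{y ∈ P' : y / 2^L = x / 2^L}`,
  which is `{y ∈ Q : y / 2^L = x / 2^L}`, of cardinality `2^i`.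
-/

set_option autoImplicit false

open Finset

namespace Claimed.Agent.RW

theorem tree_prune (L m : ℕ) (P : Finset ℕ) (hP : ∀ x ∈ P, x < 2 ^ (m * L)) (hne : P.Nonempty) :
    ∃ P' ⊆ P, ∃ N : ℕ → ℕ, UTree (m * L) L m P' N ∧ P.card ≤ (2 * L + 2) ^ m * P'.card := by
  induction m generalizing P with
  | zero =>
    refine ⟨P, Finset.Subset.refl _, fun _ => 0, ⟨hP, hne, fun l hl => absurd hl (Nat.not_lt_zero l)⟩, ?_⟩
    simp
  | succ m ih =>
    obtain ⟨i, Q, hQP, hQne, hQfib, hQcard⟩ := tree_prune_level L P hne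
    obtain ⟨Qb, hQb⟩ : ∃ Qb : Finset ℕ, Qb = Q.image (fun y => y / 2 ^ L) := ⟨_, rfl⟩
    have hQblt : ∀ c ∈ Qb, c < 2 ^ (m * L) := by
      intro c hc
      rw [hQb] at hc
      obtain ⟨y, hy, rfl⟩ := Finset.mem_image.1 hc
      have h1 := hP y (hQP hy)
      apply Nat.div_lt_of_lt_mul
      rw [← pow_add]
      have : L + m * L = (m + 1) * L := by ring
      rwa [this]
    have hQbne : Qb.Nonempty := by
      rw [hQb]
      exact hQne.image _
    obtain ⟨Qb', hsub, N', hU, hcard⟩ := ih Qb hQblt hQbne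
    obtain ⟨P', hP'⟩ : ∃ P' : Finset ℕ, P' = Q.filter (fun x => x / 2 ^ L ∈ Qb') := ⟨_, rfl⟩
    have hmem : ∀ y, y ∈ P' ↔ y ∈ Q ∧ y / 2 ^ L ∈ Qb' := by
      intro y
      rw [hP']
      exact Finset.mem_filter
    have himg : P'.image (fun y => y / 2 ^ L) = Qb' := by
      ext c
      rw [Finset.mem_image]
      constructor
      · rintro ⟨y, hy, rfl⟩
        exact ((hmem y).1 hy).2
      · intro hc
        have hc' := hsub hc
        rw [hQb] at hc'
        obtain ⟨y, hy, rfl⟩ := Finset.mem_image.1 hc'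
        exact ⟨y, (hmem y).2 ⟨hy, hc⟩, rfl⟩
    have hfibP : ∀ x ∈ P', (P'.filter fun y => y / 2 ^ L = x / 2 ^ L) = Q.filter fun y => y / 2 ^ L = x / 2 ^ L := by
      intro x hx
      ext y
      rw [Finset.mem_filter, Finset.mem_filter, hmem]
      constructor
      · rintro ⟨⟨h1, _⟩, h3⟩
        exact ⟨h1, h3⟩
      · rintro ⟨h1, h3⟩
        exact ⟨⟨h1, h3 ▸ ((hmem x).1 hx).2⟩, h3⟩
    have hQc : Q.card = Qb.card * 2 ^ i := by
      rw [Finset.card_eq_sum_card_image (fun y => y / 2 ^ L) Q, ← hQb]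
      rw [Finset.sum_congr rfl (g := fun _ => 2 ^ i), Finset.sum_const, smul_eq_mul]
      intro c hc
      rw [hQb] at hc
      obtain ⟨y, hy, rfl⟩ := Finset.mem_image.1 hc
      exact hQfib y hy
    have hPc : P'.card = Qb'.card * 2 ^ i := by
      rw [Finset.card_eq_sum_card_image (fun y => y / 2 ^ L) P', himg]
      rw [Finset.sum_congr rfl (g := fun _ => 2 ^ i), Finset.sum_const, smul_eq_mul]
      intro c hc
      rw [← himg] at hc
      obtain ⟨y, hy, rfl⟩ := Finset.mem_image.1 hc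
      rw [hfibP y hy]
      exact hQfib y ((hmem y).1 hy).1
    refine ⟨P', fun y hy => hQP ((hmem y).1 hy).1, fun l => if l < m then N' l else 2 ^ i, ⟨?_, ?_, ?_⟩, ?_⟩
    · intro x hx
      exact hP x (hQP ((hmem x).1 hx).1)
    · obtain ⟨c, hc⟩ := hU.ne
      rw [← himg] at hc
      obtain ⟨y, hy, -⟩ := Finset.mem_image.1 hc
      exact ⟨y, hy⟩
    · intro l hl x hx
      by_cases hlm : l < m
      · simp only [hlm, if_true]
        rw [← hU.branch l hlm (x / 2 ^ L) ((hmem x).1 hx).2]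
        congr 1
        ext j
        simp only [Finset.mem_image, Finset.mem_filter]
        constructor
        · rintro ⟨y, ⟨hy, h1⟩, rfl⟩
          rw [cell_shift m L l y hlm.le, cell_shift m L l x hlm.le] at h1
          exact ⟨y / 2 ^ L, ⟨((hmem y).1 hy).2, h1⟩, (cell_shift m L (l + 1) y hlm).symm⟩
        · rintro ⟨c, ⟨hc, h1⟩, rfl⟩
          rw [← himg] at hc
          obtain ⟨y, hy, rfl⟩ := Finset.mem_image.1 hc
          refine ⟨y, ⟨hy, ?_⟩, cell_shift m L (l + 1) y hlm⟩
          rw [cell_shift m L l y hlm.le, cell_shift m L l x hlm.le]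
          exact h1
      · have hlm' : l = m := by omega
        subst hlm'
        simp only [lt_irrefl, if_false]
        have e1 : ∀ y, cell ((l + 1) * L) L (l + 1) y = y := fun y => cell_top (l + 1) L y
        have e2 : ∀ y, cell ((l + 1) * L) L l y = y / 2 ^ L := fun y => by
          rw [cell_shift l L l y le_rfl, cell_top]
        have e3 : cell ((l + 1) * L) L (l + 1) = id := funext e1
        rw [e3, Finset.image_id]
        simp only [e2]
        rw [hfibP x hx]
        exact hQfib x ((hmem x).1 hx).1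
    · calc P.card ≤ (2 * L + 2) * Q.card := hQcard
        _ = (2 * L + 2) * (Qb.card * 2 ^ i) := by rw [hQc]
        _ ≤ (2 * L + 2) * (((2 * L + 2) ^ m * Qb'.card) * 2 ^ i) :=
            Nat.mul_le_mul_left _ (Nat.mul_le_mul_right _ hcard)
        _ = (2 * L + 2) ^ (m + 1) * P'.card := by
            rw [hPc]
            ring

end Claimed.Agent.RW
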