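import Claimed.Agent.RW.TreeDense
import Claimed.Agent.RW.TreePrune
import Claimed.Agent.RW.TreeClass

/-!
# Team RW.  Unit TREE: `L`-adic cells, uniform trees, uniformisation by exhaustion, density of the set of rich levels.
(interface statements by helper142; architect helper158)

Positions are naturals `< 2^n`, `n = m*L`.  The level-`l` cell of `x` is `x / 2^(n-l*L)` (`l ≤ m`); level `m` cells are points.

Files: `TreeDefs` (`cell`, `UTree`, `hiSet`), `TreeCard` (`tree_card`, `tree_branch_le`), `TreeDense` (`tree_dense`),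
`TreeLevel`, `TreePrune` (`tree_prune`), `TreeClass` (`tree_class`), this file (`tree_extract_pos`, `tree_extract`, `tree_select`).

* `tree_select` (notes 5.1).  EXHAUSTION, not just pigeonholing (the graph may avoid a given uniform subset).
  One extraction step (`tree_extract`) on a remainder `Rm` (a union of full fibres of `pos`) of mass `> θ`: drop the fibres of mass `< μ(Rm)/2^(n+1)`;
  `n+2` dyadic classes of fibre masses, keep the heaviest class (`tree_class`); then for `l = m-1, .., 0` pigeonhole the number of surviving children of the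
  level-`l` nodes into the `L+1` dyadic classes `[2^i,2^(i+1))`, keep the class carrying most leaves and prune every node to exactly `2^i` children (`tree_prune`).
  Result: a uniform tree of balanced fibres of mass `≥ μ(Rm) / (4 (n+2) (2L+2)^m)`.  Repeat until the remainder has mass `≤ θ`.
  The pieces `S_q` are disjoint, `∑_q ∑_{S_q} F ≥ ∑ F - Kθ ≥ (∑ F)/2`, `∑_q (μ+μ2)(S_q) ≤ 2`: some piece has `∑_{S_q} F ≥ (∑F/4) (μ+μ2)(S_q)`.
  (`μ2` = a second reference weight, e.g. the marginal of the planar law; it plays no role in the extraction.)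
  In Lean the exhaustion is a strong induction on the cardinality of the remainder: if no piece were good, then
  `F(Rm) ≤ (∑F/4) (μ+μ2)(Rm) + Kθ` for every remainder, strictly if `μ(Rm) > θ`.
-/

set_option autoImplicit false

open Finset

namespace Claimed.Agent.RW

/-- one extraction step, on positions. -/
theorem tree_extract_pos (L m : ℕ) (P : Finset ℕ) (hP : ∀ x ∈ P, x < 2 ^ (m * L)) (w : ℕ → ℝ)
    (hw : ∀ x ∈ P, 0 ≤ w x) (hM : 0 < ∑ x ∈ P, w x) :
    ∃ P' ⊆ P, ∃ N : ℕ → ℕ, UTree (m * L) L m P' N ∧ (∀ x ∈ P', ∀ y ∈ P', w x ≤ 2 * w y) ∧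
      (∑ x ∈ P, w x) / (4 * ((m * L : ℕ) + 2) * (2 * (L : ℝ) + 2) ^ m) ≤ ∑ x ∈ P', w x := by
  obtain ⟨P₀, hP₀, a, ha, hbal, hmass⟩ := tree_class (m * L) P hP w hw hM
  have hne : P₀.Nonempty := by
    by_contra h
    rw [Finset.not_nonempty_iff_eq_empty] at h
    rw [h, Finset.sum_empty] at hmass
    have : 0 < (∑ x ∈ P, w x) / (2 * (((m * L : ℕ) : ℝ) + 2)) := by positivity
    linarith
  obtain ⟨P', hP', N, hU, hcard⟩ := tree_prune L m P₀ (fun x hx => hP x (hP₀ hx)) hne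
  refine ⟨P', hP'.trans hP₀, N, hU, ?_, ?_⟩
  · intro x hx y hy
    have h1 := (hbal x (hP' hx)).2
    have h2 := (hbal y (hP' hy)).1
    linarith
  · have h1 : a * P'.card ≤ ∑ x ∈ P', w x := by
      have := Finset.card_nsmul_le_sum P' w a (fun x hx => (hbal x (hP' hx)).1)
      simpa [nsmul_eq_mul, mul_comm] using this
    have h2 : ∑ x ∈ P₀, w x ≤ 2 * a * P₀.card := by
      have := Finset.sum_le_card_nsmul P₀ w (2 * a) (fun x hx => (hbal x hx).2)
      simpa [nsmul_eq_mul, mul_comm] using this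
    have h3 : (P₀.card : ℝ) ≤ (2 * (L : ℝ) + 2) ^ m * P'.card := by exact_mod_cast hcard
    have hB : (0 : ℝ) < (2 * (L : ℝ) + 2) ^ m := by positivity
    have hn : (0 : ℝ) < ((m * L : ℕ) : ℝ) + 2 := by positivity
    rw [div_le_iff₀ (by positivity)] at hmass ⊢
    have h4 : ∑ x ∈ P₀, w x ≤ 2 * (2 * (L : ℝ) + 2) ^ m * ∑ x ∈ P', w x := by
      calc ∑ x ∈ P₀, w x ≤ 2 * a * P₀.card := h2
        _ ≤ 2 * a * ((2 * (L : ℝ) + 2) ^ m * P'.card) := by
            exact mul_le_mul_of_nonneg_left h3 (by positivity)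
        _ = 2 * (2 * (L : ℝ) + 2) ^ m * (a * P'.card) := by ring
        _ ≤ 2 * (2 * (L : ℝ) + 2) ^ m * ∑ x ∈ P', w x := by
            exact mul_le_mul_of_nonneg_left h1 (by positivity)
    calc ∑ x ∈ P, w x ≤ (∑ x ∈ P₀, w x) * (2 * (((m * L : ℕ) : ℝ) + 2)) := hmass
      _ ≤ (2 * (2 * (L : ℝ) + 2) ^ m * ∑ x ∈ P', w x) * (2 * (((m * L : ℕ) : ℝ) + 2)) := by
          exact mul_le_mul_of_nonneg_right h4 (by positivity)
      _ = (∑ x ∈ P', w x) * (4 * (((m * L : ℕ) : ℝ) + 2) * (2 * (L : ℝ) + 2) ^ m) := by ring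

/-- the mass of a union of full fibres is the sum of the fibre masses. -/
theorem tree_sum_fib {S : Type*} [Fintype S] [DecidableEq S] (pos : S → ℕ) (μ : S → ℝ) (R : Finset S)
    (hR : ∀ s, s ∈ R → ∀ s', pos s' = pos s → s' ∈ R) :
    ∑ x ∈ R.image pos, (∑ s with pos s = x, μ s) = ∑ s ∈ R, μ s := by
  rw [← Finset.sum_fiberwise_of_maps_to (g := pos) (s := R) (t := R.image pos)
    (fun s hs => Finset.mem_image_of_mem pos hs) μ]
  refine Finset.sum_congr rfl fun x hx => ?_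
  obtain ⟨r, hr, rfl⟩ := Finset.mem_image.1 hx
  refine Finset.sum_congr ?_ fun _ _ => rfl
  ext s
  simp only [Finset.mem_filter, Finset.mem_univ, true_and]
  exact ⟨fun h => ⟨hR r hr s h, h⟩, fun h => h.2⟩

/-- one extraction step. -/
theorem tree_extract (L m : ℕ) {S : Type*} [Fintype S] [DecidableEq S] (pos : S → ℕ)
    (hpos : ∀ s, pos s < 2 ^ (m * L)) (μ : S → ℝ) (hμ : ∀ s, 0 ≤ μ s) (R : Finset S)
    (hR : ∀ s, s ∈ R → ∀ s', pos s' = pos s → s' ∈ R) (hM : 0 < ∑ s ∈ R, μ s) :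
    ∃ S' ⊆ R, ∃ N : ℕ → ℕ, UTree (m * L) L m (S'.image pos) N ∧
      (∀ s, s ∈ S' → ∀ s', pos s' = pos s → s' ∈ S') ∧
      (∀ s ∈ S', ∀ s' ∈ S', (∑ x with pos x = pos s, μ x) ≤ 2 * ∑ x with pos x = pos s', μ x) ∧
      (∑ s ∈ R, μ s) / (4 * ((m * L : ℕ) + 2) * (2 * (L : ℝ) + 2) ^ m) ≤ ∑ s ∈ S', μ s := by
  have hsum := tree_sum_fib pos μ R hR
  obtain ⟨P', hP', N, hU, hbal, hmass⟩ := tree_extract_pos L m (R.image pos)
    (fun x hx => by obtain ⟨r, -, rfl⟩ := Finset.mem_image.1 hx; exact hpos r)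
    (fun x => ∑ s with pos s = x, μ s) (fun x _ => Finset.sum_nonneg fun s _ => hμ s)
    (by rw [hsum]; exact hM)
  have hfull : ∀ s, s ∈ (univ.filter fun s => pos s ∈ P') → ∀ s', pos s' = pos s →
      s' ∈ (univ.filter fun s => pos s ∈ P') := by
    intro s hs s' h
    simp only [Finset.mem_filter, Finset.mem_univ, true_and] at hs ⊢
    rw [h]; exact hs
  have himg : (univ.filter fun s => pos s ∈ P').image pos = P' := by
    ext x
    simp only [Finset.mem_image, Finset.mem_filter, Finset.mem_univ, true_and]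
    constructor
    · rintro ⟨s, hs, rfl⟩; exact hs
    · intro hx
      obtain ⟨r, -, rfl⟩ := Finset.mem_image.1 (hP' hx)
      exact ⟨r, hx, rfl⟩
  refine ⟨univ.filter fun s => pos s ∈ P', ?_, N, ?_, hfull, ?_, ?_⟩
  · intro s hs
    simp only [Finset.mem_filter, Finset.mem_univ, true_and] at hs
    obtain ⟨r, hr, hrs⟩ := Finset.mem_image.1 (hP' hs)
    exact hR r hr s hrs.symm
  · rw [himg]; exact hU
  · intro s hs s' hs'
    simp only [Finset.mem_filter, Finset.mem_univ, true_and] at hs hs'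
    exact hbal _ hs _ hs'
  · rw [← tree_sum_fib pos μ _ hfull, himg, ← hsum]
    exact hmass

/-- **uniformisation by exhaustion + pigeonhole** -/
theorem tree_select (L : ℕ) (hL : 1 ≤ L) (m : ℕ) {S : Type*} [Fintype S] [DecidableEq S] (pos : S → ℕ)
    (hpos : ∀ s, pos s < 2 ^ (m * L)) (μ μ2 F : S → ℝ) (K θ : ℝ)
    (hμ : ∀ s, 0 ≤ μ s) (hμ1 : ∑ s, μ s ≤ 1) (hμ2 : ∀ s, 0 ≤ μ2 s) (hμ21 : ∑ s, μ2 s ≤ 1)
    (hF0 : ∀ s, 0 ≤ F s) (hF : ∀ s, F s ≤ K * μ s)
    (hθ : 0 < θ) (hK : 2 * K * θ ≤ ∑ s, F s) (hFpos : 0 < ∑ s, F s) :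
    ∃ (S' : Finset S) (N : ℕ → ℕ), UTree (m * L) L m (S'.image pos) N ∧
      (∀ s, s ∈ S' → ∀ s', pos s' = pos s → s' ∈ S') ∧
      (∀ s ∈ S', ∀ s' ∈ S', (∑ x with pos x = pos s, μ x) ≤ 2 * ∑ x with pos x = pos s', μ x) ∧
      θ / (4 * ((m * L : ℕ) + 2) * (2 * (L : ℝ) + 2) ^ m) ≤ ∑ s ∈ S', μ s ∧
      (∑ s, F s) / 4 * ∑ s ∈ S', (μ s + μ2 s) ≤ ∑ s ∈ S', F s := by
  by_contra hcon
  push Not at hcon
  obtain ⟨c, hc⟩ : ∃ c : ℝ, c = (∑ s, F s) / 4 := ⟨_, rfl⟩
  rw [← hc] at hcon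
  have hc0 : 0 < c := by rw [hc]; positivity
  have hFK : ∀ R : Finset S, ∑ s ∈ R, F s ≤ K * ∑ s ∈ R, μ s := fun R => by
    rw [Finset.mul_sum]; exact Finset.sum_le_sum fun s _ => hF s
  have hμ0 : 0 ≤ ∑ s, μ s := Finset.sum_nonneg fun s _ => hμ s
  have hKpos : 0 < K := by
    by_contra h
    have h1 := hFK univ
    have h2 : K * ∑ s, μ s ≤ 0 := mul_nonpos_of_nonpos_of_nonneg (not_lt.1 h) hμ0
    linarith
  have key : ∀ R : Finset S, (∀ s, s ∈ R → ∀ s', pos s' = pos s → s' ∈ R) →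
      (∑ s ∈ R, F s ≤ c * ∑ s ∈ R, (μ s + μ2 s) + K * θ) ∧
      (θ < ∑ s ∈ R, μ s → ∑ s ∈ R, F s < c * ∑ s ∈ R, (μ s + μ2 s) + K * θ) := by
    intro R
    induction R using Finset.strongInduction with
    | H R ih =>
      intro hR
      by_cases hθR : θ < ∑ s ∈ R, μ s
      · obtain ⟨S', hS', N, hU, hfull, hbal, hmass⟩ :=
          tree_extract L m pos hpos μ hμ R hR (hθ.trans hθR)
        have hD : (0 : ℝ) < 4 * ((m * L : ℕ) + 2) * (2 * (L : ℝ) + 2) ^ m := by positivity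
        have h1 := hcon S' N hU hfull hbal
          ((div_le_div_of_nonneg_right hθR.le hD.le).trans hmass)
        have hne : S'.Nonempty := by
          have := hU.ne
          simpa using this
        have h2 := (ih (R \ S') (Finset.sdiff_ssubset hS' hne) (by
          intro s hs s' h
          rw [Finset.mem_sdiff] at hs ⊢
          exact ⟨hR s hs.1 s' h, fun h' => hs.2 (hfull s' h' s h.symm)⟩)).1
        have e1 := Finset.sum_sdiff (f := F) hS'
        have e2 := Finset.sum_sdiff (f := fun s => μ s + μ2 s) hS'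
        have h3 : ∑ s ∈ R, F s < c * ∑ s ∈ R, (μ s + μ2 s) + K * θ := by
          rw [← e1, ← e2, mul_add]
          linarith
        exact ⟨h3.le, fun _ => h3⟩
      · refine ⟨?_, fun h => absurd h hθR⟩
        have h1 := hFK R
        have h2 : K * ∑ s ∈ R, μ s ≤ K * θ := mul_le_mul_of_nonneg_left (not_lt.1 hθR) hKpos.le
        have h3 : 0 ≤ c * ∑ s ∈ R, (μ s + μ2 s) :=
          mul_nonneg hc0.le (Finset.sum_nonneg fun s _ => add_nonneg (hμ s) (hμ2 s))
        linarith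
  have hbig : θ < ∑ s, μ s := by
    have h1 := hFK univ
    have h2 : K * (2 * θ) ≤ K * ∑ s, μ s := by linarith
    have h3 := le_of_mul_le_mul_left h2 hKpos
    linarith
  have h1 := (key univ (fun _ _ s' _ => Finset.mem_univ s')).2 hbig
  have h2 : ∑ s, (μ s + μ2 s) ≤ 2 := by
    rw [Finset.sum_add_distrib]; linarith
  have h3 : c * ∑ s, (μ s + μ2 s) ≤ c * 2 := mul_le_mul_of_nonneg_left h2 hc0.le
  rw [hc] at h1 h3
  linarith

end Claimed.Agent.RW
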