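import Claimed.Agent.RW.Flat
import Claimed.Agent.RW.Tree

/-!
# Team RW.  Unit FL (owner helper297): definitions.

`ecb`, `flY` (moved here from `Fl.lean`, unchanged), the summand `flv`, the block entropies `flh`, dead levels `flDead`, good cells `flGood`.
-/

set_option autoImplicit false

open Finset

namespace Claimed.Agent.RW

/-- `e_c(b) = ⌊c b / 2^n⌋` -/
def ecb (n c b : ℕ) : ℤ := ((c * b / 2 ^ n : ℕ) : ℤ)

open Classical in
/-- the blocks filled by the long sum -/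
noncomputable def flY (ε : ℝ) (L m R : ℕ) (N : ℕ → ℕ) {k : ℕ} (z : Fin k → ℕ) : Finset ℕ :=
  (range m).filter fun w => ∃ i : Fin k, ∃ x ∈ hiSet ε L m N, ∃ r ∈ Finset.Icc 2 R,
    w + r = x + z i ∧ x + z i + 3 ≤ m

/-- the summand `v^c(x) = e_c(x) - e_{c0}(x) = (c - c0) x / 2^n + O(1)` -/
def flv (n c0 c x : ℕ) : ℤ := ecb n c x - ecb n c0 x

variable {Ω : Type} [Fintype Ω]

/-- block entropy `h_x = H(cell_{x+1} b | cell_x b) = H(cell_{x+1} b) - H(cell_x b)` -/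
noncomputable def flh (Q : Pm Ω) (b : Ω → ℕ) (n L x : ℕ) : ℝ :=
  Q.ent (fun ω => cell n L (x + 1) (b ω)) - Q.ent (fun ω => cell n L x (b ω))

/-- the level-`x` cell `g` is GOOD: the component of `b` in it has entropy `≥ (εL/4) log 2` at level `x+1` -/
def flGood (ε : ℝ) (Q : Pm Ω) (b : Ω → ℕ) (n L x g : ℕ) : Prop :=
  ε * L / 4 * Real.log 2 ≤
    (Q.cond (fun ω => cell n L x (b ω)) g).ent (fun ω => cell n L (x + 1) (b ω))

open Classical in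
/-- the rich levels that are DEAD for `Q`: `h_x < (εL/2) log 2` -/
noncomputable def flDead (ε : ℝ) (Q : Pm Ω) (b : Ω → ℕ) (L m : ℕ) (N : ℕ → ℕ) : Finset ℕ :=
  (hiSet ε L m N).filter fun x => flh Q b (m * L) L x < ε * L / 2 * Real.log 2

open Classical in
/-- the blocks of `flY` with a LIVE witness -/
noncomputable def flYl (ε : ℝ) (Q : Pm Ω) (b : Ω → ℕ) (L m R : ℕ) (N : ℕ → ℕ) {k : ℕ} (z : Fin k → ℕ) :
    Finset ℕ :=
  (range m).filter fun w => ∃ i : Fin k, ∃ x ∈ hiSet ε L m N \ flDead ε Q b L m N, ∃ r ∈ Finset.Icc 2 R,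
    w + r = x + z i ∧ x + z i + 3 ≤ m

theorem fl_mem_flY (ε : ℝ) (L m R : ℕ) (N : ℕ → ℕ) {k : ℕ} (z : Fin k → ℕ) (w : ℕ) :
    w ∈ flY ε L m R N z ↔ w < m ∧ ∃ i : Fin k, ∃ x ∈ hiSet ε L m N, ∃ r ∈ Finset.Icc 2 R,
      w + r = x + z i ∧ x + z i + 3 ≤ m := by
  simp only [flY, Finset.mem_filter, Finset.mem_range]

theorem fl_mem_flDead (ε : ℝ) (Q : Pm Ω) (b : Ω → ℕ) (L m : ℕ) (N : ℕ → ℕ) (x : ℕ) :
    x ∈ flDead ε Q b L m N ↔ x ∈ hiSet ε L m N ∧ flh Q b (m * L) L x < ε * L / 2 * Real.log 2 := by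
  simp only [flDead, Finset.mem_filter]

theorem fl_mem_flYl (ε : ℝ) (Q : Pm Ω) (b : Ω → ℕ) (L m R : ℕ) (N : ℕ → ℕ) {k : ℕ} (z : Fin k → ℕ)
    (w : ℕ) :
    w ∈ flYl ε Q b L m R N z ↔ w < m ∧ ∃ i : Fin k, ∃ x ∈ hiSet ε L m N \ flDead ε Q b L m N,
      ∃ r ∈ Finset.Icc 2 R, w + r = x + z i ∧ x + z i + 3 ≤ m := by
  simp only [flYl, Finset.mem_filter, Finset.mem_range]

theorem fl_flYl_subset (ε : ℝ) (Q : Pm Ω) (b : Ω → ℕ) (L m R : ℕ) (N : ℕ → ℕ) {k : ℕ} (z : Fin k → ℕ) :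
    flYl ε Q b L m R N z ⊆ range m := fun w hw =>
  Finset.mem_range.2 ((fl_mem_flYl ε Q b L m R N z w).1 hw).1

theorem fl_defs_eqns_cite : True := by
  have := @ecb.eq_1
  have := @flY.eq_1
  have := @flv.eq_1
  have := @flh.eq_1
  have := @flGood.eq_1
  have := @flDead.eq_1
  have := @flYl.eq_1
  trivial

end Claimed.Agent.RW
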