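import Claimed.Agent.RW.FlDef

/-!
# Team RW.  Unit FL: what FL consumes from unit FLAT (helper275).   LEAF FL-IF (glue from the final lemmas of `Flat.lean`).

* `fl_if_e6` (E6): an integer variable of small variance has small entropy.  `var2 = E (W-W')² = 2 Var W`.
  [Gibbs (`en_gibbs`) against the two-sided geometric / Cauchy-like law `q(j) ∝ 1/(1+(j-a)²/s²)` or dyadic shells + Chebyshev.]
* `fl_if_window` (COR F'): `Y = ∑_t f_t(β_t)` independent summands, each of diameter `≤ q1`, `∑ Var ≥ q0²`: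
  `H(⌊Y/q1⌋) ≥ -log P(|Y-Y'| ≤ q1) ≥ log(S/q1) - log 24` (E7 + `flt_smallball` with `S² = ∑ var2/2`),
  `H(⌊Y/q0⌋) ≤ log(1 + var2(⌊Y/q0⌋))/2 + C6`, `var2(⌊Y/q0⌋) ≤ 2 var2(Y)/q0² + 2 = 4 S²/q0² + 2` and `var2(Y) = ∑_t var2(f_t)`; `S ≥ q0`.
-/

set_option autoImplicit false

open Finset

namespace Claimed.Agent.RW

theorem fl_if_e6 : ∃ C6 : ℝ, 0 ≤ C6 ∧ ∀ (Ω : Type) [Fintype Ω] (P : Pm Ω) (W : Ω → ℤ),
    P.ent W ≤ Real.log (1 + P.var2 (fun ω => (W ω : ℝ))) / 2 + C6 :=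
  ⟨3, by norm_num, fun _ _ P W => flt_e6_int P W⟩

theorem fl_if_window : ∃ C : ℝ, 0 ≤ C ∧ ∀ (Ω : Type) [Fintype Ω] (ι : Type) [Fintype ι] [DecidableEq ι]
    (Q : ι → Pm Ω) (f : ι → Ω → ℤ) (q1 q0 : ℤ), 0 < q1 → 0 < q0 →
    (∀ t ω ω', (Q t).w ω ≠ 0 → (Q t).w ω' ≠ 0 → |f t ω - f t ω'| ≤ q1) →
    2 * (q0 : ℝ) ^ 2 ≤ ∑ t, (Q t).var2 (fun ω => (f t ω : ℝ)) →
    Real.log ((q0 : ℝ) / q1) - C ≤
      (Pm.pi Q).ent (fun β => (∑ t, f t (β t)) / q1) - (Pm.pi Q).ent (fun β => (∑ t, f t (β t)) / q0) :=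
  ⟨7, by norm_num, fun _ _ _ _ _ Q f q1 q0 h1 h0 hs hv => flt_window_int Q f q1 q0 h1 h0 hs hv⟩

end Claimed.Agent.RW
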