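import Claimed.Agent.RW.Ent
import Claimed.Agent.RW.Tree

/-!
# Team RW.  Shared lemmas (helper275): entropy of a law on a uniform tree, level by level.   Prefix `te_` (+ a few general `en_`).

* `en_chain_fun`  : `H(X) = H(f X) + E_ω H(X | f X = f(X ω))`.
* `en_cond_supp`  : support of a conditional law.
* `en_le_of_heavy`: a law on `S` with at most half of its mass outside `A` has `H ≤ (log 2a + log 2s)/2`, `#A ≤ a ≤ s`, `#S ≤ s`.
* `te_cell_top/zero/succ`, `te_total` (`H(b) = ∑_{l<m} (H(cell_{l+1} b) - H(cell_l b))`), `te_step` (each step is an average of node entropies),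
  `te_node_le` (node entropy `≤ log N l`), `te_step_le`, `te_log_card` (`log #S = ∑ log N l`).
-/

set_option autoImplicit false

open Finset

namespace Claimed.Agent.RW

variable {Ω : Type*} [Fintype Ω] {α β : Type*} [DecidableEq α] [DecidableEq β]

theorem en_chain_fun (P : Pm Ω) (X : Ω → α) (f : α → β) :
    P.ent X = P.ent (fun ω => f (X ω)) +
      ∑ ω, P.w ω * (P.cond (fun ω => f (X ω)) (f (X ω))).ent X := by
  have h1 := en_pair_eq_cond P X (fun ω => f (X ω))
  rw [en_pair_comp] at h1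
  rw [h1, en_sum_comp P (fun ω => f (X ω)) (fun y => (P.cond (fun ω => f (X ω)) y).ent X)]

theorem en_cond_supp (P : Pm Ω) (Y : Ω → β) (y : β) (h : P.pr Y y ≠ 0) (ω : Ω) (hω : (P.cond Y y).w ω ≠ 0) :
    P.w ω ≠ 0 ∧ Y ω = y := by
  rw [en_cond_w P Y y h] at hω
  by_cases hy : Y ω = y
  · rw [if_pos hy] at hω
    refine ⟨fun h0 => hω ?_, hy⟩
    rw [h0, zero_div]
  · rw [if_neg hy] at hω
    exact absurd rfl hω

/-- mass of an event under a conditional law -/
theorem en_cond_mass (P : Pm Ω) (Y : Ω → β) (y : β) (h : P.pr Y y ≠ 0) (E : Ω → Prop) [DecidablePred E] :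
    ∑ ω with E ω, (P.cond Y y).w ω = (∑ ω with (Y ω = y ∧ E ω), P.w ω) / P.pr Y y := by
  simp only [en_cond_w P Y y h]
  rw [Finset.sum_div, ← Finset.sum_filter, Finset.filter_filter]
  refine Finset.sum_congr ?_ fun _ _ => rfl
  ext ω
  simp only [Finset.mem_filter, Finset.mem_univ, true_and]
  tauto

theorem en_le_of_heavy (P : Pm Ω) (X : Ω → α) (A S : Finset α) (a s : ℝ) (hS : ∀ ω, P.w ω ≠ 0 → X ω ∈ S)
    (hA : ∑ ω with X ω ∉ A, P.w ω ≤ 1 / 2) (ha : (#A : ℝ) ≤ a) (hs : (#S : ℝ) ≤ s) (ha0 : 0 < a) (has : a ≤ s) :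
    P.ent X ≤ (Real.log (2 * a) + Real.log (2 * s)) / 2 := by
  have hs0 : 0 < s := lt_of_lt_of_le ha0 has
  have hind : ∀ (I B : Finset α) (c : ℝ), 0 ≤ c → ∑ x ∈ I, (if x ∈ B then c else 0) ≤ #B * c := by
    intro I B c hc
    rw [← Finset.sum_filter, Finset.sum_const, nsmul_eq_mul]
    refine mul_le_mul_of_nonneg_right ?_ hc
    exact_mod_cast Finset.card_le_card (fun x hx => (Finset.mem_filter.1 hx).2)
  have hg := en_gibbs P X (fun x => if x ∈ A then 1 / (2 * a) else if x ∈ S then 1 / (2 * s) else 0)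
    (fun x => by
      show 0 ≤ if x ∈ A then 1 / (2 * a) else if x ∈ S then 1 / (2 * s) else 0
      split_ifs <;> positivity)
    (by
      calc ∑ x ∈ univ.image X, (if x ∈ A then 1 / (2 * a) else if x ∈ S then 1 / (2 * s) else 0)
          ≤ ∑ x ∈ univ.image X, ((if x ∈ A then 1 / (2 * a) else 0) + (if x ∈ S then 1 / (2 * s) else 0)) := by
            refine Finset.sum_le_sum fun x _ => ?_
            have h1 : 0 < 1 / (2 * a) := by positivity
            have h2 : 0 < 1 / (2 * s) := by positivity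
            split_ifs <;> linarith
        _ ≤ #A * (1 / (2 * a)) + #S * (1 / (2 * s)) := by
            rw [Finset.sum_add_distrib]
            exact add_le_add (hind _ _ _ (by positivity)) (hind _ _ _ (by positivity))
        _ ≤ a * (1 / (2 * a)) + s * (1 / (2 * s)) := by gcongr
        _ = 1 := by field_simp; norm_num)
    (fun ω hω => by
      show (if X ω ∈ A then 1 / (2 * a) else if X ω ∈ S then 1 / (2 * s) else 0) ≠ 0
      rw [if_pos (hS ω hω)]
      split_ifs <;> positivity)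
  refine hg.trans ?_
  have hterm : ∀ ω, P.w ω * (- Real.log (if X ω ∈ A then 1 / (2 * a) else if X ω ∈ S then 1 / (2 * s) else 0)) =
      P.w ω * Real.log (2 * a) + (if X ω ∉ A then P.w ω else 0) * (Real.log (2 * s) - Real.log (2 * a)) := by
    intro ω
    by_cases hw : P.w ω = 0
    · simp [hw]
    · rw [if_pos (hS ω hw)]
      by_cases hx : X ω ∈ A
      · simp only [hx, if_true, not_true_eq_false, if_false, one_div, Real.log_inv]
        ring
      · simp only [hx, if_false, not_false_eq_true, if_true, one_div, Real.log_inv]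
        ring
  rw [Finset.sum_congr rfl fun ω _ => hterm ω, Finset.sum_add_distrib, ← Finset.sum_mul, ← Finset.sum_mul,
    P.sum_one, one_mul, ← Finset.sum_filter]
  have hlog : 0 ≤ Real.log (2 * s) - Real.log (2 * a) :=
    sub_nonneg.2 (Real.log_le_log (by positivity) (by linarith))
  have := mul_le_mul_of_nonneg_right hA hlog
  linarith

/-! ## cells -/

theorem te_cell_top (L m x : ℕ) : cell (m * L) L m x = x := by
  simp [cell]

theorem te_cell_zero (L m x : ℕ) (hx : x < 2 ^ (m * L)) : cell (m * L) L 0 x = 0 := by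
  simp [cell, Nat.div_eq_of_lt hx]

theorem te_cell_succ (L m l x : ℕ) (hl : l < m) :
    cell (m * L) L l x = cell (m * L) L (l + 1) x / 2 ^ L := by
  unfold cell
  rw [Nat.div_div_eq_div_mul, ← pow_add]
  congr 2
  have h1 : (l + 1) * L ≤ m * L := Nat.mul_le_mul_right L hl
  have h2 : (l + 1) * L = l * L + L := by ring
  omega

/-! ## entropy level by level -/

theorem te_total (P : Pm Ω) (b : Ω → ℕ) (L m : ℕ) (hb : ∀ ω, P.w ω ≠ 0 → b ω < 2 ^ (m * L)) :
    P.ent b = ∑ l ∈ range m,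
      (P.ent (fun ω => cell (m * L) L (l + 1) (b ω)) - P.ent (fun ω => cell (m * L) L l (b ω))) := by
  rw [Finset.sum_range_sub (fun l => P.ent (fun ω => cell (m * L) L l (b ω)))]
  have h0 : P.ent (fun ω => cell (m * L) L 0 (b ω)) = 0 := by
    rw [en_congr P (fun ω => cell (m * L) L 0 (b ω)) (fun _ => (0 : ℕ)) (fun _ => 0) (fun _ => 0)
      (fun _ _ => rfl) (fun ω hω => te_cell_zero L m _ (hb ω hω))]
    exact en_const P 0
  rw [h0, sub_zero]
  simp only [te_cell_top]

theorem te_step (P : Pm Ω) (b : Ω → ℕ) (L m l : ℕ) (hl : l < m) :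
    P.ent (fun ω => cell (m * L) L (l + 1) (b ω)) - P.ent (fun ω => cell (m * L) L l (b ω)) =
      ∑ ω, P.w ω * (P.cond (fun ω => cell (m * L) L l (b ω)) (cell (m * L) L l (b ω))).ent
        (fun ω => cell (m * L) L (l + 1) (b ω)) := by
  have h := en_chain_fun P (fun ω => cell (m * L) L (l + 1) (b ω)) (fun j => j / 2 ^ L)
  simp only [← te_cell_succ L m l _ hl] at h
  linarith

/-- the children (in `S`) of the level-`l` node of `x` -/
def teKids (n L l : ℕ) (S : Finset ℕ) (x : ℕ) : Finset ℕ :=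
  (S.filter fun y => cell n L l y = cell n L l x).image (cell n L (l + 1))

theorem te_node_supp (P : Pm Ω) (b : Ω → ℕ) (n L l : ℕ) (S : Finset ℕ)
    (hb : ∀ ω, P.w ω ≠ 0 → b ω ∈ S) (ω0 : Ω) (h0 : P.w ω0 ≠ 0) (ω : Ω)
    (hω : (P.cond (fun ω => cell n L l (b ω)) (cell n L l (b ω0))).w ω ≠ 0) :
    P.w ω ≠ 0 ∧ cell n L l (b ω) = cell n L l (b ω0) ∧ cell n L (l + 1) (b ω) ∈ teKids n L l S (b ω0) := by
  have hpr : P.pr (fun ω => cell n L l (b ω)) (cell n L l (b ω0)) ≠ 0 :=
    (en_pr_pos P (fun ω => cell n L l (b ω)) ω0 h0).ne'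
  obtain ⟨h1, h2⟩ := en_cond_supp P _ _ hpr ω hω
  refine ⟨h1, h2, ?_⟩
  exact Finset.mem_image.2 ⟨b ω, Finset.mem_filter.2 ⟨hb ω h1, h2⟩, rfl⟩

theorem te_node_le (P : Pm Ω) (b : Ω → ℕ) (L m l : ℕ) (hl : l < m) (S : Finset ℕ) (N : ℕ → ℕ)
    (hU : UTree (m * L) L m S N) (hb : ∀ ω, P.w ω ≠ 0 → b ω ∈ S) (ω0 : Ω) (h0 : P.w ω0 ≠ 0) :
    (P.cond (fun ω => cell (m * L) L l (b ω)) (cell (m * L) L l (b ω0))).ent
      (fun ω => cell (m * L) L (l + 1) (b ω)) ≤ Real.log (N l) := by
  have h := en_le_log_card (P.cond (fun ω => cell (m * L) L l (b ω)) (cell (m * L) L l (b ω0)))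
    (fun ω => cell (m * L) L (l + 1) (b ω)) (teKids (m * L) L l S (b ω0))
    (fun ω hω => (te_node_supp P b (m * L) L l S hb ω0 h0 ω hω).2.2)
  have hc : #(teKids (m * L) L l S (b ω0)) = N l := hU.branch l hl (b ω0) (hb ω0 h0)
  rwa [hc] at h

theorem te_step_le (P : Pm Ω) (b : Ω → ℕ) (L m l : ℕ) (hl : l < m) (S : Finset ℕ) (N : ℕ → ℕ)
    (hU : UTree (m * L) L m S N) (hb : ∀ ω, P.w ω ≠ 0 → b ω ∈ S) :
    P.ent (fun ω => cell (m * L) L (l + 1) (b ω)) - P.ent (fun ω => cell (m * L) L l (b ω)) ≤ Real.log (N l) := by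
  rw [te_step P b L m l hl]
  calc _ ≤ ∑ ω, P.w ω * Real.log (N l) := by
        refine Finset.sum_le_sum fun ω _ => ?_
        by_cases hw : P.w ω = 0
        · simp [hw]
        · exact mul_le_mul_of_nonneg_left (te_node_le P b L m l hl S N hU hb ω hw) (P.nonneg ω)
    _ = Real.log (N l) := by rw [← Finset.sum_mul, P.sum_one, one_mul]

theorem te_log_card (L m : ℕ) (S : Finset ℕ) (N : ℕ → ℕ) (hU : UTree (m * L) L m S N) :
    Real.log #S = ∑ l ∈ range m, Real.log (N l) := by
  have h := tree_card L m S N hU m le_rfl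
  have h1 : S.image (cell (m * L) L m) = S := by
    have : cell (m * L) L m = id := by
      funext x
      exact te_cell_top L m x
    rw [this, Finset.image_id]
  rw [h1] at h
  rw [h, Nat.cast_prod, Real.log_prod]
  intro l hl
  have := (tree_branch_le L m S N hU l (Finset.mem_range.1 hl)).1
  positivity

end Claimed.Agent.RW
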