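import Claimed.Agent.RW.FlDef
import Claimed.Agent.RW.TreeEnt

/-!
# Team RW.  Unit FL: block entropies of a law on a uniform tree; dead levels; good cells.   LEAF FL-LIVE.

Notation: `n = m L`, `c_x = cell n L x ∘ b`, `h_x = flh Q b n L x = H(c_{x+1}) - H(c_x)`.
* `fl_h_eq`: `c_x` is a function of `c_{x+1}` (`cell n L x y = cell n L (x+1) y / 2^L` for `x < m`: `Nat.div_div_eq_div_mul`, `pow_add`), so `H(c_{x+1}, c_x) = H(c_{x+1})` (`en_congr`) and
  `en_pair_eq_cond` gives `h_x = ∑_g P(c_x = g) H(c_{x+1} | c_x = g)`.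
* `fl_cell_ent_le`: given `c_x = g` the variable `c_{x+1}` takes values in `[g 2^L, (g+1) 2^L)`: `en_le_log_card` with `Finset.Ico`, support by `en_cond_w` (`H ≤ log 2^L = L log 2`; if the event is null `cond = Q`: exclude by hypothesis).
* `fl_h_le`: on a uniform tree, given `c_x = g` (non-null) `c_{x+1}` takes values in the image in `UTree.branch`, of cardinality `N x`; `∑_g P(c_x=g) = 1` (`en_pr_sum`).
* `fl_deficit`: telescoping (`Finset.sum_range_sub`): `∑_{x<m} h_x = H(c_m) - H(c_0)`; `c_m = b` (`n - m L = 0`), `c_0 = 0` a.s. (`b < 2^n`), `en_const`/`en_congr`;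
  `∑_{x<m} log N x = log ∏ N x = log #B'` (`tree_card` with `j = m`, `Real.log_prod`, `tree_branch_le` for `N x ≠ 0`).
* `fl_dead`: for `x` dead: `log N x - h_x ≥ εL log 2 - (εL/2) log 2` (`hiSet`: `2^(εL) ≤ N x`, `Real.log_rpow`), all other terms `≥ 0` (`fl_h_le`).
* `fl_good_prob`: `(εL/2) log 2 ≤ h_x = ∑_g P(g) H_g ≤ P(good) L log 2 + (εL/4) log 2`; rewrite `∑_g P(c_x = g) 1[good g] = ∑_ω w ω 1[good (c_x ω)]` by `en_sum_comp`.
-/

set_option autoImplicit false

open Finset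

namespace Claimed.Agent.RW

variable {Ω : Type} [Fintype Ω]

theorem fl_h_eq (Q : Pm Ω) (b : Ω → ℕ) (L m x : ℕ) (hx : x < m) :
    flh Q b (m * L) L x = ∑ g ∈ univ.image (fun ω => cell (m * L) L x (b ω)),
      Q.pr (fun ω => cell (m * L) L x (b ω)) g *
        (Q.cond (fun ω => cell (m * L) L x (b ω)) g).ent (fun ω => cell (m * L) L (x + 1) (b ω)) := by
  unfold flh
  rw [te_step Q b L m x hx]
  exact en_sum_comp Q (fun ω => cell (m * L) L x (b ω))
    (fun g => (Q.cond (fun ω => cell (m * L) L x (b ω)) g).ent (fun ω => cell (m * L) L (x + 1) (b ω)))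

theorem fl_cell_ent_le (Q : Pm Ω) (b : Ω → ℕ) (L m x : ℕ) (hx : x < m) (g : ℕ)
    (hg : Q.pr (fun ω => cell (m * L) L x (b ω)) g ≠ 0) :
    (Q.cond (fun ω => cell (m * L) L x (b ω)) g).ent (fun ω => cell (m * L) L (x + 1) (b ω)) ≤
      L * Real.log 2 := by
  have h := en_le_log_card (Q.cond (fun ω => cell (m * L) L x (b ω)) g)
    (fun ω => cell (m * L) L (x + 1) (b ω)) (Finset.Ico (g * 2 ^ L) ((g + 1) * 2 ^ L))
    (fun ω hω => by
      have h1 : cell (m * L) L x (b ω) = g := (en_cond_supp Q _ g hg ω hω).2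
      rw [te_cell_succ L m x _ hx] at h1
      have hP : 0 < 2 ^ L := by positivity
      rw [Finset.mem_Ico]
      constructor
      · rw [← h1]
        exact Nat.div_mul_le_self _ _
      · rw [← Nat.div_lt_iff_lt_mul hP, h1]
        exact Nat.lt_succ_self g)
  have hc : #(Finset.Ico (g * 2 ^ L) ((g + 1) * 2 ^ L)) = 2 ^ L := by
    rw [Nat.card_Ico, add_mul, one_mul, Nat.add_sub_cancel_left]
  rw [hc] at h
  refine h.trans (le_of_eq ?_)
  push_cast
  rw [Real.log_pow]

theorem fl_h_le (L m : ℕ) (B' : Finset ℕ) (N : ℕ → ℕ) (hT : UTree (m * L) L m B' N) (Q : Pm Ω)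
    (b : Ω → ℕ) (hb : ∀ ω, Q.w ω ≠ 0 → b ω ∈ B') (x : ℕ) (hx : x < m) :
    flh Q b (m * L) L x ≤ Real.log (N x) :=
  te_step_le Q b L m x hx B' N hT hb

theorem fl_deficit (L m : ℕ) (B' : Finset ℕ) (N : ℕ → ℕ) (hT : UTree (m * L) L m B' N) (Q : Pm Ω)
    (b : Ω → ℕ) (hb : ∀ ω, Q.w ω ≠ 0 → b ω ∈ B') :
    ∑ x ∈ range m, (Real.log (N x) - flh Q b (m * L) L x) = Real.log B'.card - Q.ent b := by
  rw [Finset.sum_sub_distrib, ← te_log_card L m B' N hT,
    te_total Q b L m (fun ω hω => hT.lt _ (hb ω hω))]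
  rfl

theorem fl_dead (ε : ℝ) (hε : 0 < ε) (L m : ℕ) (B' : Finset ℕ) (N : ℕ → ℕ)
    (hT : UTree (m * L) L m B' N) (Q : Pm Ω) (b : Ω → ℕ) (hb : ∀ ω, Q.w ω ≠ 0 → b ω ∈ B') :
    ((flDead ε Q b L m N).card : ℝ) * (ε * L / 2 * Real.log 2) ≤ Real.log B'.card - Q.ent b := by
  rw [← fl_deficit L m B' N hT Q b hb]
  have hsub : flDead ε Q b L m N ⊆ range m := by
    intro x hx
    have h1 := ((fl_mem_flDead ε Q b L m N x).1 hx).1
    exact (Finset.mem_filter.1 h1).1
  calc ((flDead ε Q b L m N).card : ℝ) * (ε * L / 2 * Real.log 2)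
      = ∑ x ∈ flDead ε Q b L m N, (ε * L / 2 * Real.log 2) := by
        rw [Finset.sum_const, nsmul_eq_mul]
    _ ≤ ∑ x ∈ flDead ε Q b L m N, (Real.log (N x) - flh Q b (m * L) L x) := by
        refine Finset.sum_le_sum fun x hx => ?_
        obtain ⟨h1, h2⟩ := (fl_mem_flDead ε Q b L m N x).1 hx
        have h3 : (2 : ℝ) ^ (ε * L) ≤ (N x : ℝ) := (Finset.mem_filter.1 h1).2
        have h4 : ε * L * Real.log 2 ≤ Real.log (N x) := by
          rw [← Real.log_rpow (by norm_num)]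
          exact Real.log_le_log (by positivity) h3
        linarith
    _ ≤ ∑ x ∈ range m, (Real.log (N x) - flh Q b (m * L) L x) := by
        refine Finset.sum_le_sum_of_subset_of_nonneg hsub fun x hx _ => ?_
        exact sub_nonneg.2 (fl_h_le L m B' N hT Q b hb x (Finset.mem_range.1 hx))

open Classical in
theorem fl_good_prob (ε : ℝ) (hε : 0 < ε) (L m x : ℕ) (hL : 1 ≤ L) (hx : x < m) (Q : Pm Ω) (b : Ω → ℕ)
    (hlive : ε * L / 2 * Real.log 2 ≤ flh Q b (m * L) L x) :
    ε / 4 ≤ ∑ ω with flGood ε Q b (m * L) L x (cell (m * L) L x (b ω)), Q.w ω := by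
  have hlog : 0 < Real.log 2 := Real.log_pos (by norm_num)
  have hL' : (0 : ℝ) < L := by exact_mod_cast hL
  unfold flh at hlive
  rw [te_step Q b L m x hx] at hlive
  have hterm : ∀ ω, Q.w ω * (Q.cond (fun ω => cell (m * L) L x (b ω)) (cell (m * L) L x (b ω))).ent
      (fun ω => cell (m * L) L (x + 1) (b ω)) ≤
      (if flGood ε Q b (m * L) L x (cell (m * L) L x (b ω)) then Q.w ω else 0) * (L * Real.log 2) +
        Q.w ω * (ε * L / 4 * Real.log 2) := by
    intro ω
    by_cases hw : Q.w ω = 0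
    · simp [hw]
    · have hpr : Q.pr (fun ω => cell (m * L) L x (b ω)) (cell (m * L) L x (b ω)) ≠ 0 :=
        (en_pr_pos Q (fun ω => cell (m * L) L x (b ω)) ω hw).ne'
      have h1 := fl_cell_ent_le Q b L m x hx _ hpr
      have hw0 := Q.nonneg ω
      split_ifs with hg
      · have h2 := mul_le_mul_of_nonneg_left h1 hw0
        have h3 : 0 ≤ Q.w ω * (ε * L / 4 * Real.log 2) := by positivity
        linarith
      · unfold flGood at hg
        push Not at hg
        have h2 := mul_le_mul_of_nonneg_left hg.le hw0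
        linarith
  have hsum := Finset.sum_le_sum fun ω (_ : ω ∈ (univ : Finset Ω)) => hterm ω
  rw [Finset.sum_add_distrib, ← Finset.sum_mul, ← Finset.sum_mul, Q.sum_one, one_mul, ← Finset.sum_filter] at hsum
  have h5 := hlive.trans hsum
  have h6 : ε / 4 * (L * Real.log 2) ≤
      (∑ ω with flGood ε Q b (m * L) L x (cell (m * L) L x (b ω)), Q.w ω) * (L * Real.log 2) := by
    have : ε * L / 2 * Real.log 2 - ε * L / 4 * Real.log 2 = ε / 4 * (L * Real.log 2) := by ring
    linarith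
  exact le_of_mul_le_mul_right h6 (by positivity)

end Claimed.Agent.RW
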