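import Claimed.Agent.RW.FlDef

/-!
# Team RW.  Unit FL: product spaces and conditioning.   LEAF FL-PI.   (pure `Finset` algebra, no analysis)

* `fl_pm_ext`: two `Pm` with the same weights are equal (`cases`).
* `fl_pi_ex_prod`: `E ∏_t F_t(β_t) = ∏_t E F_t` (`Finset.prod_univ_sum` + `Fintype.piFinset_univ`, as in `flt_chf_pi`).
* `fl_pi_pr`: `P(∀ t, Y_t(β_t) = g_t) = ∏_t P(Y_t = g_t)`: `fl_pi_ex_prod` with `F_t = 1[Y_t = g_t]` (`Pm.pr` as a sum of `if`, `Finset.prod_ite`/`funext_iff`).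
* `fl_pi_cond`: the product law conditioned on `(Y_t(β_t))_t = g` is the product of the conditioned laws: `fl_pm_ext`, `en_cond_w`, `fl_pi_pr`; all factors `≠ 0` by `Finset.prod_ne_zero_iff`;
  if some `Y_t(β_t) ≠ g_t` both sides vanish, otherwise `∏ (w/pr) = ∏ w / ∏ pr` (`Finset.prod_div_distrib`).
* `fl_cond_supp`, `fl_cond_inj`: `en_cond_w`; `Pm.pr (φ ∘ Y) (φ y) = Pm.pr Y y` for injective `φ`.
-/

set_option autoImplicit false

open Finset

namespace Claimed.Agent.RW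

variable {Ω : Type} [Fintype Ω] {α β : Type} [DecidableEq α] [DecidableEq β]

theorem fl_pm_ext {P Q : Pm Ω} (h : ∀ ω, P.w ω = Q.w ω) : P = Q := by
  cases P
  cases Q
  congr
  funext ω
  exact h ω

theorem fl_cond_supp (P : Pm Ω) (Y : Ω → α) (y : α) (h : P.pr Y y ≠ 0) (ω : Ω)
    (hω : (P.cond Y y).w ω ≠ 0) : Y ω = y ∧ P.w ω ≠ 0 := by
  rw [en_cond_w P Y y h] at hω
  by_cases hy : Y ω = y
  · rw [if_pos hy] at hω
    refine ⟨hy, fun h0 => hω ?_⟩
    rw [h0, zero_div]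
  · rw [if_neg hy] at hω
    exact absurd rfl hω

theorem fl_cond_inj (P : Pm Ω) (Y : Ω → α) (φ : α → β) (hφ : Function.Injective φ) (y : α) :
    P.cond (fun ω => φ (Y ω)) (φ y) = P.cond Y y := by
  have hpr : P.pr (fun ω => φ (Y ω)) (φ y) = P.pr Y y :=
    en_pr_congr_ae P _ Y _ _ (fun ω _ => hφ.eq_iff)
  by_cases h : P.pr Y y = 0
  · unfold Pm.cond
    rw [dif_pos h, dif_pos (hpr.trans h)]
  · apply fl_pm_ext
    intro ω
    rw [en_cond_w P Y y h, en_cond_w P _ _ (by rw [hpr]; exact h), hpr]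
    simp only [hφ.eq_iff]

variable {ι : Type} [Fintype ι] [DecidableEq ι]

theorem fl_pi_ex_prod (Q : ι → Pm Ω) (F : ι → Ω → ℝ) :
    (Pm.pi Q).ex (fun β => ∏ t, F t (β t)) = ∏ t, (Q t).ex (F t) :=
  flt_pi_prod Q F

theorem fl_pi_pr (Q : ι → Pm Ω) (Y : ι → Ω → α) (g : ι → α) :
    (Pm.pi Q).pr (fun β t => Y t (β t)) g = ∏ t, (Q t).pr (Y t) (g t) := by
  have h := flt_pi_prod Q (fun t ω => if Y t ω = g t then 1 else 0)
  have h1 : ∀ t, ∑ ω, (Q t).w ω * (if Y t ω = g t then (1 : ℝ) else 0) = (Q t).pr (Y t) (g t) := by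
    intro t
    unfold Pm.pr
    rw [Finset.sum_filter]
    refine Finset.sum_congr rfl fun ω _ => ?_
    split_ifs <;> simp
  simp only [h1] at h
  rw [← h]
  unfold Pm.pr
  rw [Finset.sum_filter]
  refine Finset.sum_congr rfl fun b _ => ?_
  by_cases hb : (fun t => Y t (b t)) = g
  · rw [if_pos hb]
    have : ∀ t, Y t (b t) = g t := fun t => congrFun hb t
    simp [this]
  · rw [if_neg hb]
    obtain ⟨t, ht⟩ : ∃ t, Y t (b t) ≠ g t := by
      by_contra hcon
      push Not at hcon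
      exact hb (funext hcon)
    rw [Finset.prod_eq_zero (Finset.mem_univ t) (by rw [if_neg ht]), mul_zero]

theorem fl_pi_cond (Q : ι → Pm Ω) (Y : ι → Ω → α) (g : ι → α)
    (h : (Pm.pi Q).pr (fun β t => Y t (β t)) g ≠ 0) :
    (Pm.pi Q).cond (fun β t => Y t (β t)) g = Pm.pi (fun t => (Q t).cond (Y t) (g t)) := by
  have hne : ∀ t, (Q t).pr (Y t) (g t) ≠ 0 := by
    rw [fl_pi_pr] at h
    intro t
    exact Finset.prod_ne_zero_iff.1 h t (Finset.mem_univ t)
  apply fl_pm_ext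
  intro b
  rw [en_cond_w _ _ _ h, fl_pi_pr]
  show _ = ∏ t, ((Q t).cond (Y t) (g t)).w (b t)
  simp only [fun t => en_cond_w (Q t) (Y t) (g t) (hne t)]
  by_cases hb : (fun t => Y t (b t)) = g
  · rw [if_pos hb]
    have : ∀ t, Y t (b t) = g t := fun t => congrFun hb t
    simp only [this, if_true]
    rw [Finset.prod_div_distrib]
    rfl
  · rw [if_neg hb]
    obtain ⟨t, ht⟩ : ∃ t, Y t (b t) ≠ g t := by
      by_contra hcon
      push Not at hcon
      exact hb (funext hcon)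
    rw [Finset.prod_eq_zero (Finset.mem_univ t) (by rw [if_neg ht])]

end Claimed.Agent.RW
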