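import Claimed.Agent.RW.FlArith
import Claimed.Agent.RW.FlChern
import Claimed.Agent.RW.FlChain
import Claimed.Agent.RW.FlLive

/-!
# Team RW.  Unit FL: a block with a live witness is filled.   (glue, PROVED by helper297 from the contracts of FlIf, FlPi, FlChern, FlChain, FlLive, FlArith)

`P = Q^{⊗(Fin k × Fin k')}`, `V(β) = ∑_p flv n c0 (c p.1) (b (β p))`, `q1 = 2^(n-(w+1)L)`, `q0 = 2^(n-wL)`.
Condition on `G(β) = (Y_p(β_p))_p`, `Y_p ω = inl (cell_x (b ω))` if `p.1 = i`, `inr ω` otherwise (`fl_cond_window`, `fl_pi_cond`).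
Given `G = g` the summands are independent, of diameter `≤ q1` (`fl_diam`; constants for `p.1 ≠ i`), and `∑ var2 ≥ #{j : g(i,j) good} · 2 u1²` (`fl_var_lower`), `u1 = 2^(n-(w+r+2)L)`.
`fl_chernoff` + `fl_good_prob`: with probability `≥ 1 - ε` at least `ε k'/8` of the cells are good; `ε k'/8 ≥ 4^((R+2)L)` gives `∑ var2 ≥ 2 q0²`; `fl_if_window`.
-/

set_option autoImplicit false

open Finset

namespace Claimed.Agent.RW

section win
variable {Ω : Type} [Fintype Ω] [DecidableEq Ω]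

/-- the conditioning variable of the coordinate `p`: the level-`x` cell if `p.1 = i`, everything otherwise -/
def flYv (n L x : ℕ) (b : Ω → ℕ) {k k' : ℕ} (i : Fin k) (p : Fin k × Fin k') (ω : Ω) : ℕ ⊕ Ω :=
  if p.1 = i then Sum.inl (cell n L x (b ω)) else Sum.inr ω

/-- a value of the conditioning variable is a good cell -/
def flAg (ε : ℝ) (Q : Pm Ω) (b : Ω → ℕ) (n L x : ℕ) : ℕ ⊕ Ω → Prop :=
  Sum.elim (flGood ε Q b n L x) (fun _ => False)

theorem fl_win_defs_eqns_cite : True := by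
  have := @flYv.eq_1
  have := @flAg.eq_1
  trivial

open Classical in
/-- **core**: given a good value of the conditioning variable the block `w` is filled. -/
theorem fl_win_core (C C7 : ℝ)
    (hW : ∀ (Ω : Type) [Fintype Ω] (ι : Type) [Fintype ι] [DecidableEq ι]
      (Q : ι → Pm Ω) (f : ι → Ω → ℤ) (q1 q0 : ℤ), 0 < q1 → 0 < q0 →
      (∀ t ω ω', (Q t).w ω ≠ 0 → (Q t).w ω' ≠ 0 → |f t ω - f t ω'| ≤ q1) →
      2 * (q0 : ℝ) ^ 2 ≤ ∑ t, (Q t).var2 (fun ω => (f t ω : ℝ)) →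
      Real.log ((q0 : ℝ) / q1) - C ≤
        (Pm.pi Q).ent (fun β => (∑ t, f t (β t)) / q1) - (Pm.pi Q).ent (fun β => (∑ t, f t (β t)) / q0))
    (hV : ∀ (L m x zi c0 c : ℕ), x + zi + 3 ≤ m →
      (2 : ℤ) ^ (m * L - (zi + 1) * L) ≤ |(c : ℤ) - c0| →
      ∀ (Ω : Type) [Fintype Ω] (Q' : Pm Ω) (b : Ω → ℕ),
      C7 < Q'.ent (fun ω => cell (m * L) L (x + 1) (b ω)) →
      2 * ((2 : ℝ) ^ (m * L - (x + zi + 2) * L)) ^ 2 ≤
        Q'.var2 (fun ω => (flv (m * L) c0 c (b ω) : ℝ)))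
    (ε : ℝ) (R L : ℕ) (hL : 1 ≤ L) (hLC7 : C7 < ε * L / 4 * Real.log 2)
    (k' : ℕ) (hk' : (4 : ℝ) ^ ((R + 2) * L) ≤ ε * k' / 8) (k m : ℕ) (Q : Pm Ω) (b : Ω → ℕ)
    (c0 : ℕ) (c z : Fin k → ℕ)
    (hcz : ∀ i, (2 : ℤ) ^ (m * L - (z i + 1) * L) ≤ |(c i : ℤ) - c0| ∧
        |(c i : ℤ) - c0| < (2 : ℤ) ^ (m * L - z i * L))
    (i : Fin k) (x r w : ℕ) (hr2 : 2 ≤ r) (hrR : r ≤ R) (hwr : w + r = x + z i) (hxz : x + z i + 3 ≤ m)
    (g : Fin k × Fin k' → ℕ ⊕ Ω)
    (hg : (Pm.pi fun _ : Fin k × Fin k' => Q).pr (fun β p => flYv (m * L) L x b i p (β p)) g ≠ 0)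
    (hgood : ε * k' / 8 <
      (((univ.filter fun p : Fin k × Fin k' => p.1 = i).filter
        fun p => flAg ε Q b (m * L) L x (g p)).card : ℝ)) :
    L * Real.log 2 - C ≤
      ((Pm.pi fun _ : Fin k × Fin k' => Q).cond (fun β p => flYv (m * L) L x b i p (β p)) g).ent
          (fun β => (∑ p, flv (m * L) c0 (c p.1) (b (β p))) / (2 : ℤ) ^ (m * L - (w + 1) * L)) -
      ((Pm.pi fun _ : Fin k × Fin k' => Q).cond (fun β p => flYv (m * L) L x b i p (β p)) g).ent
          (fun β => (∑ p, flv (m * L) c0 (c p.1) (b (β p))) / (2 : ℤ) ^ (m * L - w * L)) := by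
  rw [fl_pi_cond (fun _ : Fin k × Fin k' => Q) (fun p => flYv (m * L) L x b i p) g hg]
  have hfac : ∀ p, Q.pr (flYv (m * L) L x b i p) (g p) ≠ 0 := by
    rw [fl_pi_pr] at hg
    intro p
    exact (Finset.prod_ne_zero_iff.1 hg) p (Finset.mem_univ p)
  -- exponents
  have hwm : (w + 1) * L ≤ m * L := Nat.mul_le_mul_right L (by omega)
  have hexp : m * L - w * L = (m * L - (w + 1) * L) + L := by
    have : (w + 1) * L = w * L + L := by ring
    omega
  have hexp2 : m * L - w * L = (m * L - (x + z i + 2) * L) + (r + 2) * L := by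
    have h1 : (x + z i + 2) * L ≤ m * L := Nat.mul_le_mul_right L (by omega)
    have h2 : (x + z i + 2) * L = w * L + (r + 2) * L := by
      rw [← hwr]; ring
    omega
  have h := hW Ω (Fin k × Fin k') (fun p => Q.cond (flYv (m * L) L x b i p) (g p))
    (fun p ω => flv (m * L) c0 (c p.1) (b ω)) ((2 : ℤ) ^ (m * L - (w + 1) * L)) ((2 : ℤ) ^ (m * L - w * L))
    (by positivity) (by positivity) ?_ ?_
  · have hlog : Real.log ((((2 : ℤ) ^ (m * L - w * L) : ℤ) : ℝ) / (((2 : ℤ) ^ (m * L - (w + 1) * L) : ℤ) : ℝ))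
        = L * Real.log 2 := by
      push_cast
      rw [hexp, pow_add, mul_div_cancel_left₀ _ (by positivity), Real.log_pow]
    rw [hlog] at h
    exact h
  · -- supports
    intro p ω ω' hω hω'
    have h1 := (fl_cond_supp Q _ _ (hfac p) ω hω).1
    have h2 := (fl_cond_supp Q _ _ (hfac p) ω' hω').1
    by_cases hp : p.1 = i
    · have h3 : cell (m * L) L x (b ω) = cell (m * L) L x (b ω') := by
        have := h1.trans h2.symm
        simp only [flYv, hp, if_true] at this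
        exact Sum.inl.inj this
      rw [hp]
      exact fl_diam L m x (z i) w r c0 (c i) hL hr2 hwr hxz (hcz i).2 _ _ h3
    · have h3 : ω = ω' := by
        have := h1.trans h2.symm
        simp only [flYv, hp, if_false] at this
        exact Sum.inr.inj this
      rw [h3, sub_self, abs_zero]
      positivity
  · -- variance
    set J' := ((univ.filter fun p : Fin k × Fin k' => p.1 = i).filter
        fun p => flAg ε Q b (m * L) L x (g p)) with hJ'
    have hterm : ∀ p ∈ J', 2 * ((2 : ℝ) ^ (m * L - (x + z i + 2) * L)) ^ 2 ≤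
        (Q.cond (flYv (m * L) L x b i p) (g p)).var2 (fun ω => (flv (m * L) c0 (c p.1) (b ω) : ℝ)) := by
      intro p hp
      obtain ⟨hp1, hp2⟩ := Finset.mem_filter.1 hp
      have hpi : p.1 = i := (Finset.mem_filter.1 hp1).2
      rcases hgp : g p with γ | ω0
      · rw [hgp] at hp2
        have hgd : flGood ε Q b (m * L) L x γ := hp2
        have hY : flYv (m * L) L x b i p = fun ω => (Sum.inl (cell (m * L) L x (b ω)) : ℕ ⊕ Ω) := by
          funext ω
          simp [flYv, hpi]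
        rw [hY, fl_cond_inj Q (fun ω => cell (m * L) L x (b ω)) (Sum.inl : ℕ → ℕ ⊕ Ω)
          Sum.inl_injective γ, hpi]
        exact hV L m x (z i) c0 (c i) hxz (hcz i).1 Ω _ b (lt_of_lt_of_le hLC7 hgd)
      · rw [hgp] at hp2
        exact absurd hp2 (by simp [flAg])
    have hsum : (J'.card : ℝ) * (2 * ((2 : ℝ) ^ (m * L - (x + z i + 2) * L)) ^ 2) ≤
        ∑ p, (Q.cond (flYv (m * L) L x b i p) (g p)).var2 (fun ω => (flv (m * L) c0 (c p.1) (b ω) : ℝ)) := by
      calc (J'.card : ℝ) * (2 * ((2 : ℝ) ^ (m * L - (x + z i + 2) * L)) ^ 2)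
          = ∑ _p ∈ J', (2 * ((2 : ℝ) ^ (m * L - (x + z i + 2) * L)) ^ 2) := by
            rw [Finset.sum_const, nsmul_eq_mul]
        _ ≤ ∑ p ∈ J', (Q.cond (flYv (m * L) L x b i p) (g p)).var2
              (fun ω => (flv (m * L) c0 (c p.1) (b ω) : ℝ)) := Finset.sum_le_sum hterm
        _ ≤ _ := Finset.sum_le_sum_of_subset_of_nonneg (Finset.subset_univ _)
              (fun p _ _ => flt_var2_nonneg _ _)
    refine le_trans ?_ hsum
    push_cast
    rw [hexp2, pow_add]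
    have h4 : ((2 : ℝ) ^ ((r + 2) * L)) ^ 2 ≤ (J'.card : ℝ) := by
      have h5 : ((2 : ℝ) ^ ((r + 2) * L)) ^ 2 = (4 : ℝ) ^ ((r + 2) * L) := by
        rw [← pow_mul, mul_comm, pow_mul]; norm_num
      rw [h5]
      have h6 : (4 : ℝ) ^ ((r + 2) * L) ≤ (4 : ℝ) ^ ((R + 2) * L) :=
        pow_le_pow_right₀ (by norm_num) (Nat.mul_le_mul_right L (by omega))
      linarith
    have h7 : (0 : ℝ) ≤ ((2 : ℝ) ^ (m * L - (x + z i + 2) * L)) ^ 2 := by positivity
    nlinarith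

theorem fl_win_cardJ {k k' : ℕ} (i : Fin k) :
    (univ.filter fun p : Fin k × Fin k' => p.1 = i).card = k' := by
  have : (univ.filter fun p : Fin k × Fin k' => p.1 = i) = univ.image (fun j : Fin k' => (i, j)) := by
    ext p
    simp only [Finset.mem_filter, Finset.mem_univ, true_and, Finset.mem_image]
    constructor
    · intro h
      exact ⟨p.2, Prod.ext h.symm rfl⟩
    · rintro ⟨j, rfl⟩
      rfl
  rw [this, Finset.card_image_of_injective _ (fun a b h => (Prod.mk.inj h).2), Finset.card_univ,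
    Fintype.card_fin]

omit [DecidableEq Ω] in
open Classical in
/-- with probability `≥ 1 - ε` the value of the conditioning variable is good -/
theorem fl_win_prob (ε : ℝ) (hε : 0 < ε) (L m x : ℕ) (hL : 1 ≤ L) (hx : x < m) (k k' : ℕ)
    (hk' : Real.exp (-(ε / 4 * k' / 8)) ≤ ε) (Q : Pm Ω) (b : Ω → ℕ)
    (hlive : ε * L / 2 * Real.log 2 ≤ flh Q b (m * L) L x) (i : Fin k) :
    1 - ε ≤ ∑ β : Fin k × Fin k' → Ω, (Pm.pi fun _ : Fin k × Fin k' => Q).w β *
      (if ε * k' / 8 < (((univ.filter fun p : Fin k × Fin k' => p.1 = i).filter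
        fun p => flAg ε Q b (m * L) L x (flYv (m * L) L x b i p (β p))).card : ℝ) then 1 else 0) := by
  have hp := fl_good_prob ε hε L m x hL hx Q b hlive
  have hch := fl_chernoff Q (fun ω => flGood ε Q b (m * L) L x (cell (m * L) L x (b ω))) (ε / 4)
    (by positivity) hp (univ.filter fun p : Fin k × Fin k' => p.1 = i)
  rw [fl_win_cardJ] at hch
  have hfilt : ∀ β : Fin k × Fin k' → Ω,
      ((univ.filter fun p : Fin k × Fin k' => p.1 = i).filter
        fun p => flAg ε Q b (m * L) L x (flYv (m * L) L x b i p (β p))) =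
      ((univ.filter fun p : Fin k × Fin k' => p.1 = i).filter
        fun p => flGood ε Q b (m * L) L x (cell (m * L) L x (b (β p)))) := by
    intro β
    refine Finset.filter_congr fun p hp => ?_
    have hpi : p.1 = i := (Finset.mem_filter.1 hp).2
    simp [flAg, flYv, hpi]
  have hone := (Pm.pi fun _ : Fin k × Fin k' => Q).sum_one
  have hsplit : ∀ β : Fin k × Fin k' → Ω, (Pm.pi fun _ : Fin k × Fin k' => Q).w β *
      (if ε * k' / 8 < (((univ.filter fun p : Fin k × Fin k' => p.1 = i).filter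
        fun p => flAg ε Q b (m * L) L x (flYv (m * L) L x b i p (β p))).card : ℝ) then 1 else 0) =
      (Pm.pi fun _ : Fin k × Fin k' => Q).w β -
      (if (((univ.filter fun p : Fin k × Fin k' => p.1 = i).filter
        fun p => flGood ε Q b (m * L) L x (cell (m * L) L x (b (β p)))).card : ℝ) ≤ ε / 4 * k' / 2
        then (Pm.pi fun _ : Fin k × Fin k' => Q).w β else 0) := by
    intro β
    rw [hfilt β]
    have e : ε / 4 * k' / 2 = ε * k' / 8 := by ring
    rw [e]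
    by_cases h : ε * k' / 8 < (((univ.filter fun p : Fin k × Fin k' => p.1 = i).filter
        fun p => flGood ε Q b (m * L) L x (cell (m * L) L x (b (β p)))).card : ℝ)
    · rw [if_pos h, if_neg (not_le.2 h)]
      ring
    · rw [if_neg h, if_pos (not_lt.1 h)]
      ring
  rw [Finset.sum_congr rfl fun β _ => hsplit β, Finset.sum_sub_distrib, hone, ← Finset.sum_filter]
  linarith

open Classical in
/-- the window inequality for fixed constants -/
theorem fl_win_asm (C C7 : ℝ)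
    (hW : ∀ (Ω : Type) [Fintype Ω] (ι : Type) [Fintype ι] [DecidableEq ι]
      (Q : ι → Pm Ω) (f : ι → Ω → ℤ) (q1 q0 : ℤ), 0 < q1 → 0 < q0 →
      (∀ t ω ω', (Q t).w ω ≠ 0 → (Q t).w ω' ≠ 0 → |f t ω - f t ω'| ≤ q1) →
      2 * (q0 : ℝ) ^ 2 ≤ ∑ t, (Q t).var2 (fun ω => (f t ω : ℝ)) →
      Real.log ((q0 : ℝ) / q1) - C ≤
        (Pm.pi Q).ent (fun β => (∑ t, f t (β t)) / q1) - (Pm.pi Q).ent (fun β => (∑ t, f t (β t)) / q0))
    (hV : ∀ (L m x zi c0 c : ℕ), x + zi + 3 ≤ m →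
      (2 : ℤ) ^ (m * L - (zi + 1) * L) ≤ |(c : ℤ) - c0| →
      ∀ (Ω : Type) [Fintype Ω] (Q' : Pm Ω) (b : Ω → ℕ),
      C7 < Q'.ent (fun ω => cell (m * L) L (x + 1) (b ω)) →
      2 * ((2 : ℝ) ^ (m * L - (x + zi + 2) * L)) ^ 2 ≤
        Q'.var2 (fun ω => (flv (m * L) c0 c (b ω) : ℝ)))
    (ε : ℝ) (hε : 0 < ε) (R L : ℕ) (hL : 1 ≤ L) (hLC7 : C7 < ε * L / 4 * Real.log 2)
    (hLC : 0 ≤ L * Real.log 2 - C)
    (k' : ℕ) (hk' : (4 : ℝ) ^ ((R + 2) * L) ≤ ε * k' / 8) (hk'2 : Real.exp (-(ε / 4 * k' / 8)) ≤ ε)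
    (k m : ℕ) (Q : Pm Ω) (b : Ω → ℕ) (c0 : ℕ) (c z : Fin k → ℕ)
    (hcz : ∀ i, (2 : ℤ) ^ (m * L - (z i + 1) * L) ≤ |(c i : ℤ) - c0| ∧
        |(c i : ℤ) - c0| < (2 : ℤ) ^ (m * L - z i * L))
    (i : Fin k) (x r w : ℕ) (hr2 : 2 ≤ r) (hrR : r ≤ R) (hwr : w + r = x + z i) (hxz : x + z i + 3 ≤ m)
    (hlive : ε * L / 2 * Real.log 2 ≤ flh Q b (m * L) L x) :
    (1 - ε) * (L * Real.log 2 - C) ≤
      (Pm.pi fun _ : Fin k × Fin k' => Q).ent
          (fun β => (∑ p, flv (m * L) c0 (c p.1) (b (β p))) / (2 : ℤ) ^ (m * L - (w + 1) * L)) -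
      (Pm.pi fun _ : Fin k × Fin k' => Q).ent
          (fun β => (∑ p, flv (m * L) c0 (c p.1) (b (β p))) / (2 : ℤ) ^ (m * L - w * L)) := by
  have hwm : (w + 1) * L ≤ m * L := Nat.mul_le_mul_right L (by omega)
  have hexp : m * L - w * L = (m * L - (w + 1) * L) + L := by
    have : (w + 1) * L = w * L + L := by ring
    omega
  have hcw := fl_cond_window (Pm.pi fun _ : Fin k × Fin k' => Q)
    (fun β => (∑ p, flv (m * L) c0 (c p.1) (b (β p))) / (2 : ℤ) ^ (m * L - (w + 1) * L))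
    (fun β => (∑ p, flv (m * L) c0 (c p.1) (b (β p))) / (2 : ℤ) ^ (m * L - w * L))
    (fun a => a / (2 : ℤ) ^ L)
    (fun β => by
      show _ / _ = _ / _ / _
      rw [Int.ediv_ediv_of_nonneg (by positivity), hexp, pow_add])
    (fun β p => flYv (m * L) L x b i p (β p))
  refine le_trans ?_ hcw
  have hprob := fl_win_prob ε hε L m x hL (by omega) k k' hk'2 Q b hlive i
  have hcomp := en_sum_comp (Pm.pi fun _ : Fin k × Fin k' => Q)
    (fun β p => flYv (m * L) L x b i p (β p))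
    (fun g => if ε * k' / 8 < (((univ.filter fun p : Fin k × Fin k' => p.1 = i).filter
        fun p => flAg ε Q b (m * L) L x (g p)).card : ℝ) then (1 : ℝ) else 0)
  rw [hcomp] at hprob
  calc (1 - ε) * (L * Real.log 2 - C)
      ≤ (∑ g ∈ univ.image (fun (β : Fin k × Fin k' → Ω) p => flYv (m * L) L x b i p (β p)),
          (Pm.pi fun _ : Fin k × Fin k' => Q).pr (fun β p => flYv (m * L) L x b i p (β p)) g *
          (if ε * k' / 8 < (((univ.filter fun p : Fin k × Fin k' => p.1 = i).filter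
            fun p => flAg ε Q b (m * L) L x (g p)).card : ℝ) then (1 : ℝ) else 0)) *
          (L * Real.log 2 - C) := mul_le_mul_of_nonneg_right hprob hLC
    _ ≤ _ := by
      rw [Finset.sum_mul]
      refine Finset.sum_le_sum fun g _ => ?_
      rw [mul_assoc]
      by_cases hpr : (Pm.pi fun _ : Fin k × Fin k' => Q).pr
          (fun β p => flYv (m * L) L x b i p (β p)) g = 0
      · rw [hpr, zero_mul, zero_mul]
      refine mul_le_mul_of_nonneg_left ?_ (en_pr_nonneg _ _ _)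
      split_ifs with hgood
      · rw [one_mul]
        exact fl_win_core C C7 hW hV ε R L hL hLC7 k' hk' k m Q b c0 c z hcz i x r w hr2 hrR hwr hxz
          g hpr hgood
      · rw [zero_mul]
        exact sub_nonneg.2 (fl_div_mono
          ((Pm.pi fun _ : Fin k × Fin k' => Q).cond (fun β p => flYv (m * L) L x b i p (β p)) g)
          (fun β : Fin k × Fin k' → Ω => ∑ p, flv (m * L) c0 (c p.1) (b (β p)))
          (m * L - (w + 1) * L) (m * L - w * L) (by rw [hexp]; exact Nat.le_add_right _ _))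

end win

theorem fl_window (ε : ℝ) (hε : 0 < ε) (hε1 : ε < 1) (R : ℕ) (_hR : 2 ≤ R) :
    ∃ C0 : ℝ, ∃ L0 : ℕ, ∀ L, L0 ≤ L → ∃ k0 : ℕ, ∀ k', k0 ≤ k' →
      ∀ (k m : ℕ) (Ω : Type) [Fintype Ω] (Q : Pm Ω) (b : Ω → ℕ) (c0 : ℕ) (c z : Fin k → ℕ),
      (∀ i, (2 : ℤ) ^ (m * L - (z i + 1) * L) ≤ |(c i : ℤ) - c0| ∧
        |(c i : ℤ) - c0| < (2 : ℤ) ^ (m * L - z i * L)) →
      ∀ (i : Fin k) (x r w : ℕ), 2 ≤ r → r ≤ R → w + r = x + z i → x + z i + 3 ≤ m →
      ε * L / 2 * Real.log 2 ≤ flh Q b (m * L) L x →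
      (1 - ε) * ((L : ℝ) - C0) * Real.log 2 ≤
        (Pm.pi fun _ : Fin k × Fin k' => Q).ent
          (fun β => (∑ p, flv (m * L) c0 (c p.1) (b (β p))) / (2 : ℤ) ^ (m * L - (w + 1) * L)) -
        (Pm.pi fun _ : Fin k × Fin k' => Q).ent
          (fun β => (∑ p, flv (m * L) c0 (c p.1) (b (β p))) / (2 : ℤ) ^ (m * L - w * L)) := by
  obtain ⟨C, hC0, hW⟩ := fl_if_window
  obtain ⟨C7, hC7, hV⟩ := fl_var_lower
  have hlog2 : 0 < Real.log 2 := Real.log_pos (by norm_num)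
  refine ⟨C / Real.log 2, ⌈C / Real.log 2⌉₊ + ⌈4 * (C7 + 1) / (ε * Real.log 2)⌉₊ + 1, fun L hL => ?_⟩
  have hL1 : 1 ≤ L := by omega
  have hLa : C / Real.log 2 ≤ L := by
    have h1 : ⌈C / Real.log 2⌉₊ ≤ L := by omega
    exact (Nat.le_ceil _).trans (by exact_mod_cast h1)
  have hLb : 4 * (C7 + 1) / (ε * Real.log 2) ≤ L := by
    have h1 : ⌈4 * (C7 + 1) / (ε * Real.log 2)⌉₊ ≤ L := by omega
    exact (Nat.le_ceil _).trans (by exact_mod_cast h1)
  have hLC : 0 ≤ L * Real.log 2 - C := by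
    rw [div_le_iff₀ hlog2] at hLa
    linarith
  have hLC7 : C7 < ε * L / 4 * Real.log 2 := by
    rw [div_le_iff₀ (by positivity)] at hLb
    nlinarith
  refine ⟨⌈8 / ε * (4 : ℝ) ^ ((R + 2) * L)⌉₊ + ⌈32 / ε * Real.log (1 / ε)⌉₊, fun k' hk' => ?_⟩
  have hka : 8 / ε * (4 : ℝ) ^ ((R + 2) * L) ≤ k' := by
    have h1 : ⌈8 / ε * (4 : ℝ) ^ ((R + 2) * L)⌉₊ ≤ k' := by omega
    exact (Nat.le_ceil _).trans (by exact_mod_cast h1)
  have hkb : 32 / ε * Real.log (1 / ε) ≤ k' := by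
    have h1 : ⌈32 / ε * Real.log (1 / ε)⌉₊ ≤ k' := by omega
    exact (Nat.le_ceil _).trans (by exact_mod_cast h1)
  have hk1 : (4 : ℝ) ^ ((R + 2) * L) ≤ ε * k' / 8 := by
    have h2 : (4 : ℝ) ^ ((R + 2) * L) = ε / 8 * (8 / ε * (4 : ℝ) ^ ((R + 2) * L)) := by
      field_simp
    rw [h2]
    have := mul_le_mul_of_nonneg_left hka (by positivity : 0 ≤ ε / 8)
    linarith
  have hk2 : Real.exp (-(ε / 4 * k' / 8)) ≤ ε := by
    have h2 : Real.log (1 / ε) ≤ ε / 4 * k' / 8 := by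
      have h3 : Real.log (1 / ε) = ε / 32 * (32 / ε * Real.log (1 / ε)) := by
        field_simp
      rw [h3]
      have := mul_le_mul_of_nonneg_left hkb (by positivity : 0 ≤ ε / 32)
      linarith
    rw [one_div, Real.log_inv] at h2
    calc Real.exp (-(ε / 4 * k' / 8)) ≤ Real.exp (Real.log ε) := Real.exp_le_exp.2 (by linarith)
      _ = ε := Real.exp_log hε
  intro k m Ω _ Q b c0 c z hcz i x r w hr2 hrR hwr hxz hlive
  classical
  have h := fl_win_asm C C7 hW hV ε hε R L hL1 hLC7 hLC k' hk1 hk2 k m Q b c0 c z hcz i x r w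
    hr2 hrR hwr hxz hlive
  have e : (1 - ε) * ((L : ℝ) - C / Real.log 2) * Real.log 2 = (1 - ε) * (L * Real.log 2 - C) := by
    field_simp
  rw [e]
  exact h

end Claimed.Agent.RW
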