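import Claimed.Agent.RW.Ent

/-!
# Team RW.  Unit FLAT (helper275): small-ball bound for sums of independent bounded variables, and its entropy corollaries.

* `flt_smallball` (LEM F): `ξ_t` independent, `|ξ_t - ξ_t'| ≤ r` a.s., `2 S² ≤ ∑ E(ξ_t-ξ_t')²` (i.e. `S² ≤ ∑ Var ξ_t`)
  ⟹ `P(|Y-Y'| ≤ r) ≤ 24 r / S`, `Y = ∑ ξ_t`.
  Proof: DISCRETE Fejer kernel `K_M(x) = M⁻² ∑_{k,k'<M} cos(x (k-k')/M) = M⁻² |∑_k e^{ixk/M}|² ≥ 0`, `≥ 1/2` on `|x| ≤ 1`;
  `E cos(θ(Y-Y')) = ∏_t E cos(θ(ξ_t-ξ_t')) ≤ exp(-(2/5) θ² ∑ E(ξ_t-ξ_t')²)` for `|θ| r ≤ 1`; `M = ⌈S/r⌉`; geometric series.  No integrals.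
* `flt_ent_ge_coll` (E7), `flt_ent_le_moment` (E6), `flt_window` (COR F').
-/

set_option autoImplicit false

open Finset

namespace Claimed.Agent.RW

variable {Ω : Type*} [Fintype Ω]

/-- collision probability at scale `r`: `P(|Y - Y'| ≤ r)`, `Y'` an independent copy -/
noncomputable def Pm.coll (P : Pm Ω) (Y : Ω → ℝ) (r : ℝ) : ℝ :=
  ∑ ω, ∑ ω', if |Y ω - Y ω'| ≤ r then P.w ω * P.w ω' else 0

/-- `E (f - f')^2 = 2 Var f`, `f'` an independent copy -/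
def Pm.var2 (P : Pm Ω) (f : Ω → ℝ) : ℝ := ∑ ω, ∑ ω', P.w ω * P.w ω' * (f ω - f ω') ^ 2

/-- `E cos (f - f') = |E exp(i f)|^2` -/
noncomputable def Pm.cs2 (P : Pm Ω) (f : Ω → ℝ) : ℝ := ∑ ω, ∑ ω', P.w ω * P.w ω' * Real.cos (f ω - f ω')

/-- characteristic function -/
noncomputable def Pm.chf (P : Pm Ω) (f : Ω → ℝ) : ℂ := ∑ ω, (P.w ω : ℂ) * Complex.exp ((f ω : ℂ) * Complex.I)

/-! ## geometric sums -/

theorem flt_geom_nat (q : ℝ) (h0 : 0 ≤ q) (h1 : q < 1) (U : Finset ℕ) : ∑ i ∈ U, q ^ i ≤ 1 / (1 - q) := by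
  have h := (summable_geometric_of_lt_one h0 h1).sum_le_tsum U (fun i _ => pow_nonneg h0 i)
  rw [tsum_geometric_of_lt_one h0 h1] at h
  rw [one_div]
  exact h

theorem flt_geom_int (q : ℝ) (h0 : 0 ≤ q) (h1 : q < 1) (T : Finset ℤ) :
    ∑ j ∈ T, q ^ j.natAbs ≤ 2 / (1 - q) := by
  rw [← Finset.sum_filter_add_sum_filter_not T (fun j => 0 ≤ j)]
  have hA : ∑ j ∈ T.filter (fun j => 0 ≤ j), q ^ j.natAbs ≤ 1 / (1 - q) := by
    rw [← Finset.sum_image (f := fun i => q ^ i) (g := Int.natAbs)]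
    · exact flt_geom_nat q h0 h1 _
    · intro a ha b hb hab
      have ha' := (Finset.mem_filter.1 (Finset.mem_coe.1 ha)).2
      have hb' := (Finset.mem_filter.1 (Finset.mem_coe.1 hb)).2
      omega
  have hB : ∑ j ∈ T.filter (fun j => ¬ 0 ≤ j), q ^ j.natAbs ≤ 1 / (1 - q) := by
    rw [← Finset.sum_image (f := fun i => q ^ i) (g := Int.natAbs)]
    · exact flt_geom_nat q h0 h1 _
    · intro a ha b hb hab
      have ha' := (Finset.mem_filter.1 (Finset.mem_coe.1 ha)).2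
      have hb' := (Finset.mem_filter.1 (Finset.mem_coe.1 hb)).2
      omega
  have : 2 / (1 - q) = 1 / (1 - q) + 1 / (1 - q) := by ring
  rw [this]
  exact add_le_add hA hB

theorem flt_geom_shift (q : ℝ) (h0 : 0 ≤ q) (h1 : q < 1) (T : Finset ℤ) (m0 : ℤ) :
    ∑ j ∈ T, q ^ (j - m0).natAbs ≤ 2 / (1 - q) := by
  have h := flt_geom_int q h0 h1 (T.image fun j => j - m0)
  rwa [Finset.sum_image (fun a _ b _ hab => by simpa using hab)] at h

/-! ## the discrete Fejer kernel -/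

/-- `M^2` times the discrete Fejer kernel -/
noncomputable def fltK (M : ℕ) (x : ℝ) : ℝ :=
  ∑ k ∈ range M, ∑ k' ∈ range M, Real.cos (x * (((k : ℝ) - k') / M))

theorem flt_K_nonneg (M : ℕ) (x : ℝ) : 0 ≤ fltK M x := by
  have h : fltK M x = (∑ k ∈ range M, Real.cos (x * (k / M))) ^ 2 + (∑ k ∈ range M, Real.sin (x * (k / M))) ^ 2 := by
    unfold fltK
    rw [sq, sq, Finset.sum_mul_sum, Finset.sum_mul_sum, ← Finset.sum_add_distrib]
    refine Finset.sum_congr rfl fun k _ => ?_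
    rw [← Finset.sum_add_distrib]
    refine Finset.sum_congr rfl fun k' _ => ?_
    rw [← Real.cos_sub]
    congr 1
    ring
  rw [h]
  positivity

theorem flt_cos_ge (y : ℝ) (hy : |y| ≤ 1) : 1 / 2 ≤ Real.cos y := by
  have h := Real.one_sub_sq_div_two_le_cos (x := y)
  have h2 : y ^ 2 ≤ 1 := by
    rw [← sq_abs]
    exact pow_le_one₀ (abs_nonneg y) hy
  linarith

theorem flt_cos_le (y : ℝ) (hy : |y| ≤ 1) : Real.cos y ≤ 1 - 2 / 5 * y ^ 2 := by
  have h := (abs_le.1 (Real.cos_bound hy)).2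
  have h2 : y ^ 2 ≤ 1 := by
    rw [← sq_abs]
    exact pow_le_one₀ (abs_nonneg y) hy
  have h4 : |y| ^ 4 = y ^ 2 * y ^ 2 := by
    rw [show (4 : ℕ) = 2 * 2 from rfl, pow_mul, sq_abs]
    ring
  rw [h4] at h
  nlinarith [sq_nonneg y]

theorem flt_K_ge (M : ℕ) (x : ℝ) (hx : |x| ≤ 1) : (M : ℝ) ^ 2 / 2 ≤ fltK M x := by
  unfold fltK
  have h : ∀ k ∈ range M, ∀ k' ∈ range M, 1 / 2 ≤ Real.cos (x * (((k : ℝ) - k') / M)) := by
    intro k hk k' hk'
    apply flt_cos_ge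
    have hk1 : (k : ℝ) < M := by exact_mod_cast Finset.mem_range.1 hk
    have hk2 : (k' : ℝ) < M := by exact_mod_cast Finset.mem_range.1 hk'
    have hM : (0 : ℝ) < M := lt_of_le_of_lt (Nat.cast_nonneg k) hk1
    rw [abs_mul]
    have h3 : |((k : ℝ) - k') / M| ≤ 1 := by
      rw [abs_div, abs_of_pos hM, div_le_one hM, abs_le]
      constructor <;> linarith [Nat.cast_nonneg (α := ℝ) k, Nat.cast_nonneg (α := ℝ) k']
    calc |x| * |((k : ℝ) - k') / M| ≤ 1 * 1 := mul_le_mul hx h3 (abs_nonneg _) zero_le_one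
      _ = 1 := one_mul 1
  calc (M : ℝ) ^ 2 / 2 = ∑ k ∈ range M, ∑ k' ∈ range M, (1 / 2 : ℝ) := by
        simp only [Finset.sum_const, Finset.card_range, nsmul_eq_mul]
        ring
    _ ≤ _ := Finset.sum_le_sum fun k hk => Finset.sum_le_sum fun k' hk' => h k hk k' hk'

/-! ## characteristic functions -/

theorem flt_chf_normSq (P : Pm Ω) (f : Ω → ℝ) : Complex.normSq (P.chf f) = P.cs2 f := by
  have hre : (P.chf f).re = ∑ ω, P.w ω * Real.cos (f ω) := by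
    unfold Pm.chf
    rw [Complex.re_sum]
    refine Finset.sum_congr rfl fun ω _ => ?_
    rw [Complex.re_ofReal_mul, Complex.exp_ofReal_mul_I_re]
  have him : (P.chf f).im = ∑ ω, P.w ω * Real.sin (f ω) := by
    unfold Pm.chf
    rw [Complex.im_sum]
    refine Finset.sum_congr rfl fun ω _ => ?_
    rw [Complex.im_ofReal_mul, Complex.exp_ofReal_mul_I_im]
  rw [Complex.normSq_apply, hre, him, Finset.sum_mul_sum, Finset.sum_mul_sum, ← Finset.sum_add_distrib]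
  unfold Pm.cs2
  refine Finset.sum_congr rfl fun ω _ => ?_
  rw [← Finset.sum_add_distrib]
  refine Finset.sum_congr rfl fun ω' _ => ?_
  rw [Real.cos_sub]
  ring

theorem flt_cs2_nonneg (P : Pm Ω) (f : Ω → ℝ) : 0 ≤ P.cs2 f := by
  rw [← flt_chf_normSq]
  exact Complex.normSq_nonneg _

theorem flt_chf_pi {ι : Type*} [Fintype ι] [DecidableEq ι] (Q : ι → Pm Ω) (f : ι → Ω → ℝ) :
    (Pm.pi Q).chf (fun b => ∑ t, f t (b t)) = ∏ t, (Q t).chf (f t) := by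
  unfold Pm.chf
  have h := Finset.prod_univ_sum (fun _ : ι => (Finset.univ : Finset Ω))
    (fun t x => ((Q t).w x : ℂ) * Complex.exp ((f t x : ℂ) * Complex.I))
  rw [Fintype.piFinset_univ] at h
  rw [h]
  refine Finset.sum_congr rfl fun b _ => ?_
  rw [Finset.prod_mul_distrib, ← Complex.exp_sum, ← Finset.sum_mul]
  simp only [Pm.pi, Complex.ofReal_prod, Complex.ofReal_sum]

theorem flt_cs2_pi {ι : Type*} [Fintype ι] [DecidableEq ι] (Q : ι → Pm Ω) (f : ι → Ω → ℝ) :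
    (Pm.pi Q).cs2 (fun b => ∑ t, f t (b t)) = ∏ t, (Q t).cs2 (f t) := by
  rw [← flt_chf_normSq, flt_chf_pi, map_prod]
  exact Finset.prod_congr rfl fun t _ => flt_chf_normSq _ _

theorem flt_sum_ww (P : Pm Ω) : ∑ ω, ∑ ω', P.w ω * P.w ω' = 1 := by
  rw [← Finset.sum_mul_sum, P.sum_one, one_mul]

/-- one factor: `E cos(θ(ξ-ξ')) ≤ exp(-(2/5) θ² E(ξ-ξ')²)` if `|θ(ξ-ξ')| ≤ 1` a.s. -/
theorem flt_cs2_le (P : Pm Ω) (f : Ω → ℝ)
    (hsupp : ∀ ω ω', P.w ω ≠ 0 → P.w ω' ≠ 0 → |f ω - f ω'| ≤ 1) :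
    P.cs2 f ≤ Real.exp (-(2 / 5 * P.var2 f)) := by
  have h1 : P.cs2 f ≤ 1 - 2 / 5 * P.var2 f := by
    unfold Pm.cs2 Pm.var2
    rw [← flt_sum_ww P, Finset.mul_sum, ← Finset.sum_sub_distrib]
    refine Finset.sum_le_sum fun ω _ => ?_
    rw [Finset.mul_sum, ← Finset.sum_sub_distrib]
    refine Finset.sum_le_sum fun ω' _ => ?_
    by_cases h : P.w ω = 0
    · simp [h]
    by_cases h' : P.w ω' = 0
    · simp [h']
    have h2 := flt_cos_le _ (hsupp ω ω' h h')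
    have h3 := mul_le_mul_of_nonneg_left h2 (mul_nonneg (P.nonneg ω) (P.nonneg ω'))
    linarith
  refine h1.trans ?_
  have := Real.add_one_le_exp (-(2 / 5 * P.var2 f))
  linarith

theorem flt_var2_smul (P : Pm Ω) (f : Ω → ℝ) (θ : ℝ) : P.var2 (fun ω => θ * f ω) = θ ^ 2 * P.var2 f := by
  unfold Pm.var2
  rw [Finset.mul_sum]
  refine Finset.sum_congr rfl fun ω _ => ?_
  rw [Finset.mul_sum]
  refine Finset.sum_congr rfl fun ω' _ => ?_
  ring

theorem flt_var2_nonneg (P : Pm Ω) (f : Ω → ℝ) : 0 ≤ P.var2 f :=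
  Finset.sum_nonneg fun ω _ => Finset.sum_nonneg fun ω' _ =>
    mul_nonneg (mul_nonneg (P.nonneg ω) (P.nonneg ω')) (sq_nonneg _)

theorem flt_cs2_pi_le {ι : Type*} [Fintype ι] [DecidableEq ι] (Q : ι → Pm Ω) (ξ : ι → Ω → ℝ) (r θ : ℝ)
    (hsupp : ∀ t ω ω', (Q t).w ω ≠ 0 → (Q t).w ω' ≠ 0 → |ξ t ω - ξ t ω'| ≤ r) (hθ : |θ| * r ≤ 1) :
    (Pm.pi Q).cs2 (fun b => θ * ∑ t, ξ t (b t)) ≤ Real.exp (-(2 / 5 * θ ^ 2 * ∑ t, (Q t).var2 (ξ t))) := by
  have h0 : (fun b : ι → Ω => θ * ∑ t, ξ t (b t)) = fun b => ∑ t, (fun t ω => θ * ξ t ω) t (b t) := by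
    funext b
    rw [Finset.mul_sum]
  rw [h0, flt_cs2_pi Q (fun t ω => θ * ξ t ω)]
  have h1 : ∀ t ∈ (univ : Finset ι), (Q t).cs2 (fun ω => θ * ξ t ω) ≤ Real.exp (-(2 / 5 * (θ ^ 2 * (Q t).var2 (ξ t)))) := by
    intro t _
    rw [← flt_var2_smul]
    apply flt_cs2_le
    intro ω ω' h h'
    rw [← mul_sub, abs_mul]
    exact (mul_le_mul_of_nonneg_left (hsupp t ω ω' h h') (abs_nonneg θ)).trans hθ
  refine (Finset.prod_le_prod (fun t _ => flt_cs2_nonneg _ _) h1).trans (le_of_eq ?_)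
  rw [← Real.exp_sum]
  congr 1
  rw [Finset.sum_neg_distrib, Finset.mul_sum]
  congr 1
  refine Finset.sum_congr rfl fun t _ => ?_
  ring

theorem flt_coll_le_one (P : Pm Ω) (Y : Ω → ℝ) (r : ℝ) : P.coll Y r ≤ 1 := by
  rw [← flt_sum_ww P]
  unfold Pm.coll
  refine Finset.sum_le_sum fun ω _ => Finset.sum_le_sum fun ω' _ => ?_
  split_ifs
  · exact le_rfl
  · exact mul_nonneg (P.nonneg ω) (P.nonneg ω')

/-- the collision probability is controlled by the Fejer average of `E cos` -/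
theorem flt_coll_le_K (P : Pm Ω) (Y : Ω → ℝ) (r : ℝ) (hr : 0 < r) (M : ℕ) (hM : 0 < M) :
    P.coll Y r ≤ 2 / (M : ℝ) ^ 2 *
      ∑ k ∈ range M, ∑ k' ∈ range M, P.cs2 (fun ω => (((k : ℝ) - k') / M / r) * Y ω) := by
  have hM' : (0 : ℝ) < M := by exact_mod_cast hM
  have h1 : ∑ k ∈ range M, ∑ k' ∈ range M, P.cs2 (fun ω => (((k : ℝ) - k') / M / r) * Y ω) =
      ∑ ω, ∑ ω', P.w ω * P.w ω' * fltK M ((Y ω - Y ω') / r) := by
    unfold Pm.cs2 fltK
    simp only [Finset.mul_sum]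
    rw [Finset.sum_congr rfl fun k _ => Finset.sum_comm]
    rw [Finset.sum_comm]
    refine Finset.sum_congr rfl fun ω _ => ?_
    rw [Finset.sum_congr rfl fun k _ => Finset.sum_congr rfl fun k' _ => rfl]
    rw [Finset.sum_congr rfl fun k _ => Finset.sum_comm]
    rw [Finset.sum_comm]
    refine Finset.sum_congr rfl fun ω' _ => ?_
    refine Finset.sum_congr rfl fun k _ => ?_
    refine Finset.sum_congr rfl fun k' _ => ?_
    congr 2
    field_simp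
  rw [h1, Finset.mul_sum]
  unfold Pm.coll
  refine Finset.sum_le_sum fun ω _ => ?_
  rw [Finset.mul_sum]
  refine Finset.sum_le_sum fun ω' _ => ?_
  have hww := mul_nonneg (P.nonneg ω) (P.nonneg ω')
  split_ifs with h
  · have h2 : |(Y ω - Y ω') / r| ≤ 1 := by
      rw [abs_div, abs_of_pos hr, div_le_one hr]
      exact h
    have h3 := flt_K_ge M _ h2
    have h4 : 1 ≤ 2 / (M : ℝ) ^ 2 * fltK M ((Y ω - Y ω') / r) := by
      rw [div_mul_eq_mul_div, le_div_iff₀ (by positivity)]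
      linarith
    calc P.w ω * P.w ω' = P.w ω * P.w ω' * 1 := (mul_one _).symm
      _ ≤ P.w ω * P.w ω' * (2 / (M : ℝ) ^ 2 * fltK M ((Y ω - Y ω') / r)) := mul_le_mul_of_nonneg_left h4 hww
      _ = _ := by ring
  · have := flt_K_nonneg M ((Y ω - Y ω') / r)
    positivity

theorem flt_exp_le_pow (j : ℤ) (x : ℝ) (hx : 1 / 5 * (j : ℝ) ^ 2 ≤ x) : Real.exp (-x) ≤ (5 / 6 : ℝ) ^ j.natAbs := by
  have h1 : Real.exp (-(1 / 5 : ℝ)) ≤ 5 / 6 := by
    rw [Real.exp_neg, inv_le_comm₀ (Real.exp_pos _) (by norm_num)]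
    have := Real.add_one_le_exp (1 / 5 : ℝ)
    norm_num at this ⊢
    linarith
  have h2 : (j : ℝ) ^ 2 = ((j.natAbs ^ 2 : ℕ) : ℝ) := by
    push_cast
    rw [Nat.cast_natAbs, Int.cast_abs, sq_abs]
  calc Real.exp (-x) ≤ Real.exp (-(1 / 5 * (j : ℝ) ^ 2)) := Real.exp_le_exp.2 (neg_le_neg hx)
    _ = Real.exp (-(1 / 5 : ℝ)) ^ (j.natAbs ^ 2) := by
        rw [← Real.exp_nat_mul, h2]
        congr 1
        ring
    _ ≤ (5 / 6 : ℝ) ^ (j.natAbs ^ 2) := pow_le_pow_left₀ (Real.exp_pos _).le h1 _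
    _ ≤ (5 / 6 : ℝ) ^ j.natAbs := by
        apply pow_le_pow_of_le_one (by norm_num) (by norm_num)
        nlinarith [Nat.zero_le j.natAbs]

/-- **LEM F** (Esseen / Kolmogorov-Rogozin, `L²` form). -/
theorem flt_smallball {ι : Type*} [Fintype ι] [DecidableEq ι] (Q : ι → Pm Ω) (ξ : ι → Ω → ℝ) (r S : ℝ)
    (hr : 0 < r) (hS : 0 < S)
    (hsupp : ∀ t ω ω', (Q t).w ω ≠ 0 → (Q t).w ω' ≠ 0 → |ξ t ω - ξ t ω'| ≤ r)
    (hvar : 2 * S ^ 2 ≤ ∑ t, (Q t).var2 (ξ t)) :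
    (Pm.pi Q).coll (fun b => ∑ t, ξ t (b t)) r ≤ 24 * r / S := by
  by_cases hSr : S < r
  · refine (flt_coll_le_one _ _ _).trans ?_
    rw [le_div_iff₀ hS]
    linarith
  push Not at hSr
  obtain ⟨M, hMdef⟩ : ∃ M : ℕ, M = ⌈S / r⌉₊ := ⟨_, rfl⟩
  have h1 : 1 ≤ S / r := by rwa [le_div_iff₀ hr, one_mul]
  have hM1 : S / r ≤ M := hMdef ▸ Nat.le_ceil _
  have hM2 : (M : ℝ) < S / r + 1 := hMdef ▸ Nat.ceil_lt_add_one (by positivity)
  have hM0 : (0 : ℝ) < M := by linarith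
  have hM0' : 0 < M := by exact_mod_cast hM0
  have hMr : (M : ℝ) * r ≤ 2 * S := by
    have : (M : ℝ) ≤ 2 * (S / r) := by linarith
    calc (M : ℝ) * r ≤ 2 * (S / r) * r := mul_le_mul_of_nonneg_right this hr.le
      _ = 2 * S := by field_simp
  refine (flt_coll_le_K _ _ r hr M hM0').trans ?_
  have hterm : ∀ k ∈ range M, ∀ k' ∈ range M,
      (Pm.pi Q).cs2 (fun b => (((k : ℝ) - k') / M / r) * ∑ t, ξ t (b t)) ≤ (5 / 6 : ℝ) ^ ((k' : ℤ) - k).natAbs := by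
    intro k hk k' hk'
    have hk1 : (k : ℝ) < M := by exact_mod_cast Finset.mem_range.1 hk
    have hk2 : (k' : ℝ) < M := by exact_mod_cast Finset.mem_range.1 hk'
    have h3 : |((k : ℝ) - k') / M| ≤ 1 := by
      rw [abs_div, abs_of_pos hM0, div_le_one hM0, abs_le]
      constructor <;> linarith [Nat.cast_nonneg (α := ℝ) k, Nat.cast_nonneg (α := ℝ) k']
    refine (flt_cs2_pi_le Q ξ r _ hsupp ?_).trans ?_
    · rw [abs_div, abs_of_pos hr, div_mul_cancel₀ _ hr.ne']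
      exact h3
    · apply flt_exp_le_pow
      push_cast
      have h4 : (((k : ℝ) - k') / M / r) ^ 2 * (2 * S ^ 2) ≤
          (((k : ℝ) - k') / M / r) ^ 2 * ∑ t, (Q t).var2 (ξ t) := mul_le_mul_of_nonneg_left hvar (sq_nonneg _)
      have h5 : ((k : ℝ) - k') ^ 2 / 4 ≤ (((k : ℝ) - k') / M / r) ^ 2 * S ^ 2 := by
        have h6 : (((k : ℝ) - k') / M / r) ^ 2 * S ^ 2 = ((k : ℝ) - k') ^ 2 * (S / (M * r)) ^ 2 := by
          field_simp
        rw [h6, div_eq_mul_inv]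
        refine mul_le_mul_of_nonneg_left ?_ (sq_nonneg _)
        have h7 : 1 / 2 ≤ S / (M * r) := by
          rw [le_div_iff₀ (by positivity)]
          linarith
        nlinarith
      nlinarith
  have hsum : ∑ k ∈ range M, ∑ k' ∈ range M,
      (Pm.pi Q).cs2 (fun b => (((k : ℝ) - k') / M / r) * ∑ t, ξ t (b t)) ≤ M * 12 := by
    calc _ ≤ ∑ k ∈ range M, ∑ k' ∈ range M, (5 / 6 : ℝ) ^ ((k' : ℤ) - k).natAbs :=
          Finset.sum_le_sum fun k hk => Finset.sum_le_sum fun k' hk' => hterm k hk k' hk'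
      _ ≤ ∑ k ∈ range M, (12 : ℝ) := by
          refine Finset.sum_le_sum fun k _ => ?_
          have h := flt_geom_shift (5 / 6) (by norm_num) (by norm_num) ((range M).image (fun i : ℕ => (i : ℤ))) k
          rw [Finset.sum_image (fun a _ b _ hab => by exact_mod_cast hab)] at h
          norm_num at h ⊢
          exact h
      _ = M * 12 := by rw [Finset.sum_const, Finset.card_range, nsmul_eq_mul]
  calc 2 / (M : ℝ) ^ 2 * _ ≤ 2 / (M : ℝ) ^ 2 * (M * 12) := mul_le_mul_of_nonneg_left hsum (by positivity)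
    _ = 24 / M := by field_simp; ring
    _ ≤ 24 * r / S := by
        rw [div_le_div_iff₀ hM0 hS]
        have : S ≤ M * r := by rwa [div_le_iff₀ hr] at hM1
        nlinarith

/-! ## E7: entropy and collision probability -/

theorem flt_exists_pos (P : Pm Ω) : ∃ ω, P.w ω ≠ 0 := by
  by_contra h
  push Not at h
  have h1 := P.sum_one
  simp [h] at h1

theorem flt_renyi_pos {α : Type*} [DecidableEq α] (P : Pm Ω) (X : Ω → α) : 0 < ∑ ω, P.w ω * P.pr X (X ω) := by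
  obtain ⟨ω0, h0⟩ := flt_exists_pos P
  refine Finset.sum_pos' (fun ω _ => mul_nonneg (P.nonneg ω) (en_pr_nonneg P X _)) ⟨ω0, Finset.mem_univ _, ?_⟩
  exact mul_pos (lt_of_le_of_ne (P.nonneg ω0) (Ne.symm h0)) (en_pr_pos P X ω0 h0)

/-- Shannon entropy dominates Renyi-2 entropy -/
theorem flt_ent_ge_renyi {α : Type*} [DecidableEq α] (P : Pm Ω) (X : Ω → α) :
    - Real.log (∑ ω, P.w ω * P.pr X (X ω)) ≤ P.ent X := by
  obtain ⟨c, hc⟩ : ∃ c, c = ∑ ω, P.w ω * P.pr X (X ω) := ⟨_, rfl⟩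
  have hc0 : 0 < c := hc ▸ flt_renyi_pos P X
  rw [← hc, en_ent_eq_ex]
  have h1 : - Real.log c = ∑ ω, (P.w ω * (- Real.log c) + P.w ω * (1 - P.pr X (X ω) / c)) := by
    rw [Finset.sum_add_distrib, ← Finset.sum_mul, P.sum_one, one_mul]
    have : ∑ ω, P.w ω * (1 - P.pr X (X ω) / c) = 0 := by
      simp only [mul_sub, mul_one, Finset.sum_sub_distrib, P.sum_one, ← mul_div_assoc, ← Finset.sum_div, ← hc]
      rw [div_self hc0.ne', sub_self]
    rw [this, add_zero]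
  rw [h1]
  refine Finset.sum_le_sum fun ω _ => ?_
  by_cases hw : P.w ω = 0
  · simp [hw]
  · have hp := en_pr_pos P X ω hw
    have h2 := Real.log_le_sub_one_of_pos (div_pos hp hc0)
    rw [Real.log_div hp.ne' hc0.ne'] at h2
    rw [← mul_add]
    refine mul_le_mul_of_nonneg_left ?_ (P.nonneg ω)
    linarith

theorem flt_renyi_le_coll (P : Pm Ω) (Y : Ω → ℝ) (r : ℝ) (hr : 0 < r) :
    ∑ ω, P.w ω * P.pr (fun ω => ⌊Y ω / r⌋) ⌊Y ω / r⌋ ≤ P.coll Y r := by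
  unfold Pm.coll Pm.pr
  refine Finset.sum_le_sum fun ω _ => ?_
  rw [Finset.mul_sum, Finset.sum_filter]
  refine Finset.sum_le_sum fun ω' _ => ?_
  have hww := mul_nonneg (P.nonneg ω) (P.nonneg ω')
  by_cases h : ⌊Y ω' / r⌋ = ⌊Y ω / r⌋
  · rw [if_pos h, if_pos]
    have h1 := Int.abs_sub_lt_one_of_floor_eq_floor h.symm
    rw [← sub_div, abs_div, abs_of_pos hr, div_lt_one hr] at h1
    exact h1.le
  · rw [if_neg h]
    split_ifs
    · exact hww
    · exact le_rfl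

/-- **E7**: `H(⌊Y/r⌋) ≥ -log P(|Y-Y'| ≤ r)`; stated with an upper bound `p` for the collision probability. -/
theorem flt_ent_ge_coll (P : Pm Ω) (Y : Ω → ℝ) (r p : ℝ) (hr : 0 < r) (hp : P.coll Y r ≤ p) :
    - Real.log p ≤ P.ent (fun ω => ⌊Y ω / r⌋) := by
  refine le_trans ?_ (flt_ent_ge_renyi P (fun ω => ⌊Y ω / r⌋))
  exact neg_le_neg (Real.log_le_log (flt_renyi_pos P _) ((flt_renyi_le_coll P Y r hr).trans hp))

/-! ## E6: entropy and first absolute moment -/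

/-- **E6**: an integer variable with `E|W - m0| ≤ σ` has `H(W) ≤ log(2(σ+1)) + 1`. -/
theorem flt_ent_le_moment (P : Pm Ω) (W : Ω → ℤ) (m0 : ℤ) (σ : ℝ) (hσ : 0 < σ)
    (h : P.ex (fun ω => |((W ω - m0 : ℤ) : ℝ)|) ≤ σ) : P.ent W ≤ Real.log (2 * (σ + 1)) + 1 := by
  obtain ⟨q, hq⟩ : ∃ q, q = Real.exp (-(1 / σ)) := ⟨_, rfl⟩
  have hq0 : 0 < q := hq ▸ Real.exp_pos _
  have hq1 : q ≤ σ / (σ + 1) := by
    rw [hq, Real.exp_neg, inv_le_comm₀ (Real.exp_pos _) (by positivity), inv_div]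
    have := Real.add_one_le_exp (1 / σ)
    have h2 : (σ + 1) / σ = 1 / σ + 1 := by field_simp; ring
    rw [h2]
    exact this
  have hq1' : q < 1 := lt_of_le_of_lt hq1 (by rw [div_lt_one (by positivity)]; linarith)
  have hZ : 2 / (1 - q) ≤ 2 * (σ + 1) := by
    have h3 : 1 / (σ + 1) ≤ 1 - q := by
      have : 1 - σ / (σ + 1) = 1 / (σ + 1) := by field_simp; ring
      linarith
    rw [div_le_iff₀ (by linarith)]
    have h4 : (σ + 1) * (1 / (σ + 1)) = 1 := by field_simp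
    nlinarith
  have hg := en_gibbs P W (fun k => q ^ (k - m0).natAbs / (2 * (σ + 1)))
    (fun k => by positivity)
    (by
      rw [← Finset.sum_div, div_le_one (by positivity)]
      exact (flt_geom_shift q hq0.le hq1' _ m0).trans hZ)
    (fun ω _ => by positivity)
  refine hg.trans ?_
  have hterm : ∀ ω, P.w ω * (- Real.log (q ^ (W ω - m0).natAbs / (2 * (σ + 1)))) =
      P.w ω * Real.log (2 * (σ + 1)) + (P.w ω * |((W ω - m0 : ℤ) : ℝ)|) / σ := by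
    intro ω
    rw [Real.log_div (by positivity) (by positivity), Real.log_pow, hq, Real.log_exp, Nat.cast_natAbs, Int.cast_abs]
    field_simp
    ring
  rw [Finset.sum_congr rfl fun ω _ => hterm ω, Finset.sum_add_distrib, ← Finset.sum_mul, P.sum_one, one_mul,
    ← Finset.sum_div]
  have : (∑ ω, P.w ω * |((W ω - m0 : ℤ) : ℝ)|) / σ ≤ 1 := by
    rw [div_le_one hσ]
    exact h
  linarith

/-! ## variance -/

theorem flt_var2_eq (P : Pm Ω) (f : Ω → ℝ) : P.var2 f = 2 * P.ex (fun ω => (f ω - P.ex f) ^ 2) := by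
  obtain ⟨μ, hμ⟩ : ∃ μ, μ = P.ex f := ⟨_, rfl⟩
  rw [← hμ]
  have hB : ∑ ω, P.w ω * (f ω - μ) = 0 := by
    simp only [mul_sub, Finset.sum_sub_distrib, ← Finset.sum_mul, P.sum_one, one_mul]
    rw [hμ]
    exact sub_self _
  have hexp : ∀ ω ω', P.w ω * P.w ω' * (f ω - f ω') ^ 2 =
      (P.w ω * (f ω - μ) ^ 2) * P.w ω' + P.w ω * (P.w ω' * (f ω' - μ) ^ 2)
        - 2 * ((P.w ω * (f ω - μ)) * (P.w ω' * (f ω' - μ))) := by
    intro ω ω'
    ring
  unfold Pm.var2 Pm.ex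
  simp only [hexp, Finset.sum_add_distrib, Finset.sum_sub_distrib, ← Finset.mul_sum, ← Finset.sum_mul,
    P.sum_one, hB]
  ring

/-- first absolute moment of the cell index around the cell of the mean -/
theorem flt_moment (P : Pm Ω) (V : Ω → ℝ) (S ρ : ℝ) (hS : 0 < S) (hρ : 0 < ρ) (hvar : P.var2 V ≤ 2 * S ^ 2) :
    P.ex (fun ω => |((⌊V ω / ρ⌋ - ⌊P.ex V / ρ⌋ : ℤ) : ℝ)|) ≤ S / ρ + 1 := by
  obtain ⟨μ, hμ⟩ : ∃ μ, μ = P.ex V := ⟨_, rfl⟩
  rw [flt_var2_eq, ← hμ] at hvar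
  rw [← hμ]
  have hterm : ∀ ω, |((⌊V ω / ρ⌋ - ⌊μ / ρ⌋ : ℤ) : ℝ)| ≤ ((V ω - μ) ^ 2 / S + S) / 2 / ρ + 1 := by
    intro ω
    have h1 : |((⌊V ω / ρ⌋ - ⌊μ / ρ⌋ : ℤ) : ℝ)| ≤ |V ω - μ| / ρ + 1 := by
      have ha1 := Int.floor_le (V ω / ρ)
      have ha2 := Int.lt_floor_add_one (V ω / ρ)
      have hb1 := Int.floor_le (μ / ρ)
      have hb2 := Int.lt_floor_add_one (μ / ρ)
      have h3 : |V ω - μ| / ρ = |V ω / ρ - μ / ρ| := by
        rw [← sub_div, abs_div, abs_of_pos hρ]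
      rw [h3]
      push_cast
      rw [abs_le]
      constructor
      · have := neg_abs_le (V ω / ρ - μ / ρ)
        linarith
      · have := le_abs_self (V ω / ρ - μ / ρ)
        linarith
    have h2 : |V ω - μ| ≤ ((V ω - μ) ^ 2 / S + S) / 2 := by
      have h4 : 0 ≤ (|V ω - μ| - S) ^ 2 / S := by positivity
      have h5 : (|V ω - μ| - S) ^ 2 / S = (V ω - μ) ^ 2 / S - 2 * |V ω - μ| + S := by
        rw [sub_sq, sq_abs]
        field_simp
      linarith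
    have h6 := div_le_div_of_nonneg_right h2 hρ.le
    linarith
  unfold Pm.ex at hvar ⊢
  calc ∑ ω, P.w ω * |((⌊V ω / ρ⌋ - ⌊μ / ρ⌋ : ℤ) : ℝ)|
      ≤ ∑ ω, P.w ω * (((V ω - μ) ^ 2 / S + S) / 2 / ρ + 1) :=
        Finset.sum_le_sum fun ω _ => mul_le_mul_of_nonneg_left (hterm ω) (P.nonneg ω)
    _ = ((∑ ω, P.w ω * (V ω - μ) ^ 2) / S + S) / 2 / ρ + 1 := by
        have : ∀ ω, P.w ω * (((V ω - μ) ^ 2 / S + S) / 2 / ρ + 1) =
            (P.w ω * (V ω - μ) ^ 2) * (1 / S / 2 / ρ) + P.w ω * (S / 2 / ρ + 1) := by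
          intro ω
          field_simp
          ring
        rw [Finset.sum_congr rfl fun ω _ => this ω, Finset.sum_add_distrib, ← Finset.sum_mul, ← Finset.sum_mul,
          P.sum_one]
        field_simp
        ring
    _ ≤ (S ^ 2 / S + S) / 2 / ρ + 1 := by
        have h7 : ∑ ω, P.w ω * (V ω - μ) ^ 2 ≤ S ^ 2 := by linarith
        gcongr
    _ = S / ρ + 1 := by
        field_simp
        ring

/-! ## product measures -/

section prod
variable {ι : Type*} [Fintype ι] [DecidableEq ι]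

theorem flt_pi_prod (Q : ι → Pm Ω) (h : ι → Ω → ℝ) :
    ∑ b, (Pm.pi Q).w b * ∏ t, h t (b t) = ∏ t, ∑ ω, (Q t).w ω * h t ω := by
  have h1 := Finset.prod_univ_sum (fun _ : ι => (Finset.univ : Finset Ω)) (fun t x => (Q t).w x * h t x)
  rw [Fintype.piFinset_univ] at h1
  rw [h1]
  refine Finset.sum_congr rfl fun b _ => ?_
  rw [Finset.prod_mul_distrib]
  rfl

theorem flt_pi_one (Q : ι → Pm Ω) (t : ι) (F : Ω → ℝ) :
    ∑ b, (Pm.pi Q).w b * F (b t) = ∑ ω, (Q t).w ω * F ω := by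
  have h := flt_pi_prod Q (fun s ω => if s = t then F ω else 1)
  have h1 : ∀ b : ι → Ω, ∏ s, (if s = t then F (b s) else 1) = F (b t) := by
    intro b
    rw [Finset.prod_ite_eq' univ t (fun s => F (b s))]
    simp
  have h2 : ∀ s, ∑ ω, (Q s).w ω * (if s = t then F ω else 1) = if s = t then ∑ ω, (Q s).w ω * F ω else 1 := by
    intro s
    by_cases hs : s = t
    · simp [hs]
    · simp [hs, (Q s).sum_one]
  simp only [h1, h2] at h
  rw [h, Finset.prod_ite_eq' univ t (fun s => ∑ ω, (Q s).w ω * F ω)]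
  simp

theorem flt_pi_two (Q : ι → Pm Ω) (t s : ι) (hts : t ≠ s) (F G : Ω → ℝ) :
    ∑ b, (Pm.pi Q).w b * (F (b t) * G (b s)) = (∑ ω, (Q t).w ω * F ω) * ∑ ω, (Q s).w ω * G ω := by
  have h := flt_pi_prod Q (fun u ω => (if u = t then F ω else 1) * (if u = s then G ω else 1))
  have h1 : ∀ b : ι → Ω, ∏ u, ((if u = t then F (b u) else 1) * (if u = s then G (b u) else 1)) = F (b t) * G (b s) := by
    intro b
    rw [Finset.prod_mul_distrib, Finset.prod_ite_eq' univ t (fun s => F (b s)),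
      Finset.prod_ite_eq' univ s (fun s => G (b s))]
    simp
  have h2 : ∀ u, ∑ ω, (Q u).w ω * ((if u = t then F ω else 1) * (if u = s then G ω else 1)) =
      (if u = t then ∑ ω, (Q u).w ω * F ω else 1) * (if u = s then ∑ ω, (Q u).w ω * G ω else 1) := by
    intro u
    by_cases hu : u = t
    · have hus : u ≠ s := hu ▸ hts
      simp [hu, hts]
    · by_cases hus : u = s
      · simp [hus, Ne.symm hts]
      · simp [hu, hus, (Q u).sum_one]
  simp only [h1, h2] at h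
  rw [h, Finset.prod_mul_distrib, Finset.prod_ite_eq' univ t (fun s => ∑ ω, (Q s).w ω * F ω),
    Finset.prod_ite_eq' univ s (fun s => ∑ ω, (Q s).w ω * G ω)]
  simp

theorem flt_ex_pi (Q : ι → Pm Ω) (ξ : ι → Ω → ℝ) :
    (Pm.pi Q).ex (fun b => ∑ t, ξ t (b t)) = ∑ t, (Q t).ex (ξ t) := by
  unfold Pm.ex
  simp only [Finset.mul_sum]
  rw [Finset.sum_comm]
  exact Finset.sum_congr rfl fun t _ => flt_pi_one Q t (ξ t)

/-- additivity of the variance -/
theorem flt_var2_pi (Q : ι → Pm Ω) (ξ : ι → Ω → ℝ) :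
    (Pm.pi Q).var2 (fun b => ∑ t, ξ t (b t)) = ∑ t, (Q t).var2 (ξ t) := by
  rw [flt_var2_eq, flt_ex_pi]
  simp only [flt_var2_eq]
  rw [← Finset.mul_sum]
  congr 1
  obtain ⟨μ, hμ⟩ : ∃ μ : ι → ℝ, μ = fun t => (Q t).ex (ξ t) := ⟨_, rfl⟩
  have hμ' : ∀ t, (Q t).ex (ξ t) = μ t := fun t => by rw [hμ]
  simp only [hμ']
  have hz : ∀ t, ∑ ω, (Q t).w ω * (ξ t ω - μ t) = 0 := by
    intro t
    simp only [mul_sub, Finset.sum_sub_distrib, ← Finset.sum_mul, (Q t).sum_one, one_mul]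
    rw [← hμ' t]
    exact sub_self _
  have hexp : ∀ b : ι → Ω, (∑ t, ξ t (b t) - ∑ t, μ t) ^ 2 =
      ∑ t, ∑ s, (ξ t (b t) - μ t) * (ξ s (b s) - μ s) := by
    intro b
    rw [← Finset.sum_sub_distrib, sq, Finset.sum_mul_sum]
  unfold Pm.ex
  simp only [hexp, Finset.mul_sum]
  rw [Finset.sum_comm]
  refine Finset.sum_congr rfl fun t _ => ?_
  rw [Finset.sum_comm]
  rw [Finset.sum_eq_single t]
  · rw [← flt_pi_one Q t (fun ω => (ξ t ω - μ t) ^ 2)]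
    refine Finset.sum_congr rfl fun b _ => ?_
    ring
  · intro s _ hst
    rw [flt_pi_two Q t s (Ne.symm hst) (fun ω => ξ t ω - μ t) (fun ω => ξ s ω - μ s), hz t, zero_mul]
  · intro h
    exact absurd (Finset.mem_univ t) h

theorem flt_log144 : Real.log 144 ≤ 6 := by
  rw [Real.log_le_iff_le_exp (by norm_num)]
  have h1 : (2 : ℝ) ≤ Real.exp 1 := by
    have := Real.add_one_le_exp (1 : ℝ)
    linarith
  have h2 : Real.exp 6 = Real.exp 1 ^ 6 := by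
    rw [← Real.exp_nat_mul]
    norm_num
  have h3 : (2.7 : ℝ) ≤ Real.exp 1 := by
    have := Real.exp_one_gt_d9
    linarith
  rw [h2]
  calc (144 : ℝ) ≤ 2.7 ^ 6 := by norm_num
    _ ≤ Real.exp 1 ^ 6 := pow_le_pow_left₀ (by norm_num) h3 6

/-- **COR F'** (window entropy): independent summands of diameter `≤ ρ`, total standard deviation `S ≥ R`:
the sum has almost full entropy between the scales `R` and `ρ`. -/
theorem flt_window (Q : ι → Pm Ω) (ξ : ι → Ω → ℝ) (ρ R S : ℝ) (hρ : 0 < ρ) (hR : 0 < R) (hRS : R ≤ S)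
    (hsupp : ∀ t ω ω', (Q t).w ω ≠ 0 → (Q t).w ω' ≠ 0 → |ξ t ω - ξ t ω'| ≤ ρ)
    (hvar : ∑ t, (Q t).var2 (ξ t) = 2 * S ^ 2) :
    Real.log (R / ρ) - 7 ≤ (Pm.pi Q).ent (fun b => ⌊(∑ t, ξ t (b t)) / ρ⌋) -
      (Pm.pi Q).ent (fun b => ⌊(∑ t, ξ t (b t)) / R⌋) := by
  have hS : 0 < S := lt_of_lt_of_le hR hRS
  have h1 := flt_ent_ge_coll (Pm.pi Q) (fun b => ∑ t, ξ t (b t)) ρ _ hρ
    (flt_smallball Q ξ ρ S hρ hS hsupp hvar.ge)
  have h2 := flt_ent_le_moment (Pm.pi Q) (fun b => ⌊(∑ t, ξ t (b t)) / R⌋) _ (S / R + 1) (by positivity)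
    (flt_moment (Pm.pi Q) (fun b => ∑ t, ξ t (b t)) S R hS hR (by rw [flt_var2_pi, hvar]))
  have h3 : Real.log (2 * (S / R + 1 + 1)) ≤ Real.log (6 * (S / R)) := by
    apply Real.log_le_log (by positivity)
    have : 1 ≤ S / R := by rwa [le_div_iff₀ hR, one_mul]
    linarith
  have h4 : Real.log (24 * ρ / S) + Real.log (6 * (S / R)) = Real.log 144 - Real.log (R / ρ) := by
    rw [← Real.log_mul (by positivity) (by positivity), ← Real.log_div (by positivity) (by positivity)]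
    congr 1
    field_simp
    norm_num
  have h5 := flt_log144
  linarith

end prod

/-! ## integer forms (interface of unit FL) -/

/-- **E6**, variance form: `H(W) ≤ (1/2) log(1 + E(W-W')²) + 3`. -/
theorem flt_e6_int (P : Pm Ω) (W : Ω → ℤ) :
    P.ent W ≤ Real.log (1 + P.var2 (fun ω => (W ω : ℝ))) / 2 + 3 := by
  have hv := flt_var2_nonneg P (fun ω => (W ω : ℝ))
  obtain ⟨S, hS⟩ : ∃ S, S = Real.sqrt (1 + P.var2 (fun ω => (W ω : ℝ))) := ⟨_, rfl⟩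
  have hS2 : S ^ 2 = 1 + P.var2 (fun ω => (W ω : ℝ)) := by
    rw [hS, Real.sq_sqrt (by linarith)]
  have hS1 : 1 ≤ S := by
    rw [hS]
    exact Real.one_le_sqrt.2 (by linarith)
  have h1 := flt_moment P (fun ω => (W ω : ℝ)) S 1 (by linarith) one_pos (by linarith)
  simp only [div_one, Int.floor_intCast] at h1
  have h2 := flt_ent_le_moment P W _ (S + 1) (by linarith) h1
  have h3 : Real.log (2 * (S + 1 + 1)) ≤ Real.log (6 * S) :=
    Real.log_le_log (by linarith) (by linarith)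
  have h4 : Real.log (6 * S) = Real.log 6 + Real.log (1 + P.var2 (fun ω => (W ω : ℝ))) / 2 := by
    rw [Real.log_mul (by norm_num) (by linarith), hS, Real.log_sqrt (by linarith)]
  have h5 : Real.log 6 ≤ 2 := by
    rw [Real.log_le_iff_le_exp (by norm_num)]
    have h6 : Real.exp 2 = Real.exp 1 ^ 2 := by
      rw [← Real.exp_nat_mul]
      norm_num
    have h7 : (2.7 : ℝ) ≤ Real.exp 1 := by
      have := Real.exp_one_gt_d9
      linarith
    rw [h6]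
    calc (6 : ℝ) ≤ 2.7 ^ 2 := by norm_num
      _ ≤ Real.exp 1 ^ 2 := pow_le_pow_left₀ (by norm_num) h7 2
  linarith

theorem flt_floor_int (V q : ℤ) (hq : 0 < q) : ⌊(V : ℝ) / (q : ℝ)⌋ = V / q := by
  rw [Int.floor_div_cast_of_nonneg hq.le, Int.floor_intCast]

/-- **COR F'**, integer form (floor division). -/
theorem flt_window_int {ι : Type*} [Fintype ι] [DecidableEq ι] (Q : ι → Pm Ω) (f : ι → Ω → ℤ) (q1 q0 : ℤ)
    (hq1 : 0 < q1) (hq0 : 0 < q0)
    (hsupp : ∀ t ω ω', (Q t).w ω ≠ 0 → (Q t).w ω' ≠ 0 → |f t ω - f t ω'| ≤ q1)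
    (hvar : 2 * (q0 : ℝ) ^ 2 ≤ ∑ t, (Q t).var2 (fun ω => (f t ω : ℝ))) :
    Real.log ((q0 : ℝ) / q1) - 7 ≤ (Pm.pi Q).ent (fun b => (∑ t, f t (b t)) / q1) -
      (Pm.pi Q).ent (fun b => (∑ t, f t (b t)) / q0) := by
  have hq1' : (0 : ℝ) < q1 := by exact_mod_cast hq1
  have hq0' : (0 : ℝ) < q0 := by exact_mod_cast hq0
  obtain ⟨S, hS⟩ : ∃ S, S = Real.sqrt ((∑ t, (Q t).var2 (fun ω => (f t ω : ℝ))) / 2) := ⟨_, rfl⟩
  have hnn : 0 ≤ (∑ t, (Q t).var2 (fun ω => (f t ω : ℝ))) / 2 := by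
    have : 0 ≤ 2 * (q0 : ℝ) ^ 2 := by positivity
    linarith
  have hS2 : ∑ t, (Q t).var2 (fun ω => (f t ω : ℝ)) = 2 * S ^ 2 := by
    rw [hS, Real.sq_sqrt hnn]
    ring
  have hSq : (q0 : ℝ) ≤ S := by
    rw [hS]
    apply Real.le_sqrt_of_sq_le
    linarith
  have h := flt_window Q (fun t ω => (f t ω : ℝ)) q1 q0 S hq1' hq0' hSq
    (fun t ω ω' h1 h2 => by exact_mod_cast hsupp t ω ω' h1 h2) hS2
  have e1 : ∀ (q : ℤ), 0 < q → (fun b : ι → Ω => ⌊(∑ t, (f t (b t) : ℝ)) / (q : ℝ)⌋) = fun b => (∑ t, f t (b t)) / q := by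
    intro q hq
    funext b
    rw [← flt_floor_int _ q hq]
    push_cast
    rfl
  rw [e1 q1 hq1, e1 q0 hq0] at h
  exact h

end Claimed.Agent.RW
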