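import Mathlib

/-!
# Team RW (captain helper191).  Unit MANN: the finite Mann--Dyson theorem.

`mnC A j = |A ∩ [1,j]|`.  **THM M.**  `0 ∈ A, B`, `0 < g ≤ 1`, `A(j) + B(j) ≥ g j` for `1 ≤ j ≤ N`  ⟹  `(A+B)(N) ≥ g N`.

PROOF (helper77/helper142, checked by 4 seats).  Strong induction on `N`, inner induction on `B(N)`.
`B(N) = 0`: `(A+B)(N) ≥ A(N) ≥ gN`.
Case (i): `(A+B) ∩ [0,N] ⊆ A`.  Take `b0 ∈ B ∩ [1,N]`.  The theorem at `b0-1` and at `N-b0` (same sets; there `A+B = A`) gives
 `A(b0-1) ≥ g(b0-1)`, `A(N-b0) ≥ g(N-b0)`.  `a ↦ a+b0` injects `A ∩ [0,N-b0]` into `A ∩ [b0,N]`: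
 `A(N) - A(b0-1) ≥ 1 + A(N-b0) ≥ g(N-b0+1)`.  Add.
Case (ii): let `e` = least element of `A` such that `e+b ∉ A`, `e+b ≤ N` for some `b ∈ B`.
 `A' = A ∪ {b+e ≤ N : b ∈ B}`, `B' = {b ∈ B : b+e ∈ A or b+e > N}`.  `0 ∈ A', B'`; `(A'+B') ∩ [0,N] ⊆ A+B`; `B'(N) < B(N)`.
 `A'(j)+B'(j) = A(j)+B(j)-D(j)`, `D(j) = #{b ∈ B : j-e < b ≤ j, b+e ≤ N, b+e ∉ A}`.
 If `D(j) > 0` let `b0` = min of that set (`b0 ≥ 1`), `t = j-b0 ∈ [0,e)`.  For `a ∈ A`, `a ≤ t < e`: `a+b0 ∈ A` (minimality of `e`), so
 `A(j)-A(b0-1) ≥ 1+A(t)`.  On `[0,t]`, `A+B = A` (minimality of `e`), so the theorem at `t < N` gives `A(t) ≥ g t`.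
 `B(j)-B(b0-1) ≥ D(j)`.  Hypothesis at `b0-1`.  Sum: `A(j)+B(j) ≥ g(b0-1)+1+g t+D(j) ≥ g j+D(j)`.  Inner induction for `(A',B')`.
-/

set_option autoImplicit false

namespace Claimed.Agent.RW

open Finset
open scoped Pointwise

/-- counting function `A(j) = |A ∩ [1,j]|` -/
def mnC (A : Finset ℕ) (j : ℕ) : ℕ := (A ∩ Finset.Icc 1 j).card

theorem mn_mono {A A' : Finset ℕ} {j : ℕ} (h : ∀ x ∈ A, 1 ≤ x → x ≤ j → x ∈ A') :
    mnC A j ≤ mnC A' j := by
  unfold mnC
  apply Finset.card_le_card
  intro x hx
  rw [Finset.mem_inter, Finset.mem_Icc] at hx ⊢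
  exact ⟨h x hx.1 hx.2.1 hx.2.2, hx.2⟩

theorem mn_shift {A : Finset ℕ} (hA : 0 ∈ A) {b0 j : ℕ} (h1 : 1 ≤ b0) (h2 : b0 ≤ j)
    (h : ∀ a ∈ A, a + b0 ≤ j → a + b0 ∈ A) :
    mnC A (b0 - 1) + 1 + mnC A (j - b0) ≤ mnC A j := by
  unfold mnC
  have hinj : Function.Injective (fun a : ℕ => a + b0) := fun a b hab => by simpa using hab
  have hc : ((insert 0 (A ∩ Icc 1 (j - b0))).image (fun a => a + b0)).card
      = 1 + (A ∩ Icc 1 (j - b0)).card := by
    rw [Finset.card_image_of_injective _ hinj, Finset.card_insert_of_notMem (by simp), add_comm]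
  have hdisj : Disjoint (A ∩ Icc 1 (b0 - 1))
      ((insert 0 (A ∩ Icc 1 (j - b0))).image (fun a => a + b0)) := by
    rw [Finset.disjoint_left]
    intro x hx hx'
    simp only [mem_inter, mem_Icc, mem_image, mem_insert] at hx hx'
    obtain ⟨a, _, rfl⟩ := hx'
    omega
  have hsub : (A ∩ Icc 1 (b0 - 1)) ∪ ((insert 0 (A ∩ Icc 1 (j - b0))).image (fun a => a + b0))
      ⊆ A ∩ Icc 1 j := by
    intro x hx
    simp only [mem_union, mem_inter, mem_Icc, mem_image, mem_insert] at hx ⊢
    rcases hx with ⟨hxA, hx1, hx2⟩ | ⟨a, ha, rfl⟩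
    · exact ⟨hxA, hx1, by omega⟩
    · rcases ha with rfl | ⟨haA, ha1, ha2⟩
      · exact ⟨h 0 hA (by omega), by omega, by omega⟩
      · exact ⟨h a haA (by omega), by omega, by omega⟩
  have := Finset.card_le_card hsub
  rw [Finset.card_union_of_disjoint hdisj, hc] at this
  omega

theorem mn_aux (g : ℝ) (hg0 : 0 < g) (hg1 : g ≤ 1) : ∀ N : ℕ, ∀ k : ℕ, ∀ A B : Finset ℕ,
    0 ∈ A → 0 ∈ B → mnC B N = k →
    (∀ j, 1 ≤ j → j ≤ N → g * j ≤ (mnC A j : ℝ) + mnC B j) → g * N ≤ (mnC (A + B) N : ℝ) := by
  intro N
  induction N using Nat.strong_induction_on with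
  | _ N IHN =>
    intro k
    induction k using Nat.strong_induction_on with
    | _ k IHk =>
      intro A B hA hB hk h
      classical
      have hAsub : ∀ M, mnC A M ≤ mnC (A + B) M := fun M => mn_mono (fun x hx _ _ => by
        rw [← add_zero x]; exact Finset.add_mem_add hx hB)
      rcases Nat.eq_zero_or_pos N with rfl | hN
      · simp
      set S := A.filter (fun a => ∃ b ∈ B, a + b ≤ N ∧ a + b ∉ A) with hS
      by_cases hSe : S = ∅
      · have hcl : ∀ a ∈ A, ∀ b ∈ B, a + b ≤ N → a + b ∈ A := by
          intro a ha b hb hab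
          by_contra hn
          have hm : a ∈ S := by rw [hS, Finset.mem_filter]; exact ⟨ha, b, hb, hab, hn⟩
          rw [hSe] at hm
          exact absurd hm (Finset.notMem_empty a)
        by_cases hk0 : k = 0
        · have h1 := h N hN le_rfl
          rw [hk, hk0] at h1
          have h2 : (mnC A N : ℝ) ≤ mnC (A + B) N := by exact_mod_cast hAsub N
          simp only [Nat.cast_zero, add_zero] at h1
          exact h1.trans h2
        · have hne : (B ∩ Icc 1 N).Nonempty := by
            rw [← Finset.card_pos]; unfold mnC at hk; omega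
          obtain ⟨b0, hb0⟩ := hne
          rw [mem_inter, mem_Icc] at hb0
          obtain ⟨hb0B, hb01, hb0N⟩ := hb0
          have hle : ∀ M ≤ N, mnC (A + B) M ≤ mnC A M := fun M hM => mn_mono (fun x hx _ hxM => by
            obtain ⟨a, ha, b, hb, rfl⟩ := Finset.mem_add.mp hx
            exact hcl a ha b hb (by omega))
          have i1 := IHN (b0 - 1) (by omega) _ A B hA hB rfl (fun j h1 h2 => h j h1 (by omega))
          have i2 := IHN (N - b0) (by omega) _ A B hA hB rfl (fun j h1 h2 => h j h1 (by omega))
          have s := mn_shift hA hb01 hb0N (fun a ha hab => hcl a ha b0 hb0B hab)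
          have l1 : (mnC (A + B) (b0 - 1) : ℝ) ≤ mnC A (b0 - 1) := by
            exact_mod_cast hle (b0 - 1) (by omega)
          have l2 : (mnC (A + B) (N - b0) : ℝ) ≤ mnC A (N - b0) := by
            exact_mod_cast hle (N - b0) (by omega)
          have l3 : (mnC A N : ℝ) ≤ mnC (A + B) N := by exact_mod_cast hAsub N
          have c1 : ((b0 - 1 : ℕ) : ℝ) = (b0 : ℝ) - 1 := by rw [Nat.cast_sub hb01]; simp
          have c2 : ((N - b0 : ℕ) : ℝ) = (N : ℝ) - b0 := Nat.cast_sub hb0N
          have s' : (mnC A (b0 - 1) : ℝ) + 1 + mnC A (N - b0) ≤ mnC A N := by exact_mod_cast s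
          rw [c1] at i1
          rw [c2] at i2
          nlinarith
      · have hSne : S.Nonempty := Finset.nonempty_iff_ne_empty.mpr hSe
        obtain ⟨e, he⟩ : ∃ e, e = S.min' hSne := ⟨_, rfl⟩
        have heS : e ∈ S := he ▸ Finset.min'_mem S hSne
        have hmin : ∀ a ∈ A, a < e → ∀ b ∈ B, a + b ≤ N → a + b ∈ A := by
          intro a ha hae b hb hab
          by_contra hn
          have hm : a ∈ S := by rw [hS, Finset.mem_filter]; exact ⟨ha, b, hb, hab, hn⟩
          have := Finset.min'_le S a hm
          omega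
        rw [hS, Finset.mem_filter] at heS
        obtain ⟨heA, b1, hb1B, hb1N, hb1A⟩ := heS
        obtain ⟨A', hA'⟩ : ∃ A', A' = A ∪ ((B.image (fun b => b + e)).filter (fun x => x ≤ N)) :=
          ⟨_, rfl⟩
        obtain ⟨B', hB'⟩ : ∃ B', B' = B.filter (fun b => b + e ∈ A ∨ N < b + e) := ⟨_, rfl⟩
        have h0A' : 0 ∈ A' := by rw [hA']; exact Finset.mem_union_left _ hA
        have h0B' : 0 ∈ B' := by
          rw [hB', Finset.mem_filter]; exact ⟨hB, Or.inl (by simpa using heA)⟩
        have hsum : mnC (A' + B') N ≤ mnC (A + B) N := mn_mono (fun x hx _ hxN => by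
          obtain ⟨a', ha', b', hb', rfl⟩ := Finset.mem_add.mp hx
          rw [hB', Finset.mem_filter] at hb'
          rw [hA', Finset.mem_union] at ha'
          rcases ha' with ha' | ha'
          · exact Finset.add_mem_add ha' hb'.1
          · rw [Finset.mem_filter, Finset.mem_image] at ha'
            obtain ⟨⟨b, hb, rfl⟩, _⟩ := ha'
            have hbe : b' + e ∈ A := by
              rcases hb'.2 with h1 | h1
              · exact h1
              · omega
            have e1 : b + e + b' = (b' + e) + b := by ring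
            rw [e1]
            exact Finset.add_mem_add hbe hb)
        have hb1pos : 1 ≤ b1 := by
          by_contra hc
          have hz : b1 = 0 := by omega
          subst hz
          exact hb1A (by simpa using heA)
        have hlt : mnC B' N < mnC B N := by
          unfold mnC
          apply Finset.card_lt_card
          rw [Finset.ssubset_iff_of_subset]
          · refine ⟨b1, ?_, ?_⟩
            · rw [mem_inter, mem_Icc]; exact ⟨hb1B, hb1pos, by omega⟩
            · rw [mem_inter, hB', mem_filter]
              intro hc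
              rcases hc.1.2 with h1 | h1
              · exact hb1A (by rwa [add_comm] at h1)
              · omega
          · rw [hB']
            exact Finset.inter_subset_inter_right (Finset.filter_subset _ _)
        have hyp' : ∀ j, 1 ≤ j → j ≤ N → g * j ≤ (mnC A' j : ℝ) + mnC B' j := by
          intro j hj1 hjN
          obtain ⟨E, hE⟩ : ∃ E, E = B.filter (fun b => b + e ≤ j ∧ b + e ∉ A) := ⟨_, rfl⟩
          obtain ⟨Rm, hRm⟩ : ∃ Rm, Rm = (B ∩ Icc 1 j).filter (fun b => ¬ (b + e ∈ A ∨ N < b + e)) :=
            ⟨_, rfl⟩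
          obtain ⟨Dm, hDm⟩ : ∃ Dm, Dm = Rm.filter (fun b => j < b + e) := ⟨_, rfl⟩
          have k1 : mnC A j + E.card ≤ mnC A' j := by
            unfold mnC
            have hinj : Function.Injective (fun b : ℕ => b + e) := fun a b hab => by simpa using hab
            rw [← Finset.card_image_of_injective E hinj, ← Finset.card_union_of_disjoint]
            · apply Finset.card_le_card
              intro x hx
              rw [mem_union] at hx
              rw [mem_inter, mem_Icc, hA', mem_union]
              rcases hx with hx | hx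
              · rw [mem_inter, mem_Icc] at hx
                exact ⟨Or.inl hx.1, hx.2⟩
              · rw [mem_image] at hx
                obtain ⟨b, hb, rfl⟩ := hx
                rw [hE, mem_filter] at hb
                refine ⟨Or.inr ?_, ?_, hb.2.1⟩
                · rw [mem_filter, mem_image]
                  exact ⟨⟨b, hb.1, rfl⟩, by omega⟩
                · by_contra hc
                  have hz : b + e = 0 := by omega
                  exact hb.2.2 (hz ▸ hA)
            · rw [Finset.disjoint_left]
              intro x hx hx'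
              rw [mem_image] at hx'
              obtain ⟨b, hb, rfl⟩ := hx'
              rw [hE, mem_filter] at hb
              exact hb.2.2 (mem_inter.mp hx).1
          have k2 : mnC B' j + Rm.card = mnC B j := by
            unfold mnC
            have : B' ∩ Icc 1 j = (B ∩ Icc 1 j).filter (fun b => b + e ∈ A ∨ N < b + e) := by
              rw [hB', Finset.filter_inter]
            rw [this, hRm]
            exact Finset.card_filter_add_card_filter_not _
          have k3 : Rm.card ≤ E.card + Dm.card := by
            have h1 : (Rm.filter (fun b => j < b + e)).card + (Rm.filter (fun b => ¬ j < b + e)).card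
                = Rm.card := Finset.card_filter_add_card_filter_not _
            have h2 : (Rm.filter (fun b => ¬ j < b + e)).card ≤ E.card := by
              apply Finset.card_le_card
              intro b hb
              rw [mem_filter, hRm, mem_filter, mem_inter] at hb
              rw [hE, mem_filter]
              push Not at hb
              exact ⟨hb.1.1.1, hb.2, hb.1.2.1⟩
            rw [← hDm] at h1
            omega
          have hj := h j hj1 hjN
          have key : g * j + Dm.card ≤ (mnC A j : ℝ) + mnC B j := by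
            by_cases hD : Dm = ∅
            · rw [hD]; simpa using hj
            · have hDne : Dm.Nonempty := Finset.nonempty_iff_ne_empty.mpr hD
              obtain ⟨b0, hb0⟩ : ∃ b0, b0 = Dm.min' hDne := ⟨_, rfl⟩
              have hb0D : b0 ∈ Dm := hb0 ▸ Finset.min'_mem Dm hDne
              have hb0min : ∀ b ∈ Dm, b0 ≤ b := fun b hb => hb0 ▸ Finset.min'_le Dm b hb
              have hDmem : ∀ b ∈ Dm, b ∈ B ∧ 1 ≤ b ∧ b ≤ j ∧ j < b + e := by
                intro b hb
                rw [hDm, mem_filter, hRm, mem_filter, mem_inter, mem_Icc] at hb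
                exact ⟨hb.1.1.1, hb.1.1.2.1, hb.1.1.2.2, hb.2⟩
              obtain ⟨hb0B, hb01, hb0j, hb0e⟩ := hDmem b0 hb0D
              have s := mn_shift hA hb01 hb0j
                (fun a ha hab => hmin a ha (by omega) b0 hb0B (by omega))
              have it := IHN (j - b0) (by omega) _ A B hA hB rfl
                (fun j' h1 h2 => h j' h1 (by omega))
              have lt : mnC (A + B) (j - b0) ≤ mnC A (j - b0) := mn_mono (fun x hx _ hxM => by
                obtain ⟨a, ha, b, hb, rfl⟩ := Finset.mem_add.mp hx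
                exact hmin a ha (by omega) b hb (by omega))
              have kB : mnC B (b0 - 1) + Dm.card ≤ mnC B j := by
                unfold mnC
                rw [← Finset.card_union_of_disjoint]
                · apply Finset.card_le_card
                  intro x hx
                  rw [mem_union] at hx
                  rw [mem_inter, mem_Icc]
                  rcases hx with hx | hx
                  · rw [mem_inter, mem_Icc] at hx
                    exact ⟨hx.1, hx.2.1, by omega⟩
                  · obtain ⟨q1, q2, q3, _⟩ := hDmem x hx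
                    exact ⟨q1, q2, q3⟩
                · rw [Finset.disjoint_left]
                  intro x hx hx'
                  rw [mem_inter, mem_Icc] at hx
                  have := hb0min x hx'
                  omega
              have hprev : g * ((b0 - 1 : ℕ) : ℝ) ≤ (mnC A (b0 - 1) : ℝ) + mnC B (b0 - 1) := by
                rcases Nat.eq_zero_or_pos (b0 - 1) with hz | hp
                · rw [hz]; simp
                  positivity
                · exact h (b0 - 1) hp (by omega)
              have c1 : ((b0 - 1 : ℕ) : ℝ) = (b0 : ℝ) - 1 := by rw [Nat.cast_sub hb01]; simp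
              have c2 : ((j - b0 : ℕ) : ℝ) = (j : ℝ) - b0 := Nat.cast_sub hb0j
              have s' : (mnC A (b0 - 1) : ℝ) + 1 + mnC A (j - b0) ≤ mnC A j := by exact_mod_cast s
              have lt' : (mnC (A + B) (j - b0) : ℝ) ≤ mnC A (j - b0) := by exact_mod_cast lt
              have kB' : (mnC B (b0 - 1) : ℝ) + Dm.card ≤ mnC B j := by exact_mod_cast kB
              rw [c1] at hprev
              rw [c2] at it
              nlinarith
          have k1' : (mnC A j : ℝ) + E.card ≤ mnC A' j := by exact_mod_cast k1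
          have k2' : (mnC B' j : ℝ) + Rm.card = mnC B j := by exact_mod_cast k2
          have k3' : (Rm.card : ℝ) ≤ E.card + Dm.card := by exact_mod_cast k3
          linarith
        have hfin := IHk (mnC B' N) (by omega) A' B' h0A' h0B' rfl hyp'
        have hsum' : (mnC (A' + B') N : ℝ) ≤ mnC (A + B) N := by exact_mod_cast hsum
        exact hfin.trans hsum'

/-- **Mann--Dyson, finite form** (leaf MANN) -/
theorem mn_mann (A B : Finset ℕ) (hA : 0 ∈ A) (hB : 0 ∈ B) (g : ℝ) (hg0 : 0 < g) (hg1 : g ≤ 1) (N : ℕ)
    (h : ∀ j, 1 ≤ j → j ≤ N → g * j ≤ (mnC A j : ℝ) + mnC B j) :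
    g * N ≤ (mnC (A + B) N : ℝ) :=
  mn_aux g hg0 hg1 N _ A B hA hB rfl h

end Claimed.Agent.RW
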