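import Claimed.Agent.RW.Mann

/-!
# Team RW.  Unit RM: arithmetic removal, robust Mann, greedy choice of boundedly many shifts.

Source: origin/helper142:notes/RW/sabc_chain.md sec. 2 (same as helper77 c_abc.md sec. 2).

* `rm_removal` (leaf RM-REMOVAL).  Tripartite Cayley graph on `ZMod (2m) × Fin 3` (edges `(i,0)-(j,1)` iff `j-i ∈ X`, `(j,1)-(k,2)` iff `k-j ∈ Z`,
  `(i,0)-(k,2)` iff `k-i ∈ V`): every solution `x+z=v` gives `2m` edge-disjoint triangles, and all triangles come from solutions.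
  `SimpleGraph.triangle_removal` + `SimpleGraph.farFromTriangleFree_iff`: delete `< ε'(6m)^2` edges to kill all triangles.
  `X' = {x : fewer than 2m/3 of its 2m edges are deleted}` etc.  A surviving solution would have `2m` triangles, each with a deleted edge: impossible.
* `rm_robust` (leaf RM-ROBUST).  `V = [0,m) \ U`; `#{x+z=v} ≤ ε' m^2`; removal gives `X',Z',V'` (each loses `≤ ε'' m`) with no solution.
  `Xb = {x ∈ X0 : x+{0..R} (truncated at m) ⊆ X'}` loses `≤ (R+1) ε'' m`.  `e1 := ε'+(R+1)ε''`.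
  `x0` = LAST minimiser of `|Xb ∩ [0,j)| - (b-√e1) j` on `[0,m]`: `x0 ≤ √e1 m`, `x0 ∈ Xb`, `|Xb ∩ [x0,j)| > (b-√e1)(j-x0)` for `j > x0`.  Same `z0` for `Z'`.
  `A = X'-x0 ⊇ {0..R}` (truncated), `B = Z'-z0`.  `A(j)+B(j) ≥ j` for `j ≤ R`; `≥ (b'+g')(j+1)-2 ≥ (b'+g'-2/R) j` for `j > R`.
  `mn_mann` on `[0, m-1-x0-z0]`.  `(X'+Z') ∩ [0,m)` misses `V'`, so it lies in `U ∪ (V \ V')`.
* `rm_greedy` (leaf RM-GREEDY).  Add the `z ∈ Z` maximising the increment of `|(X+Z0) ∩ [0,m)|`; among the first `k = ⌈1/ε'⌉` steps some step has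
  increment `≤ m/k ≤ ε' m` for ALL `z`: apply `rm_robust` with `U` = the current union.
-/

set_option autoImplicit false

namespace Claimed.Agent.RW

open Finset

/-- counting: few deleted edges, so few colours lose a third of their edges -/
theorem rm_count {G E : Type} [Fintype G] [DecidableEq G] [DecidableEq E] (Dl : Finset E) (e : G → G → E)
    (he : ∀ x i x' i', e x i = e x' i' → x = x' ∧ i = i') (X : Finset G) :
    (X \ X.filter fun x => 3 * (univ.filter fun i => e x i ∈ Dl).card < Fintype.card G).card * Fintype.card G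
      ≤ 3 * Dl.card := by
  obtain ⟨B, hB⟩ : ∃ B, B = X \ X.filter fun x => 3 * (univ.filter fun i => e x i ∈ Dl).card < Fintype.card G :=
    ⟨_, rfl⟩
  rw [← hB]
  have h1 : ∀ x ∈ B, Fintype.card G ≤ 3 * (univ.filter fun i => e x i ∈ Dl).card := by
    intro x hx
    rw [hB, mem_sdiff, mem_filter] at hx
    by_contra h
    exact hx.2 ⟨hx.1, not_le.1 h⟩
  have h2 : ∑ x ∈ B, (univ.filter fun i => e x i ∈ Dl).card ≤ Dl.card := by
    rw [← card_sigma]
    refine card_le_card_of_injOn (fun p => e p.1 p.2) ?_ ?_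
    · rintro ⟨x, i⟩ hp
      have hp' := (mem_sigma.1 (mem_coe.1 hp)).2
      exact mem_coe.2 (mem_filter.1 hp').2
    · rintro ⟨x, i⟩ _ ⟨x', i'⟩ _ h
      obtain ⟨rfl, rfl⟩ := he _ _ _ _ h
      rfl
  calc B.card * Fintype.card G = ∑ x ∈ B, Fintype.card G := by rw [sum_const, smul_eq_mul]
    _ ≤ ∑ x ∈ B, 3 * (univ.filter fun i => e x i ∈ Dl).card := sum_le_sum h1
    _ = 3 * ∑ x ∈ B, (univ.filter fun i => e x i ∈ Dl).card := by rw [mul_sum]
    _ ≤ 3 * Dl.card := Nat.mul_le_mul_left _ h2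

open SimpleGraph SimpleGraph.TripartiteFromTriangles Sum3 in
/-- arithmetic removal lemma in a finite abelian group -/
theorem rm_removal_grp (ε : ℝ) (hε : 0 < ε) : ∃ η : ℝ, 0 < η ∧
    ∀ (G : Type) [AddCommGroup G] [Fintype G] [DecidableEq G] (X Z V : Finset G),
    ((((X ×ˢ Z).filter fun p => p.1 + p.2 ∈ V).card : ℝ) ≤ η * (Fintype.card G : ℝ) ^ 2) →
    ∃ X' Z' V' : Finset G, X' ⊆ X ∧ Z' ⊆ Z ∧ V' ⊆ V ∧
      ((X \ X').card : ℝ) ≤ ε * Fintype.card G ∧ ((Z \ Z').card : ℝ) ≤ ε * Fintype.card G ∧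
      ((V \ V').card : ℝ) ≤ ε * Fintype.card G ∧ ∀ x ∈ X', ∀ z ∈ Z', x + z ∉ V' := by
  refine ⟨triangleRemovalBound (ε / 27), triangleRemovalBound_pos (by positivity), ?_⟩
  intro G _ _ _ X Z V hS
  obtain ⟨n, hn⟩ : ∃ n, n = Fintype.card G := ⟨_, rfl⟩
  rw [← hn] at hS ⊢
  have hn0 : 0 < n := hn ▸ Fintype.card_pos
  have hnr : (0 : ℝ) < n := Nat.cast_pos.2 hn0
  obtain ⟨t, ht⟩ : ∃ t : Finset (G × G × G),
      t = univ.filter fun p => p.2.1 - p.1 ∈ X ∧ p.2.2 - p.2.1 ∈ Z ∧ p.2.2 - p.1 ∈ V := ⟨_, rfl⟩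
  have hmem : ∀ a b c : G, (a, b, c) ∈ t ↔ b - a ∈ X ∧ c - b ∈ Z ∧ c - a ∈ V := by
    intro a b c
    rw [ht, mem_filter]
    simp
  have htc : t.card ≤ n * ((X ×ˢ Z).filter fun p => p.1 + p.2 ∈ V).card := by
    rw [hn, ← card_univ (α := G), ← card_product]
    refine card_le_card_of_injOn (fun p => (p.1, (p.2.1 - p.1, p.2.2 - p.2.1))) ?_ ?_
    · rintro ⟨a, b, c⟩ hp
      have hp' := (hmem a b c).1 (mem_coe.1 hp)
      rw [mem_coe, mem_product, mem_filter, mem_product]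
      refine ⟨mem_univ _, ⟨hp'.1, hp'.2.1⟩, ?_⟩
      have : b - a + (c - b) = c - a := by abel
      show b - a + (c - b) ∈ V
      rw [this]
      exact hp'.2.2
    · rintro ⟨a, b, c⟩ _ ⟨a', b', c'⟩ _ h
      simp only [Prod.mk.injEq] at h
      obtain ⟨rfl, h1, h2⟩ := h
      have hb : b = b' := sub_left_injective h1
      subst hb
      have hc : c = c' := sub_left_injective h2
      subst hc
      rfl
  have hcl : ((graph t).cliqueFinset 3).card ≤ t.card := by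
    have : (graph t).cliqueFinset 3 ⊆ t.image toTriangle := by
      intro s hs
      rw [mem_cliqueFinset_iff, SimpleGraph.is3Clique_iff] at hs
      obtain ⟨x, y, z, hxy, hxz, hyz, rfl⟩ := hs
      obtain ⟨a, b, c, habc, hab, hac, hbc⟩ := graph_triple hxy hxz hyz
      obtain ⟨c', hc'⟩ := Graph.in₀₁_iff.1 hab
      obtain ⟨b', hb'⟩ := Graph.in₀₂_iff.1 hac
      obtain ⟨a', ha'⟩ := Graph.in₁₂_iff.1 hbc
      rw [mem_image]
      refine ⟨(a, b, c), ?_, habc⟩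
      rw [hmem] at hc' hb' ha' ⊢
      exact ⟨hc'.1, ha'.2.1, hb'.2.2⟩
    exact (card_le_card this).trans card_image_le
  have hcard : Fintype.card (G ⊕ G ⊕ G) = 3 * n := by
    rw [Fintype.card_sum, Fintype.card_sum, hn]
    ring
  have hlt : (((graph t).cliqueFinset 3).card : ℝ)
      < triangleRemovalBound (ε / 27) * (Fintype.card (G ⊕ G ⊕ G) : ℝ) ^ 3 := by
    have hb := triangleRemovalBound_pos (show 0 < ε / 27 by positivity)
    have h1 : (((graph t).cliqueFinset 3).card : ℝ)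
        ≤ n * (((X ×ˢ Z).filter fun p => p.1 + p.2 ∈ V).card : ℝ) := by
      exact_mod_cast hcl.trans htc
    have h2 : (n : ℝ) * (((X ×ˢ Z).filter fun p => p.1 + p.2 ∈ V).card : ℝ)
        ≤ n * (triangleRemovalBound (ε / 27) * (n : ℝ) ^ 2) := mul_le_mul_of_nonneg_left hS hnr.le
    rw [hcard]
    push_cast
    have h3 : 0 < triangleRemovalBound (ε / 27) * (n : ℝ) ^ 3 := by positivity
    nlinarith
  obtain ⟨G', hG', hdec, hdel, hfree⟩ := triangle_removal hlt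
  obtain ⟨Dl, hDl⟩ : ∃ Dl, Dl = (graph t).edgeFinset \ G'.edgeFinset := ⟨_, rfl⟩
  have hDlc : (Dl.card : ℝ) < ε / 27 * (9 * (n : ℝ) ^ 2) := by
    rw [hDl, card_sdiff_of_subset (edgeFinset_mono hG'), Nat.cast_sub (card_le_card (edgeFinset_mono hG'))]
    refine hdel.trans_le (le_of_eq ?_)
    rw [hcard]
    push_cast
    ring
  have hDmem : ∀ u v, (graph t).Adj u v → ¬ G'.Adj u v → s(u, v) ∈ Dl := by
    intro u v h1 h2
    rw [hDl, mem_sdiff, mem_edgeFinset, mem_edgeFinset, mem_edgeSet, mem_edgeSet]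
    exact ⟨h1, h2⟩
  -- the three colourings
  have he1 : ∀ x i x' i' : G, s((in₀ i : G ⊕ G ⊕ G), in₁ (i + x)) = s(in₀ i', in₁ (i' + x')) → x = x' ∧ i = i' := by
    intro x i x' i' h
    rw [Sym2.eq_iff] at h
    rcases h with ⟨h1, h2⟩ | ⟨h1, h2⟩
    · have h1' : i = i' := by simpa [in₀] using h1
      subst h1'
      have h2' : i + x = i + x' := by simpa [in₁] using h2
      exact ⟨add_left_cancel h2', rfl⟩
    · simp [in₀, in₁] at h1
  have he2 : ∀ x i x' i' : G, s((in₁ i : G ⊕ G ⊕ G), in₂ (i + x)) = s(in₁ i', in₂ (i' + x')) → x = x' ∧ i = i' := by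
    intro x i x' i' h
    rw [Sym2.eq_iff] at h
    rcases h with ⟨h1, h2⟩ | ⟨h1, h2⟩
    · have h1' : i = i' := by simpa [in₁] using h1
      subst h1'
      have h2' : i + x = i + x' := by simpa [in₂] using h2
      exact ⟨add_left_cancel h2', rfl⟩
    · simp [in₂, in₁] at h1
  have he3 : ∀ x i x' i' : G, s((in₀ i : G ⊕ G ⊕ G), in₂ (i + x)) = s(in₀ i', in₂ (i' + x')) → x = x' ∧ i = i' := by
    intro x i x' i' h
    rw [Sym2.eq_iff] at h
    rcases h with ⟨h1, h2⟩ | ⟨h1, h2⟩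
    · have h1' : i = i' := by simpa [in₀] using h1
      subst h1'
      have h2' : i + x = i + x' := by simpa [in₂] using h2
      exact ⟨add_left_cancel h2', rfl⟩
    · simp [in₀, in₂] at h1
  have hfin : ∀ k : ℕ, k * n ≤ 3 * Dl.card → (k : ℝ) ≤ ε * n := by
    intro k hk
    have h1 : (k : ℝ) * n ≤ 3 * Dl.card := by exact_mod_cast hk
    have h2 : (k : ℝ) * n ≤ (ε * n) * n := by nlinarith
    exact le_of_mul_le_mul_right h2 hnr
  have c1 := rm_count Dl (fun x i => s((in₀ i : G ⊕ G ⊕ G), in₁ (i + x))) he1 X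
  have c2 := rm_count Dl (fun x i => s((in₁ i : G ⊕ G ⊕ G), in₂ (i + x))) he2 Z
  have c3 := rm_count Dl (fun x i => s((in₀ i : G ⊕ G ⊕ G), in₂ (i + x))) he3 V
  rw [← hn] at c1 c2 c3
  refine ⟨_, _, _, filter_subset _ _, filter_subset _ _, filter_subset _ _, hfin _ c1, hfin _ c2, hfin _ c3, ?_⟩
  intro x hx z hz hv
  rw [mem_filter] at hx hz hv
  obtain ⟨hxX, hx⟩ := hx
  obtain ⟨hzZ, hz⟩ := hz
  obtain ⟨hvV, hv⟩ := hv
  have hcov : (univ : Finset G) ⊆ (univ.filter fun i => s((in₀ i : G ⊕ G ⊕ G), in₁ (i + x)) ∈ Dl)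
      ∪ (univ.filter fun i => s((in₁ (i + x) : G ⊕ G ⊕ G), in₂ (i + x + z)) ∈ Dl)
      ∪ (univ.filter fun i => s((in₀ i : G ⊕ G ⊕ G), in₂ (i + (x + z))) ∈ Dl) := by
    intro i _
    have hit : (i, i + x, i + x + z) ∈ t := by
      rw [hmem]
      refine ⟨by simpa using hxX, by simpa using hzZ, ?_⟩
      have : i + x + z - i = x + z := by abel
      rw [this]
      exact hvV
    have h01 : (graph t).Adj (in₀ i) (in₁ (i + x)) := Graph.in₀₁_iff.2 ⟨_, hit⟩
    have h02 : (graph t).Adj (in₀ i) (in₂ (i + x + z)) := Graph.in₀₂_iff.2 ⟨_, hit⟩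
    have h12 : (graph t).Adj (in₁ (i + x)) (in₂ (i + x + z)) := Graph.in₁₂_iff.2 ⟨_, hit⟩
    have hno := hfree {in₀ i, in₁ (i + x), in₂ (i + x + z)}
    rw [is3Clique_triple_iff] at hno
    simp only [mem_union, mem_filter, mem_univ, true_and]
    by_cases a1 : G'.Adj (in₀ i) (in₁ (i + x))
    · by_cases a2 : G'.Adj (in₁ (i + x)) (in₂ (i + x + z))
      · right
        rw [← add_assoc]
        exact hDmem _ _ h02 fun a3 => hno ⟨a1, a3, a2⟩
      · left; right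
        exact hDmem _ _ h12 a2
    · left; left
      exact hDmem _ _ h01 a1
  have hsh : (univ.filter fun i => s((in₁ (i + x) : G ⊕ G ⊕ G), in₂ (i + x + z)) ∈ Dl).card
      ≤ (univ.filter fun i => s((in₁ i : G ⊕ G ⊕ G), in₂ (i + z)) ∈ Dl).card := by
    refine card_le_card_of_injOn (fun i => i + x) ?_ ?_
    · intro i hi
      rw [mem_coe, mem_filter] at hi ⊢
      exact ⟨mem_univ _, hi.2⟩
    · intro i _ j _ h
      exact add_right_cancel h
  have h1 := card_le_card hcov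
  have h2 := card_union_le ((univ.filter fun i => s((in₀ i : G ⊕ G ⊕ G), in₁ (i + x)) ∈ Dl)
      ∪ (univ.filter fun i => s((in₁ (i + x) : G ⊕ G ⊕ G), in₂ (i + x + z)) ∈ Dl))
      (univ.filter fun i => s((in₀ i : G ⊕ G ⊕ G), in₂ (i + (x + z))) ∈ Dl)
  have h3 := card_union_le (univ.filter fun i => s((in₀ i : G ⊕ G ⊕ G), in₁ (i + x)) ∈ Dl)
      (univ.filter fun i => s((in₁ (i + x) : G ⊕ G ⊕ G), in₂ (i + x + z)) ∈ Dl)
  rw [card_univ, ← hn] at h1
  omega

/-- **arithmetic removal lemma** for `x + z = v` -/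
theorem rm_removal (ε : ℝ) (hε : 0 < ε) : ∃ η : ℝ, 0 < η ∧ ∀ (m : ℕ) (X Z V : Finset ℕ),
    X ⊆ range m → Z ⊆ range m → V ⊆ range m →
    ((((X ×ˢ Z).filter fun p => p.1 + p.2 ∈ V).card : ℝ) ≤ η * (m : ℝ) ^ 2) →
    ∃ X' Z' V' : Finset ℕ, X' ⊆ X ∧ Z' ⊆ Z ∧ V' ⊆ V ∧
      ((X \ X').card : ℝ) ≤ ε * m ∧ ((Z \ Z').card : ℝ) ≤ ε * m ∧ ((V \ V').card : ℝ) ≤ ε * m ∧
      ∀ x ∈ X', ∀ z ∈ Z', x + z ∉ V' := by
  obtain ⟨η, hη, H⟩ := rm_removal_grp (ε / 2) (by positivity)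
  refine ⟨η, hη, fun m X Z V hX hZ hV hS => ?_⟩
  rcases Nat.eq_zero_or_pos m with rfl | hm
  · have hV0 : V = ∅ := by simpa using hV
    refine ⟨X, Z, V, Subset.rfl, Subset.rfl, Subset.rfl, by simp, by simp, by simp, ?_⟩
    intro x _ z _
    rw [hV0]
    exact notMem_empty _
  have : NeZero (2 * m) := ⟨by omega⟩
  have hinj : ∀ a b : ℕ, a < 2 * m → b < 2 * m → ((a : ℕ) : ZMod (2 * m)) = (b : ZMod (2 * m)) → a = b := by
    intro a b ha hb h
    rw [ZMod.natCast_eq_natCast_iff'] at h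
    rwa [Nat.mod_eq_of_lt ha, Nat.mod_eq_of_lt hb] at h
  have hlt : ∀ {Y : Finset ℕ}, Y ⊆ range m → ∀ y ∈ Y, y < m := fun hY y hy => mem_range.1 (hY hy)
  have hmr : (0 : ℝ) < m := Nat.cast_pos.2 hm
  have hcardG : (Fintype.card (ZMod (2 * m)) : ℝ) = 2 * m := by
    rw [ZMod.card]
    push_cast
    ring
  have hS' : (((((X.image fun a : ℕ => (a : ZMod (2 * m))) ×ˢ (Z.image fun a : ℕ => (a : ZMod (2 * m)))).filter
      fun p => p.1 + p.2 ∈ (V.image fun a : ℕ => (a : ZMod (2 * m)))).card : ℝ)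
      ≤ η * (Fintype.card (ZMod (2 * m)) : ℝ) ^ 2) := by
    have h1 : (((X.image fun a : ℕ => (a : ZMod (2 * m))) ×ˢ (Z.image fun a : ℕ => (a : ZMod (2 * m)))).filter
        fun p => p.1 + p.2 ∈ (V.image fun a : ℕ => (a : ZMod (2 * m))))
        ⊆ ((X ×ˢ Z).filter fun p => p.1 + p.2 ∈ V).image
          fun p : ℕ × ℕ => ((p.1 : ZMod (2 * m)), (p.2 : ZMod (2 * m))) := by
      rintro ⟨x, z⟩ hp
      rw [mem_filter, mem_product, mem_image, mem_image, mem_image] at hp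
      obtain ⟨⟨⟨x₀, hx₀, hx⟩, ⟨z₀, hz₀, hz⟩⟩, ⟨v₀, hv₀, hv⟩⟩ := hp
      simp only at hx hz hv
      rw [mem_image]
      refine ⟨(x₀, z₀), ?_, by rw [hx, hz]⟩
      rw [mem_filter, mem_product]
      refine ⟨⟨hx₀, hz₀⟩, ?_⟩
      have e : v₀ = x₀ + z₀ := by
        apply hinj
        · have := hlt hV v₀ hv₀; omega
        · have := hlt hX x₀ hx₀; have := hlt hZ z₀ hz₀; omega
        · rw [hv, ← hx, ← hz]; push_cast; rfl
      show x₀ + z₀ ∈ V
      rw [← e]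
      exact hv₀
    have h2 := (card_le_card h1).trans card_image_le
    have h3 : (((((X.image fun a : ℕ => (a : ZMod (2 * m))) ×ˢ (Z.image fun a : ℕ => (a : ZMod (2 * m)))).filter
      fun p => p.1 + p.2 ∈ (V.image fun a : ℕ => (a : ZMod (2 * m)))).card : ℝ)
      ≤ (((X ×ˢ Z).filter fun p => p.1 + p.2 ∈ V).card : ℝ)) := by exact_mod_cast h2
    refine h3.trans (hS.trans ?_)
    rw [hcardG]
    have : 0 ≤ η * (m : ℝ) ^ 2 := by positivity
    nlinarith
  obtain ⟨X', Z', V', hX', hZ', hV', cX, cZ, cV, hno⟩ := H (ZMod (2 * m)) _ _ _ hS'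
  have hpull : ∀ (Y : Finset ℕ) (Y' : Finset (ZMod (2 * m))), Y ⊆ range m →
      ((((Y.image fun a : ℕ => (a : ZMod (2 * m))) \ Y').card : ℝ) ≤ ε / 2 * Fintype.card (ZMod (2 * m))) →
      (((Y \ Y.filter fun a : ℕ => (a : ZMod (2 * m)) ∈ Y').card : ℝ) ≤ ε * m) := by
    intro Y Y' hY hc
    have h1 : (Y \ Y.filter fun a : ℕ => (a : ZMod (2 * m)) ∈ Y').card
        ≤ ((Y.image fun a : ℕ => (a : ZMod (2 * m))) \ Y').card := by
      refine card_le_card_of_injOn (fun a : ℕ => (a : ZMod (2 * m))) ?_ ?_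
      · intro a ha
        rw [mem_coe, mem_sdiff, mem_filter] at ha
        rw [mem_coe, mem_sdiff]
        exact ⟨mem_image_of_mem _ ha.1, fun h => ha.2 ⟨ha.1, h⟩⟩
      · intro a ha b hb h
        rw [mem_coe, mem_sdiff] at ha hb
        have := hlt hY a ha.1
        have := hlt hY b hb.1
        exact hinj a b (by omega) (by omega) h
    have h2 : (((Y \ Y.filter fun a : ℕ => (a : ZMod (2 * m)) ∈ Y').card : ℝ)
        ≤ (((Y.image fun a : ℕ => (a : ZMod (2 * m))) \ Y').card : ℝ)) := by exact_mod_cast h1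
    refine h2.trans (hc.trans (le_of_eq ?_))
    rw [hcardG]
    ring
  refine ⟨_, _, _, filter_subset _ _, filter_subset _ _, filter_subset _ _, hpull X X' hX cX, hpull Z Z' hZ cZ,
    hpull V V' hV cV, ?_⟩
  intro x hx z hz hv
  rw [mem_filter] at hx hz hv
  refine hno _ hx.2 _ hz.2 ?_
  have := hv.2
  push_cast at this
  exact this

/-- prefix density `≥ b` with slack `s` on `[0,m)` -/
def RmDense (m : ℕ) (X : Finset ℕ) (b s : ℝ) : Prop :=
  ∀ j, j ≤ m → b * j - s * m ≤ ((X.filter fun x => x < j).card : ℝ)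

/-- the part of `X + z` inside `[0,m)` -/
def rmShift (m : ℕ) (X : Finset ℕ) (z : ℕ) : Finset ℕ := (X.image fun x => x + z).filter fun y => y < m

/-- origin shift: the last minimiser of `|Y ∩ [0,j)| - (c-s) j` -/
theorem rmr_origin (m : ℕ) (Y : Finset ℕ) (c s : ℝ) (hs : 0 < s)
    (hd : ∀ j, j ≤ m → c * j - s ^ 2 * m ≤ ((Y.filter fun x => x < j).card : ℝ)) :
    ∃ y0 : ℕ, y0 ≤ m ∧ (y0 : ℝ) ≤ s * m ∧ ∀ j, y0 < j → j ≤ m →
      (c - s) * ((j : ℝ) - y0) < ((Y.filter fun x => y0 ≤ x ∧ x < j).card : ℝ) := by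
  classical
  obtain ⟨φ, hφ⟩ : ∃ φ : ℕ → ℝ, ∀ j, φ j = ((Y.filter fun x => x < j).card : ℝ) - (c - s) * j :=
    ⟨_, fun _ => rfl⟩
  obtain ⟨j1, hj1, hmin⟩ := Finset.exists_min_image (range (m + 1)) φ ⟨0, by simp⟩
  have hT : ((range (m + 1)).filter fun j => φ j = φ j1).Nonempty :=
    ⟨j1, mem_filter.2 ⟨hj1, rfl⟩⟩
  obtain ⟨y0, hy0⟩ : ∃ y0, y0 = ((range (m + 1)).filter fun j => φ j = φ j1).max' hT := ⟨_, rfl⟩
  have hy0mem : y0 ∈ (range (m + 1)).filter fun j => φ j = φ j1 := hy0 ▸ Finset.max'_mem _ _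
  rw [mem_filter, mem_range] at hy0mem
  obtain ⟨hy0m, hy0φ⟩ := hy0mem
  refine ⟨y0, by omega, ?_, ?_⟩
  · have h0 : φ y0 ≤ φ 0 := hy0φ ▸ hmin 0 (by simp)
    have h00 : φ 0 = 0 := by rw [hφ]; simp
    have h1 := hd y0 (by omega)
    rw [hφ, h00] at h0
    have h2 : s * y0 ≤ s * (s * m) := by nlinarith
    exact le_of_mul_le_mul_left h2 hs
  · intro j hj hjm
    have h1 : φ y0 < φ j := by
      have h2 : φ j1 ≤ φ j := hmin j (mem_range.2 (by omega))
      rcases h2.lt_or_eq with h3 | h3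
      · rw [hy0φ]; exact h3
      · exfalso
        have h4 : j ≤ y0 := hy0 ▸ Finset.le_max' _ j (mem_filter.2 ⟨mem_range.2 (by omega), h3.symm⟩)
        omega
    have h2 : (Y.filter fun x => x < j).card
        = (Y.filter fun x => x < y0).card + (Y.filter fun x => y0 ≤ x ∧ x < j).card := by
      rw [← card_filter_add_card_filter_not (s := Y.filter fun x => x < j) (fun x => x < y0),
        filter_filter, filter_filter]
      congr 2
      · refine filter_congr fun x _ => ?_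
        constructor
        · rintro ⟨_, h⟩; exact h
        · intro h; exact ⟨by omega, h⟩
      · refine filter_congr fun x _ => ?_
        constructor
        · rintro ⟨h, h'⟩; exact ⟨by omega, h⟩
        · rintro ⟨h, h'⟩; exact ⟨h', by omega⟩
    rw [hφ, hφ, h2] at h1
    push_cast at h1
    linarith

/-- prefix counts of a large subset -/
theorem rmr_prefix_sub (Y Y' : Finset ℕ) (j : ℕ) :
    ((Y.filter fun x => x < j).card : ℝ) ≤ ((Y'.filter fun x => x < j).card : ℝ) + ((Y \ Y').card : ℝ) := by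
  classical
  have h : (Y.filter fun x => x < j) ⊆ (Y'.filter fun x => x < j) ∪ (Y \ Y') := by
    intro x hx
    rw [mem_filter] at hx
    by_cases hx' : x ∈ Y'
    · exact mem_union_left _ (mem_filter.2 ⟨hx', hx.2⟩)
    · exact mem_union_right _ (mem_sdiff.2 ⟨hx.1, hx'⟩)
  have h2 := (card_le_card h).trans (card_union_le _ _)
  exact_mod_cast h2

/-- the number of solutions of `x + z ∈ V` -/
theorem rmr_count (m : ℕ) (X Z U : Finset ℕ) (hZ : Z ⊆ range m) (e : ℝ) (he : 0 ≤ e)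
    (h : ∀ z ∈ Z, (((rmShift m X z) \ U).card : ℝ) ≤ e * m) :
    ((((X ×ˢ Z).filter fun p => p.1 + p.2 ∈ range m \ U).card : ℝ) ≤ e * (m : ℝ) ^ 2) := by
  classical
  have h1 : ((X ×ˢ Z).filter fun p => p.1 + p.2 ∈ range m \ U).card
      = ∑ z ∈ Z, (X.filter fun x => x + z ∈ range m \ U).card := by
    rw [card_filter, sum_product_right]
    refine sum_congr rfl fun z _ => ?_
    rw [card_filter]
  have h2 : ∀ z ∈ Z, ((X.filter fun x => x + z ∈ range m \ U).card : ℝ) ≤ e * m := by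
    intro z hz
    refine le_trans ?_ (h z hz)
    have h3 : (X.filter fun x => x + z ∈ range m \ U).card ≤ ((rmShift m X z) \ U).card := by
      refine card_le_card_of_injOn (fun x => x + z) ?_ ?_
      · intro x hx
        have hx' := mem_filter.1 (mem_coe.1 hx)
        have hx2 := mem_sdiff.1 hx'.2
        refine mem_coe.2 (mem_sdiff.2 ⟨?_, hx2.2⟩)
        unfold rmShift
        exact mem_filter.2 ⟨mem_image.2 ⟨x, hx'.1, rfl⟩, mem_range.1 hx2.1⟩
      · intro x _ y _ hxy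
        exact Nat.add_right_cancel hxy
    exact_mod_cast h3
  rw [h1]
  push_cast
  have h4 : (Z.card : ℝ) ≤ m := by
    have := card_le_card hZ
    rw [card_range] at this
    exact_mod_cast this
  calc ∑ z ∈ Z, ((X.filter fun x => x + z ∈ range m \ U).card : ℝ) ≤ ∑ _z ∈ Z, e * m := sum_le_sum h2
    _ = Z.card * (e * m) := by rw [sum_const, nsmul_eq_mul]
    _ ≤ m * (e * m) := by
      refine mul_le_mul_of_nonneg_right h4 (by positivity)
    _ = e * (m : ℝ) ^ 2 := by ring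

/-- the origin belongs to the set -/
theorem rmr_origin_mem (Y : Finset ℕ) (c s : ℝ) (hcs : s ≤ c) (y0 : ℕ)
    (h : (c - s) * (((y0 + 1 : ℕ) : ℝ) - y0) < ((Y.filter fun x => y0 ≤ x ∧ x < y0 + 1).card : ℝ)) :
    y0 ∈ Y := by
  have h2 : (0 : ℝ) < ((Y.filter fun x => y0 ≤ x ∧ x < y0 + 1).card : ℝ) := by
    refine lt_of_le_of_lt ?_ h
    push_cast
    have e : ((y0 : ℝ) + 1 - y0) = 1 := by ring
    rw [e]
    linarith
  have h3 : 0 < (Y.filter fun x => y0 ≤ x ∧ x < y0 + 1).card := by exact_mod_cast h2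
  obtain ⟨x, hx⟩ := card_pos.1 h3
  rw [mem_filter] at hx
  have hxy : x = y0 := by omega
  exact hxy ▸ hx.1

/-- counting function of the shifted set -/
theorem rmr_count_shift (Y Y' : Finset ℕ) (hYY : Y ⊆ Y') (y0 j : ℕ) :
    ((Y.filter fun x => y0 ≤ x ∧ x < y0 + j + 1).card : ℝ) - 1
      ≤ (mnC ((Y'.filter fun x => y0 ≤ x).image fun x => x - y0) j : ℝ) := by
  classical
  have h1 : (Y.filter fun x => y0 ≤ x ∧ x < y0 + j + 1)
      ⊆ insert y0 (Y.filter fun x => y0 < x ∧ x < y0 + j + 1) := by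
    intro x hx
    rw [mem_filter] at hx
    by_cases hxy : x = y0
    · exact hxy ▸ mem_insert_self _ _
    · exact mem_insert_of_mem (mem_filter.2 ⟨hx.1, by omega, hx.2.2⟩)
  have h2 := (card_le_card h1).trans (card_insert_le _ _)
  have h3 : (Y.filter fun x => y0 < x ∧ x < y0 + j + 1).card
      ≤ mnC ((Y'.filter fun x => y0 ≤ x).image fun x => x - y0) j := by
    unfold mnC
    refine card_le_card_of_injOn (fun x => x - y0) ?_ ?_
    · intro x hx
      have hx' := mem_filter.1 (mem_coe.1 hx)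
      refine mem_coe.2 (mem_inter.2 ⟨mem_image.2 ⟨x, mem_filter.2 ⟨hYY hx'.1, by omega⟩, rfl⟩, ?_⟩)
      rw [mem_Icc]
      show 1 ≤ x - y0 ∧ x - y0 ≤ j
      omega
    · intro x hx y hy hxy
      have hx' := mem_filter.1 (mem_coe.1 hx)
      have hy' := mem_filter.1 (mem_coe.1 hy)
      have hxy' : x - y0 = y - y0 := hxy
      omega
  have h4 : ((Y.filter fun x => y0 ≤ x ∧ x < y0 + j + 1).card : ℝ)
      ≤ (mnC ((Y'.filter fun x => y0 ≤ x).image fun x => x - y0) j : ℝ) + 1 := by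
    exact_mod_cast h2.trans (Nat.add_le_add_right h3 1)
  linarith

open scoped Pointwise in
/-- the core of robust Mann, after the removal lemma -/
theorem rmr_core (b g s e2 : ℝ) (hs : 0 < s) (hsb : s ≤ b) (hsg : s ≤ g) (hs4 : s ≤ 1 / 4)
    (R : ℕ) (hR : 0 < R) (hpos : 0 < b + g - 2 * s - 2 / R)
    (m : ℕ) (hm : 0 < m) (Xb X' Z' V' U : Finset ℕ) (hXbX : Xb ⊆ X')
    (hXb : ∀ x ∈ Xb, ∀ r, r ≤ R → x + r < m → x + r ∈ X')
    (hdX : ∀ j, j ≤ m → b * j - s ^ 2 * m ≤ ((Xb.filter fun x => x < j).card : ℝ))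
    (hdZ : ∀ j, j ≤ m → g * j - s ^ 2 * m ≤ ((Z'.filter fun x => x < j).card : ℝ))
    (hV : (((range m \ U) \ V').card : ℝ) ≤ e2 * m)
    (hno : ∀ x ∈ X', ∀ z ∈ Z', x + z ∉ V') :
    (min 1 (b + g) - 4 * s - 2 / R - e2) * m ≤ (U.card : ℝ) := by
  classical
  obtain ⟨x0, hx0m, hx0s, hx0⟩ := rmr_origin m Xb b s hs hdX
  obtain ⟨z0, hz0m, hz0s, hz0⟩ := rmr_origin m Z' g s hs hdZ
  have hmR : (0 : ℝ) < m := by exact_mod_cast hm
  have hRpos : (0 : ℝ) < R := by exact_mod_cast hR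
  have hsum : x0 + z0 < m := by
    have h1 : (x0 : ℝ) + z0 < m := by nlinarith
    exact_mod_cast h1
  have hx0mem : x0 ∈ Xb := rmr_origin_mem Xb b s hsb x0 (hx0 (x0 + 1) (by omega) (by omega))
  have hz0mem : z0 ∈ Z' := rmr_origin_mem Z' g s hsg z0 (hz0 (z0 + 1) (by omega) (by omega))
  obtain ⟨N, hN⟩ : ∃ N, N + 1 + x0 + z0 = m := ⟨m - 1 - x0 - z0, by omega⟩
  obtain ⟨A, hA⟩ : ∃ A, A = (X'.filter fun x => x0 ≤ x).image fun x => x - x0 := ⟨_, rfl⟩
  obtain ⟨B, hB⟩ : ∃ B, B = (Z'.filter fun x => z0 ≤ x).image fun x => x - z0 := ⟨_, rfl⟩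
  obtain ⟨γ, hγ⟩ : ∃ γ, γ = min 1 (b + g - 2 * s - 2 / R) := ⟨_, rfl⟩
  have hγ0 : 0 < γ := by rw [hγ]; exact lt_min one_pos hpos
  have hγ1 : γ ≤ 1 := by rw [hγ]; exact min_le_left _ _
  have hγ2 : γ ≤ b + g - 2 * s - 2 / R := by rw [hγ]; exact min_le_right _ _
  have hA0 : 0 ∈ A := by
    rw [hA]
    exact mem_image.2 ⟨x0, mem_filter.2 ⟨hXbX hx0mem, le_rfl⟩, Nat.sub_self _⟩
  have hB0 : 0 ∈ B := by
    rw [hB]
    exact mem_image.2 ⟨z0, mem_filter.2 ⟨hz0mem, le_rfl⟩, Nat.sub_self _⟩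
  have hM : ∀ j, 1 ≤ j → j ≤ N → γ * j ≤ (mnC A j : ℝ) + mnC B j := by
    intro j hj1 hjN
    have hj0 : (0 : ℝ) ≤ j := by positivity
    by_cases hjR : j ≤ R
    · have h1 : Icc 1 j ⊆ A := fun i hi => by
        rw [mem_Icc] at hi
        rw [hA]
        exact mem_image.2 ⟨x0 + i, mem_filter.2 ⟨hXb x0 hx0mem i (by omega) (by omega), by omega⟩,
          by omega⟩
      have h2 : mnC A j = j := by
        unfold mnC
        rw [inter_eq_right.2 h1]
        simp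
      rw [h2]
      have h3 : γ * j ≤ 1 * j := mul_le_mul_of_nonneg_right hγ1 hj0
      have h4 : (0 : ℝ) ≤ mnC B j := by positivity
      linarith
    · have hA1 := rmr_count_shift Xb X' hXbX x0 j
      have hB1 := rmr_count_shift Z' Z' (Subset.refl _) z0 j
      rw [← hA] at hA1
      rw [← hB] at hB1
      have hA2 := hx0 (x0 + j + 1) (by omega) (by omega)
      have hB2 := hz0 (z0 + j + 1) (by omega) (by omega)
      push_cast at hA2 hB2
      have eA : ((x0 : ℝ) + j + 1 - x0) = j + 1 := by ring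
      have eB : ((z0 : ℝ) + j + 1 - z0) = j + 1 := by ring
      rw [eA] at hA2
      rw [eB] at hB2
      have hjR' : (R : ℝ) < j := by exact_mod_cast (not_le.1 hjR)
      have h2R : 2 ≤ 2 / (R : ℝ) * j := by
        rw [div_mul_eq_mul_div, le_div_iff₀ hRpos]
        linarith
      have h5 : γ * j ≤ (b + g - 2 * s - 2 / R) * j := mul_le_mul_of_nonneg_right hγ2 hj0
      nlinarith
  have hmann := mn_mann A B hA0 hB0 γ hγ0 hγ1 N hM
  have hinj : mnC (A + B) N + 1 ≤ (U ∪ ((range m \ U) \ V')).card := by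
    have h1 : (insert 0 ((A + B) ∩ Icc 1 N)).card = mnC (A + B) N + 1 := by
      rw [card_insert_of_notMem (by simp)]
      rfl
    rw [← h1]
    refine card_le_card_of_injOn (fun w => w + (x0 + z0)) ?_ ?_
    · intro w hw
      have hw' : w ∈ A + B ∧ w ≤ N := by
        rcases mem_insert.1 (mem_coe.1 hw) with rfl | hw
        · exact ⟨by simpa using add_mem_add hA0 hB0, Nat.zero_le _⟩
        · rw [mem_inter, mem_Icc] at hw
          exact ⟨hw.1, hw.2.2⟩
      obtain ⟨hwAB, hwN⟩ := hw'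
      obtain ⟨a, ha, b', hb', rfl⟩ := mem_add.1 hwAB
      rw [hA] at ha
      rw [hB] at hb'
      obtain ⟨x, hx, rfl⟩ := mem_image.1 ha
      obtain ⟨z, hz, rfl⟩ := mem_image.1 hb'
      rw [mem_filter] at hx hz
      have e : (x - x0 + (z - z0)) + (x0 + z0) = x + z := by omega
      show (x - x0 + (z - z0)) + (x0 + z0) ∈ _
      rw [e]
      have hlt : x + z < m := by omega
      have hnV := hno x hx.1 z hz.1
      by_cases hU : x + z ∈ U
      · exact mem_coe.2 (mem_union_left _ hU)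
      · exact mem_coe.2 (mem_union_right _
          (mem_sdiff.2 ⟨mem_sdiff.2 ⟨mem_range.2 hlt, hU⟩, hnV⟩))
    · intro w _ w' _ h
      exact Nat.add_right_cancel h
  have hinj2 : (mnC (A + B) N : ℝ) + 1 ≤ (U.card : ℝ) + e2 * m := by
    have h1 := hinj.trans (card_union_le _ _)
    have h2 : (mnC (A + B) N : ℝ) + 1 ≤ (U.card : ℝ) + (((range m \ U) \ V').card : ℝ) := by
      exact_mod_cast h1
    linarith
  have hNr : (N : ℝ) + 1 + x0 + z0 = m := by exact_mod_cast hN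
  have hγ3 : min 1 (b + g) - 2 * s - 2 / R ≤ γ := by
    rw [hγ]
    have h2R0 : 0 ≤ 2 / (R : ℝ) := by positivity
    refine le_min ?_ ?_
    · have := min_le_left 1 (b + g)
      linarith
    · have := min_le_right 1 (b + g)
      linarith
  have hx00 : (0 : ℝ) ≤ x0 := by positivity
  have hz00 : (0 : ℝ) ≤ z0 := by positivity
  have h6 : γ * (x0 + z0) ≤ 1 * ((x0 : ℝ) + z0) := mul_le_mul_of_nonneg_right hγ1 (by positivity)
  have h7 : (min 1 (b + g) - 2 * s - 2 / R) * m ≤ γ * m := mul_le_mul_of_nonneg_right hγ3 hmR.le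
  have h8 : γ * m = γ * N + γ + γ * (x0 + z0) := by rw [← hNr]; ring
  nlinarith

/-- **robust Mann** -/
theorem rm_robust (b g τ : ℝ) (hb : 0 < b) (hg : 0 < g) (hτ : 0 < τ) (R : ℕ) (hR : 8 / τ ≤ R) :
    ∃ ε' : ℝ, 0 < ε' ∧ ∀ (m : ℕ) (X0 X Z U : Finset ℕ),
      X0 ⊆ range m → X ⊆ range m → Z ⊆ range m → U ⊆ range m →
      (∀ x ∈ X0, ∀ r, r ≤ R → x + r < m → x + r ∈ X) →
      RmDense m X0 b ε' → RmDense m Z g ε' →
      (∀ z ∈ Z, (((rmShift m X z) \ U).card : ℝ) ≤ ε' * m) →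
      (min 1 (b + g) - τ) * m ≤ (U.card : ℝ) := by
  classical
  obtain ⟨s, hsdef⟩ : ∃ s, s = min (min b g) (min (τ / 16) (1 / 4)) := ⟨_, rfl⟩
  have hs : 0 < s := by
    rw [hsdef]
    exact lt_min (lt_min hb hg) (lt_min (by positivity) (by norm_num))
  have hsb : s ≤ b := by rw [hsdef]; exact (min_le_left _ _).trans (min_le_left _ _)
  have hsg : s ≤ g := by rw [hsdef]; exact (min_le_left _ _).trans (min_le_right _ _)
  have hsτ : s ≤ τ / 16 := by rw [hsdef]; exact (min_le_right _ _).trans (min_le_left _ _)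
  have hs4 : s ≤ 1 / 4 := by rw [hsdef]; exact (min_le_right _ _).trans (min_le_right _ _)
  have hRpos : (0 : ℝ) < R := lt_of_lt_of_le (by positivity) hR
  have hRnat : 0 < R := by exact_mod_cast hRpos
  have h2R : 2 / (R : ℝ) ≤ τ / 4 := by
    rw [div_le_iff₀ hτ] at hR
    rw [div_le_iff₀ hRpos]
    linarith
  obtain ⟨e2, he2def⟩ : ∃ e2, e2 = s ^ 2 / (2 * ((R : ℝ) + 1)) := ⟨_, rfl⟩
  have he2 : 0 < e2 := by rw [he2def]; positivity
  have he2R : ((R : ℝ) + 1) * e2 = s ^ 2 / 2 := by rw [he2def]; field_simp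
  have he2s : e2 ≤ s ^ 2 / 2 := by
    rw [← he2R]
    nlinarith
  obtain ⟨η, hη, hrem⟩ := rm_removal e2 he2
  obtain ⟨ε', hε'def⟩ : ∃ ε', ε' = min η (s ^ 2 / 2) := ⟨_, rfl⟩
  have hε'0 : 0 < ε' := by rw [hε'def]; exact lt_min hη (by positivity)
  have hε'η : ε' ≤ η := by rw [hε'def]; exact min_le_left _ _
  have hε's : ε' ≤ s ^ 2 / 2 := by rw [hε'def]; exact min_le_right _ _
  refine ⟨ε', hε'0, ?_⟩
  intro m X0 X Z U hX0 hX hZ hU hthick hdX hdZ hsh
  rcases Nat.eq_zero_or_pos m with rfl | hm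
  · simp
  have hmR : (0 : ℝ) < m := by exact_mod_cast hm
  by_cases htriv : min 1 (b + g) - τ ≤ 0
  · have h1 : (min 1 (b + g) - τ) * m ≤ 0 := mul_nonpos_of_nonpos_of_nonneg htriv hmR.le
    have h2 : (0 : ℝ) ≤ U.card := by positivity
    linarith
  rw [not_le] at htriv
  have hcount := rmr_count m X Z U hZ ε' hε'0.le hsh
  obtain ⟨X', Z', V', hX'X, hZ'Z, hV'V, hcX, hcZ, hcV, hno⟩ :=
    hrem m X Z (range m \ U) hX hZ sdiff_subset
      (hcount.trans (mul_le_mul_of_nonneg_right hε'η (by positivity)))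
  obtain ⟨Xb, hXbdef⟩ : ∃ Xb, Xb = X0.filter (fun x => ∀ r, r ≤ R → x + r < m → x + r ∈ X') :=
    ⟨_, rfl⟩
  have hXb : ∀ x ∈ Xb, ∀ r, r ≤ R → x + r < m → x + r ∈ X' := by
    intro x hx
    rw [hXbdef, mem_filter] at hx
    exact hx.2
  have hXbX : Xb ⊆ X' := by
    intro x hx
    have h1 : x ∈ X0 := by
      rw [hXbdef, mem_filter] at hx
      exact hx.1
    exact hXb x hx 0 (Nat.zero_le _) (mem_range.1 (hX0 h1))
  have hloss : ((X0 \ Xb).card : ℝ) ≤ ((R : ℝ) + 1) * (e2 * m) := by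
    have h1 : X0 \ Xb ⊆ ((range (R + 1)) ×ˢ (X \ X')).image (fun p => p.2 - p.1) := by
      intro x hx
      rw [mem_sdiff] at hx
      have h2 : ¬ ∀ r, r ≤ R → x + r < m → x + r ∈ X' := fun h =>
        hx.2 (by rw [hXbdef]; exact mem_filter.2 ⟨hx.1, h⟩)
      push Not at h2
      obtain ⟨r, hr, hlt, hnot⟩ := h2
      refine mem_image.2 ⟨(r, x + r), mem_product.2 ⟨mem_range.2 (by omega),
        mem_sdiff.2 ⟨hthick x hx.1 r hr hlt, hnot⟩⟩, ?_⟩
      show x + r - r = x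
      omega
    have h3 := (card_le_card h1).trans card_image_le
    rw [card_product, card_range] at h3
    have h4 : ((X0 \ Xb).card : ℝ) ≤ ((R : ℝ) + 1) * ((X \ X').card : ℝ) := by exact_mod_cast h3
    exact h4.trans (mul_le_mul_of_nonneg_left hcX (by positivity))
  have hdXb : ∀ j, j ≤ m → b * j - s ^ 2 * m ≤ ((Xb.filter fun x => x < j).card : ℝ) := by
    intro j hj
    have h1 := hdX j hj
    have h2 := rmr_prefix_sub X0 Xb j
    have h3 : ε' * m ≤ s ^ 2 / 2 * m := mul_le_mul_of_nonneg_right hε's hmR.le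
    have h4 : ((R : ℝ) + 1) * (e2 * m) = s ^ 2 / 2 * m := by rw [← mul_assoc, he2R]
    linarith
  have hdZ' : ∀ j, j ≤ m → g * j - s ^ 2 * m ≤ ((Z'.filter fun x => x < j).card : ℝ) := by
    intro j hj
    have h1 := hdZ j hj
    have h2 := rmr_prefix_sub Z Z' j
    have h3 : ε' * m ≤ s ^ 2 / 2 * m := mul_le_mul_of_nonneg_right hε's hmR.le
    have h4 : e2 * m ≤ s ^ 2 / 2 * m := mul_le_mul_of_nonneg_right he2s hmR.le
    linarith
  have hbg : τ < b + g := lt_of_lt_of_le (by linarith) (min_le_right 1 (b + g))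
  have hpos : 0 < b + g - 2 * s - 2 / R := by linarith
  have hcore := rmr_core b g s e2 hs hsb hsg hs4 R hRnat hpos m hm Xb X' Z' V' U hXbX hXb hdXb hdZ'
    hcV hno
  refine le_trans (mul_le_mul_of_nonneg_right ?_ hmR.le) hcore
  have h9 : s ^ 2 / 2 ≤ s := by nlinarith
  linarith

theorem rm_greedy_step (m : ℕ) (X Z : Finset ℕ) (ε' : ℝ) (j : ℕ) :
    ∃ Z0 : Finset ℕ, Z0 ⊆ Z ∧ Z0.card ≤ j ∧
      ((∀ z ∈ Z, (((rmShift m X z) \ (Z0.biUnion fun z => rmShift m X z)).card : ℝ) ≤ ε' * m) ∨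
        (j : ℝ) * (ε' * m) ≤ ((Z0.biUnion fun z => rmShift m X z).card : ℝ)) := by
  induction j with
  | zero => exact ⟨∅, empty_subset _, by simp, Or.inr (by simp)⟩
  | succ j ih =>
    obtain ⟨Z0, hZ0, hc, h⟩ := ih
    rcases h with h | h
    · exact ⟨Z0, hZ0, hc.trans (Nat.le_succ j), Or.inl h⟩
    · by_cases hs : ∀ z ∈ Z, (((rmShift m X z) \ (Z0.biUnion fun z => rmShift m X z)).card : ℝ) ≤ ε' * m
      · exact ⟨Z0, hZ0, hc.trans (Nat.le_succ j), Or.inl hs⟩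
      · push Not at hs
        obtain ⟨z, hz, hzc⟩ := hs
        refine ⟨insert z Z0, insert_subset hz hZ0, (card_insert_le z Z0).trans (Nat.succ_le_succ hc),
          Or.inr ?_⟩
        have e1 : ((insert z Z0).biUnion fun z => rmShift m X z) =
            ((rmShift m X z) \ (Z0.biUnion fun z => rmShift m X z)) ∪
              (Z0.biUnion fun z => rmShift m X z) := by
          rw [biUnion_insert, sdiff_union_self_eq_union]
        rw [e1, card_union_of_disjoint sdiff_disjoint]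
        push_cast
        nlinarith

/-- **greedy**: boundedly many shifts suffice -/
theorem rm_greedy (b g τ : ℝ) (hb : 0 < b) (hg : 0 < g) (hτ : 0 < τ) (R : ℕ) (hR : 8 / τ ≤ R) :
    ∃ ε' : ℝ, 0 < ε' ∧ ∃ k : ℕ, ∀ (m : ℕ) (X0 X Z : Finset ℕ),
      X0 ⊆ range m → X ⊆ range m → Z ⊆ range m →
      (∀ x ∈ X0, ∀ r, r ≤ R → x + r < m → x + r ∈ X) →
      RmDense m X0 b ε' → RmDense m Z g ε' →
      ∃ Z0 : Finset ℕ, Z0 ⊆ Z ∧ Z0.card ≤ k ∧
        (min 1 (b + g) - τ) * m ≤ ((Z0.biUnion fun z => rmShift m X z).card : ℝ) := by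
  obtain ⟨ε', hε', hrob⟩ := rm_robust b g τ hb hg hτ R hR
  refine ⟨ε', hε', ⌈1 / ε'⌉₊, fun m X0 X Z hX0 hX hZ hthick hdX hdZ => ?_⟩
  obtain ⟨Z0, hZ0, hc, h⟩ := rm_greedy_step m X Z ε' ⌈1 / ε'⌉₊
  refine ⟨Z0, hZ0, hc, ?_⟩
  rcases h with h | h
  · refine hrob m X0 X Z _ hX0 hX hZ ?_ hthick hdX hdZ h
    intro y hy
    rw [mem_biUnion] at hy
    obtain ⟨z, -, hy⟩ := hy
    rw [rmShift, mem_filter] at hy
    exact mem_range.mpr hy.2
  · have h1 : (1 : ℝ) ≤ (⌈1 / ε'⌉₊ : ℝ) * ε' := by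
      have := Nat.le_ceil (1 / ε')
      calc (1 : ℝ) = 1 / ε' * ε' := by field_simp
        _ ≤ (⌈1 / ε'⌉₊ : ℝ) * ε' := mul_le_mul_of_nonneg_right this hε'.le
    have hm : (0 : ℝ) ≤ m := Nat.cast_nonneg m
    have h2 : min 1 (b + g) - τ ≤ 1 := by
      have := min_le_left (1 : ℝ) (b + g)
      linarith
    calc (min 1 (b + g) - τ) * m ≤ 1 * m := mul_le_mul_of_nonneg_right h2 hm
      _ ≤ ((⌈1 / ε'⌉₊ : ℝ) * ε') * m := mul_le_mul_of_nonneg_right h1 hm
      _ = (⌈1 / ε'⌉₊ : ℝ) * (ε' * m) := by ring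
      _ ≤ _ := h

end Claimed.Agent.RW
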