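import Claimed.Agent.RW.SabcCfg

/-!
# Team RW.  Unit SABC (chief helper142): the strong ABC sum-product theorem at the sharp threshold, integer form.

`SabcAt α β γ χ n` (δ = 2^-n):  a (sub)probability law `lam` on pairs `(a,b) ∈ ℤ × [0,2^n)`, a reference law `μB` of `b`, Frostman `β` on dyadic cells,
`lam (a,b) ≤ δ^(α-χ) μB b`  (form (U): product laws `μA ⊗ μB` with atoms of `μA ≤ δ^(α-χ)`, product-dominated laws, regular planar laws),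
tags `t` with slopes `c t ∈ [0,2^n)`, Frostman `γ`; a graph `G` of `(lam × ν)`-mass `≥ δ^χ`; for every tag the image
`{a + ⌊c t · b / 2^n⌋ : ((a,b),t) ∈ G}` has `≤ M` elements.   Then `M > δ^(-α-χ)`.
`sabc_main`: for `α < min 1 (β+γ)` there are `χ > 0`, `n₀` with `SabcAt α β γ χ n` for ALL `n ≥ n₀`.

## Chain
`sabc_main ⟸ sabc_block (n = m*L) + sabc_round`;   `sabc_block ⟸ tree_select (twice), tree_dense (twice), tuple_main, rm_greedy, sabc_core`;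
`sabc_core ⟸ Pm.copies, en_*, ep_main, fl_main`.

## `sabc_core` (notes 5.3-5.5; everything is controlled by ONE number `κ = log (M · #B' · η)`)
`P` = the law `w` on `Ω = Pt`; `a, b` the coordinates; `u = a + ecb c0 b`; `v^i = ecb (c i) b - ecb c0 b`.
`H(a,b) ≥ -log η` (`en_ge_of_atoms`), `(u,b) ↔ (a,b)`, `H(u) ≤ log M`, `H(u+v^i) ≤ log M`, `H(b) ≤ log #B'` (`en_le_log_card`).  Hence
 `I(u;b) = H(u)+H(b)-H(a,b) ≤ κ`,  `I(u;v^i) ≤ I(u;b)`,  `H(u) ≥ H(a,b)-H(b) ≥ log M - κ`, so `H(u+v^i) ≤ H(u)+κ`,  `log #B' - H(b|u) ≤ κ`, `κ ≥ 0`.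
Copies: `P.copies u (Fin k × Fin k')`, `v_t(ω) = v^{t.1}(b (ω.2 t))`.  `en_copies_marg/base/ci` + `ep_main`: `H(W) ≤ log M + (h²+2h) κ`, `h = k k'`.
`en_copies_lower` + `fl_main` for each value `x` of `u` with `Q = P.cond u x` (affine in the deficit) + `en_pair_eq_cond`:
 `H(W) ≥ ∑_x P(u=x) c₁ (#Y - c₂ def_x) = c₁ (#Y - c₂ (log #B' - H(b|u))) ≥ c₁ (#Y - c₂ κ)`.

## `sabc_block`: order of constants
`τ := (min 1 (β+γ) - α)/4`, `ε := τ/8`, `R' := ⌈64/τ⌉`, `R := R'+2`; `(ε',k)` from `rm_greedy (β-ε) (γ-ε) (τ/8)... R'`; `(L0,χ1)` from `tuple_main ε (ε'/4) k`;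
`(C0,L0')` from `sabc_core ε R`; `L ≥ max L0 L0'`, `log₂(2L+2)/L ≤ ε'/8`, `C0/L ≤ τ/8`; `k'` from `sabc_core`; `h = k k'`;
`χ` with `(k+2)(h²+2h+ c₂') · 8χ ≤ τ/8`, `8χ ≤ ε'/8`, `4χ ≤ χ1`; `m0` large.   Assume `M ≤ 2^((α+χ)n)`.
A. `tree_select` on `B` (`pos = id`, `μ = μB`, `μ2` = `b`-marginal of `lam`, `F b` = `G`-mass over `b`, `K = M 2^(-(α-χ)n) ≤ 2^(2χn)`
   because for fixed `(b,t)` the map `a ↦ a + ecb (c t) b` is injective, `θ = 2^(-3χn-1)`): `B'`, `NB`, `W := lam{b ∈ B'}`, `Gm ≥ 2^(-χn-2) (W + μB B')`.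
B. `tree_select` on `T` (`pos = c`, `μ = ν`, `μ2 = 0`, `F t = ν t · lam(G_t ∩ {b ∈ B'})`, `K = W`, `θ = 2^(-χn-3)`): `T'`, `Mb`, `ρ0 = 2^(-χn-4)`.
C. `tree_dense`: `X = hiSet ε L m NB`, `Zhi = hiSet ε L m Mb` dense.  `tuple_main` gives `Z`.  `rm_greedy` with `X0 = X - R`, `Xthick = X - {2..R}`, `Z`: `Z0`.
   The tuple `(t0, τ z)`; `G* = {p : (p,t0) ∈ G ∧ ∀ z ∈ Z0, (p,τ z) ∈ G}`, `p* = lam G* ≥ (ρ0/(100(k+1)))^(k+1) W`.
D. `sabc_core` with `w = lam/p*` on `G*`, `η = 2^(-(α-χ)n) · 2 μB(B')/(#B' p*)`: `κ ≤ log(2 · 2^(2χn) μB(B')/p*)`, `μB(B') ≤ 2^(χn+2) W`.  `#flY ≥ #(greedy union) - (R+3)`.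
-/

set_option autoImplicit false

open Finset

namespace Claimed.Agent.RW

/-- the statement of strong ABC at scale `2^-n` with loss `χ` -/
def SabcAt (α β γ χ : ℝ) (n : ℕ) : Prop :=
  ∀ (T : Type) [Fintype T] [DecidableEq T] (Pt : Finset (ℤ × ℕ)) (lam : ℤ × ℕ → ℝ) (B : Finset ℕ) (μB : ℕ → ℝ)
    (ν : T → ℝ) (c : T → ℕ) (G : Finset ((ℤ × ℕ) × T)) (M : ℝ),
    (∀ p ∈ Pt, 0 ≤ lam p) → (∀ b ∈ B, 0 ≤ μB b) → (∀ t, 0 ≤ ν t) →
    ∑ p ∈ Pt, lam p ≤ 1 → ∑ b ∈ B, μB b ≤ 1 → ∑ t, ν t ≤ 1 →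
    (∀ p ∈ Pt, p.2 ∈ B) → (∀ b ∈ B, b < 2 ^ n) → (∀ t, c t < 2 ^ n) →
    (∀ p ∈ Pt, lam p ≤ (2 : ℝ) ^ (-((α - χ) * n)) * μB p.2) →
    (∀ l, l ≤ n → ∀ j, ∑ b ∈ B with b / 2 ^ (n - l) = j, μB b ≤ (2 : ℝ) ^ (χ * n - β * l)) →
    (∀ l, l ≤ n → ∀ j, ∑ t with c t / 2 ^ (n - l) = j, ν t ≤ (2 : ℝ) ^ (χ * n - γ * l)) →
    G ⊆ Pt ×ˢ univ → (2 : ℝ) ^ (-(χ * n)) ≤ ∑ g ∈ G, lam g.1 * ν g.2 →
    (∀ t, ((((G.filter fun g => g.2 = t).image fun g => g.1.1 + ecb n (c t) g.1.2).card : ℕ) : ℝ) ≤ M) →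
    (2 : ℝ) ^ ((α + χ) * n) < M

section core
variable {Ω : Type} [Fintype Ω] {ι : Type} [Fintype ι] [DecidableEq ι]

/-- upper bound for the entropy of the long sum (entropic Pluennecke on conditionally i.i.d. copies) -/
theorem sabc_core_up (P : Pm Ω) (u : Ω → ℤ) (b : Ω → ℕ) (vf : ι → ℕ → ℤ)
    (lM lB lη : ℝ) (hu : P.ent u ≤ lM) (huv : ∀ t, P.ent (fun ω => u ω + vf t (b ω)) ≤ lM) (hb : P.ent b ≤ lB)
    (hub : -lη ≤ P.ent (fun ω => (u ω, b ω))) :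
    0 ≤ lM + lB + lη ∧
    (P.copies u ι).ent (fun ω => u ω.1 + ∑ t, vf t (b (ω.2 t))) ≤
      lM + ((Fintype.card ι : ℝ) ^ 2 + 2 * Fintype.card ι) * (lM + lB + lη) ∧
    lB - (P.ent (fun ω => (b ω, u ω)) - P.ent u) ≤ lM + lB + lη := by
  have h0 := en_pair_le P u b
  have hκ : 0 ≤ lM + lB + lη := by linarith
  have hsw : P.ent (fun ω => (b ω, u ω)) = P.ent (fun ω => (u ω, b ω)) := ep_swap P b u
  refine ⟨hκ, ?_, by rw [hsw]; linarith⟩
  have hbase : (P.copies u ι).ent (fun ω => u ω.1) = P.ent u := en_copies_base P u (fun x => x)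
  have hci := en_copies_ci (ι := ι) P u (fun t ω => vf t (b ω))
  have hI : ∀ t, (P.copies u ι).ent (fun ω => u ω.1) + (P.copies u ι).ent (fun ω => vf t (b (ω.2 t))) -
      (P.copies u ι).ent (fun ω => (u ω.1, vf t (b (ω.2 t)))) ≤ lM + lB + lη := by
    intro t
    have e1 : (P.copies u ι).ent (fun ω => vf t (b (ω.2 t))) = P.ent (fun ω => vf t (b ω)) :=
      en_copies_marg P u t (fun _ ω => vf t (b ω))
    have e2 : (P.copies u ι).ent (fun ω => (u ω.1, vf t (b (ω.2 t)))) = P.ent (fun ω => (u ω, vf t (b ω))) :=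
      en_copies_marg P u t (fun x ω => (x, vf t (b ω)))
    rw [hbase, e1, e2]
    have s := en_submod P u b (fun ω => vf t (b ω))
    have s1 : P.ent (fun ω => (b ω, vf t (b ω))) = P.ent b := en_pair_comp P b (vf t)
    have s2 : P.ent (fun ω => (u ω, b ω, vf t (b ω))) = P.ent (fun ω => (u ω, b ω)) :=
      en_congr P _ _ (fun q => (q.1, q.2.1)) (fun q => (q.1, q.2, vf t q.2)) (fun _ _ => rfl) (fun _ _ => rfl)
    rw [s1, s2] at s
    linarith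
  have hS : ∀ t, (P.copies u ι).ent (fun ω => u ω.1 + vf t (b (ω.2 t))) ≤
      (P.copies u ι).ent (fun ω => u ω.1) + (lM + lB + lη) := by
    intro t
    have e1 : (P.copies u ι).ent (fun ω => u ω.1 + vf t (b (ω.2 t))) = P.ent (fun ω => u ω + vf t (b ω)) :=
      en_copies_marg P u t (fun x ω => x + vf t (b ω))
    rw [hbase, e1]
    have := huv t
    linarith
  have hep := ep_main (P.copies u ι) (fun ω => u ω.1) (fun t ω => vf t (b (ω.2 t))) (lM + lB + lη) hκ hci hI hS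
  rw [hbase] at hep
  linarith

/-- lower bound: average of the lower bounds for the conditional laws -/
theorem sabc_core_low (P : Pm Ω) (u : Ω → ℤ) (b : Ω → ℕ) (vf : ι → ℕ → ℤ) (c1 Y c2 lB : ℝ)
    (h : ∀ x, c1 * (Y - c2 * (lB - (P.cond u x).ent b)) ≤
      (Pm.pi fun _ : ι => P.cond u x).ent (fun β => ∑ t, vf t (b (β t)))) :
    c1 * (Y - c2 * (lB - (P.ent (fun ω => (b ω, u ω)) - P.ent u))) ≤
      (P.copies u ι).ent (fun ω => u ω.1 + ∑ t, vf t (b (ω.2 t))) := by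
  have h1 := en_copies_lower (ι := ι) P u (fun x β => x + ∑ t, vf t (b (β t)))
  have h2 : ∀ x : ℤ, (Pm.pi fun _ : ι => P.cond u x).ent (fun β => x + ∑ t, vf t (b (β t))) =
      (Pm.pi fun _ : ι => P.cond u x).ent (fun β => ∑ t, vf t (b (β t))) := fun x =>
    en_congr _ _ _ (fun y => y - x) (fun y => x + y) (fun _ _ => by ring) (fun _ _ => rfl)
  have h3 := en_pair_eq_cond P b u
  have h4 := en_pr_sum P u
  refine le_trans ?_ h1
  calc c1 * (Y - c2 * (lB - (P.ent (fun ω => (b ω, u ω)) - P.ent u)))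
      = ∑ x ∈ univ.image u, P.pr u x * (c1 * (Y - c2 * (lB - (P.cond u x).ent b))) := by
        have e : ∀ x ∈ univ.image u, P.pr u x * (c1 * (Y - c2 * (lB - (P.cond u x).ent b))) =
            c1 * (Y - c2 * lB) * P.pr u x + c1 * c2 * (P.pr u x * (P.cond u x).ent b) := fun x _ => by ring
        rw [Finset.sum_congr rfl e, Finset.sum_add_distrib, ← Finset.mul_sum, ← Finset.mul_sum, h4, h3]
        ring
    _ ≤ ∑ x ∈ univ.image u, P.pr u x * (Pm.pi fun _ : ι => P.cond u x).ent (fun β => x + ∑ t, vf t (b (β t))) := by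
        refine Finset.sum_le_sum fun x _ => ?_
        rw [h2 x]
        exact mul_le_mul_of_nonneg_left (h x) (en_pr_nonneg P u x)

end core

/-- the law `w` on the subtype of `Pt` -/
def sabcPm (Pt : Finset (ℤ × ℕ)) (w : ℤ × ℕ → ℝ) (h0 : ∀ p ∈ Pt, 0 ≤ w p) (h1 : ∑ p ∈ Pt, w p = 1) :
    Pm {p // p ∈ Pt} where
  w := fun ω => w ω.1
  nonneg := fun ω => h0 _ ω.2
  sum_one := by rw [Finset.sum_coe_sort Pt w]; exact h1

theorem sabcPm_atoms (Pt : Finset (ℤ × ℕ)) (w : ℤ × ℕ → ℝ) (h0 : ∀ p ∈ Pt, 0 ≤ w p) (h1 : ∑ p ∈ Pt, w p = 1)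
    (η : ℝ) (hη : 0 ≤ η) (h : ∀ p ∈ Pt, w p ≤ η) (x : ℤ × ℕ) :
    (sabcPm Pt w h0 h1).pr (fun ω => ω.1) x ≤ η := by
  unfold Pm.pr
  by_cases hx : x ∈ Pt
  · have : (univ.filter fun ω : {p // p ∈ Pt} => ω.1 = x) = {⟨x, hx⟩} := by
      ext ω
      simp [Subtype.ext_iff]
    rw [this, Finset.sum_singleton]
    exact h x hx
  · have : (univ.filter fun ω : {p // p ∈ Pt} => ω.1 = x) = ∅ := by
      rw [Finset.filter_eq_empty_iff]
      intro ω _ hω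
      exact hx (hω ▸ ω.2)
    rw [this, Finset.sum_empty]
    exact hη

/-- **the core inequality** (leaf SABC-CORE) -/
theorem sabc_core (ε : ℝ) (hε : 0 < ε) (hε1 : ε < 1) (R : ℕ) (hR : 2 ≤ R) :
    ∃ C0 : ℝ, ∃ L0 : ℕ, ∀ L, L0 ≤ L → ∃ k0 : ℕ, ∀ k', k0 ≤ k' →
      ∀ (k m : ℕ) (B' : Finset ℕ) (N : ℕ → ℕ), UTree (m * L) L m B' N →
      ∀ (Pt : Finset (ℤ × ℕ)) (w : ℤ × ℕ → ℝ) (η M : ℝ),
      (∀ p ∈ Pt, 0 ≤ w p) → ∑ p ∈ Pt, w p = 1 → (∀ p ∈ Pt, w p ≤ η) → (∀ p ∈ Pt, p.2 ∈ B') →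
      ∀ (c0 : ℕ) (c z : Fin k → ℕ), c0 < 2 ^ (m * L) → (∀ i, c i < 2 ^ (m * L)) →
      (∀ i, (2 : ℤ) ^ (m * L - (z i + 1) * L) ≤ |(c i : ℤ) - c0| ∧ |(c i : ℤ) - c0| < (2 : ℤ) ^ (m * L - z i * L)) →
      (((Pt.image fun p => p.1 + ecb (m * L) c0 p.2).card : ℕ) : ℝ) ≤ M →
      (∀ i, (((Pt.image fun p => p.1 + ecb (m * L) (c i) p.2).card : ℕ) : ℝ) ≤ M) →
      (1 - ε) * ((L : ℝ) - C0) * Real.log 2 *
          (((flY ε L m R N z).card : ℝ) - k * R * Real.log (M * B'.card * η) / (ε * L / 2 * Real.log 2)) ≤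
        Real.log M + (((k * k' : ℕ) : ℝ) ^ 2 + 2 * ((k * k' : ℕ) : ℝ)) * Real.log (M * B'.card * η) := by
  obtain ⟨C0, L0, hfl⟩ := fl_main ε hε hε1 R hR
  refine ⟨C0, max L0 ⌈C0⌉₊, fun L hL => ?_⟩
  obtain ⟨k0, hfl2⟩ := hfl L (le_trans (le_max_left _ _) hL)
  have hLC : C0 ≤ (L : ℝ) :=
    le_trans (Nat.le_ceil C0) (by exact_mod_cast le_trans (le_max_right _ _) hL)
  refine ⟨k0, fun k' hk' k m B' N hU Pt w η M hw0 hw1 hwη hPB c0 c z hc0 hc hz hM0 hMi => ?_⟩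
  have hfl3 := hfl2 k' hk' k m B' N hU
  have hl2 : 0 < Real.log 2 := Real.log_pos (by norm_num)
  -- positivity facts
  have hne : Pt.Nonempty := by
    rw [Finset.nonempty_iff_ne_empty]
    rintro rfl
    simp at hw1
  have hη : 0 < η := by
    by_contra hcon
    rw [not_lt] at hcon
    have : ∑ p ∈ Pt, w p ≤ 0 := Finset.sum_nonpos fun p hp => le_trans (hwη p hp) hcon
    linarith
  have hcard : ∀ cx : ℕ, (1 : ℝ) ≤ (((Pt.image fun p => p.1 + ecb (m * L) cx p.2).card : ℕ) : ℝ) := by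
    intro cx
    have : 1 ≤ (Pt.image fun p => p.1 + ecb (m * L) cx p.2).card := Finset.card_pos.mpr (hne.image _)
    exact_mod_cast this
  have hM : 0 < M := by linarith [hcard c0]
  have hB : (0 : ℝ) < (B'.card : ℝ) := by
    obtain ⟨p, hp⟩ := hne
    have : 0 < B'.card := Finset.card_pos.mpr ⟨p.2, hPB p hp⟩
    exact_mod_cast this
  have hκ : Real.log (M * B'.card * η) = Real.log M + Real.log B'.card + Real.log η := by
    rw [Real.log_mul (by positivity) hη.ne', Real.log_mul hM.ne' hB.ne']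
  -- the probability space
  obtain ⟨P, hP⟩ : ∃ P, P = sabcPm Pt w hw0 hw1 := ⟨_, rfl⟩
  obtain ⟨u, hu⟩ : ∃ u : {p // p ∈ Pt} → ℤ, u = fun ω => ω.1.1 + ecb (m * L) c0 ω.1.2 := ⟨_, rfl⟩
  obtain ⟨b, hb⟩ : ∃ b : {p // p ∈ Pt} → ℕ, b = fun ω => ω.1.2 := ⟨_, rfl⟩
  obtain ⟨vf, hvf⟩ : ∃ vf : Fin k × Fin k' → ℕ → ℤ, vf = fun t x => ecb (m * L) (c t.1) x - ecb (m * L) c0 x :=
    ⟨_, rfl⟩
  have e_u : P.ent u ≤ Real.log M := by
    refine le_trans (en_le_log_card P u (Pt.image fun p => p.1 + ecb (m * L) c0 p.2) fun ω _ => ?_) ?_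
    · rw [hu]; exact Finset.mem_image_of_mem _ ω.2
    · exact Real.log_le_log (by linarith [hcard c0]) hM0
  have e_uv : ∀ t, P.ent (fun ω => u ω + vf t (b ω)) ≤ Real.log M := by
    intro t
    refine le_trans (en_le_log_card P _ (Pt.image fun p => p.1 + ecb (m * L) (c t.1) p.2) fun ω _ => ?_) ?_
    · rw [hu, hvf, hb]
      have : ω.1.1 + ecb (m * L) c0 ω.1.2 + (ecb (m * L) (c t.1) ω.1.2 - ecb (m * L) c0 ω.1.2) =
          ω.1.1 + ecb (m * L) (c t.1) ω.1.2 := by ring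
      simp only [this]
      exact Finset.mem_image_of_mem (fun p : ℤ × ℕ => p.1 + ecb (m * L) (c t.1) p.2) ω.2
    · exact Real.log_le_log (by linarith [hcard (c t.1)]) (hMi t.1)
  have e_b : P.ent b ≤ Real.log B'.card := by
    refine en_le_log_card P b B' fun ω _ => ?_
    rw [hb]; exact hPB _ ω.2
  have e_ub : -Real.log η ≤ P.ent (fun ω => (u ω, b ω)) := by
    have h1 : -Real.log η ≤ P.ent (fun ω : {p // p ∈ Pt} => ω.1) := by
      refine en_ge_of_atoms P _ η hη fun x => ?_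
      rw [hP]; exact sabcPm_atoms Pt w hw0 hw1 η hη.le hwη x
    have h2 : P.ent (fun ω : {p // p ∈ Pt} => ω.1) = P.ent (fun ω => (u ω, b ω)) := by
      refine en_congr P _ _ (fun q => (q.1 + ecb (m * L) c0 q.2, q.2)) (fun q => (q.1 - ecb (m * L) c0 q.2, q.2))
        (fun ω _ => ?_) (fun ω _ => ?_)
      · rw [hu, hb]
      · rw [hu, hb]
        refine Prod.ext ?_ rfl
        simp
    rw [← h2]; exact h1
  obtain ⟨hκ0, hup, hdef⟩ := sabc_core_up P u b vf _ _ _ e_u e_uv e_b e_ub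
  obtain ⟨c1, hc1⟩ : ∃ c1, c1 = (1 - ε) * ((L : ℝ) - C0) * Real.log 2 := ⟨_, rfl⟩
  obtain ⟨c2, hc2⟩ : ∃ c2, c2 = (k : ℝ) * R / (ε * L / 2 * Real.log 2) := ⟨_, rfl⟩
  have hc10 : 0 ≤ c1 := by
    rw [hc1]
    have h1 : 0 ≤ 1 - ε := by linarith
    have h2 : 0 ≤ (L : ℝ) - C0 := by linarith
    positivity
  have hc20 : 0 ≤ c2 := by rw [hc2]; positivity
  have hlow := sabc_core_low P u b vf c1 ((flY ε L m R N z).card : ℝ) c2 (Real.log B'.card) (fun x => by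
    have h := hfl3 {p // p ∈ Pt} (P.cond u x) b (fun ω _ => by rw [hb]; exact hPB _ ω.2) c0 c z hc0 hc hz
    rw [hc1, hc2, hvf]
    have e : (k : ℝ) * R / (ε * L / 2 * Real.log 2) * (Real.log B'.card - (P.cond u x).ent b) =
        k * R * (Real.log B'.card - (P.cond u x).ent b) / (ε * L / 2 * Real.log 2) := by ring
    rw [e]
    exact h)
  rw [← hc1, hκ]
  have e : (k : ℝ) * R * (Real.log M + Real.log B'.card + Real.log η) / (ε * L / 2 * Real.log 2) =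
      c2 * (Real.log M + Real.log B'.card + Real.log η) := by rw [hc2]; ring
  rw [e]
  have hcardι : (Fintype.card (Fin k × Fin k') : ℝ) = ((k * k' : ℕ) : ℝ) := by
    rw [Fintype.card_prod, Fintype.card_fin, Fintype.card_fin]
  rw [hcardι] at hup
  have h5 : c1 * (((flY ε L m R N z).card : ℝ) - c2 * (Real.log M + Real.log B'.card + Real.log η)) ≤
      c1 * (((flY ε L m R N z).card : ℝ) - c2 * (Real.log B'.card - (P.ent (fun ω => (b ω, u ω)) - P.ent u))) := by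
    refine mul_le_mul_of_nonneg_left ?_ hc10
    have := mul_le_mul_of_nonneg_left hdef hc20
    linarith
  linarith

/-- the arithmetic of `sabc_block` in abstract real numbers -/
theorem sabc_block_num (σ α τ ε χ Ck D l2 Lr mr Rr kr Y κ logM Coef c1 : ℝ)
    (hl2 : 0 < l2) (hL : 0 < Lr) (hm : 0 < mr) (hτ0 : 0 < τ) (hτa : 4 * τ ≤ σ - α) (hτs : 4 * τ ≤ σ) (hσ1 : σ ≤ 1)
    (hε0 : 0 < ε) (hε : ε ≤ τ / 8)
    (hc1 : (1 - ε) * (1 - τ / 4) * Lr * l2 ≤ c1)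
    (hcore : c1 * Y ≤ logM + Coef * κ) (hCoef0 : 0 ≤ Coef) (hCoefD : Coef ≤ D)
    (hκ : κ ≤ ((kr + 4) * χ * (mr * Lr) + |Ck|) * l2)
    (hlogM : logM ≤ (α + χ) * (mr * Lr) * l2)
    (hY : (σ - 2 * ε - τ / 2) * mr - (Rr + 3) ≤ Y)
    (hR : Rr + 3 ≤ τ / 8 * mr) (hCk : D * |Ck| ≤ τ / 8 * (mr * Lr))
    (hχ0 : 0 < χ) (hkr : 0 ≤ kr) (hχ : χ * (1 + D * (kr + 4)) ≤ τ / 8) : False := by
  have hP : 0 < mr * Lr * l2 := by positivity
  obtain ⟨x, hx⟩ : ∃ x, x = σ - 2 * ε - τ / 2 - τ / 8 := ⟨_, rfl⟩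
  have hx0 : 0 < x := by rw [hx]; linarith
  have hx1 : x ≤ 1 := by rw [hx]; linarith
  have hτ1 : τ ≤ 1 / 4 := by linarith
  have hYx : x * mr ≤ Y := by
    have : x * mr = (σ - 2 * ε - τ / 2) * mr - τ / 8 * mr := by rw [hx]; ring
    linarith
  have hc1low : 0 < (1 - ε) * (1 - τ / 4) * Lr * l2 := by
    have h1 : 0 < 1 - ε := by linarith
    have h2 : 0 < 1 - τ / 4 := by linarith
    positivity
  have hxm : 0 ≤ x * mr := by positivity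
  have h1 : (1 - ε) * (1 - τ / 4) * Lr * l2 * (x * mr) ≤ c1 * Y :=
    mul_le_mul hc1 hYx hxm (le_trans hc1low.le hc1)
  have hκhat : 0 ≤ ((kr + 4) * χ * (mr * Lr) + |Ck|) * l2 := by positivity
  have hD0 : 0 ≤ D := le_trans hCoef0 hCoefD
  have h2 : Coef * κ ≤ D * (((kr + 4) * χ * (mr * Lr) + |Ck|) * l2) :=
    le_trans (mul_le_mul_of_nonneg_left hκ hCoef0) (mul_le_mul_of_nonneg_right hCoefD hκhat)
  have h3 : (x - ε - τ / 4) ≤ (1 - ε) * (1 - τ / 4) * x := by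
    have : (1 - ε) * (1 - τ / 4) * x = x - (ε + τ / 4) * x + ε * (τ / 4) * x := by ring
    have h4 : (ε + τ / 4) * x ≤ (ε + τ / 4) * 1 := mul_le_mul_of_nonneg_left hx1 (by positivity)
    have h5 : 0 ≤ ε * (τ / 4) * x := by positivity
    linarith
  have h6 : (x - ε - τ / 4) * (mr * Lr * l2) ≤ (1 - ε) * (1 - τ / 4) * Lr * l2 * (x * mr) := by
    have := mul_le_mul_of_nonneg_right h3 hP.le
    calc (x - ε - τ / 4) * (mr * Lr * l2) ≤ (1 - ε) * (1 - τ / 4) * x * (mr * Lr * l2) := this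
      _ = (1 - ε) * (1 - τ / 4) * Lr * l2 * (x * mr) := by ring
  have h7 : D * (((kr + 4) * χ * (mr * Lr) + |Ck|) * l2) ≤ (D * (kr + 4) * χ + τ / 8) * (mr * Lr * l2) := by
    have := mul_le_mul_of_nonneg_right hCk hl2.le
    calc D * (((kr + 4) * χ * (mr * Lr) + |Ck|) * l2)
        = D * (kr + 4) * χ * (mr * Lr * l2) + D * |Ck| * l2 := by ring
      _ ≤ D * (kr + 4) * χ * (mr * Lr * l2) + τ / 8 * (mr * Lr) * l2 := by linarith
      _ = (D * (kr + 4) * χ + τ / 8) * (mr * Lr * l2) := by ring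
  have h8 : (x - ε - τ / 4) * (mr * Lr * l2) ≤ (α + χ + D * (kr + 4) * χ + τ / 8) * (mr * Lr * l2) := by
    calc (x - ε - τ / 4) * (mr * Lr * l2) ≤ c1 * Y := le_trans h6 h1
      _ ≤ logM + Coef * κ := hcore
      _ ≤ (α + χ) * (mr * Lr) * l2 + (D * (kr + 4) * χ + τ / 8) * (mr * Lr * l2) := by linarith
      _ = (α + χ + D * (kr + 4) * χ + τ / 8) * (mr * Lr * l2) := by ring
  have h9 : x - ε - τ / 4 ≤ α + χ + D * (kr + 4) * χ + τ / 8 := le_of_mul_le_mul_right h8 hP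
  have h10 : χ + D * (kr + 4) * χ = χ * (1 + D * (kr + 4)) := by ring
  rw [hx] at h9
  linarith

/-- the real-number part of `sabc_block` -/
theorem sabc_block_aux (σ α τ ε χ Ck C0 η M D : ℝ) (k k' ka R L m cB cY : ℕ)
    (hL : 1 ≤ L) (hm : 1 ≤ m) (hτ0 : 0 < τ) (hτa : 4 * τ ≤ σ - α) (hτs : 4 * τ ≤ σ) (hσ1 : σ ≤ 1)
    (hε0 : 0 < ε) (hε : ε ≤ τ / 8) (hka : ka ≤ k)
    (hLC : 4 * |C0| / τ ≤ L)
    (hD : D = ((k * k' : ℕ) : ℝ) ^ 2 + 2 * ((k * k' : ℕ) : ℝ) + 4 * k * R / ε)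
    (hχ0 : 0 < χ) (hχ : χ * (1 + D * ((k : ℝ) + 4)) ≤ τ / 8)
    (hR : (R : ℝ) + 3 ≤ τ / 8 * m) (hCk : D * |Ck| ≤ τ / 8 * ((m : ℝ) * L))
    (hM1 : 1 ≤ M) (hM : M ≤ (2 : ℝ) ^ ((α + χ) * (m * L : ℕ)))
    (g10 : 0 < M * cB * η)
    (g11 : M * cB * η ≤ (2 : ℝ) ^ (((k : ℝ) + 4) * χ * (m * L : ℕ) + Ck))
    (g12 : (σ - 2 * ε - τ / 2) * m - (R + 3) ≤ (cY : ℝ))
    (hc : (1 - ε) * ((L : ℝ) - C0) * Real.log 2 *
          ((cY : ℝ) - ka * R * Real.log (M * cB * η) / (ε * L / 2 * Real.log 2)) ≤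
        Real.log M + (((ka * k' : ℕ) : ℝ) ^ 2 + 2 * ((ka * k' : ℕ) : ℝ)) * Real.log (M * cB * η)) : False := by
  have hl2 : 0 < Real.log 2 := Real.log_pos (by norm_num)
  have hLr : (0 : ℝ) < L := by exact_mod_cast hL
  have hmr : (0 : ℝ) < m := by exact_mod_cast hm
  have hτ1 : τ ≤ 1 / 4 := by linarith
  have hε1 : ε < 1 := by linarith
  have hC0 : |C0| ≤ τ / 4 * L := by
    rw [div_le_iff₀ hτ0] at hLC
    linarith
  have hC0a : C0 ≤ τ / 4 * L := le_trans (le_abs_self _) hC0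
  have hC0b : -(τ / 4 * L) ≤ C0 := by
    have := neg_abs_le C0
    linarith
  obtain ⟨κ, hκ⟩ : ∃ κ, κ = Real.log (M * cB * η) := ⟨_, rfl⟩
  obtain ⟨c1, hc1⟩ : ∃ c1, c1 = (1 - ε) * ((L : ℝ) - C0) * Real.log 2 := ⟨_, rfl⟩
  obtain ⟨E, hE⟩ : ∃ E, E = c1 * (ka * R) / (ε * L / 2 * Real.log 2) := ⟨_, rfl⟩
  rw [← hκ, ← hc1] at hc
  have hden : 0 < ε * L / 2 * Real.log 2 := by positivity
  have hLC0 : 0 ≤ (L : ℝ) - C0 := by nlinarith
  have hLC2 : (L : ℝ) - C0 ≤ 2 * L := by nlinarith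
  have hc10 : 0 ≤ c1 := by
    rw [hc1]
    have : 0 ≤ 1 - ε := by linarith
    positivity
  have hE0 : 0 ≤ E := by rw [hE]; positivity
  have hkar : (ka : ℝ) ≤ k := by exact_mod_cast hka
  have hEle : E ≤ 4 * k * R / ε := by
    have h1 : E = (1 - ε) * ((L : ℝ) - C0) * (ka * R) * 2 / (ε * L) := by
      rw [hE, hc1]; field_simp
    rw [h1, div_le_div_iff₀ (by positivity) hε0]
    have h2 : (1 - ε) * ((L : ℝ) - C0) ≤ 1 * (2 * L) :=
      mul_le_mul (by linarith) hLC2 hLC0 (by norm_num)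
    have h3 : (ka : ℝ) * R ≤ k * R := mul_le_mul_of_nonneg_right hkar (by positivity)
    have h4 : (1 - ε) * ((L : ℝ) - C0) * (ka * R) ≤ 1 * (2 * L) * (k * R) :=
      mul_le_mul h2 h3 (by positivity) (by positivity)
    calc (1 - ε) * ((L : ℝ) - C0) * (ka * R) * 2 * ε ≤ 1 * (2 * L) * (k * R) * 2 * ε := by
          have := mul_le_mul_of_nonneg_right h4 (by positivity : (0 : ℝ) ≤ 2 * ε)
          linarith
      _ = 4 * k * R * (ε * L) := by ring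
  have hkk : ((ka * k' : ℕ) : ℝ) ≤ ((k * k' : ℕ) : ℝ) := by
    exact_mod_cast Nat.mul_le_mul_right k' hka
  have hkk0 : (0 : ℝ) ≤ ((ka * k' : ℕ) : ℝ) := by positivity
  have hcore : c1 * (cY : ℝ) ≤ Real.log M + ((((ka * k' : ℕ) : ℝ) ^ 2 + 2 * ((ka * k' : ℕ) : ℝ)) + E) * κ := by
    have h1 : c1 * ((cY : ℝ) - ka * R * κ / (ε * L / 2 * Real.log 2)) = c1 * cY - E * κ := by
      rw [hE]; field_simp
    rw [h1] at hc
    linarith
  have hmL : (((m * L : ℕ) : ℕ) : ℝ) = (m : ℝ) * L := by push_cast; ring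
  refine sabc_block_num σ α τ ε χ Ck D (Real.log 2) L m R k cY κ (Real.log M)
    ((((ka * k' : ℕ) : ℝ) ^ 2 + 2 * ((ka * k' : ℕ) : ℝ)) + E) c1 hl2 hLr hmr hτ0 hτa hτs hσ1 hε0 hε ?_ hcore
    (by positivity) ?_ ?_ ?_ g12 hR hCk hχ0 (by positivity) hχ
  · rw [hc1]
    have h1 : (1 - τ / 4) * (L : ℝ) ≤ (L : ℝ) - C0 := by linarith
    have h2 : 0 ≤ 1 - ε := by linarith
    have := mul_le_mul_of_nonneg_left h1 h2
    have := mul_le_mul_of_nonneg_right this hl2.le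
    linarith
  · rw [hD]
    have : ((ka * k' : ℕ) : ℝ) ^ 2 ≤ ((k * k' : ℕ) : ℝ) ^ 2 := by gcongr
    linarith
  · rw [hκ]
    have h1 : Real.log (M * cB * η) ≤ Real.log ((2 : ℝ) ^ (((k : ℝ) + 4) * χ * (m * L : ℕ) + Ck)) :=
      Real.log_le_log g10 g11
    rw [Real.log_rpow (by norm_num), hmL] at h1
    have h2 : (((k : ℝ) + 4) * χ * ((m : ℝ) * L) + Ck) * Real.log 2 ≤
        (((k : ℝ) + 4) * χ * ((m : ℝ) * L) + |Ck|) * Real.log 2 :=
      mul_le_mul_of_nonneg_right (by linarith [le_abs_self Ck]) hl2.le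
    linarith
  · have h1 : Real.log M ≤ Real.log ((2 : ℝ) ^ ((α + χ) * (m * L : ℕ))) :=
      Real.log_le_log (by linarith) hM
    rw [Real.log_rpow (by norm_num), hmL] at h1
    exact h1

/-- **block form** `n = m * L` (leaf SABC-BLOCK: glue of `sabc_config` + `sabc_core` + arithmetic).
`σ = min 1 (β+γ)`, `τ = min ((σ-α)/4) (σ/4)`, `ε = min (τ/8) (min (β/2) (γ/2))`, `τ1 = τ/2`, `R = ⌈8/τ1⌉₊ + 2`.
`(k,Ck,L0c)` from `sabc_config`, `(C0,L0k)` from `sabc_core`; `L ≥ max L0c L0k`, `L ≥ 4|C0|/τ + 1`; `k' = k0(L)`; `D = (k k')² + 2 k k' + 4kR/ε`;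
`χ = min χ0 (τ / (8 (1 + D (k+4))))`; `m ≥ m0`, `(R+3)/m ≤ τ/8`, `D |Ck| / (m L) ≤ τ/8`.
Assume `M ≤ 2^((α+χ)n)`.  Core with `Pt := Gs`, `w := lam / lam(Gs)`, `k := ka`:  `c1 #Y ≤ log M + Coef κ`, `Coef = (ka k')²+2 ka k' + c1 ka R/((εL/2) log 2) ∈ [0,D]`,
`κ ≤ ((k+4)χn + |Ck|) log 2`, `log M ≤ (α+χ) n log 2` (`M ≥ 1`), `c1 ≥ (1-ε)(1-τ/4) L log 2`, `#Y ≥ (σ-2ε-τ1) m - (R+3) ≥ 0`.
Divide by `n log 2`: `σ - 3ε - τ1 - τ/4 - τ/8 ≤ α + χ + D (k+4) χ + τ/8`, i.e. `4τ ≤ σ - α ≤ 2τ`: contradiction. -/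
theorem sabc_block (α β γ : ℝ) (hβ : 0 < β) (hβ1 : β ≤ 1) (hγ : 0 < γ) (hγ1 : γ ≤ 1) (hα : α < min 1 (β + γ)) :
    ∃ χ : ℝ, 0 < χ ∧ ∃ L : ℕ, 1 ≤ L ∧ ∃ m0 : ℕ, ∀ m, m0 ≤ m → SabcAt α β γ χ (m * L) := by
  obtain ⟨σ, hσ⟩ : ∃ σ, σ = min 1 (β + γ) := ⟨_, rfl⟩
  have hσ0 : 0 < σ := by rw [hσ]; exact lt_min one_pos (by linarith)
  have hσ1 : σ ≤ 1 := by rw [hσ]; exact min_le_left _ _
  have hασ : α < σ := by rw [hσ]; exact hα
  obtain ⟨τ, hτ⟩ : ∃ τ, τ = min ((σ - α) / 4) (σ / 4) := ⟨_, rfl⟩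
  have hτ0 : 0 < τ := by rw [hτ]; exact lt_min (by linarith) (by linarith)
  have hτa : 4 * τ ≤ σ - α := by
    have := min_le_left ((σ - α) / 4) (σ / 4)
    rw [← hτ] at this; linarith
  have hτs : 4 * τ ≤ σ := by
    have := min_le_right ((σ - α) / 4) (σ / 4)
    rw [← hτ] at this; linarith
  obtain ⟨ε, hε⟩ : ∃ ε, ε = min (τ / 8) (min (β / 2) (γ / 2)) := ⟨_, rfl⟩
  have hε0 : 0 < ε := by rw [hε]; exact lt_min (by linarith) (lt_min (by linarith) (by linarith))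
  have hε8 : ε ≤ τ / 8 := by rw [hε]; exact min_le_left _ _
  have hεβ : ε < β := by
    have : ε ≤ β / 2 := by rw [hε]; exact le_trans (min_le_right _ _) (min_le_left _ _)
    linarith
  have hεγ : ε < γ := by
    have : ε ≤ γ / 2 := by rw [hε]; exact le_trans (min_le_right _ _) (min_le_right _ _)
    linarith
  have hε1 : ε < 1 := by linarith
  obtain ⟨R, hR⟩ : ∃ R : ℕ, R = ⌈8 / (τ / 2)⌉₊ + 2 := ⟨_, rfl⟩
  have hR2 : 2 ≤ R := by omega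
  have hR8 : 8 / (τ / 2) + 2 ≤ (R : ℝ) := by
    rw [hR]; push_cast
    linarith [Nat.le_ceil (8 / (τ / 2))]
  obtain ⟨k, Ck, L0c, hcfg⟩ := sabc_config β γ ε (τ / 2) hε0 hεβ hεγ hβ1 hγ1 (by positivity) R hR8
  obtain ⟨C0, L0k, hcore⟩ := sabc_core ε hε0 hε1 R hR2
  obtain ⟨L, hL⟩ : ∃ L : ℕ, L = max (max L0c L0k) (⌈4 * |C0| / τ⌉₊ + 1) := ⟨_, rfl⟩
  have hLc : L0c ≤ L := by rw [hL]; exact le_trans (le_max_left _ _) (le_max_left _ _)
  have hLk : L0k ≤ L := by rw [hL]; exact le_trans (le_max_right _ _) (le_max_left _ _)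
  have hLx : ⌈4 * |C0| / τ⌉₊ + 1 ≤ L := by rw [hL]; exact le_max_right _ _
  have hL1 : 1 ≤ L := by omega
  have hLC : 4 * |C0| / τ ≤ (L : ℝ) := by
    have h1 : ((⌈4 * |C0| / τ⌉₊ : ℕ) : ℝ) ≤ (L : ℝ) := by exact_mod_cast (by omega : ⌈4 * |C0| / τ⌉₊ ≤ L)
    exact le_trans (Nat.le_ceil _) h1
  obtain ⟨χ0, hχ00, hcfg2⟩ := hcfg L hLc
  obtain ⟨k', hcore2⟩ := hcore L hLk
  have hcore3 := hcore2 k' le_rfl
  obtain ⟨D, hD⟩ : ∃ D : ℝ, D = ((k * k' : ℕ) : ℝ) ^ 2 + 2 * ((k * k' : ℕ) : ℝ) + 4 * k * R / ε := ⟨_, rfl⟩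
  have hD0 : 0 ≤ D := by rw [hD]; positivity
  have hden : 0 < 8 * (1 + D * ((k : ℝ) + 4)) := by positivity
  obtain ⟨χ, hχ⟩ : ∃ χ, χ = min χ0 (τ / (8 * (1 + D * ((k : ℝ) + 4)))) := ⟨_, rfl⟩
  have hχ0 : 0 < χ := by rw [hχ]; exact lt_min hχ00 (by positivity)
  have hχle : χ ≤ χ0 := by rw [hχ]; exact min_le_left _ _
  have hχD : χ * (1 + D * ((k : ℝ) + 4)) ≤ τ / 8 := by
    have h1 : χ ≤ τ / (8 * (1 + D * ((k : ℝ) + 4))) := by rw [hχ]; exact min_le_right _ _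
    rw [le_div_iff₀ hden] at h1
    linarith
  obtain ⟨m0c, hcfg3⟩ := hcfg2 χ hχ0 hχle
  refine ⟨χ, hχ0, L, hL1, max (max m0c 1) (max ⌈((R : ℝ) + 3) * 8 / τ⌉₊ ⌈D * |Ck| * 8 / τ⌉₊), ?_⟩
  intro m hm
  have hm0c : m0c ≤ m := le_trans (le_trans (le_max_left _ _) (le_max_left _ _)) hm
  have hm1 : 1 ≤ m := le_trans (le_trans (le_max_right _ _) (le_max_left _ _)) hm
  have hmR : (R : ℝ) + 3 ≤ τ / 8 * m := by
    have h1 : ⌈((R : ℝ) + 3) * 8 / τ⌉₊ ≤ m := le_trans (le_trans (le_max_left _ _) (le_max_right _ _)) hm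
    have h2 : ((R : ℝ) + 3) * 8 / τ ≤ m := le_trans (Nat.le_ceil _) (by exact_mod_cast h1)
    rw [div_le_iff₀ hτ0] at h2
    linarith
  have hLr : (1 : ℝ) ≤ L := by exact_mod_cast hL1
  have hmC : D * |Ck| ≤ τ / 8 * ((m : ℝ) * L) := by
    have h1 : ⌈D * |Ck| * 8 / τ⌉₊ ≤ m := le_trans (le_trans (le_max_right _ _) (le_max_right _ _)) hm
    have h2 : D * |Ck| * 8 / τ ≤ m := le_trans (Nat.le_ceil _) (by exact_mod_cast h1)
    rw [div_le_iff₀ hτ0] at h2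
    have h3 : (m : ℝ) * 1 ≤ (m : ℝ) * L := mul_le_mul_of_nonneg_left hLr (by positivity)
    have h4 : τ / 8 * ((m : ℝ) * 1) ≤ τ / 8 * ((m : ℝ) * L) := mul_le_mul_of_nonneg_left h3 (by positivity)
    linarith
  intro T _ _ Pt lam B μB ν c G M h1 h2 h3 h4 h5 h6 h7 h8 h9 h10 h11 h12 h13 h14 h15
  by_contra hM
  rw [not_lt] at hM
  have hyp : SabcHyp α β γ χ (m * L) Pt lam B μB ν c G M :=
    ⟨h1, h2, h3, h4, h5, h6, h7, h8, h9, h10, h11, h12, h13, h14, h15⟩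
  obtain ⟨B', NB, hU, ka, hka, c0, cc, z, Gs, η, g1, g2, g3, g4, g5, g6, g7, g8, g9, g10, g11, g12⟩ :=
    hcfg3 m hm0c α T Pt lam B μB ν c G M hyp hM
  have hw0 : ∀ p ∈ Gs, 0 ≤ (fun p => lam p / ∑ q ∈ Gs, lam q) p := fun p hp => div_nonneg (g1 p hp) g3.le
  have hw1 : ∑ p ∈ Gs, (fun p => lam p / ∑ q ∈ Gs, lam q) p = 1 := by
    simp only
    rw [← Finset.sum_div]
    exact div_self g3.ne'
  have hc := hcore3 ka m B' NB hU Gs (fun p => lam p / ∑ q ∈ Gs, lam q) η M hw0 hw1 g4 g2 c0 cc z g5 g6 g7 g8 g9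
  have hne : Gs.Nonempty := by
    rw [Finset.nonempty_iff_ne_empty]
    rintro rfl
    simp at g3
  have hM1 : 1 ≤ M := by
    refine le_trans ?_ g8
    have : 1 ≤ (Gs.image fun p => p.1 + ecb (m * L) c0 p.2).card := Finset.card_pos.mpr (hne.image _)
    exact_mod_cast this
  have hσ2 : σ - 2 * ε ≤ min 1 (β - ε + (γ - ε)) := by
    refine le_min (by linarith) ?_
    have : σ ≤ β + γ := by rw [hσ]; exact min_le_right _ _
    linarith
  have g12' : (σ - 2 * ε - τ / 2) * m - ((R : ℝ) + 3) ≤ ((flY ε L m R NB z).card : ℝ) := by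
    refine le_trans ?_ g12
    have : (σ - 2 * ε - τ / 2) * (m : ℝ) ≤ (min 1 (β - ε + (γ - ε)) - τ / 2) * m :=
      mul_le_mul_of_nonneg_right (by linarith) (by positivity)
    linarith
  exact sabc_block_aux σ α τ ε χ Ck C0 η M D k k' ka R L m B'.card (flY ε L m R NB z).card hL1 hm1 hτ0 hτa hτs hσ1
    hε0 hε8 hka hLC hD hχ0 hχD hmR hmC hM1 hM g10 g11 g12' hc

/-! ### helpers of SABC-ROUND (helper32), prefix `sabc_rd_` -/

/-- push-forward of a weight, restricted to a set of values -/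
theorem sabc_rd_push {ι κ : Type*} [DecidableEq κ] (s : Finset ι) (f : ι → κ) (w : ι → ℝ)
    (P : κ → Prop) [DecidablePred P] :
    ∑ y ∈ (s.image f).filter P, ∑ x ∈ s with f x = y, w x = ∑ x ∈ s with P (f x), w x := by
  rw [← Finset.sum_fiberwise_of_maps_to (s := s.filter (fun x => P (f x)))
    (t := (s.image f).filter P) (g := f) (f := w)]
  · refine Finset.sum_congr rfl fun y hy => ?_
    refine Finset.sum_congr ?_ fun _ _ => rfl
    ext x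
    simp only [mem_filter]
    constructor
    · rintro ⟨hx, rfl⟩
      exact ⟨⟨hx, (mem_filter.1 hy).2⟩, rfl⟩
    · rintro ⟨⟨hx, _⟩, h⟩
      exact ⟨hx, h⟩
  · intro x hx
    rw [mem_filter] at hx ⊢
    exact ⟨mem_image_of_mem f hx.1, hx.2⟩

theorem sabc_rd_push_all {ι κ : Type*} [DecidableEq κ] (s : Finset ι) (f : ι → κ) (w : ι → ℝ) :
    ∑ y ∈ s.image f, ∑ x ∈ s with f x = y, w x = ∑ x ∈ s, w x :=
  Finset.sum_fiberwise_of_maps_to (fun _ hx => mem_image_of_mem f hx) w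

/-- the arithmetic of the coarsening -/
theorem sabc_rd_arith (n' r : ℕ) (a : ℤ) (b c : ℕ) (hb : b < 2 ^ (n' + r)) (hc : c < 2 ^ (n' + r)) :
    ∃ j ∈ Finset.range 4, a / ((2 ^ r : ℕ) : ℤ) + ecb n' (c / 2 ^ r) (b / 2 ^ r)
      = (a + ecb (n' + r) c b) / ((2 ^ r : ℕ) : ℤ) - (j : ℤ) := by
  obtain ⟨D, hD⟩ : ∃ D : ℕ, D = 2 ^ r := ⟨_, rfl⟩
  obtain ⟨E, hE⟩ : ∃ E : ℕ, E = 2 ^ n' := ⟨_, rfl⟩
  have hDpos : 0 < D := by rw [hD]; positivity
  have hEpos : 0 < E := by rw [hE]; positivity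
  have hDE : 2 ^ (n' + r) = E * D := by rw [pow_add, hD, hE]
  unfold ecb
  rw [hDE] at hb hc ⊢
  rw [← hD, ← hE]
  obtain ⟨b', hb'⟩ : ∃ b', b' = b / D := ⟨_, rfl⟩
  obtain ⟨c', hc'⟩ : ∃ c', c' = c / D := ⟨_, rfl⟩
  rw [← hb', ← hc']
  have b1 : D * b' ≤ b := by rw [hb']; exact Nat.mul_div_le b D
  have b2 : b < D * (b' + 1) := by rw [hb']; exact Nat.lt_mul_div_succ b hDpos
  have c1 : D * c' ≤ c := by rw [hc']; exact Nat.mul_div_le c D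
  have c2 : c < D * (c' + 1) := by rw [hc']; exact Nat.lt_mul_div_succ c hDpos
  have b3 : b' < E := by rw [hb']; exact (Nat.div_lt_iff_lt_mul hDpos).2 hb
  have c3 : c' < E := by rw [hc']; exact (Nat.div_lt_iff_lt_mul hDpos).2 hc
  obtain ⟨q', hq'⟩ : ∃ q', q' = c' * b' / E := ⟨_, rfl⟩
  obtain ⟨q, hq⟩ : ∃ q, q = c * b / (E * D) := ⟨_, rfl⟩
  rw [← hq', ← hq]
  have q1 : E * q' ≤ c' * b' := by rw [hq']; exact Nat.mul_div_le _ E
  have q2 : c' * b' < E * (q' + 1) := by rw [hq']; exact Nat.lt_mul_div_succ _ hEpos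
  have hlow : D * q' ≤ q := by
    rw [hq, Nat.le_div_iff_mul_le (Nat.mul_pos hEpos hDpos)]
    calc D * q' * (E * D) = (D * D) * (E * q') := by ring
      _ ≤ (D * D) * (c' * b') := Nat.mul_le_mul_left _ q1
      _ = (D * c') * (D * b') := by ring
      _ ≤ c * b := Nat.mul_le_mul c1 b1
  have hup : q < D * (q' + 3) := by
    rw [hq, Nat.div_lt_iff_lt_mul (Nat.mul_pos hEpos hDpos)]
    calc c * b < (D * (c' + 1)) * (D * (b' + 1)) := Nat.mul_lt_mul'' c2 b2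
      _ = (D * D) * (c' * b' + (c' + b' + 1)) := by ring
      _ ≤ (D * D) * (E * (q' + 1) + 2 * E) := Nat.mul_le_mul_left _ (by omega)
      _ = D * (q' + 3) * (E * D) := by ring
  have hDz : (0 : ℤ) < (D : ℤ) := by exact_mod_cast hDpos
  obtain ⟨a', ha'⟩ : ∃ a' : ℤ, a' = a / (D : ℤ) := ⟨_, rfl⟩
  obtain ⟨σ, hσ⟩ : ∃ σ : ℤ, σ = (a + (q : ℤ)) / (D : ℤ) := ⟨_, rfl⟩
  rw [← ha', ← hσ]
  have a1 : (D : ℤ) * a' ≤ a := by rw [ha']; exact Int.mul_ediv_self_le hDz.ne'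
  have a2 : a < (D : ℤ) * (a' + 1) := by
    rw [ha']
    have := Int.lt_ediv_add_one_mul_self a hDz
    linarith
  have s1 : (D : ℤ) * σ ≤ a + q := by rw [hσ]; exact Int.mul_ediv_self_le hDz.ne'
  have s2 : a + q < (D : ℤ) * (σ + 1) := by
    rw [hσ]
    have := Int.lt_ediv_add_one_mul_self (a + (q : ℤ)) hDz
    linarith
  have hlow' : (D : ℤ) * q' ≤ q := by exact_mod_cast hlow
  have hup' : (q : ℤ) < (D : ℤ) * (q' + 3) := by exact_mod_cast hup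
  have t1 : a' + q' < σ + 1 := by
    by_contra hcon
    push Not at hcon
    nlinarith
  have t2 : σ < a' + q' + 4 := by
    by_contra hcon
    push Not at hcon
    nlinarith
  refine ⟨(σ - (a' + q')).toNat, ?_, ?_⟩
  · rw [Finset.mem_range]; omega
  · rw [Int.toNat_of_nonneg (by omega)]; ring

/-- one step of coarsening: from scale `n'` to scale `n' + r` -/
theorem sabc_rd_core (α β γ χ : ℝ) (hχ : 0 < χ) (n' r : ℕ)
    (h1 : (r : ℝ) * (1 - α + χ) ≤ χ * ((n' : ℝ) + r) / 2) (h2 : (r : ℝ) ≤ n')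
    (h3 : (α + χ) * r + 2 ≤ χ * ((n' : ℝ) + r) / 2)
    (h : SabcAt α β γ χ n') : SabcAt α β γ (χ / 2) (n' + r) := by
  unfold SabcAt at h ⊢
  intro T _ _ Pt lam B μB ν c G M hlam hμ hν slam sμ sν hPB hBn hcn hdom hFB hFν hG hmass hM
  obtain ⟨D, hD⟩ : ∃ D : ℕ, D = 2 ^ r := ⟨_, rfl⟩
  have hDpos : 0 < D := by rw [hD]; positivity
  have hDz : (0 : ℤ) < (D : ℤ) := by exact_mod_cast hDpos
  have hpow : 2 ^ (n' + r) = 2 ^ n' * D := by rw [pow_add, hD]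
  obtain ⟨φ, hφ⟩ : ∃ φ : ℤ × ℕ → ℤ × ℕ, ∀ p, φ p = (p.1 / (D : ℤ), p.2 / D) := ⟨_, fun _ => rfl⟩
  obtain ⟨lam', hlam'⟩ : ∃ lam' : ℤ × ℕ → ℝ, ∀ p', lam' p' = ∑ p ∈ Pt with φ p = p', lam p :=
    ⟨_, fun _ => rfl⟩
  obtain ⟨μB', hμB'⟩ : ∃ μB' : ℕ → ℝ, ∀ b', μB' b' = ∑ b ∈ B with b / D = b', μB b :=
    ⟨_, fun _ => rfl⟩
  have two1 : (1 : ℝ) ≤ 2 := by norm_num
  have key := h T (Pt.image φ) lam' (B.image (fun b => b / D)) μB' ν (fun t => c t / D)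
    (G.image fun g => (φ g.1, g.2)) (4 * M)
  have H1 : ∀ p ∈ Pt.image φ, 0 ≤ lam' p := by
    intro p _
    rw [hlam']
    exact Finset.sum_nonneg fun q hq => hlam q (mem_filter.1 hq).1
  have H2' : ∀ b', 0 ≤ μB' b' := by
    intro b'
    rw [hμB']
    exact Finset.sum_nonneg fun q hq => hμ q (mem_filter.1 hq).1
  have H4 : ∑ p ∈ Pt.image φ, lam' p ≤ 1 := by
    simp only [hlam']
    rw [sabc_rd_push_all]
    exact slam
  have H5 : ∑ b ∈ B.image (fun b => b / D), μB' b ≤ 1 := by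
    simp only [hμB']
    rw [sabc_rd_push_all B (fun b => b / D) μB]
    exact sμ
  have H7 : ∀ p ∈ Pt.image φ, p.2 ∈ B.image (fun b => b / D) := by
    intro p hp
    obtain ⟨q, hq, rfl⟩ := mem_image.1 hp
    rw [hφ]
    exact mem_image.2 ⟨q.2, hPB q hq, rfl⟩
  have H8 : ∀ b ∈ B.image (fun b => b / D), b < 2 ^ n' := by
    intro b hb
    obtain ⟨q, hq, rfl⟩ := mem_image.1 hb
    have := hBn q hq
    rw [hpow] at this
    exact (Nat.div_lt_iff_lt_mul hDpos).2 this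
  have H9 : ∀ t, c t / D < 2 ^ n' := by
    intro t
    have := hcn t
    rw [hpow] at this
    exact (Nat.div_lt_iff_lt_mul hDpos).2 this
  have H10 : ∀ p ∈ Pt.image φ, lam' p ≤ (2 : ℝ) ^ (-((α - χ) * n')) * μB' p.2 := by
    intro p' _
    obtain ⟨Cc, hCc⟩ : ∃ Cc : ℝ, Cc = (2 : ℝ) ^ (-((α - χ / 2) * ((n' + r : ℕ) : ℝ))) := ⟨_, rfl⟩
    have hCc0 : 0 ≤ Cc := by rw [hCc]; positivity
    have e1 : lam' p' ≤ ∑ p ∈ Pt with φ p = p', Cc * μB p.2 := by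
      rw [hlam']
      refine Finset.sum_le_sum fun p hp => ?_
      rw [hCc]
      exact hdom p (mem_filter.1 hp).1
    have e2 : ∑ p ∈ Pt with φ p = p', Cc * μB p.2
        ≤ ∑ p ∈ Finset.Ico ((D : ℤ) * p'.1) ((D : ℤ) * p'.1 + D) ×ˢ (B.filter fun b => b / D = p'.2),
            Cc * μB p.2 := by
      refine Finset.sum_le_sum_of_subset_of_nonneg ?_ ?_
      · intro p hp
        rw [mem_filter, hφ] at hp
        obtain ⟨hpP, hpe⟩ := hp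
        have g1 : p.1 / (D : ℤ) = p'.1 := (Prod.ext_iff.1 hpe).1
        have g2 : p.2 / D = p'.2 := (Prod.ext_iff.1 hpe).2
        rw [mem_product, Finset.mem_Ico, mem_filter]
        refine ⟨⟨?_, ?_⟩, hPB p hpP, g2⟩
        · rw [← g1]; exact Int.mul_ediv_self_le hDz.ne'
        · rw [← g1]
          have := Int.lt_ediv_add_one_mul_self p.1 hDz
          linarith
      · intro p hp _
        rw [mem_product, mem_filter] at hp
        exact mul_nonneg hCc0 (hμ p.2 hp.2.1)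
    have e3 : ∑ p ∈ Finset.Ico ((D : ℤ) * p'.1) ((D : ℤ) * p'.1 + D) ×ˢ (B.filter fun b => b / D = p'.2),
            Cc * μB p.2 = (D : ℝ) * Cc * μB' p'.2 := by
      rw [Finset.sum_product, hμB']
      simp only [Finset.sum_const, Int.card_Ico, add_sub_cancel_left, Int.toNat_natCast, nsmul_eq_mul]
      rw [← Finset.mul_sum]
      ring
    have e4 : (D : ℝ) * Cc ≤ (2 : ℝ) ^ (-((α - χ) * n')) := by
      have hDr : (D : ℝ) = (2 : ℝ) ^ (r : ℝ) := by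
        rw [hD]; push_cast; rw [Real.rpow_natCast]
      rw [hDr, hCc, ← Real.rpow_add (by norm_num : (0 : ℝ) < 2)]
      refine Real.rpow_le_rpow_of_exponent_le two1 ?_
      push_cast
      nlinarith
    calc lam' p' ≤ (D : ℝ) * Cc * μB' p'.2 := e1.trans (e2.trans e3.le)
      _ ≤ (2 : ℝ) ^ (-((α - χ) * n')) * μB' p'.2 := mul_le_mul_of_nonneg_right e4 (H2' _)
  have hdiv : ∀ (x l : ℕ), l ≤ n' → x / D / 2 ^ (n' - l) = x / 2 ^ (n' + r - l) := by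
    intro x l hl
    rw [Nat.div_div_eq_div_mul, hD, ← pow_add]
    congr 2
    omega
  have hexp : ∀ (θ : ℝ) (l : ℕ), (2 : ℝ) ^ (χ / 2 * ((n' + r : ℕ) : ℝ) - θ * l) ≤ (2 : ℝ) ^ (χ * n' - θ * l) := by
    intro θ l
    refine Real.rpow_le_rpow_of_exponent_le two1 ?_
    push_cast
    nlinarith
  have H11 : ∀ l, l ≤ n' → ∀ j, ∑ b ∈ B.image (fun b => b / D) with b / 2 ^ (n' - l) = j, μB' b
      ≤ (2 : ℝ) ^ (χ * n' - β * l) := by
    intro l hl j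
    simp only [hμB']
    rw [sabc_rd_push B (fun b => b / D) μB (fun b' => b' / 2 ^ (n' - l) = j)]
    simp only [hdiv _ l hl]
    exact (hFB l (by omega) j).trans (hexp β l)
  have H12 : ∀ l, l ≤ n' → ∀ j, ∑ t with c t / D / 2 ^ (n' - l) = j, ν t ≤ (2 : ℝ) ^ (χ * n' - γ * l) := by
    intro l hl j
    simp only [hdiv _ l hl]
    exact (hFν l (by omega) j).trans (hexp γ l)
  have H13 : (G.image fun g => (φ g.1, g.2)) ⊆ Pt.image φ ×ˢ univ := by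
    intro g' hg'
    obtain ⟨g, hg, rfl⟩ := mem_image.1 hg'
    rw [mem_product]
    exact ⟨mem_image_of_mem φ (mem_product.1 (hG hg)).1, mem_univ _⟩
  have H14 : (2 : ℝ) ^ (-(χ * n')) ≤ ∑ g ∈ G.image fun g => (φ g.1, g.2), lam' g.1 * ν g.2 := by
    have f1 : (2 : ℝ) ^ (-(χ * n')) ≤ (2 : ℝ) ^ (-(χ / 2 * ((n' + r : ℕ) : ℝ))) := by
      refine Real.rpow_le_rpow_of_exponent_le two1 ?_
      push_cast
      nlinarith
    refine f1.trans (hmass.trans ?_)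
    rw [← sabc_rd_push_all G (fun g => (φ g.1, g.2)) (fun g => lam g.1 * ν g.2)]
    refine Finset.sum_le_sum fun g' _ => ?_
    rw [hlam', Finset.sum_mul]
    have inj : Set.InjOn (fun g : (ℤ × ℕ) × T => g.1)
        (G.filter fun g => (φ g.1, g.2) = g' : Finset ((ℤ × ℕ) × T)) := by
      intro x hx y hy hxy
      rw [Finset.mem_coe, mem_filter] at hx hy
      have k1 : x.2 = g'.2 := (Prod.ext_iff.1 hx.2).2
      have k2 : y.2 = g'.2 := (Prod.ext_iff.1 hy.2).2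
      exact Prod.ext hxy (k1.trans k2.symm)
    have f2 : ∑ g ∈ G with (φ g.1, g.2) = g', lam g.1 * ν g.2
        = ∑ p ∈ (G.filter fun g => (φ g.1, g.2) = g').image (fun g => g.1), lam p * ν g'.2 := by
      rw [Finset.sum_image inj]
      refine Finset.sum_congr rfl fun g hg => ?_
      have k1 : g.2 = g'.2 := (Prod.ext_iff.1 (mem_filter.1 hg).2).2
      rw [k1]
    rw [f2]
    refine Finset.sum_le_sum_of_subset_of_nonneg ?_ ?_
    · intro p hp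
      obtain ⟨g, hg, rfl⟩ := mem_image.1 hp
      rw [mem_filter] at hg ⊢
      exact ⟨(mem_product.1 (hG hg.1)).1, (Prod.ext_iff.1 hg.2).1⟩
    · intro p hp _
      exact mul_nonneg (hlam p (mem_filter.1 hp).1) (hν _)
  have H15 : ∀ t, (((((G.image fun g => (φ g.1, g.2)).filter fun g => g.2 = t).image
      fun g => g.1.1 + ecb n' (c t / D) g.1.2).card : ℕ) : ℝ) ≤ 4 * M := by
    intro t
    obtain ⟨Old, hOld⟩ : ∃ Old : Finset ℤ,
        Old = (G.filter fun g => g.2 = t).image fun g => g.1.1 + ecb (n' + r) (c t) g.1.2 := ⟨_, rfl⟩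
    have hsub : (((G.image fun g => (φ g.1, g.2)).filter fun g => g.2 = t).image
        fun g => g.1.1 + ecb n' (c t / D) g.1.2)
        ⊆ (Finset.range 4).biUnion fun j => Old.image fun s => s / (D : ℤ) - (j : ℤ) := by
      intro s' hs'
      obtain ⟨g', hg', rfl⟩ := mem_image.1 hs'
      rw [mem_filter] at hg'
      obtain ⟨hg'G, hg't⟩ := hg'
      obtain ⟨g, hg, rfl⟩ := mem_image.1 hg'G
      have hgP := (mem_product.1 (hG hg)).1
      obtain ⟨j, hj, hjeq⟩ := sabc_rd_arith n' r g.1.1 g.1.2 (c t) (hBn _ (hPB _ hgP)) (hcn t)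
      rw [mem_biUnion]
      refine ⟨j, hj, mem_image.2 ⟨g.1.1 + ecb (n' + r) (c t) g.1.2, ?_, ?_⟩⟩
      · rw [hOld]
        exact mem_image.2 ⟨g, mem_filter.2 ⟨hg, hg't⟩, rfl⟩
      · rw [← hD] at hjeq
        simp only [hφ]
        exact hjeq.symm
    have hcard : (((G.image fun g => (φ g.1, g.2)).filter fun g => g.2 = t).image
        fun g => g.1.1 + ecb n' (c t / D) g.1.2).card ≤ 4 * Old.card := by
      refine (Finset.card_le_card hsub).trans (Finset.card_biUnion_le.trans ?_)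
      calc ∑ j ∈ Finset.range 4, (Old.image fun s => s / (D : ℤ) - (j : ℤ)).card
          ≤ ∑ _j ∈ Finset.range 4, Old.card := Finset.sum_le_sum fun j _ => Finset.card_image_le
        _ = 4 * Old.card := by simp
    have hOldM : (Old.card : ℝ) ≤ M := by rw [hOld]; exact hM t
    calc ((((((G.image fun g => (φ g.1, g.2)).filter fun g => g.2 = t).image
        fun g => g.1.1 + ecb n' (c t / D) g.1.2).card : ℕ)) : ℝ) ≤ ((4 * Old.card : ℕ) : ℝ) := by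
          exact_mod_cast hcard
      _ = 4 * (Old.card : ℝ) := by push_cast; ring
      _ ≤ 4 * M := by linarith
  have hfin := key H1 (fun b _ => H2' b) hν H4 H5 sν H7 H8 H9 H10 H11 H12 H13 H14 H15
  have g1 : (2 : ℝ) ^ ((α + χ / 2) * ((n' + r : ℕ) : ℝ)) ≤ (2 : ℝ) ^ ((α + χ) * n' - 2) := by
    refine Real.rpow_le_rpow_of_exponent_le two1 ?_
    push_cast
    nlinarith
  have g2 : (2 : ℝ) ^ ((α + χ) * n' - 2) = (2 : ℝ) ^ ((α + χ) * n') / 4 := by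
    rw [Real.rpow_sub (by norm_num : (0 : ℝ) < 2)]
    norm_num
  rw [g2] at g1
  linarith

/-- **rounding** from multiples of `L` to all `n` (leaf SABC-ROUND).
`n = m L + r`, `r < L`: push everything forward under `a ↦ ⌊a/2^r⌋`, `b ↦ b/2^r`, `c ↦ c/2^r`.  Dyadic cells of level `l ≤ mL` are unchanged;
`lam` gains a factor `2^r`; the new image lies in `{⌊s/2^r⌋ + j : s ∈ old image, |j| ≤ 5}`, so `M' ≤ 11 M`. -/
theorem sabc_round (α β γ χ : ℝ) (hχ : 0 < χ) (L : ℕ) (hL : 1 ≤ L) (m0 : ℕ)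
    (h : ∀ m, m0 ≤ m → SabcAt α β γ χ (m * L)) :
    ∃ n0 : ℕ, ∀ n, n0 ≤ n → SabcAt α β γ (χ / 2) n := by
  obtain ⟨K, hK⟩ : ∃ K : ℝ, K = L * (1 + |α| + χ) + 2 := ⟨_, rfl⟩
  refine ⟨max (m0 * L) (max (2 * L) ⌈2 * K / χ⌉₊), fun n hn => ?_⟩
  have hn1 : m0 * L ≤ n := (le_max_left _ _).trans hn
  have hn2 : 2 * L ≤ n := ((le_max_left _ _).trans (le_max_right _ _)).trans hn
  have hn3 : ⌈2 * K / χ⌉₊ ≤ n := ((le_max_right _ _).trans (le_max_right _ _)).trans hn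
  have hLpos : 0 < L := hL
  obtain ⟨m, hm⟩ : ∃ m, m = n / L := ⟨_, rfl⟩
  obtain ⟨r, hr⟩ : ∃ r, r = n % L := ⟨_, rfl⟩
  have hnr : n = m * L + r := by rw [hm, hr]; exact (Nat.div_add_mod' n L).symm
  have hrL : r < L := by rw [hr]; exact Nat.mod_lt n hLpos
  have hm0 : m0 ≤ m := by rw [hm]; exact (Nat.le_div_iff_mul_le hLpos).2 hn1
  have hKn : K ≤ χ * (n : ℝ) / 2 := by
    have := (Nat.ceil_le.1 hn3)
    rw [div_le_iff₀ hχ] at this
    linarith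
  have hcast : (n : ℝ) = ((m * L : ℕ) : ℝ) + r := by rw [hnr]; push_cast; ring
  have hr0 : (0 : ℝ) ≤ r := Nat.cast_nonneg _
  have hrL' : (r : ℝ) ≤ L := by exact_mod_cast hrL.le
  have ha1 := le_abs_self α
  have ha2 := neg_abs_le α
  have ha0 := abs_nonneg α
  rw [hnr]
  refine sabc_rd_core α β γ χ hχ (m * L) r ?_ ?_ ?_ (h m hm0)
  · rw [← hcast]
    refine le_trans ?_ hKn
    rw [hK]
    nlinarith
  · have : r ≤ m * L := by omega
    exact_mod_cast this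
  · rw [← hcast]
    refine le_trans ?_ hKn
    rw [hK]
    nlinarith

/-- **STRONG ABC at the sharp threshold**, integer form, all large `n`. -/
theorem sabc_main (α β γ : ℝ) (hβ : 0 < β) (hβ1 : β ≤ 1) (hγ : 0 < γ) (hγ1 : γ ≤ 1) (hα : α < min 1 (β + γ)) :
    ∃ χ : ℝ, 0 < χ ∧ ∃ n0 : ℕ, ∀ n, n0 ≤ n → SabcAt α β γ χ n := by
  obtain ⟨χ, hχ, L, hL, m0, h⟩ := sabc_block α β γ hβ hβ1 hγ hγ1 hα
  obtain ⟨n0, hn0⟩ := sabc_round α β γ χ hχ L hL m0 h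
  exact ⟨χ / 2, by positivity, n0, hn0⟩

end Claimed.Agent.RW
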