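import Mathlib

/-!
# Team RW, unit TUPLE, leaf TP-NUM (Mathlib only; numerics).
`θ = 2^(-(εL/2))`, `A = θ 2^(εL)/12 = 2^(εL/2)/12`.
Choose `χ1 = ε ε5/12` and `L0` so large that for `L ≥ L0`:  `εL ≥ 16`  (so `2^(εL) ≥ 4`, and `2^(εL/4) ≥ 16 ≥ 12`, hence `A ≥ 2^(εL/4) > 1`,
`log A ≥ (εL/4) log 2`),  `2θ ≤ ε5/3`  (`2^(-(εL/2)) ≤ 1/(εL/2 · log 2 ..)`, or simply `2^x ≥ x` so `θ ≤ 2/(εL)`),  `(1+log 2)/((εL/4) log 2) ≤ ε5/3`.
Then with `log (2/ρ0) = log 2 - log ρ0 ≤ log 2 + χ1 m L log 2` and `m ≥ 1`: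
`(log (2/ρ0) + m)/log A ≤ m (1 + log 2)/((εL/4) log 2) + 4 χ1 m/ε ≤ (ε5/3) m + (ε5/3) m`.
-/

set_option autoImplicit false

namespace Claimed.Agent.RW

theorem tp_num (ε ε5 : ℝ) (hε : 0 < ε) (hε5 : 0 < ε5) :
    ∃ L0 : ℕ, ∃ χ1 : ℝ, 0 < χ1 ∧ ∀ L : ℕ, L0 ≤ L →
      (4 : ℝ) ≤ (2 : ℝ) ^ (ε * L) ∧ 1 < (2 : ℝ) ^ (-(ε * L / 2)) * (2 : ℝ) ^ (ε * L) / 12 ∧
      ∀ (m : ℕ) (ρ0 : ℝ), 1 ≤ m → (2 : ℝ) ^ (-(χ1 * (m * L : ℕ))) ≤ ρ0 →
        2 * (2 : ℝ) ^ (-(ε * L / 2)) * m +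
          (Real.log (2 / ρ0) + m) / Real.log ((2 : ℝ) ^ (-(ε * L / 2)) * (2 : ℝ) ^ (ε * L) / 12) ≤ ε5 * m := by
  refine ⟨⌈(16 + 48 / ε5) / ε⌉₊, ε * ε5 / 12, by positivity, ?_⟩
  intro L hL
  have hLR : (16 + 48 / ε5) / ε ≤ (L : ℝ) := (Nat.le_ceil _).trans (by exact_mod_cast hL)
  obtain ⟨y, hy⟩ : ∃ y : ℝ, y = ε * L := ⟨_, rfl⟩
  have hy0 : 16 + 48 / ε5 ≤ y := by
    rw [hy]
    rw [div_le_iff₀ hε] at hLR
    linarith
  have h48 : 0 < 48 / ε5 := by positivity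
  have hy16 : 16 ≤ y := by linarith
  have hy48 : 48 ≤ y * ε5 := by
    have : 48 / ε5 ≤ y := by linarith
    rwa [div_le_iff₀ hε5] at this
  have hypos : 0 < y := by linarith
  have hLpos : (0 : ℝ) < L := by
    by_contra hneg
    have : (L : ℝ) = 0 := le_antisymm (not_lt.1 hneg) (Nat.cast_nonneg _)
    rw [this, mul_zero] at hy
    linarith
  have ha1 : (1 / 2 : ℝ) < Real.log 2 := by
    have := Real.log_two_gt_d9
    linarith
  have ha2 : Real.log 2 < 1 := by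
    have := Real.log_two_lt_d9
    linarith
  rw [← hy]
  obtain ⟨a2, ha2def⟩ : ∃ a2 : ℝ, a2 = Real.log 2 := ⟨_, rfl⟩
  rw [← ha2def] at ha1 ha2
  -- `θ 2^y = 2^(y/2)`
  have eA : (2 : ℝ) ^ (-(y / 2)) * (2 : ℝ) ^ y = (2 : ℝ) ^ (y / 2) := by
    rw [← Real.rpow_add (by norm_num)]
    congr 1
    ring
  have h256 : (256 : ℝ) ≤ (2 : ℝ) ^ (y / 2) := by
    have h1 : (2 : ℝ) ^ ((8 : ℕ) : ℝ) ≤ (2 : ℝ) ^ (y / 2) :=
      Real.rpow_le_rpow_of_exponent_le (by norm_num) (by push_cast; linarith)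
    rw [Real.rpow_natCast] at h1
    norm_num at h1
    exact h1
  have h4 : (4 : ℝ) ≤ (2 : ℝ) ^ y := by
    have h1 : (2 : ℝ) ^ ((2 : ℕ) : ℝ) ≤ (2 : ℝ) ^ y :=
      Real.rpow_le_rpow_of_exponent_le (by norm_num) (by push_cast; linarith)
    rw [Real.rpow_natCast] at h1
    norm_num at h1
    exact h1
  refine ⟨h4, ?_, ?_⟩
  · rw [eA, lt_div_iff₀ (by norm_num)]
    linarith
  intro m ρ0 hm hρ
  have hmR : (1 : ℝ) ≤ m := by exact_mod_cast hm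
  rw [eA]
  -- `θ ≤ 4 / y`
  have hθ : (2 : ℝ) ^ (-(y / 2)) ≤ 4 / y := by
    rw [Real.rpow_neg (by norm_num)]
    have h1 : y / 4 ≤ (2 : ℝ) ^ (y / 2) := by
      rw [Real.rpow_def_of_pos (by norm_num), ← ha2def]
      have h2 := Real.add_one_le_exp (a2 * (y / 2))
      nlinarith
    have h3 : ((2 : ℝ) ^ (y / 2))⁻¹ ≤ (y / 4)⁻¹ := inv_anti₀ (by positivity) h1
    refine h3.trans (le_of_eq ?_)
    field_simp
  -- `log A ≥ (y/4) log 2`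
  have hlogA : y / 4 * a2 ≤ Real.log ((2 : ℝ) ^ (y / 2) / 12) := by
    rw [Real.log_div (by positivity) (by norm_num), Real.log_rpow (by norm_num), ← ha2def]
    have h12 : Real.log 12 ≤ 4 * a2 := by
      have h1 : Real.log 12 ≤ Real.log ((2 : ℝ) ^ (4 : ℕ)) :=
        Real.log_le_log (by norm_num) (by norm_num)
      rw [Real.log_pow, ← ha2def] at h1
      push_cast at h1
      exact h1
    nlinarith
  have hD : 0 < y / 4 * a2 := by positivity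
  -- `log (2/ρ0)`
  have hρpos : 0 < ρ0 := lt_of_lt_of_le (by positivity) hρ
  have hlogρ : Real.log (2 / ρ0) ≤ a2 + ε * ε5 / 12 * (m * L) * a2 := by
    rw [Real.log_div (by norm_num) hρpos.ne', ← ha2def]
    have h1 := Real.log_le_log (by positivity) hρ
    rw [Real.log_rpow (by norm_num), ← ha2def] at h1
    push_cast at h1
    linarith
  have hnum0 : 0 ≤ a2 + ε * ε5 / 12 * (m * L) * a2 + m := by positivity
  have hdiv : (Real.log (2 / ρ0) + m) / Real.log ((2 : ℝ) ^ (y / 2) / 12)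
      ≤ (a2 + ε * ε5 / 12 * (m * L) * a2 + m) / (y / 4 * a2) :=
    div_le_div₀ hnum0 (by linarith) hD hlogA
  have hsplit : (a2 + ε * ε5 / 12 * (m * L) * a2 + m) / (y / 4 * a2) = 4 * (a2 + m) / (y * a2) + ε5 * m / 3 := by
    rw [hy]
    field_simp
    ring
  have h16 : 4 * (a2 + m) / (y * a2) ≤ 16 * m / y := by
    rw [div_le_div_iff₀ (by positivity) hypos]
    have h1 : a2 + m ≤ 2 * m := by linarith
    have h2 : 0 < (m : ℝ) := by linarith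
    have h3 : 4 * (a2 + m) ≤ 16 * m * a2 := by nlinarith
    calc 4 * (a2 + m) * y ≤ 16 * m * a2 * y := mul_le_mul_of_nonneg_right h3 hypos.le
      _ = 16 * m * (y * a2) := by ring
  have h8 : 2 * (2 : ℝ) ^ (-(y / 2)) * m ≤ 8 * m / y := by
    calc 2 * (2 : ℝ) ^ (-(y / 2)) * m ≤ 2 * (4 / y) * m := by gcongr
      _ = 8 * m / y := by ring
  have h24 : 8 * m / y + 16 * m / y ≤ ε5 * m / 2 := by
    rw [← add_div, div_le_iff₀ hypos]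
    have h2 : 0 < (m : ℝ) := by linarith
    nlinarith
  have hfin : 0 ≤ ε5 * m := by positivity
  linarith

end Claimed.Agent.RW
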