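import Claimed.Agent.RW.TupGlue
import Claimed.Agent.RW.TupNum

/-!
# Team RW.  Unit TUPLE: one base tag `t0` and tags in annuli of PRESCRIBED scales around it, with a common dense fibre.
(interface statement by helper142; owner helper37).   Source: notes sabc_chain.md 5.2.
CHANGE (helper37): hypothesis `0 < ∑ t ∈ T', ν t` added (without it the statement is false: `ν = 0`, `G = ∅`, `Z0 = ∅`).
`Ann` now lives in `TupDefs.lean`, `ann_dist` in `TupCell.lean`.  The proof actually formalised (simpler constants) is in the header of `TupDefs.lean`.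

Setting.  Tags `T' ⊆ T` with slopes `c t < 2^n`, `n = m*L`; the slopes form a uniform tree (branching `Mb`), slope fibres have `ν`-masses within a factor 2.
Points: any finite weighted set `(Pt, w)`; `G ⊆ Pt × T'` with `(w × ν)(G) ≥ ρ0 w(Pt) ν(T')`.  `Zhi = hiSet ε L m Mb`.
CLAIM: there is `Z ⊆ Zhi` losing `≤ ε4 m` levels such that for EVERY `Z0 ⊆ Z` with `≤ k` elements there are `t0` and `τ z ∈ Ann_z(t0)` (`z ∈ Z0`) with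
`w{π : (π,t0) ∈ G and (π,τ z) ∈ G for all z ∈ Z0} ≥ (ρ0/(100(k+1)))^(k+1) w(Pt)`.

PROOF.  For a point `π` let `C = C_π = {t : (π,t) ∈ G}`, `ρ = ν(C)/ν(T')`.  For `t0 ∈ C`, `ρ_l(t0)` = relative `ν`-density of `C` in the level-`l` node of `c t0`.
With `t0 ~ ν` restricted to `C`:
 (i)   `P(ρ_z(t0) < λ ρ) ≤ 2λ`;
 (ii)  `E[ρ_l/ρ_{l+1}] ≤ 2`, hence `E ∑_l (log₂ ρ_l/ρ_{l+1})^+ ≤ 3m`;
 (iii) `P(own child carries less C-mass than θ × a neighbouring child) ≤ 2θ` per level, `θ = 2^(-εL/2)`.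
 `z` is BAD for `t0` if `C` has less than half of its level-`z`-node mass in `Ann_z(t0)`.  Bad and (iii) ok ⟹ `ρ_{z+1} ≥ (θ/12) Mb_z ρ_z`.
 Telescoping `∑_l log₂(ρ_{l+1}/ρ_l) = log₂(1/ρ)` with (ii):  `E #{bad z ∈ Zhi} ≤ (log₂(1/ρ)+3m)/(εL/2-4) + 2θm =: ε3 m`.
 `Z := {z ∈ Zhi : P(z bad) ≤ √ε3}`, probability over `π ~ w(π) ρ(π) 1[ρ(π) ≥ ρ0/2]`, `t0 ~ C_π`.   `#(Zhi \ Z) ≤ √ε3 m`.
 Good `z`: `ν(C ∩ Ann_z(t0))/ν(Ann_z(t0)) ≥ ρ_z(t0)/4`.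
 Fubini: the average over `t0 ~ ν`, `τ z ~ ν|Ann_z(t0)` of `w(common fibre)` is `∑_π w(π) ∑_{t0 ∈ C_π} ν(t0) ∏_z ν_{Ann_z(t0)}(C_π)`
 `≥ (ρ0/2) w(Pt) (1 - k√ε3 - 2kλ) (λ ρ0/8)^k`, `λ = 1/(8k)`.   Need `k√ε3 ≤ 1/4` and `√ε3 ≤ ε4`: `L ≥ L0(ε,ε4,k)`, `log₂(1/ρ0) ≤ χ1 n`.
-/

set_option autoImplicit false

open Finset

namespace Claimed.Agent.RW

theorem tuple_main (ε ε4 : ℝ) (hε : 0 < ε) (hε4 : 0 < ε4) (k : ℕ) :
    ∃ L0 : ℕ, ∃ χ1 : ℝ, 0 < χ1 ∧ ∀ L, L0 ≤ L → ∀ (m : ℕ) (T : Type) [Fintype T] [DecidableEq T]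
      (Q : Type) [DecidableEq Q] (ν : T → ℝ) (c : T → ℕ) (T' : Finset T) (Mb : ℕ → ℕ)
      (Pt : Finset Q) (w : Q → ℝ) (G : Finset (Q × T)) (ρ0 : ℝ),
      (∀ t, 0 ≤ ν t) → (∀ q ∈ Pt, 0 ≤ w q) →
      UTree (m * L) L m (T'.image c) Mb →
      (∀ t ∈ T', ∀ t' ∈ T', (∑ x ∈ T' with c x = c t, ν x) ≤ 2 * ∑ x ∈ T' with c x = c t', ν x) →
      0 < ∑ t ∈ T', ν t →
      G ⊆ Pt ×ˢ T' → (2 : ℝ) ^ (-(χ1 * (m * L : ℕ))) ≤ ρ0 →
      ρ0 * (∑ q ∈ Pt, w q) * (∑ t ∈ T', ν t) ≤ ∑ g ∈ G, w g.1 * ν g.2 →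
      ∃ Z : Finset ℕ, Z ⊆ hiSet ε L m Mb ∧ ((hiSet ε L m Mb \ Z).card : ℝ) ≤ ε4 * m ∧
        ∀ Z0 : Finset ℕ, Z0 ⊆ Z → Z0.card ≤ k →
          ∃ t0 ∈ T', ∃ τ : ℕ → T, (∀ z ∈ Z0, τ z ∈ T' ∧ Ann (m * L) L z (c t0) (c (τ z))) ∧
            (ρ0 / (100 * ((k : ℝ) + 1))) ^ (k + 1) * (∑ q ∈ Pt, w q) ≤
              ∑ q ∈ Pt with ((q, t0) ∈ G ∧ ∀ z ∈ Z0, (q, τ z) ∈ G), w q := by
  classical
  have hk1 : (0 : ℝ) < (k : ℝ) + 1 := by positivity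
  obtain ⟨L0, χ1, hχ1, hnum⟩ := tp_num ε (1 / (8 * ((k : ℝ) + 1)) * ε4) hε (by positivity)
  refine ⟨L0, χ1, hχ1, fun L hL m T _ _ Q _ ν c T' Mb Pt w G ρ0 hν hw hU hbal hpos hG hρ hmass => ?_⟩
  obtain ⟨h4, hA, hE⟩ := hnum L hL
  have hρ0 : 0 < ρ0 := lt_of_lt_of_le (by positivity) hρ
  have hθ0 : (0 : ℝ) < (2 : ℝ) ^ (-(ε * L / 2)) := by positivity
  have hθ1 : (2 : ℝ) ^ (-(ε * L / 2)) ≤ 1 := by
    apply Real.rpow_le_one_of_one_le_of_nonpos (by norm_num)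
    have : 0 ≤ ε * L / 2 := by positivity
    linarith
  have hη0 : 0 ≤ ρ0 / (100 * ((k : ℝ) + 1)) := by positivity
  have hδ1 : (0 : ℝ) < 1 / (8 * ((k : ℝ) + 1)) := by positivity
  have hheavy := tp_heavy ν hν T' Pt w hw G hG ρ0 hmass
  have hwP : ∀ q ∈ Pt.filter (fun q => ρ0 / 2 * (∑ t ∈ T', ν t) ≤ ∑ t ∈ tpC G T' q, ν t), 0 ≤ w q :=
    fun q hq => hw q (mem_filter.1 hq).1
  have hP : ∀ q ∈ Pt.filter (fun q => ρ0 / 2 * (∑ t ∈ T', ν t) ≤ ∑ t ∈ tpC G T' q, ν t),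
      ρ0 / 2 * (∑ t ∈ T', ν t) ≤ ∑ t ∈ tpC G T' q, ν t := fun q hq => (mem_filter.1 hq).2
  generalize hPdef : Pt.filter (fun q => ρ0 / 2 * (∑ t ∈ T', ν t) ≤ ∑ t ∈ tpC G T' q, ν t) = P at hheavy hwP hP
  have hPsub : P ⊆ Pt := by rw [← hPdef]; exact filter_subset _ _
  have hWt0 : 0 ≤ ∑ q ∈ P, w q * ∑ t ∈ tpC G T' q, ν t :=
    sum_nonneg fun q hq => mul_nonneg (hwP q hq) (sum_nonneg fun t _ => hν t)
  have hZs : hiSet ε L m Mb ⊆ range m := filter_subset _ _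
  have hXz : ∀ z ∈ hiSet ε L m Mb, (2 : ℝ) ^ (ε * L) ≤ (Mb z : ℝ) := fun z hz => (mem_filter.1 hz).2
  refine ⟨(hiSet ε L m Mb).filter (fun z => tpBeta L m ν c T' w G P (ρ0 / (100 * ((k : ℝ) + 1))) z ≤
    1 / (8 * ((k : ℝ) + 1)) * ∑ q ∈ P, w q * ∑ t ∈ tpC G T' q, ν t), filter_subset _ _, ?_, ?_⟩
  · rcases Nat.eq_zero_or_pos m with rfl | hm
    · simp [hiSet]
    · refine tp_markov (hiSet ε L m Mb) _ (fun z _ => tp_beta_nonneg L m ν c T' w G hν P hwP _ z) _ _ _ (ε4 * m) hWt0 hδ1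
        (by positivity)
        (tp_sumbeta L m ν c T' Mb w G hν hU hbal hpos P hwP ρ0 hρ0 hP _ _ _ hη0 hθ0 hθ1 hA _ hZs hXz) ?_
      have := hE m ρ0 hm hρ
      linarith
  · intro Z0 hZ0 hcard
    have hZ0β : ∀ z ∈ Z0, tpBeta L m ν c T' w G P (ρ0 / (100 * ((k : ℝ) + 1))) z ≤
        1 / (8 * ((k : ℝ) + 1)) * ∑ q ∈ P, w q * ∑ t ∈ tpC G T' q, ν t := fun z hz => (mem_filter.1 (hZ0 hz)).2
    have hδ : (k : ℝ) * (1 / (8 * ((k : ℝ) + 1)) + 4 * (ρ0 / (100 * ((k : ℝ) + 1))) / ρ0) ≤ 1 / 2 := by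
      have e : (k : ℝ) * (1 / (8 * ((k : ℝ) + 1)) + 4 * (ρ0 / (100 * ((k : ℝ) + 1))) / ρ0) =
          (33 / 200) * ((k : ℝ) / ((k : ℝ) + 1)) := by
        field_simp
        ring
      rw [e]
      have : (k : ℝ) / ((k : ℝ) + 1) ≤ 1 := by
        rw [div_le_one hk1]; linarith
      linarith
    have hgood := tp_goodmass L m ν c T' w G hν P hwP ρ0 hρ0 hP _ _ hη0 hδ1.le Z0 k hcard hZ0β hδ
    have haT : ∀ z ∈ Z0, ∀ t0 ∈ T', 0 < tpA (m * L) L c ν T' z t0 := by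
      intro z hz t0 ht0
      have hzs : z ∈ hiSet ε L m Mb := (mem_filter.1 (hZ0 hz)).1
      have h4' : 4 ≤ Mb z := by
        have : (4 : ℝ) ≤ (Mb z : ℝ) := h4.trans (hXz z hzs)
        exact_mod_cast this
      exact tp_ann_pos L m ν c T' Mb hν hU hbal hpos z (mem_range.1 (hZs hzs)) h4' t0 ht0
    obtain ⟨t0, ht0, hΦ⟩ := tp_avg L m ν c T' w G hν hpos P hwP _ hη0 Z0 _ hgood haT
    obtain ⟨τ, hτ, hpick⟩ := tp_pick ν hν G Z0 (fun z => T'.filter (fun t => Ann (m * L) L z (c t0) (c t)))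
      (fun z hz => haT z hz t0 ht0) t0 (P.filter (fun q => (q, t0) ∈ G)) w (fun q hq => hwP q (mem_filter.1 hq).1)
    refine ⟨t0, ht0, τ, fun z hz => mem_filter.1 (hτ z hz), ?_⟩
    have hW0 : 0 ≤ ∑ q ∈ Pt, w q := sum_nonneg hw
    have hnumer : (ρ0 / (100 * ((k : ℝ) + 1))) ^ (k + 1) * (∑ q ∈ Pt, w q) ≤
        (ρ0 / (100 * ((k : ℝ) + 1))) ^ Z0.card * ((∑ q ∈ P, w q * ∑ t ∈ tpC G T' q, ν t) / 2) / ∑ t ∈ T', ν t := by
      rcases hW0.eq_or_lt with h0 | hWpos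
      · rw [← h0, mul_zero]; positivity
      · have hρ1 : ρ0 ≤ 1 := by
          have h1 : ∑ g ∈ G, w g.1 * ν g.2 ≤ (∑ q ∈ Pt, w q) * ∑ t ∈ T', ν t := by
            rw [sum_mul_sum, ← sum_product']
            exact sum_le_sum_of_subset_of_nonneg hG fun g hg _ =>
              mul_nonneg (hw g.1 (mem_product.1 hg).1) (hν g.2)
          have h2 : ρ0 * ((∑ q ∈ Pt, w q) * ∑ t ∈ T', ν t) ≤ 1 * ((∑ q ∈ Pt, w q) * ∑ t ∈ T', ν t) := by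
            linarith
          exact le_of_mul_le_mul_right h2 (by positivity)
        have hη1 : ρ0 / (100 * ((k : ℝ) + 1)) ≤ 1 := by
          rw [div_le_one (by positivity)]; nlinarith
        have hη4 : ρ0 / (100 * ((k : ℝ) + 1)) ≤ ρ0 / 4 := by
          apply div_le_div_of_nonneg_left hρ0.le (by norm_num); nlinarith
        rw [le_div_iff₀ hpos]
        calc (ρ0 / (100 * ((k : ℝ) + 1))) ^ (k + 1) * (∑ q ∈ Pt, w q) * ∑ t ∈ T', ν t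
            = (ρ0 / (100 * ((k : ℝ) + 1))) ^ k * ((ρ0 / (100 * ((k : ℝ) + 1))) * ((∑ q ∈ Pt, w q) * ∑ t ∈ T', ν t)) := by
              rw [pow_succ]; ring
          _ ≤ (ρ0 / (100 * ((k : ℝ) + 1))) ^ Z0.card * (ρ0 / 4 * ((∑ q ∈ Pt, w q) * ∑ t ∈ T', ν t)) := by
              apply mul_le_mul (pow_le_pow_of_le_one hη0 hη1 hcard)
                (mul_le_mul_of_nonneg_right hη4 (by positivity)) (by positivity) (by positivity)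
          _ ≤ (ρ0 / (100 * ((k : ℝ) + 1))) ^ Z0.card * ((∑ q ∈ P, w q * ∑ t ∈ tpC G T' q, ν t) / 2) := by
              apply mul_le_mul_of_nonneg_left _ (by positivity)
              linarith
    refine hnumer.trans (hΦ.trans (le_trans (le_of_eq ?_) (hpick.trans ?_)))
    · refine sum_congr rfl fun q _ => ?_
      congr 1
      refine prod_congr rfl fun z _ => ?_
      congr 1
      unfold tpA tpC
      rw [filter_comm]
    · refine sum_le_sum_of_subset_of_nonneg ?_ fun q hq _ => hw q (mem_filter.1 hq).1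
      intro q hq
      simp only [mem_filter] at hq ⊢
      exact ⟨hPsub hq.1.1, hq.1.2, hq.2⟩

end Claimed.Agent.RW
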