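import Claimed.Agent.RW.Ep
import Claimed.Agent.RW.Fl
import Claimed.Agent.RW.Tuple

/-!
# Team RW.  Unit SABC, file 2 (chief helper142): reduction of the hypotheses of strong ABC to ONE configuration for the core inequality.

See the header of `Sabc.lean` (steps A-D).  `n = m*L` throughout.
* `SabcHyp`     : the hypotheses of `SabcAt` as a structure.
* `sabc_stepA`  : uniform tree `B' ⊆ B` (tree_select on `{b // b ∈ B}`, `pos = val`, `μ = μB`, `μ2` = `b`-marginal of `lam`, `F b` = `G`-mass over `b`,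
                  `K = M 2^(-(α-χ)n) ≤ 2^(2χn)`, `θ = 2^(-(3χn+1))`).   `F b ≤ K μB b`: for fixed `(b,t)` the map `a ↦ a + ecb n (c t) b` is injective on
                  `{g ∈ G : g.2 = t, g.1.2 = b}`, so this set has `≤ M` elements, each of `lam`-mass `≤ 2^(-(α-χ)n) μB b`; `∑ ν ≤ 1`.
* `sabc_stepB`  : uniform tree of tags `T'` (tree_select on `T`, `pos = c`, `μ = ν`, `μ2 = 0`, `F t = ν t · lam{p : p.2 ∈ B', (p,t) ∈ G}`, `K = W`, `θ = ρ1/2`).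
* `sabc_thick`  : `X0 = X - R`, `Xth = X - {2..R}`: thickness and density.
* `sabc_flY`    : the greedy union minus `flY` has `≤ R+3` elements.
* `sabc_config` : everything together (tree_dense twice, tuple_main, rm_greedy, ann_dist).
-/

set_option autoImplicit false

open Finset

namespace Claimed.Agent.RW

/-- the hypotheses of strong ABC at scale `2^-n` -/
structure SabcHyp (α β γ χ : ℝ) (n : ℕ) {T : Type} [Fintype T] [DecidableEq T] (Pt : Finset (ℤ × ℕ)) (lam : ℤ × ℕ → ℝ)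
    (B : Finset ℕ) (μB : ℕ → ℝ) (ν : T → ℝ) (c : T → ℕ) (G : Finset ((ℤ × ℕ) × T)) (M : ℝ) : Prop where
  lam0 : ∀ p ∈ Pt, 0 ≤ lam p
  mu0 : ∀ b ∈ B, 0 ≤ μB b
  nu0 : ∀ t, 0 ≤ ν t
  lam1 : ∑ p ∈ Pt, lam p ≤ 1
  mu1 : ∑ b ∈ B, μB b ≤ 1
  nu1 : ∑ t, ν t ≤ 1
  ptB : ∀ p ∈ Pt, p.2 ∈ B
  Blt : ∀ b ∈ B, b < 2 ^ n
  clt : ∀ t, c t < 2 ^ n
  atoms : ∀ p ∈ Pt, lam p ≤ (2 : ℝ) ^ (-((α - χ) * n)) * μB p.2
  froB : ∀ l, l ≤ n → ∀ j, ∑ b ∈ B with b / 2 ^ (n - l) = j, μB b ≤ (2 : ℝ) ^ (χ * n - β * l)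
  froT : ∀ l, l ≤ n → ∀ j, ∑ t with c t / 2 ^ (n - l) = j, ν t ≤ (2 : ℝ) ^ (χ * n - γ * l)
  Gsub : G ⊆ Pt ×ˢ univ
  Gmass : (2 : ℝ) ^ (-(χ * n)) ≤ ∑ g ∈ G, lam g.1 * ν g.2
  img : ∀ t, ((((G.filter fun g => g.2 = t).image fun g => g.1.1 + ecb n (c t) g.1.2).card : ℕ) : ℝ) ≤ M

section steps
variable {α β γ χ : ℝ} {T : Type} [Fintype T] [DecidableEq T] {Pt : Finset (ℤ × ℕ)} {lam : ℤ × ℕ → ℝ}
  {B : Finset ℕ} {μB : ℕ → ℝ} {ν : T → ℝ} {c : T → ℕ} {G : Finset ((ℤ × ℕ) × T)} {M : ℝ}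

/-- **Step A** (leaf SABC-A) -/
theorem sabc_stepA (L m : ℕ) (hL : 1 ≤ L) (hχ : 0 ≤ χ) (h : SabcHyp α β γ χ (m * L) Pt lam B μB ν c G M)
    (hM : M ≤ (2 : ℝ) ^ ((α + χ) * (m * L : ℕ))) :
    ∃ B' ⊆ B, ∃ NB : ℕ → ℕ, UTree (m * L) L m B' NB ∧ (∀ b ∈ B', ∀ b' ∈ B', μB b ≤ 2 * μB b') ∧
      (2 : ℝ) ^ (-(3 * χ * (m * L : ℕ) + 1)) / (4 * ((m * L : ℕ) + 2) * (2 * (L : ℝ) + 2) ^ m) ≤ ∑ b ∈ B', μB b ∧
      (2 : ℝ) ^ (-(χ * (m * L : ℕ) + 2)) * (∑ b ∈ B', μB b + ∑ p ∈ Pt with p.2 ∈ B', lam p) ≤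
        ∑ g ∈ G with g.1.2 ∈ B', lam g.1 * ν g.2 := by
  classical
  have hGPt : ∀ g ∈ G, g.1 ∈ Pt := fun g hg => (mem_product.1 (h.Gsub hg)).1
  have hterm : ∀ g ∈ G, 0 ≤ lam g.1 * ν g.2 := fun g hg =>
    mul_nonneg (h.lam0 _ (hGPt g hg)) (h.nu0 _)
  have hGpos : 0 < ∑ g ∈ G, lam g.1 * ν g.2 := lt_of_lt_of_le (by positivity) h.Gmass
  have hM0 : 0 ≤ M := by
    obtain ⟨g, hg, -⟩ := Finset.exists_ne_zero_of_sum_ne_zero hGpos.ne'
    exact (Nat.cast_nonneg _).trans (h.img g.2)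
  obtain ⟨a, ha⟩ : ∃ a : ℝ, a = (2 : ℝ) ^ (-((α - χ) * (m * L : ℕ))) := ⟨_, rfl⟩
  have ha0 : 0 < a := by rw [ha]; positivity
  obtain ⟨θ, hθ⟩ : ∃ θ : ℝ, θ = (2 : ℝ) ^ (-(3 * χ * (m * L : ℕ) + 1)) := ⟨_, rfl⟩
  have hθ0 : 0 < θ := by rw [hθ]; positivity
  -- the three weights as functions on ℕ
  obtain ⟨μ2, hμ2⟩ : ∃ μ2 : ℕ → ℝ, ∀ b, μ2 b = ∑ p ∈ Pt with p.2 = b, lam p := ⟨_, fun _ => rfl⟩
  obtain ⟨F, hF⟩ : ∃ F : ℕ → ℝ, ∀ b, F b = ∑ g ∈ G with g.1.2 = b, lam g.1 * ν g.2 :=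
    ⟨_, fun _ => rfl⟩
  have hμ20 : ∀ b, 0 ≤ μ2 b := fun b => by
    rw [hμ2]
    exact sum_nonneg fun p hp => h.lam0 p (mem_filter.1 hp).1
  have hF0 : ∀ b, 0 ≤ F b := fun b => by
    rw [hF]
    exact sum_nonneg fun g hg => hterm g (mem_filter.1 hg).1
  have hsumF : ∑ b ∈ B, F b = ∑ g ∈ G, lam g.1 * ν g.2 := by
    simp_rw [hF]
    exact sum_fiberwise_of_maps_to (fun g hg => h.ptB _ (hGPt g hg)) _
  have hsumμ2 : ∑ b ∈ B, μ2 b = ∑ p ∈ Pt, lam p := by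
    simp_rw [hμ2]
    exact sum_fiberwise_of_maps_to (fun p hp => h.ptB _ hp) _
  have hFK : ∀ b ∈ B, F b ≤ M * a * μB b := by
    intro b hb
    have hμb := h.mu0 b hb
    rw [hF, ← sum_fiberwise (G.filter fun g => g.1.2 = b) (fun g => g.2)]
    have h1 : ∀ t : T, ∑ g ∈ (G.filter fun g => g.1.2 = b) with g.2 = t, lam g.1 * ν g.2
        ≤ ν t * (M * a * μB b) := by
      intro t
      have hcard : ((((G.filter fun g => g.1.2 = b).filter fun g => g.2 = t).card : ℕ) : ℝ) ≤ M := by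
        refine le_trans ?_ (h.img t)
        have hinj : Set.InjOn (fun g : (ℤ × ℕ) × T => g.1.1 + ecb (m * L) (c t) g.1.2)
            (((G.filter fun g => g.1.2 = b).filter fun g => g.2 = t) : Finset ((ℤ × ℕ) × T)) := by
          intro g hg g' hg' hgg
          rw [mem_coe, mem_filter, mem_filter] at hg hg'
          simp only at hgg
          rw [hg.1.2, hg'.1.2] at hgg
          have e1 : g.1.1 = g'.1.1 := by linarith
          have e2 : g.1.2 = g'.1.2 := by rw [hg.1.2, hg'.1.2]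
          have e3 : g.2 = g'.2 := by rw [hg.2, hg'.2]
          exact Prod.ext (Prod.ext e1 e2) e3
        rw [← card_image_of_injOn hinj]
        have hsub : (((G.filter fun g => g.1.2 = b).filter fun g => g.2 = t).image
            fun g : (ℤ × ℕ) × T => g.1.1 + ecb (m * L) (c t) g.1.2)
            ⊆ ((G.filter fun g => g.2 = t).image fun g => g.1.1 + ecb (m * L) (c t) g.1.2) := by
          refine image_subset_image ?_
          intro g hg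
          rw [mem_filter, mem_filter] at hg
          exact mem_filter.2 ⟨hg.1.1, hg.2⟩
        exact_mod_cast card_le_card hsub
      calc ∑ g ∈ (G.filter fun g => g.1.2 = b) with g.2 = t, lam g.1 * ν g.2
          ≤ ∑ g ∈ (G.filter fun g => g.1.2 = b) with g.2 = t, (a * μB b) * ν t := by
            refine sum_le_sum fun g hg => ?_
            rw [mem_filter, mem_filter] at hg
            have h2 := h.atoms g.1 (hGPt g hg.1.1)
            rw [hg.1.2, ← ha] at h2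
            rw [hg.2]
            exact mul_le_mul_of_nonneg_right h2 (h.nu0 t)
        _ = ((((G.filter fun g => g.1.2 = b).filter fun g => g.2 = t).card : ℕ) : ℝ)
            * ((a * μB b) * ν t) := by rw [sum_const, nsmul_eq_mul]
        _ ≤ M * ((a * μB b) * ν t) :=
            mul_le_mul_of_nonneg_right hcard (mul_nonneg (mul_nonneg ha0.le hμb) (h.nu0 t))
        _ = ν t * (M * a * μB b) := by ring
    refine (sum_le_sum fun t _ => h1 t).trans ?_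
    rw [← sum_mul]
    have h3 : 0 ≤ M * a * μB b := mul_nonneg (mul_nonneg hM0 ha0.le) hμb
    calc (∑ t, ν t) * (M * a * μB b) ≤ 1 * (M * a * μB b) := mul_le_mul_of_nonneg_right h.nu1 h3
      _ = _ := one_mul _
  have hKθ : 2 * (M * a) * θ ≤ ∑ g ∈ G, lam g.1 * ν g.2 := by
    refine le_trans ?_ h.Gmass
    have h1 : M * a * θ ≤ (2 : ℝ) ^ ((α + χ) * (m * L : ℕ)) * a * θ := by gcongr
    have h2 : 2 * ((2 : ℝ) ^ ((α + χ) * (m * L : ℕ)) * a * θ) = (2 : ℝ) ^ (-(χ * (m * L : ℕ))) := by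
      rw [ha, hθ, ← Real.rpow_add (by norm_num), ← Real.rpow_add (by norm_num)]
      nth_rewrite 1 [← Real.rpow_one 2]
      rw [← Real.rpow_add (by norm_num)]
      congr 1
      ring
    linarith
  obtain ⟨S', N, hU, -, hbal, hmass, hgain⟩ := tree_select L hL m (S := {b // b ∈ B}) (fun s => s.1)
    (fun s => h.Blt _ s.2) (fun s => μB s.1) (fun s => μ2 s.1) (fun s => F s.1) (M * a) θ
    (fun s => h.mu0 _ s.2) (by rw [Finset.sum_coe_sort B μB]; exact h.mu1) (fun s => hμ20 _)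
    (by rw [Finset.sum_coe_sort B μ2, hsumμ2]; exact h.lam1) (fun s => hF0 _) (fun s => hFK _ s.2) hθ0
    (by rw [Finset.sum_coe_sort B F, hsumF]; exact hKθ) (by rw [Finset.sum_coe_sort B F, hsumF]; exact hGpos)
  rw [Finset.sum_coe_sort B F, hsumF] at hgain
  have hinj : Set.InjOn (fun s : {b // b ∈ B} => s.1) (S' : Set {b // b ∈ B}) :=
    fun x _ y _ hxy => Subtype.ext hxy
  have hsum : ∀ f : ℕ → ℝ, ∑ b ∈ S'.image (fun s : {b // b ∈ B} => s.1), f b = ∑ s ∈ S', f s.1 :=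
    fun f => sum_image hinj
  refine ⟨S'.image fun s => s.1, ?_, N, hU, ?_, ?_, ?_⟩
  · intro b hb
    obtain ⟨s, -, rfl⟩ := mem_image.1 hb
    exact s.2
  · intro b hb b' hb'
    obtain ⟨s, hs, rfl⟩ := mem_image.1 hb
    obtain ⟨s', hs', rfl⟩ := mem_image.1 hb'
    have h1 := hbal s hs s' hs'
    have e : ∀ u : {b // b ∈ B}, ∑ x : {b // b ∈ B} with x.1 = u.1, μB x.1 = μB u.1 := by
      intro u
      have : (univ.filter fun x : {b // b ∈ B} => x.1 = u.1) = {u} := by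
        ext x
        rw [mem_filter, mem_singleton]
        exact ⟨fun hx => Subtype.ext hx.2, fun hx => ⟨mem_univ _, by rw [hx]⟩⟩
      rw [this, sum_singleton]
    rwa [e, e] at h1
  · rw [hsum, ← hθ]
    exact hmass
  · have e1 : ∑ p ∈ Pt with p.2 ∈ S'.image (fun s : {b // b ∈ B} => s.1), lam p = ∑ s ∈ S', μ2 s.1 := by
      rw [← hsum μ2]
      simp_rw [hμ2]
      rw [← sum_fiberwise_of_maps_to (s := Pt.filter fun p => p.2 ∈ S'.image (fun s : {b // b ∈ B} => s.1))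
        (t := S'.image (fun s : {b // b ∈ B} => s.1)) (g := fun p => p.2) (fun p hp => (mem_filter.1 hp).2)]
      refine sum_congr rfl fun b hb => ?_
      rw [filter_filter]
      refine sum_congr (filter_congr fun p _ => ?_) fun _ _ => rfl
      constructor
      · exact fun hh => hh.2
      · exact fun hh => ⟨hh ▸ hb, hh⟩
    have e2 : ∑ g ∈ G with g.1.2 ∈ S'.image (fun s : {b // b ∈ B} => s.1), lam g.1 * ν g.2
        = ∑ s ∈ S', F s.1 := by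
      rw [← hsum F]
      simp_rw [hF]
      rw [← sum_fiberwise_of_maps_to (s := G.filter fun g => g.1.2 ∈ S'.image (fun s : {b // b ∈ B} => s.1))
        (t := S'.image (fun s : {b // b ∈ B} => s.1)) (g := fun g => g.1.2) (fun p hp => (mem_filter.1 hp).2)]
      refine sum_congr rfl fun b hb => ?_
      rw [filter_filter]
      refine sum_congr (filter_congr fun p _ => ?_) fun _ _ => rfl
      constructor
      · exact fun hh => hh.2
      · exact fun hh => ⟨hh ▸ hb, hh⟩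
    rw [e1, e2, hsum, ← sum_add_distrib]
    refine le_trans ?_ hgain
    refine mul_le_mul_of_nonneg_right ?_ (sum_nonneg fun s _ => add_nonneg (h.mu0 _ s.2) (hμ20 _))
    have e3 : (2 : ℝ) ^ (-(χ * (m * L : ℕ) + 2)) = (2 : ℝ) ^ (-(χ * (m * L : ℕ))) / 4 := by
      rw [neg_add, Real.rpow_add (by norm_num), Real.rpow_neg (by norm_num) 2]
      norm_num
      ring
    rw [e3]
    linarith [h.Gmass]

/-- **Step B** (leaf SABC-B) -/
theorem sabc_stepB (L m : ℕ) (hL : 1 ≤ L) (h : SabcHyp α β γ χ (m * L) Pt lam B μB ν c G M) (B' : Finset ℕ) (ρ1 : ℝ)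
    (hρ1 : 0 < ρ1) (hpos : 0 < ∑ g ∈ G with g.1.2 ∈ B', lam g.1 * ν g.2)
    (hG : ρ1 * ∑ p ∈ Pt with p.2 ∈ B', lam p ≤ ∑ g ∈ G with g.1.2 ∈ B', lam g.1 * ν g.2) :
    ∃ (T' : Finset T) (Mb : ℕ → ℕ), UTree (m * L) L m (T'.image c) Mb ∧
      (∀ t ∈ T', ∀ t' ∈ T', (∑ x ∈ T' with c x = c t, ν x) ≤ 2 * ∑ x ∈ T' with c x = c t', ν x) ∧
      ρ1 / 2 / (4 * ((m * L : ℕ) + 2) * (2 * (L : ℝ) + 2) ^ m) ≤ ∑ t ∈ T', ν t ∧
      ρ1 / 4 * (∑ p ∈ Pt with p.2 ∈ B', lam p) * (∑ t ∈ T', ν t) ≤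
        ∑ g ∈ G with (g.1.2 ∈ B' ∧ g.2 ∈ T'), lam g.1 * ν g.2 := by
  classical
  have hGPt : ∀ g ∈ G, g.1 ∈ Pt := fun g hg => (mem_product.1 (h.Gsub hg)).1
  have hterm : ∀ g ∈ G, 0 ≤ lam g.1 * ν g.2 := fun g hg =>
    mul_nonneg (h.lam0 _ (hGPt g hg)) (h.nu0 _)
  obtain ⟨W, hW⟩ : ∃ W : ℝ, W = ∑ p ∈ Pt with p.2 ∈ B', lam p := ⟨_, rfl⟩
  obtain ⟨F, hF⟩ : ∃ F : T → ℝ, ∀ t, F t = ∑ g ∈ (G.filter fun g => g.1.2 ∈ B') with g.2 = t,
    lam g.1 * ν g.2 := ⟨_, fun _ => rfl⟩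
  have hF0 : ∀ t, 0 ≤ F t := fun t => by
    rw [hF]
    exact sum_nonneg fun g hg => hterm g (mem_filter.1 (mem_filter.1 hg).1).1
  have hsumF : ∑ t, F t = ∑ g ∈ G with g.1.2 ∈ B', lam g.1 * ν g.2 := by
    simp_rw [hF]
    exact sum_fiberwise _ _ _
  have hFK : ∀ t, F t ≤ W * ν t := by
    intro t
    rw [hF, hW, sum_mul]
    have hinj : Set.InjOn (fun g : (ℤ × ℕ) × T => g.1)
        (((G.filter fun g => g.1.2 ∈ B').filter fun g => g.2 = t) : Finset ((ℤ × ℕ) × T)) := by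
      intro g hg g' hg' hgg
      rw [mem_coe, mem_filter] at hg hg'
      exact Prod.ext hgg (by rw [hg.2, hg'.2])
    have e1 : ∑ g ∈ (G.filter fun g => g.1.2 ∈ B') with g.2 = t, lam g.1 * ν g.2
        = ∑ p ∈ ((G.filter fun g => g.1.2 ∈ B').filter fun g => g.2 = t).image (fun g => g.1),
          lam p * ν t := by
      rw [sum_image hinj]
      refine sum_congr rfl fun g hg => ?_
      rw [(mem_filter.1 hg).2]
    rw [e1]
    refine sum_le_sum_of_subset_of_nonneg ?_ ?_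
    · intro p hp
      obtain ⟨g, hg, rfl⟩ := mem_image.1 hp
      rw [mem_filter, mem_filter] at hg
      exact mem_filter.2 ⟨hGPt g hg.1.1, hg.1.2⟩
    · intro p hp _
      exact mul_nonneg (h.lam0 p (mem_filter.1 hp).1) (h.nu0 t)
  obtain ⟨T', N, hU, hsat, hbal, hmass, hgain⟩ := tree_select L hL m (S := T) c h.clt ν (fun _ => 0) F W
    (ρ1 / 2) h.nu0 h.nu1 (fun _ => le_rfl) (by simp) hF0 hFK (by positivity)
    (by rw [hsumF, hW]; linarith) (by rw [hsumF]; exact hpos)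
  refine ⟨T', N, hU, ?_, hmass, ?_⟩
  · intro t ht t' ht'
    have e : ∀ u ∈ T', ∑ x ∈ T' with c x = c u, ν x = ∑ x with c x = c u, ν x := by
      intro u hu
      refine sum_congr ?_ fun _ _ => rfl
      ext x
      rw [mem_filter, mem_filter]
      constructor
      · exact fun hx => ⟨mem_univ _, hx.2⟩
      · exact fun hx => ⟨hsat u hu x hx.2, hx.2⟩
    rw [e t ht, e t' ht']
    exact hbal t ht t' ht'
  · have e2 : ∑ g ∈ G with (g.1.2 ∈ B' ∧ g.2 ∈ T'), lam g.1 * ν g.2 = ∑ t ∈ T', F t := by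
      simp_rw [hF]
      rw [← sum_fiberwise_of_maps_to (s := G.filter fun g => g.1.2 ∈ B' ∧ g.2 ∈ T')
        (t := T') (g := fun g => g.2) (fun p hp => (mem_filter.1 hp).2.2)]
      refine sum_congr rfl fun b hb => ?_
      rw [filter_filter, filter_filter]
      refine sum_congr (filter_congr fun p _ => ?_) fun _ _ => rfl
      constructor
      · exact fun hh => ⟨hh.1.1, hh.2⟩
      · exact fun hh => ⟨⟨hh.1, hh.2 ▸ hb⟩, hh.2⟩
    rw [e2, ← hW]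
    refine le_trans ?_ hgain
    simp only [add_zero]
    refine mul_le_mul_of_nonneg_right ?_ (sum_nonneg fun t _ => h.nu0 t)
    rw [hsumF]
    rw [← hW] at hG
    linarith

end steps

/-- `X - R` -/
def sabcX0 (X : Finset ℕ) (R : ℕ) : Finset ℕ := (X.filter fun x => R ≤ x).image fun x => x - R

open Classical in
/-- `X - {2..R}` inside `[0,m)` -/
noncomputable def sabcXth (X : Finset ℕ) (R m : ℕ) : Finset ℕ :=
  (range m).filter fun w => ∃ x ∈ X, ∃ r ∈ Finset.Icc 2 R, w + r = x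

/-- thickness and density of the shifted sets (leaf SABC-THICK) -/
theorem sabc_thick (X : Finset ℕ) (R m : ℕ) (hR : 2 ≤ R) (hX : X ⊆ range m) (b s : ℝ) (hb : 0 ≤ b) (hm : 0 < m)
    (hd : RmDense m X b s) :
    sabcX0 X R ⊆ range m ∧ sabcXth X R m ⊆ range m ∧
      (∀ x ∈ sabcX0 X R, ∀ r, r ≤ R - 2 → x + r < m → x + r ∈ sabcXth X R m) ∧
      RmDense m (sabcX0 X R) b (s + R / m) := by
  classical
  have hmemX : ∀ w, w ∈ sabcXth X R m ↔ w < m ∧ ∃ x ∈ X, ∃ r ∈ Finset.Icc 2 R, w + r = x := by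
    intro w
    unfold sabcXth
    simp only [mem_filter, mem_range]
  refine ⟨?_, fun w hw => mem_range.2 ((hmemX w).1 hw).1, ?_, ?_⟩
  · intro x hx
    unfold sabcX0 at hx
    rw [mem_image] at hx
    obtain ⟨y, hy, rfl⟩ := hx
    rw [mem_filter] at hy
    have := mem_range.1 (hX hy.1)
    rw [mem_range]
    omega
  · intro x hx r hr hxr
    unfold sabcX0 at hx
    rw [mem_image] at hx
    obtain ⟨y, hy, rfl⟩ := hx
    rw [mem_filter] at hy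
    rw [hmemX]
    refine ⟨hxr, y, hy.1, R - r, ?_, ?_⟩
    · rw [Finset.mem_Icc]
      omega
    · have := hy.2
      omega
  · intro j hj
    have hmR : (0 : ℝ) < m := by exact_mod_cast hm
    have e1 : (s + R / m) * m = s * m + R := by
      field_simp
    rw [e1]
    -- the count
    have hcard : ((sabcX0 X R).filter fun x => x < j).card
        = (X.filter fun x => R ≤ x ∧ x < j + R).card := by
      symm
      refine Finset.card_bij (fun x _ => x - R) ?_ ?_ ?_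
      · intro x hx
        rw [mem_filter] at hx
        rw [mem_filter]
        refine ⟨?_, by omega⟩
        unfold sabcX0
        exact mem_image.2 ⟨x, mem_filter.2 ⟨hx.1, hx.2.1⟩, rfl⟩
      · intro x hx y hy hxy
        rw [mem_filter] at hx hy
        omega
      · intro y hy
        rw [mem_filter] at hy
        unfold sabcX0 at hy
        obtain ⟨x, hx, hxy⟩ := mem_image.1 hy.1
        rw [mem_filter] at hx
        exact ⟨x, mem_filter.2 ⟨hx.1, hx.2, by omega⟩, hxy⟩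
    rw [hcard]
    obtain ⟨j', hj'⟩ : ∃ j', j' = min (j + R) m := ⟨_, rfl⟩
    have hj'm : j' ≤ m := by omega
    have hjj' : j ≤ j' := by omega
    have h1 := hd j' hj'm
    have hsub : (X.filter fun x => x < j') ⊆ (X.filter fun x => R ≤ x ∧ x < j + R) ∪ range R := by
      intro x hx
      rw [mem_filter] at hx
      rw [mem_union, mem_filter, mem_range]
      by_cases hxR : x < R
      · exact Or.inr hxR
      · exact Or.inl ⟨hx.1, by omega, by omega⟩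
    have h2 := (card_le_card hsub).trans (card_union_le _ _)
    rw [card_range] at h2
    have h3 : ((X.filter fun x => x < j').card : ℝ)
        ≤ ((X.filter fun x => R ≤ x ∧ x < j + R).card : ℝ) + R := by exact_mod_cast h2
    have h4 : b * (j : ℝ) ≤ b * (j' : ℝ) := mul_le_mul_of_nonneg_left (by exact_mod_cast hjj') hb
    linarith

/-- the greedy union is contained in `flY` up to `R+3` blocks (leaf SABC-FLY) -/
theorem sabc_flY (ε : ℝ) (L m R : ℕ) (N : ℕ → ℕ) {k : ℕ} (z : Fin k → ℕ) :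
    (((univ : Finset (Fin k)).biUnion fun i => rmShift m (sabcXth (hiSet ε L m N) R m) (z i)).card : ℝ) - (R + 3) ≤
      ((flY ε L m R N z).card : ℝ) := by
  classical
  have hsub : ((univ : Finset (Fin k)).biUnion fun i => rmShift m (sabcXth (hiSet ε L m N) R m) (z i))
      ⊆ flY ε L m R N z ∪ Finset.Ico (m - (R + 3)) m := by
    intro y hy
    rw [mem_biUnion] at hy
    obtain ⟨i, -, hy⟩ := hy
    unfold rmShift at hy
    rw [mem_filter, mem_image] at hy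
    obtain ⟨⟨w, hw, rfl⟩, hym⟩ := hy
    unfold sabcXth at hw
    simp only [mem_filter, mem_range] at hw
    obtain ⟨-, x, hx, r, hr, hwr⟩ := hw
    rw [mem_union]
    by_cases h3 : x + z i + 3 ≤ m
    · left
      unfold flY
      simp only [mem_filter, mem_range]
      exact ⟨hym, i, x, hx, r, hr, by omega, h3⟩
    · right
      rw [Finset.mem_Icc] at hr
      rw [Finset.mem_Ico]
      omega
  have h2 := (card_le_card hsub).trans (card_union_le _ _)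
  rw [Nat.card_Ico] at h2
  have h3 : m - (m - (R + 3)) ≤ R + 3 := by omega
  have h4 : ((univ : Finset (Fin k)).biUnion fun i => rmShift m (sabcXth (hiSet ε L m N) R m) (z i)).card
      ≤ (flY ε L m R N z).card + (R + 3) := by omega
  have h5 : ((((univ : Finset (Fin k)).biUnion fun i =>
      rmShift m (sabcXth (hiSet ε L m N) R m) (z i)).card : ℕ) : ℝ)
      ≤ ((flY ε L m R N z).card : ℝ) + (R + 3) := by exact_mod_cast h4
  linarith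

theorem sabc_dense_mono (m : ℕ) (X : Finset ℕ) (b s s' : ℝ) (h : RmDense m X b s) (hs : s ≤ s') :
    RmDense m X b s' := by
  intro j hj
  have h1 := h j hj
  have h2 : s * m ≤ s' * m := mul_le_mul_of_nonneg_right hs (Nat.cast_nonneg m)
  linarith

theorem sabc_dense_sdiff (m : ℕ) (X Z : Finset ℕ) (b s e : ℝ) (h : RmDense m X b s)
    (hc : ((X \ Z).card : ℝ) ≤ e * m) : RmDense m Z b (s + e) := by
  intro j hj
  have h1 := h j hj
  have h2 : (X.filter fun x => x < j).card ≤ (Z.filter fun x => x < j).card + (X \ Z).card := by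
    have : X.filter (fun x => x < j) ⊆ Z.filter (fun x => x < j) ∪ (X \ Z) := by
      intro x hx
      rw [mem_filter] at hx
      by_cases hxZ : x ∈ Z
      · exact mem_union_left _ (mem_filter.mpr ⟨hxZ, hx.2⟩)
      · exact mem_union_right _ (mem_sdiff.mpr ⟨hx.1, hxZ⟩)
    exact le_trans (card_le_card this) (card_union_le _ _)
  have h3 : ((X.filter fun x => x < j).card : ℝ) ≤ (Z.filter fun x => x < j).card + (X \ Z).card := by
    exact_mod_cast h2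
  have h4 : (s + e) * m = s * m + e * m := by ring
  linarith

theorem sabc_log_small (a b δ : ℝ) (ha : 0 < a) (hb : 0 ≤ b) (hδ : 0 < δ) :
    ∃ N0 : ℕ, ∀ N : ℕ, N0 ≤ N → Real.logb 2 (a * N + b) ≤ δ * N := by
  have hl2 : 0 < Real.log 2 := Real.log_pos (by norm_num)
  obtain ⟨d, hd⟩ : ∃ d, d = δ * Real.log 2 := ⟨_, rfl⟩
  have hd0 : 0 < d := by rw [hd]; positivity
  obtain ⟨t, ht⟩ : ∃ t, t = 2 * a / d := ⟨_, rfl⟩
  have ht0 : 0 < t := by rw [ht]; positivity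
  refine ⟨⌈2 * (b / t + Real.log t) / d⌉₊ + 1, fun N hN => ?_⟩
  have hN1 : (1 : ℝ) ≤ N := by exact_mod_cast (by omega : 1 ≤ N)
  have hN2 : 2 * (b / t + Real.log t) / d ≤ N :=
    le_trans (Nat.le_ceil _) (by exact_mod_cast (by omega : ⌈2 * (b / t + Real.log t) / d⌉₊ ≤ N))
  have hy : 0 < a * N + b := by positivity
  have h1 : Real.log ((a * N + b) / t) ≤ (a * N + b) / t - 1 := Real.log_le_sub_one_of_pos (by positivity)
  rw [Real.log_div hy.ne' ht0.ne'] at h1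
  rw [Real.logb, div_le_iff₀ hl2]
  have h2 : a * N / t = d * N / 2 := by rw [ht]; field_simp
  rw [div_le_iff₀ hd0] at hN2
  have h3 : (a * N + b) / t = d * N / 2 + b / t := by rw [add_div, h2]
  rw [h3] at h1
  have h4 : δ * N * Real.log 2 = d * N := by rw [hd]; ring
  rw [h4]
  linarith

theorem sabc_slack (χ a cst e : ℝ) (L m : ℕ) (hL : 1 ≤ L) (hm : 1 ≤ m)
    (h1 : (1 + a) * χ ≤ e / 8)
    (h2 : Real.logb 2 (2 * (L : ℝ) + 2) ≤ e / 8 * L)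
    (h3 : Real.logb 2 (4 * ((m * L : ℕ) : ℝ) + 8) ≤ e / 8 * (m * L : ℕ))
    (h4 : cst ≤ e / 8 * (m * L : ℕ)) :
    Real.logb 2 ((2 : ℝ) ^ (χ * (m * L : ℕ)) /
      ((2 : ℝ) ^ (-(a * χ * (m * L : ℕ) + cst)) / (4 * (((m * L : ℕ) : ℝ) + 2) * (2 * (L : ℝ) + 2) ^ m))) /
        (m * L : ℕ) ≤ e / 2 := by
  obtain ⟨n, hn⟩ : ∃ n : ℝ, n = ((m * L : ℕ) : ℝ) := ⟨_, rfl⟩
  have hnml : n = (m : ℝ) * L := by rw [hn]; push_cast; ring
  rw [← hn] at h3 h4 ⊢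
  have hLr : (0 : ℝ) < L := by exact_mod_cast hL
  have hmr : (0 : ℝ) < m := by exact_mod_cast hm
  have hn0 : 0 < n := by rw [hnml]; positivity
  have e1 : (2 : ℝ) ^ (χ * n) / ((2 : ℝ) ^ (-(a * χ * n + cst)) / (4 * (n + 2) * (2 * (L : ℝ) + 2) ^ m)) =
      (2 : ℝ) ^ (χ * n + (a * χ * n + cst)) * (4 * n + 8) * (2 * (L : ℝ) + 2) ^ m := by
    rw [Real.rpow_add (by norm_num), Real.rpow_neg (by norm_num)]
    field_simp
    ring
  rw [e1, Real.logb_mul (by positivity) (by positivity), Real.logb_mul (by positivity) (by positivity),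
    Real.logb_rpow (by norm_num) (by norm_num), Real.logb_pow, div_le_iff₀ hn0]
  have h5 : (m : ℝ) * Real.logb 2 (2 * (L : ℝ) + 2) ≤ e / 8 * n := by
    have := mul_le_mul_of_nonneg_left h2 hmr.le
    rw [hnml]; linarith
  have h6 : (1 + a) * χ * n ≤ e / 8 * n := mul_le_mul_of_nonneg_right h1 hn0.le
  linarith

theorem sabc_cfg_kappa (α χ nr M cB μb SB W ps : ℝ) (k : ℕ)
    (hM : M ≤ (2 : ℝ) ^ ((α + χ) * nr)) (hcB : 0 ≤ cB) (hμb : 0 ≤ μb) (h1 : cB * μb ≤ 2 * SB)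
    (h2 : (2 : ℝ) ^ (-(χ * nr + 2)) * SB ≤ W) (hW : 0 < W)
    (h3 : ((2 : ℝ) ^ (-(χ * nr + 2)) / 4 / (100 * ((k : ℝ) + 1))) ^ (k + 1) * W ≤ ps) :
    M * cB * ((2 : ℝ) ^ (-((α - χ) * nr)) * (2 * μb) / ps) ≤
      (2 : ℝ) ^ (((k : ℝ) + 4) * χ * nr + (4 + ((k : ℝ) + 1) * (4 + Real.logb 2 (100 * ((k : ℝ) + 1))))) := by
  obtain ⟨lg, hlg⟩ : ∃ lg, lg = Real.logb 2 (100 * ((k : ℝ) + 1)) := ⟨_, rfl⟩
  have hk : (0 : ℝ) < 100 * ((k : ℝ) + 1) := by positivity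
  have h100 : 100 * ((k : ℝ) + 1) = (2 : ℝ) ^ lg := by
    rw [hlg, Real.rpow_logb (by norm_num) (by norm_num) hk]
  have h4 : (4 : ℝ) = (2 : ℝ) ^ (2 : ℝ) := by norm_num
  have hq : ((2 : ℝ) ^ (-(χ * nr + 2)) / 4 / (100 * ((k : ℝ) + 1))) ^ (k + 1) =
      (2 : ℝ) ^ (-(((k : ℝ) + 1) * (lg + χ * nr + 4))) := by
    rw [h100, h4, ← Real.rpow_sub (by norm_num), ← Real.rpow_sub (by norm_num), ← Real.rpow_natCast,
      ← Real.rpow_mul (by norm_num)]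
    congr 1
    push_cast
    ring
  rw [hq] at h3
  rw [← hlg]
  obtain ⟨q, hqd⟩ : ∃ q, q = (2 : ℝ) ^ (-(((k : ℝ) + 1) * (lg + χ * nr + 4))) := ⟨_, rfl⟩
  rw [← hqd] at h3
  have hq0 : 0 < q := by rw [hqd]; positivity
  have hps : 0 < ps := lt_of_lt_of_le (by positivity) h3
  have hA0 : 0 < (2 : ℝ) ^ (-((α - χ) * nr)) := by positivity
  have hMA : M * (2 : ℝ) ^ (-((α - χ) * nr)) ≤ (2 : ℝ) ^ (2 * χ * nr) := by
    calc M * (2 : ℝ) ^ (-((α - χ) * nr)) ≤ (2 : ℝ) ^ ((α + χ) * nr) * (2 : ℝ) ^ (-((α - χ) * nr)) :=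
          mul_le_mul_of_nonneg_right hM hA0.le
      _ = (2 : ℝ) ^ (2 * χ * nr) := by
          rw [← Real.rpow_add (by norm_num)]; congr 1; ring
  have hSB : SB ≤ (2 : ℝ) ^ (χ * nr + 2) * W := by
    have h5 : (2 : ℝ) ^ (χ * nr + 2) * ((2 : ℝ) ^ (-(χ * nr + 2)) * SB) ≤ (2 : ℝ) ^ (χ * nr + 2) * W :=
      mul_le_mul_of_nonneg_left h2 (by positivity)
    rw [← mul_assoc, ← Real.rpow_add (by norm_num)] at h5
    simpa using h5
  have hnum : 2 * (cB * μb) ≤ 4 * ((2 : ℝ) ^ (χ * nr + 2) * W) := by linarith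
  have e1 : M * cB * ((2 : ℝ) ^ (-((α - χ) * nr)) * (2 * μb) / ps) =
      (M * (2 : ℝ) ^ (-((α - χ) * nr))) * (2 * (cB * μb)) / ps := by ring
  rw [e1, div_le_iff₀ hps]
  have h6 : (M * (2 : ℝ) ^ (-((α - χ) * nr))) * (2 * (cB * μb)) ≤
      (2 : ℝ) ^ (2 * χ * nr) * (4 * ((2 : ℝ) ^ (χ * nr + 2) * W)) :=
    mul_le_mul hMA hnum (by positivity) (by positivity)
  refine le_trans h6 ?_
  have h7 : (2 : ℝ) ^ (((k : ℝ) + 4) * χ * nr + (4 + ((k : ℝ) + 1) * (4 + lg))) * (q * W) ≤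
      (2 : ℝ) ^ (((k : ℝ) + 4) * χ * nr + (4 + ((k : ℝ) + 1) * (4 + lg))) * ps :=
    mul_le_mul_of_nonneg_left h3 (by positivity)
  refine le_trans (le_of_eq ?_) h7
  have e3 : (2 : ℝ) ^ (((k : ℝ) + 4) * χ * nr + (4 + ((k : ℝ) + 1) * (4 + lg))) * (q * W) =
      ((2 : ℝ) ^ (((k : ℝ) + 4) * χ * nr + (4 + ((k : ℝ) + 1) * (4 + lg))) * q) * W := by ring
  have e2 : (2 : ℝ) ^ (2 * χ * nr) * (4 * ((2 : ℝ) ^ (χ * nr + 2) * W)) =
      ((2 : ℝ) ^ (2 * χ * nr) * (2 : ℝ) ^ (2 : ℝ) * (2 : ℝ) ^ (χ * nr + 2)) * W := by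
    rw [← h4]; ring
  rw [e3, e2, hqd, ← Real.rpow_add (by norm_num), ← Real.rpow_add (by norm_num), ← Real.rpow_add (by norm_num)]
  congr 2
  ring

section cfg
variable {α β γ χ : ℝ} {T : Type} [Fintype T] [DecidableEq T] {Pt : Finset (ℤ × ℕ)} {lam : ℤ × ℕ → ℝ}
  {B : Finset ℕ} {μB : ℕ → ℝ} {ν : T → ℝ} {c : T → ℕ} {G : Finset ((ℤ × ℕ) × T)} {M : ℝ}

theorem sabc_denseB (ε : ℝ) (hε : 0 < ε) (L m : ℕ) (hL : 1 ≤ L) (h : SabcHyp α β γ χ (m * L) Pt lam B μB ν c G M)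
    (B' : Finset ℕ) (hB' : B' ⊆ B) (NB : ℕ → ℕ) (hU : UTree (m * L) L m B' NB) (μ0 : ℝ) (hμ0 : 0 < μ0)
    (hμ0' : μ0 ≤ ∑ b ∈ B', μB b) :
    RmDense m (hiSet ε L m NB) (β - ε) (Real.logb 2 ((2 : ℝ) ^ (χ * (m * L : ℕ)) / μ0) / (m * L : ℕ)) := by
  have himg : (univ : Finset {b // b ∈ B'}).image Subtype.val = B' := by
    rw [Finset.univ_eq_attach, Finset.attach_image_val]
  refine tree_dense ε β hε L m hL (S := {b // b ∈ B'}) Subtype.val (fun s => μB s.1)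
    (fun s => h.mu0 _ (hB' s.2)) univ NB (by rw [himg]; exact hU) _ μ0 hμ0 ?_ ?_
  · rw [Finset.sum_coe_sort B' μB]; exact hμ0'
  · intro l hl j
    have hlL : l * L ≤ m * L := Nat.mul_le_mul_right L hl
    have h1 := h.froB (l * L) hlL j
    have e1 : (∑ s ∈ (univ : Finset {b // b ∈ B'}) with cell (m * L) L l s.1 = j, μB s.1) =
        ∑ b ∈ B' with cell (m * L) L l b = j, μB b := by
      rw [Finset.sum_filter, Finset.sum_filter,
        Finset.sum_coe_sort B' (fun b => if cell (m * L) L l b = j then μB b else 0)]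
    rw [e1]
    have h2 : (∑ b ∈ B' with cell (m * L) L l b = j, μB b) ≤ ∑ b ∈ B with b / 2 ^ (m * L - l * L) = j, μB b := by
      refine Finset.sum_le_sum_of_subset_of_nonneg ?_ ?_
      · intro b hb
        rw [mem_filter] at hb ⊢
        exact ⟨hB' hb.1, hb.2⟩
      · intro b hb _
        exact h.mu0 b (mem_filter.mp hb).1
    refine le_trans h2 (le_trans h1 (le_of_eq ?_))
    rw [← Real.rpow_add (by norm_num)]
    congr 1

theorem sabc_denseT (ε : ℝ) (hε : 0 < ε) (L m : ℕ) (hL : 1 ≤ L) (h : SabcHyp α β γ χ (m * L) Pt lam B μB ν c G M)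
    (T' : Finset T) (Mb : ℕ → ℕ) (hU : UTree (m * L) L m (T'.image c) Mb) (μ0 : ℝ) (hμ0 : 0 < μ0)
    (hμ0' : μ0 ≤ ∑ t ∈ T', ν t) :
    RmDense m (hiSet ε L m Mb) (γ - ε) (Real.logb 2 ((2 : ℝ) ^ (χ * (m * L : ℕ)) / μ0) / (m * L : ℕ)) := by
  refine tree_dense ε γ hε L m hL c ν h.nu0 T' Mb hU _ μ0 hμ0 hμ0' ?_
  intro l hl j
  have hlL : l * L ≤ m * L := Nat.mul_le_mul_right L hl
  have h1 := h.froT (l * L) hlL j
  have h2 : (∑ t ∈ T' with cell (m * L) L l (c t) = j, ν t) ≤ ∑ t with c t / 2 ^ (m * L - l * L) = j, ν t := by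
    refine Finset.sum_le_sum_of_subset_of_nonneg ?_ ?_
    · intro b hb
      rw [mem_filter] at hb ⊢
      exact ⟨mem_univ _, hb.2⟩
    · intro b _ _
      exact h.nu0 b
  refine le_trans h2 (le_trans h1 (le_of_eq ?_))
  rw [← Real.rpow_add (by norm_num)]
  congr 1

theorem sabc_Gm_le (n : ℕ) (h : SabcHyp α β γ χ n Pt lam B μB ν c G M) (B' : Finset ℕ) :
    (∑ g ∈ G with g.1.2 ∈ B', lam g.1 * ν g.2) ≤ ∑ p ∈ Pt with p.2 ∈ B', lam p := by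
  have h1 : (G.filter fun g => g.1.2 ∈ B') ⊆ (Pt.filter fun p => p.2 ∈ B') ×ˢ (univ : Finset T) := by
    intro g hg
    rw [mem_filter] at hg
    rw [mem_product, mem_filter]
    exact ⟨⟨(mem_product.mp (h.Gsub hg.1)).1, hg.2⟩, mem_univ _⟩
  have h2 : (∑ g ∈ G with g.1.2 ∈ B', lam g.1 * ν g.2) ≤
      ∑ g ∈ (Pt.filter fun p => p.2 ∈ B') ×ˢ (univ : Finset T), lam g.1 * ν g.2 := by
    refine Finset.sum_le_sum_of_subset_of_nonneg h1 ?_
    intro g hg _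
    rw [mem_product, mem_filter] at hg
    exact mul_nonneg (h.lam0 _ hg.1.1) (h.nu0 _)
  refine le_trans h2 ?_
  rw [Finset.sum_product]
  refine Finset.sum_le_sum fun p hp => ?_
  simp only
  rw [← Finset.mul_sum]
  have := h.lam0 p (mem_filter.mp hp).1
  calc lam p * ∑ t, ν t ≤ lam p * 1 := mul_le_mul_of_nonneg_left h.nu1 this
    _ = lam p := mul_one _


theorem sabc_cfg_final (ε : ℝ) (L m R k : ℕ) (h : SabcHyp α β γ χ (m * L) Pt lam B μB ν c G M)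
    (hM : M ≤ (2 : ℝ) ^ ((α + χ) * (m * L : ℕ)))
    (B' : Finset ℕ) (NB : ℕ → ℕ)
    (hbal : ∀ b ∈ B', ∀ b' ∈ B', μB b ≤ 2 * μB b')
    (hSB : 0 < ∑ b ∈ B', μB b)
    (hA : (2 : ℝ) ^ (-(χ * (m * L : ℕ) + 2)) * (∑ b ∈ B', μB b + ∑ p ∈ Pt with p.2 ∈ B', lam p) ≤
        ∑ g ∈ G with g.1.2 ∈ B', lam g.1 * ν g.2)
    (T' : Finset T) (t0 : T) (τ : ℕ → T) (Z0 : Finset ℕ) (hZ0m : ∀ z ∈ Z0, z < m) (hk : Z0.card ≤ k)
    (hAnn : ∀ z ∈ Z0, Ann (m * L) L z (c t0) (c (τ z)))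
    (hmass : ((2 : ℝ) ^ (-(χ * (m * L : ℕ) + 2)) / 4 / (100 * ((k : ℝ) + 1))) ^ (k + 1) *
        (∑ p ∈ Pt with p.2 ∈ B', lam p) ≤
      ∑ q ∈ (Pt.filter fun p => p.2 ∈ B') with ((q, t0) ∈ (G.filter fun g => g.1.2 ∈ B' ∧ g.2 ∈ T') ∧
        ∀ z ∈ Z0, (q, τ z) ∈ (G.filter fun g => g.1.2 ∈ B' ∧ g.2 ∈ T')), lam q)
    (Yb : ℝ) (hY : Yb ≤ ((Z0.biUnion fun z => rmShift m (sabcXth (hiSet ε L m NB) R m) z).card : ℝ)) :
    ∃ ka : ℕ, ka ≤ k ∧ ∃ (c0 : ℕ) (cc z : Fin ka → ℕ) (Gs : Finset (ℤ × ℕ)) (η : ℝ),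
      (∀ p ∈ Gs, 0 ≤ lam p) ∧ (∀ p ∈ Gs, p.2 ∈ B') ∧ 0 < ∑ p ∈ Gs, lam p ∧
      (∀ p ∈ Gs, lam p / ∑ q ∈ Gs, lam q ≤ η) ∧
      c0 < 2 ^ (m * L) ∧ (∀ i, cc i < 2 ^ (m * L)) ∧
      (∀ i, (2 : ℤ) ^ (m * L - (z i + 1) * L) ≤ |(cc i : ℤ) - c0| ∧ |(cc i : ℤ) - c0| < (2 : ℤ) ^ (m * L - z i * L)) ∧
      (((Gs.image fun p => p.1 + ecb (m * L) c0 p.2).card : ℕ) : ℝ) ≤ M ∧
      (∀ i, (((Gs.image fun p => p.1 + ecb (m * L) (cc i) p.2).card : ℕ) : ℝ) ≤ M) ∧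
      0 < M * B'.card * η ∧
      M * B'.card * η ≤ (2 : ℝ) ^ (((k : ℝ) + 4) * χ * (m * L : ℕ) +
        (4 + ((k : ℝ) + 1) * (4 + Real.logb 2 (100 * ((k : ℝ) + 1))))) ∧
      Yb - (R + 3) ≤ ((flY ε L m R NB z).card : ℝ) := by
  obtain ⟨Gs, hGs⟩ : ∃ Gs, Gs = (Pt.filter fun p => p.2 ∈ B').filter (fun q =>
      (q, t0) ∈ (G.filter fun g => g.1.2 ∈ B' ∧ g.2 ∈ T') ∧
        ∀ z ∈ Z0, (q, τ z) ∈ (G.filter fun g => g.1.2 ∈ B' ∧ g.2 ∈ T')) := ⟨_, rfl⟩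
  rw [← hGs] at hmass
  obtain ⟨W, hW⟩ : ∃ W, W = ∑ p ∈ Pt with p.2 ∈ B', lam p := ⟨_, rfl⟩
  obtain ⟨SB, hSBd⟩ : ∃ SB, SB = ∑ b ∈ B', μB b := ⟨_, rfl⟩
  have hGW := sabc_Gm_le (m * L) h B'
  rw [← hW] at hmass hA hGW
  rw [← hSBd] at hA hSB
  have hρ : 0 < (2 : ℝ) ^ (-(χ * (m * L : ℕ) + 2)) := by positivity
  have hW00 : 0 ≤ W := by
    rw [hW]; exact Finset.sum_nonneg fun p hp => h.lam0 p (mem_filter.mp hp).1
  have h2 : (2 : ℝ) ^ (-(χ * (m * L : ℕ) + 2)) * SB ≤ W := by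
    have : 0 ≤ (2 : ℝ) ^ (-(χ * (m * L : ℕ) + 2)) * W := by positivity
    rw [mul_add] at hA
    linarith
  have hW0 : 0 < W := lt_of_lt_of_le (mul_pos hρ hSB) h2
  have hps : 0 < ∑ p ∈ Gs, lam p := lt_of_lt_of_le (by positivity) hmass
  obtain ⟨b0, hb0⟩ : B'.Nonempty := by
    rw [Finset.nonempty_iff_ne_empty]
    rintro rfl
    rw [hSBd] at hSB
    simp at hSB
  have hμb0 : 0 < μB b0 := by
    by_contra hcon
    rw [not_lt] at hcon
    have : ∑ b ∈ B', μB b ≤ 0 := Finset.sum_nonpos fun b hb => by linarith [hbal b hb b0 hb0]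
    rw [← hSBd] at this
    linarith
  have hcard : (B'.card : ℝ) * μB b0 ≤ 2 * SB := by
    have : ∑ _b ∈ B', μB b0 ≤ ∑ b ∈ B', 2 * μB b := Finset.sum_le_sum fun b hb => hbal b0 hb0 b hb
    rw [Finset.sum_const, nsmul_eq_mul, ← Finset.mul_sum, ← hSBd] at this
    exact this
  have hGsPt : ∀ p ∈ Gs, p ∈ Pt ∧ p.2 ∈ B' ∧ (p, t0) ∈ G ∧ ∀ z ∈ Z0, (p, τ z) ∈ G := by
    intro p hp
    rw [hGs, mem_filter, mem_filter] at hp
    exact ⟨hp.1.1, hp.1.2, (mem_filter.mp hp.2.1).1, fun z hz => (mem_filter.mp (hp.2.2 z hz)).1⟩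
  have himg : ∀ t, (∀ p ∈ Gs, (p, t) ∈ G) →
      (((Gs.image fun p => p.1 + ecb (m * L) (c t) p.2).card : ℕ) : ℝ) ≤ M := by
    intro t ht
    refine le_trans ?_ (h.img t)
    have : (Gs.image fun p => p.1 + ecb (m * L) (c t) p.2) ⊆
        ((G.filter fun g => g.2 = t).image fun g => g.1.1 + ecb (m * L) (c t) g.1.2) := by
      intro y hy
      rw [mem_image] at hy ⊢
      obtain ⟨p, hp, rfl⟩ := hy
      exact ⟨(p, t), mem_filter.mpr ⟨ht p hp, rfl⟩, rfl⟩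
    exact_mod_cast card_le_card this
  have hne : Gs.Nonempty := by
    rw [Finset.nonempty_iff_ne_empty]
    rintro rfl
    simp at hps
  have hM0 : 0 < M := by
    have h1 : 1 ≤ (Gs.image fun p => p.1 + ecb (m * L) (c t0) p.2).card := Finset.card_pos.mpr (hne.image _)
    have h3 : (1 : ℝ) ≤ (((Gs.image fun p => p.1 + ecb (m * L) (c t0) p.2).card : ℕ) : ℝ) := by exact_mod_cast h1
    linarith [himg t0 fun p hp => (hGsPt p hp).2.2.1]
  have hcB : (0 : ℝ) < (B'.card : ℝ) := by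
    have : 0 < B'.card := Finset.card_pos.mpr ⟨b0, hb0⟩
    exact_mod_cast this
  have hzmem : ∀ i : Fin Z0.card, Z0.orderEmbOfFin rfl i ∈ Z0 := fun i => Finset.orderEmbOfFin_mem Z0 rfl i
  refine ⟨Z0.card, hk, c t0, fun i => c (τ (Z0.orderEmbOfFin rfl i)), fun i => Z0.orderEmbOfFin rfl i, Gs,
    (2 : ℝ) ^ (-((α - χ) * (m * L : ℕ))) * (2 * μB b0) / ∑ p ∈ Gs, lam p,
    fun p hp => h.lam0 p (hGsPt p hp).1, fun p hp => (hGsPt p hp).2.1, hps, ?_, h.clt t0, fun i => h.clt _,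
    fun i => ann_dist L m _ _ _ (hZ0m _ (hzmem i)) (hAnn _ (hzmem i)),
    himg t0 fun p hp => (hGsPt p hp).2.2.1, fun i => himg _ fun p hp => (hGsPt p hp).2.2.2 _ (hzmem i), ?_, ?_, ?_⟩
  · intro p hp
    refine div_le_div_of_nonneg_right ?_ hps.le
    refine le_trans (h.atoms p (hGsPt p hp).1) ?_
    exact mul_le_mul_of_nonneg_left (hbal _ (hGsPt p hp).2.1 b0 hb0) (by positivity)
  · positivity
  · exact sabc_cfg_kappa α χ _ M _ (μB b0) SB W _ k hM hcB.le hμb0.le hcard h2 hW0 hmass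
  · have h1 := sabc_flY ε L m R NB (fun i : Fin Z0.card => Z0.orderEmbOfFin rfl i)
    have h3 : (Z0.biUnion fun z => rmShift m (sabcXth (hiSet ε L m NB) R m) z) ⊆
        ((univ : Finset (Fin Z0.card)).biUnion fun i =>
          rmShift m (sabcXth (hiSet ε L m NB) R m) (Z0.orderEmbOfFin rfl i)) := by
      intro y hy
      rw [mem_biUnion] at hy ⊢
      obtain ⟨z, hz, hy⟩ := hy
      have : z ∈ Set.range (Z0.orderEmbOfFin rfl) := by
        rw [Finset.range_orderEmbOfFin]; exact hz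
      obtain ⟨i, rfl⟩ := this
      exact ⟨i, mem_univ _, hy⟩
    have h4 : ((Z0.biUnion fun z => rmShift m (sabcXth (hiSet ε L m NB) R m) z).card : ℝ) ≤
        (((univ : Finset (Fin Z0.card)).biUnion fun i =>
          rmShift m (sabcXth (hiSet ε L m NB) R m) (Z0.orderEmbOfFin rfl i)).card : ℝ) := by
      exact_mod_cast card_le_card h3
    linarith

end cfg

theorem sabc_cfg_num (ε' χ1 χ : ℝ) (R L m : ℕ) (hε' : 0 < ε') (hχ1 : 0 < χ1) (hχ : 0 < χ)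
    (hχa : χ ≤ ε' / 64) (hχb : χ ≤ χ1 / 2) (hL1 : 1 ≤ L) (hm1 : 1 ≤ m)
    (hLl : Real.logb 2 (2 * (L : ℝ) + 2) ≤ ε' / 8 * L)
    (hn : Real.logb 2 (4 * ((m * L : ℕ) : ℝ) + 8) ≤ ε' / 8 * (m * L : ℕ))
    (hm24 : 24 / ε' ≤ m) (hmR : 8 * R / ε' ≤ m) (hmχ : 8 / χ1 ≤ m) :
    Real.logb 2 ((2 : ℝ) ^ (χ * (m * L : ℕ)) /
      ((2 : ℝ) ^ (-(3 * χ * (m * L : ℕ) + 1)) / (4 * (((m * L : ℕ) : ℝ) + 2) * (2 * (L : ℝ) + 2) ^ m))) /
        (m * L : ℕ) + R / m ≤ ε' ∧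
    Real.logb 2 ((2 : ℝ) ^ (χ * (m * L : ℕ)) /
      ((2 : ℝ) ^ (-(χ * (m * L : ℕ) + 2)) / 2 / (4 * (((m * L : ℕ) : ℝ) + 2) * (2 * (L : ℝ) + 2) ^ m))) /
        (m * L : ℕ) + ε' / 4 ≤ ε' ∧
    (2 : ℝ) ^ (-(χ1 * (m * L : ℕ))) ≤ (2 : ℝ) ^ (-(χ * (m * L : ℕ) + 2)) / 4 := by
  have hmr : (0 : ℝ) < m := by exact_mod_cast hm1
  have hLr : (1 : ℝ) ≤ L := by exact_mod_cast hL1
  have hnm : (m : ℝ) ≤ ((m * L : ℕ) : ℝ) := by
    push_cast
    calc (m : ℝ) = m * 1 := (mul_one _).symm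
      _ ≤ m * L := mul_le_mul_of_nonneg_left hLr hmr.le
  rw [div_le_iff₀ hε'] at hm24 hmR
  rw [div_le_iff₀ hχ1] at hmχ
  have h3 : (3 : ℝ) ≤ ε' / 8 * (m * L : ℕ) := by
    have : ε' / 8 * m ≤ ε' / 8 * (m * L : ℕ) := mul_le_mul_of_nonneg_left hnm (by positivity)
    linarith
  refine ⟨?_, ?_, ?_⟩
  · have h1 := sabc_slack χ 3 1 ε' L m hL1 hm1 (by linarith) hLl hn (by linarith)
    have h2 : (R : ℝ) / m ≤ ε' / 8 := by
      rw [div_le_iff₀ hmr]; linarith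
    linarith
  · have h1 := sabc_slack χ 1 3 ε' L m hL1 hm1 (by linarith) hLl hn h3
    have e : (2 : ℝ) ^ (-(χ * (m * L : ℕ) + 2)) / 2 = (2 : ℝ) ^ (-(1 * χ * (m * L : ℕ) + 3)) := by
      have : -(1 * χ * ((m * L : ℕ) : ℝ) + 3) = -(χ * (m * L : ℕ) + 2) - 1 := by ring
      rw [this, Real.rpow_sub (by norm_num), Real.rpow_one]
    rw [e]
    linarith
  · have e : (2 : ℝ) ^ (-(χ * (m * L : ℕ) + 2)) / 4 = (2 : ℝ) ^ (-(χ * (m * L : ℕ) + 2) - 2) := by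
      rw [Real.rpow_sub (by norm_num)]
      norm_num
    rw [e]
    refine Real.rpow_le_rpow_of_exponent_le (by norm_num) ?_
    have h4 : χ * ((m * L : ℕ) : ℝ) ≤ χ1 / 2 * (m * L : ℕ) := mul_le_mul_of_nonneg_right hχb (by positivity)
    have h5 : χ1 / 2 * m ≤ χ1 / 2 * (m * L : ℕ) := mul_le_mul_of_nonneg_left hnm (by positivity)
    linarith

/-- **the configuration** (leaf SABC-CONFIG; glue of steps A, B, tree_dense, tuple_main, rm_greedy, sabc_thick, sabc_flY, ann_dist).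
Order of constants: `(ε',k)` from `rm_greedy (β-ε) (γ-ε) τ1 (R-2)`; `(L0,χ1)` from `tuple_main ε (ε'/4) k`; `L ≥ L0` with `log₂(2L+2)/L ≤ ε'/8`;
`χ0 = min (ε'/64) (χ1/2)`; `m0` so large that `(R + 5 + log₂(4(mL+2)))/m ≤ ε'/8` and `4 ≤ (χ1/2) m L`.
`η := 2^(-(α-χ)n) (max_{B'} μB) / p*`, `p* = lam Gs`.  `#B' max μB ≤ 2 μB(B')`, `μB(B') ≤ 2^(χn+2) W`, `p* ≥ (ρ0/(100(k+1)))^(k+1) W`, `ρ0 = 2^(-(χn+4))`:
`M #B' η ≤ 2^(2χn+1) 2^(χn+2) (100(k+1) 2^(χn+4))^(k+1) ≤ 2^((k+4)χn + Ck)`. -/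
theorem sabc_config (β γ ε τ1 : ℝ) (hε : 0 < ε) (hεβ : ε < β) (hεγ : ε < γ) (hβ1 : β ≤ 1) (hγ1 : γ ≤ 1) (hτ1 : 0 < τ1)
    (R : ℕ) (hR : 8 / τ1 + 2 ≤ R) :
    ∃ k : ℕ, ∃ Ck : ℝ, ∃ L0 : ℕ, ∀ L, L0 ≤ L → ∃ χ0 : ℝ, 0 < χ0 ∧ ∀ χ, 0 < χ → χ ≤ χ0 → ∃ m0 : ℕ, ∀ m, m0 ≤ m →
      ∀ (α : ℝ) (T : Type) [Fintype T] [DecidableEq T] (Pt : Finset (ℤ × ℕ)) (lam : ℤ × ℕ → ℝ) (B : Finset ℕ) (μB : ℕ → ℝ)
        (ν : T → ℝ) (c : T → ℕ) (G : Finset ((ℤ × ℕ) × T)) (M : ℝ),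
        SabcHyp α β γ χ (m * L) Pt lam B μB ν c G M → M ≤ (2 : ℝ) ^ ((α + χ) * (m * L : ℕ)) →
        ∃ (B' : Finset ℕ) (NB : ℕ → ℕ), UTree (m * L) L m B' NB ∧
          ∃ ka : ℕ, ka ≤ k ∧ ∃ (c0 : ℕ) (cc z : Fin ka → ℕ) (Gs : Finset (ℤ × ℕ)) (η : ℝ),
            (∀ p ∈ Gs, 0 ≤ lam p) ∧ (∀ p ∈ Gs, p.2 ∈ B') ∧ 0 < ∑ p ∈ Gs, lam p ∧
            (∀ p ∈ Gs, lam p / ∑ q ∈ Gs, lam q ≤ η) ∧
            c0 < 2 ^ (m * L) ∧ (∀ i, cc i < 2 ^ (m * L)) ∧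
            (∀ i, (2 : ℤ) ^ (m * L - (z i + 1) * L) ≤ |(cc i : ℤ) - c0| ∧ |(cc i : ℤ) - c0| < (2 : ℤ) ^ (m * L - z i * L)) ∧
            (((Gs.image fun p => p.1 + ecb (m * L) c0 p.2).card : ℕ) : ℝ) ≤ M ∧
            (∀ i, (((Gs.image fun p => p.1 + ecb (m * L) (cc i) p.2).card : ℕ) : ℝ) ≤ M) ∧
            0 < M * B'.card * η ∧
            M * B'.card * η ≤ (2 : ℝ) ^ (((k : ℝ) + 4) * χ * (m * L : ℕ) + Ck) ∧
            (min 1 (β - ε + (γ - ε)) - τ1) * m - (R + 3) ≤ ((flY ε L m R NB z).card : ℝ) := by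
  have hR2r : (2 : ℝ) ≤ R := by
    have : 0 < 8 / τ1 := by positivity
    linarith
  have hR2 : 2 ≤ R := by exact_mod_cast hR2r
  have hRc : ((R - 2 : ℕ) : ℝ) = (R : ℝ) - 2 := by rw [Nat.cast_sub hR2]; norm_num
  obtain ⟨ε', hε', k, hgr⟩ := rm_greedy (β - ε) (γ - ε) τ1 (by linarith) (by linarith) hτ1 (R - 2)
    (by rw [hRc]; linarith)
  obtain ⟨L0t, χ1, hχ1, htu⟩ := tuple_main ε (ε' / 4) hε (by positivity) k
  obtain ⟨L0l, hL0l⟩ := sabc_log_small 2 2 (ε' / 8) (by norm_num) (by norm_num) (by positivity)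
  obtain ⟨n0, hn0⟩ := sabc_log_small 4 8 (ε' / 8) (by norm_num) (by norm_num) (by positivity)
  refine ⟨k, 4 + ((k : ℝ) + 1) * (4 + Real.logb 2 (100 * ((k : ℝ) + 1))), max (max L0t L0l) 1, fun L hL => ?_⟩
  have hLt : L0t ≤ L := le_trans (le_trans (le_max_left _ _) (le_max_left _ _)) hL
  have hLl : L0l ≤ L := le_trans (le_trans (le_max_right _ _) (le_max_left _ _)) hL
  have hL1 : 1 ≤ L := le_trans (le_max_right _ _) hL
  refine ⟨min (ε' / 64) (χ1 / 2), lt_min (by positivity) (by positivity), fun χ hχ hχle => ?_⟩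
  have hχa : χ ≤ ε' / 64 := le_trans hχle (min_le_left _ _)
  have hχb : χ ≤ χ1 / 2 := le_trans hχle (min_le_right _ _)
  refine ⟨max (max 1 n0) (max ⌈24 / ε'⌉₊ (max ⌈8 * (R : ℝ) / ε'⌉₊ ⌈8 / χ1⌉₊)), fun m hm => ?_⟩
  have hm1 : 1 ≤ m := le_trans (le_trans (le_max_left _ _) (le_max_left _ _)) hm
  have hmn0 : n0 ≤ m := le_trans (le_trans (le_max_right _ _) (le_max_left _ _)) hm
  have hm24 : 24 / ε' ≤ m := le_trans (Nat.le_ceil _)
    (by exact_mod_cast le_trans (le_trans (le_max_left _ _) (le_max_right _ _)) hm)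
  have hmR : 8 * (R : ℝ) / ε' ≤ m := le_trans (Nat.le_ceil _)
    (by exact_mod_cast le_trans (le_trans (le_trans (le_max_left _ _) (le_max_right _ _)) (le_max_right _ _)) hm)
  have hmχ : 8 / χ1 ≤ m := le_trans (Nat.le_ceil _)
    (by exact_mod_cast le_trans (le_trans (le_trans (le_max_right _ _) (le_max_right _ _)) (le_max_right _ _)) hm)
  have hmL : n0 ≤ m * L := le_trans hmn0 (Nat.le_mul_of_pos_right m hL1)
  obtain ⟨hN1, hN2, hN3⟩ := sabc_cfg_num ε' χ1 χ R L m hε' hχ1 hχ hχa hχb hL1 hm1 (hL0l L hLl) (hn0 (m * L) hmL)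
    hm24 hmR hmχ
  intro α T _ _ Pt lam B μB ν c G M hyp hM
  have hden : (0 : ℝ) < 4 * (((m * L : ℕ) : ℝ) + 2) * (2 * (L : ℝ) + 2) ^ m := by positivity
  -- step A
  obtain ⟨B', hB'B, NB, hUB, hbal, hmassB, hA⟩ := sabc_stepA L m hL1 hχ.le hyp hM
  have hμ0B : 0 < (2 : ℝ) ^ (-(3 * χ * (m * L : ℕ) + 1)) / (4 * (((m * L : ℕ) : ℝ) + 2) * (2 * (L : ℝ) + 2) ^ m) := by
    positivity
  have hSB : 0 < ∑ b ∈ B', μB b := lt_of_lt_of_le hμ0B hmassB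
  have hρ1 : 0 < (2 : ℝ) ^ (-(χ * (m * L : ℕ) + 2)) := by positivity
  have hW0 : 0 ≤ ∑ p ∈ Pt with p.2 ∈ B', lam p :=
    Finset.sum_nonneg fun p hp => hyp.lam0 p (mem_filter.mp hp).1
  have hGpos : 0 < ∑ g ∈ G with g.1.2 ∈ B', lam g.1 * ν g.2 :=
    lt_of_lt_of_le (mul_pos hρ1 (by linarith)) hA
  have hGW : (2 : ℝ) ^ (-(χ * (m * L : ℕ) + 2)) * ∑ p ∈ Pt with p.2 ∈ B', lam p ≤
      ∑ g ∈ G with g.1.2 ∈ B', lam g.1 * ν g.2 := by
    refine le_trans (mul_le_mul_of_nonneg_left ?_ hρ1.le) hA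
    linarith
  -- step B
  obtain ⟨T', Mb, hUT, hbalT, hmassT, hB⟩ := sabc_stepB L m hL1 hyp B' _ hρ1 hGpos hGW
  have hμ0T : 0 < (2 : ℝ) ^ (-(χ * (m * L : ℕ) + 2)) / 2 / (4 * (((m * L : ℕ) : ℝ) + 2) * (2 * (L : ℝ) + 2) ^ m) := by
    positivity
  have hνT : 0 < ∑ t ∈ T', ν t := lt_of_lt_of_le hμ0T hmassT
  -- densities
  have hdB := sabc_denseB ε hε L m hL1 hyp B' hB'B NB hUB _ hμ0B hmassB
  have hdT := sabc_denseT ε hε L m hL1 hyp T' Mb hUT _ hμ0T hmassT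
  have hXsub : hiSet ε L m NB ⊆ range m := Finset.filter_subset _ _
  obtain ⟨hX0sub, hXthsub, hthick, hdX0⟩ := sabc_thick (hiSet ε L m NB) R m hR2 hXsub (β - ε) _ (by linarith)
    (by omega) hdB
  have hdX0' := sabc_dense_mono m _ _ _ ε' hdX0 hN1
  -- the tuple
  obtain ⟨Z, hZsub, hZcard, htup⟩ := htu L hLt m T (ℤ × ℕ) ν c T' Mb (Pt.filter fun p => p.2 ∈ B') lam
    (G.filter fun g => g.1.2 ∈ B' ∧ g.2 ∈ T') ((2 : ℝ) ^ (-(χ * (m * L : ℕ) + 2)) / 4) hyp.nu0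
    (fun q hq => hyp.lam0 q (mem_filter.mp hq).1) hUT hbalT hνT
    (by
      intro g hg
      rw [mem_filter] at hg
      rw [mem_product, mem_filter]
      exact ⟨⟨(mem_product.mp (hyp.Gsub hg.1)).1, hg.2.1⟩, hg.2.2⟩) hN3 hB
  have hdZ := sabc_dense_mono m _ _ _ ε' (sabc_dense_sdiff m _ Z _ _ _ hdT hZcard) hN2
  have hZm : Z ⊆ range m := hZsub.trans (Finset.filter_subset _ _)
  -- greedy
  obtain ⟨Z0, hZ0Z, hZ0k, hY⟩ := hgr m _ _ Z hX0sub hXthsub hZm hthick hdX0' hdZ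
  obtain ⟨t0, -, τ, hτ, hmass⟩ := htup Z0 hZ0Z hZ0k
  exact ⟨B', NB, hUB, sabc_cfg_final ε L m R k hyp hM B' NB hbal hSB hA T' t0 τ Z0
    (fun z hz => mem_range.mp (hZm (hZ0Z hz))) hZ0k (fun z hz => (hτ z hz).2) hmass _ hY⟩

end Claimed.Agent.RW
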