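import Claimed.Agent.RW.TreeDefs

/-!
# Team RW.  Unit TREE, leaf TREE-CARD: counting on uniform trees.

* `tree_card`: induction on `j`.  `j = 0`: `cell_zero`, `S` nonempty.  Step: the level-`(j+1)` cells fibre over the level-`j` cells by
  `d ↦ d / 2^L` (`cell_succ_div`); the fibre over `cell j x` is the set in `UTree.branch` (`Finset.card_eq_sum_card_fiberwise`).
* `tree_branch_le`: the set in `UTree.branch` contains `cell (l+1) x`; all its elements `d` have `d / 2^L = cell l x`, so
  `d ↦ d % 2^L` is injective on it with values in `range (2^L)`.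
-/

set_option autoImplicit false

open Finset

namespace Claimed.Agent.RW

theorem tree_card (L m : ℕ) (S : Finset ℕ) (N : ℕ → ℕ) (h : UTree (m * L) L m S N) (j : ℕ) (hj : j ≤ m) :
    (S.image (cell (m * L) L j)).card = ∏ l ∈ range j, N l := by
  induction j with
  | zero =>
    obtain ⟨x, hx⟩ := h.ne
    have e : S.image (cell (m * L) L 0) = {0} := by
      ext d
      rw [mem_image, mem_singleton]
      constructor
      · rintro ⟨y, hy, rfl⟩
        exact cell_zero _ _ _ (h.lt y hy)
      · rintro rfl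
        exact ⟨x, hx, cell_zero _ _ _ (h.lt x hx)⟩
    rw [e]
    simp
  | succ j ih =>
    have hjL : (j + 1) * L ≤ m * L := Nat.mul_le_mul_right L hj
    have hmaps : ∀ d ∈ S.image (cell (m * L) L (j + 1)), d / 2 ^ L ∈ S.image (cell (m * L) L j) := by
      intro d hd
      obtain ⟨y, hy, rfl⟩ := mem_image.1 hd
      rw [cell_succ_div _ _ _ _ hjL]
      exact mem_image_of_mem _ hy
    rw [card_eq_sum_card_fiberwise hmaps, prod_range_succ, ← ih (by omega)]
    have hfib : ∀ b ∈ S.image (cell (m * L) L j),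
        ((S.image (cell (m * L) L (j + 1))).filter fun d => d / 2 ^ L = b).card = N j := by
      intro b hb
      obtain ⟨x, hx, rfl⟩ := mem_image.1 hb
      rw [← h.branch j (by omega) x hx]
      congr 1
      ext d
      rw [mem_filter, mem_image, mem_image]
      constructor
      · rintro ⟨⟨y, hy, rfl⟩, h2⟩
        rw [cell_succ_div _ _ _ _ hjL] at h2
        exact ⟨y, mem_filter.2 ⟨hy, h2⟩, rfl⟩
      · rintro ⟨y, hy, rfl⟩
        rw [mem_filter] at hy
        exact ⟨⟨y, hy.1, rfl⟩, by rw [cell_succ_div _ _ _ _ hjL]; exact hy.2⟩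
    rw [sum_congr rfl hfib, sum_const, smul_eq_mul]

theorem tree_branch_le (L m : ℕ) (S : Finset ℕ) (N : ℕ → ℕ) (h : UTree (m * L) L m S N) (l : ℕ) (hl : l < m) :
    1 ≤ N l ∧ N l ≤ 2 ^ L := by
  obtain ⟨x, hx⟩ := h.ne
  have hlL : (l + 1) * L ≤ m * L := Nat.mul_le_mul_right L hl
  rw [← h.branch l hl x hx]
  constructor
  · exact card_pos.2 ⟨_, mem_image_of_mem _ (mem_filter.2 ⟨hx, rfl⟩)⟩
  · have hsub : ((S.filter fun y => cell (m * L) L l y = cell (m * L) L l x).image (cell (m * L) L (l + 1)))
        ⊆ (range (2 ^ L)).image fun r => cell (m * L) L l x * 2 ^ L + r := by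
      intro d hd
      obtain ⟨y, hy, rfl⟩ := mem_image.1 hd
      rw [mem_filter] at hy
      refine mem_image.2 ⟨cell (m * L) L (l + 1) y % 2 ^ L, mem_range.2 (Nat.mod_lt _ (by positivity)), ?_⟩
      rw [← hy.2, ← cell_succ_div _ _ _ _ hlL]
      exact Nat.div_add_mod' _ _
    refine (card_le_card hsub).trans (card_image_le.trans ?_)
    rw [card_range]

end Claimed.Agent.RW
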