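import Claimed.Agent.RW.Robust

/-!
# Team RW.  Unit TREE, file 0: `L`-adic cells, uniform trees, rich levels (definitions + arithmetic of cells).

Positions are naturals `< 2^n`, `n = m*L`.  The level-`l` cell of `x` is `x / 2^(n-l*L)` (`l ≤ m`); level `m` cells are points.
-/

set_option autoImplicit false

open Finset

namespace Claimed.Agent.RW

/-- level-`l` cell (block length `L`, `n` bits) -/
def cell (n L l x : ℕ) : ℕ := x / 2 ^ (n - l * L)

/-- `S` is a uniform tree: every level-`l` cell meeting `S` has exactly `N l` children meeting `S` (`l < m`). -/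
structure UTree (n L m : ℕ) (S : Finset ℕ) (N : ℕ → ℕ) : Prop where
  lt : ∀ x ∈ S, x < 2 ^ n
  ne : S.Nonempty
  branch : ∀ l, l < m → ∀ x ∈ S,
    ((S.filter fun y => cell n L l y = cell n L l x).image (cell n L (l + 1))).card = N l

/-- the rich levels `{l < m : N l ≥ 2^(ε L)}` -/
noncomputable def hiSet (ε : ℝ) (L m : ℕ) (N : ℕ → ℕ) : Finset ℕ :=
  (range m).filter fun l => (2 : ℝ) ^ (ε * L) ≤ (N l : ℝ)

/-- the parent of the level-`(l+1)` cell -/
theorem cell_succ_div (n L l x : ℕ) (h : (l + 1) * L ≤ n) : cell n L (l + 1) x / 2 ^ L = cell n L l x := by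
  unfold cell
  rw [Nat.div_div_eq_div_mul, ← pow_add]
  congr 2
  have : (l + 1) * L = l * L + L := by ring
  omega

/-- level `m` cells are points -/
theorem cell_top (m L x : ℕ) : cell (m * L) L m x = x := by
  simp [cell]

/-- there is one level-`0` cell -/
theorem cell_zero (n L x : ℕ) (hx : x < 2 ^ n) : cell n L 0 x = 0 := by
  simp [cell, Nat.div_eq_of_lt hx]

/-- forgetting the last block -/
theorem cell_shift (m L l x : ℕ) (hl : l ≤ m) : cell ((m + 1) * L) L l x = cell (m * L) L l (x / 2 ^ L) := by
  unfold cell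
  rw [Nat.div_div_eq_div_mul, ← pow_add]
  congr 2
  have h1 : (m + 1) * L = m * L + L := by ring
  have h2 : l * L ≤ m * L := Nat.mul_le_mul_right L hl
  omega

end Claimed.Agent.RW
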