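import Claimed.Agent.RW.TreeCard

/-!
# Team RW.  Unit TREE, leaf TREE-DENSE: Frostman ⟹ prefix density of the rich levels.

Fix `j ≤ m`, `h = #{l ∈ hiSet : l < j}`, `n_j = ∏_{l<j} N l` = number of level-`j` cells (`tree_card`).
* `μ0 ≤ ∑_{S'} μ = ∑_{cells c} ∑_{s ∈ S', cell j (pos s) = c} μ ≤ n_j · CF · 2^(-β j L)` (`Finset.sum_fiberwise_of_maps_to`, `hfro`);
  in particular `CF > 0`.
* `n_j ≤ 2^(L h) · 2^(ε L (j - h)) ≤ 2^(L h + ε L j)`: rich levels `N l ≤ 2^L` (`tree_branch_le`), the others `N l < 2^(ε L)`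
  (`Finset.prod_le_prod`, split `range j` by membership in `hiSet`; or induction on `j`).
* take `Real.logb 2`:  `β j L - logb 2 (CF/μ0) ≤ L h + ε L j`; divide by `L ≥ 1`.  The slack is `logb 2 (CF/μ0) / (m L) * m = logb 2 (CF/μ0) / L`
  for `m ≠ 0`; for `m = 0` only `j = 0` occurs and both sides are `0`.
-/

set_option autoImplicit false

open Finset

namespace Claimed.Agent.RW

/-- **Frostman ⟹ the rich levels have prefix density `β - ε`**, slack `log₂(CF/μ0)/n`. -/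
theorem tree_dense (ε β : ℝ) (hε : 0 < ε) (L m : ℕ) (hL : 1 ≤ L) {S : Type*} [Fintype S] [DecidableEq S] (pos : S → ℕ)
    (μ : S → ℝ) (hμ : ∀ s, 0 ≤ μ s) (S' : Finset S) (N : ℕ → ℕ) (hU : UTree (m * L) L m (S'.image pos) N)
    (CF μ0 : ℝ) (hμ0 : 0 < μ0) (hμ0' : μ0 ≤ ∑ s ∈ S', μ s)
    (hfro : ∀ l, l ≤ m → ∀ j, (∑ s ∈ S' with cell (m * L) L l (pos s) = j, μ s) ≤ CF * (2 : ℝ) ^ (-(β * (l * L : ℕ)))) :
    RmDense m (hiSet ε L m N) (β - ε) (Real.logb 2 (CF / μ0) / (m * L : ℕ)) := by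
  classical
  intro j hj
  obtain ⟨h, hh⟩ : ∃ h : ℕ, h = ((hiSet ε L m N).filter fun x => x < j).card := ⟨_, rfl⟩
  rw [← hh]
  rcases Nat.eq_zero_or_pos m with hm0 | hm0
  · subst hm0
    have : j = 0 := by omega
    subst this
    simp
  have hLR : (1 : ℝ) ≤ L := by exact_mod_cast hL
  have hmR : (0 : ℝ) < m := by exact_mod_cast hm0
  -- number of cells
  have hcells := tree_card L m (S'.image pos) N hU j hj
  -- Step 1
  have h1 : μ0 ≤ ((∏ l ∈ range j, N l : ℕ) : ℝ) * (CF * (2 : ℝ) ^ (-(β * (j * L : ℕ)))) := by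
    refine hμ0'.trans ?_
    rw [← sum_fiberwise_of_maps_to (s := S') (t := (S'.image pos).image (cell (m * L) L j))
      (g := fun s => cell (m * L) L j (pos s))
      (fun s hs => mem_image_of_mem _ (mem_image_of_mem _ hs))]
    refine (sum_le_sum fun c _ => hfro j hj c).trans ?_
    rw [sum_const, hcells, nsmul_eq_mul]
  -- Step 2
  have h2 : ((∏ l ∈ range j, N l : ℕ) : ℝ) ≤ (2 : ℝ) ^ ((L : ℝ) * h + ε * L * j) := by
    have e1 : (L : ℝ) * h + ε * L * j = ∑ l ∈ range j, ((if l ∈ hiSet ε L m N then (L : ℝ) else 0) + ε * L) := by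
      rw [sum_add_distrib, sum_const, card_range, nsmul_eq_mul, ← sum_filter, sum_const, nsmul_eq_mul]
      have e2 : ((range j).filter fun l => l ∈ hiSet ε L m N) = (hiSet ε L m N).filter fun x => x < j := by
        ext x
        rw [mem_filter, mem_filter, mem_range]
        exact and_comm
      rw [e2, ← hh]
      ring
    rw [e1, Real.rpow_sum_of_pos (by norm_num)]
    push_cast
    refine prod_le_prod (fun l _ => Nat.cast_nonneg _) fun l hl => ?_
    rw [mem_range] at hl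
    have hlm : l < m := by omega
    split_ifs with hmem
    · have hb := (tree_branch_le L m (S'.image pos) N hU l hlm).2
      have hb' : (N l : ℝ) ≤ (2 : ℝ) ^ (L : ℝ) := by
        rw [Real.rpow_natCast]
        exact_mod_cast hb
      refine hb'.trans (Real.rpow_le_rpow_of_exponent_le (by norm_num) ?_)
      have : 0 ≤ ε * L := by positivity
      linarith
    · have : ¬ ((2 : ℝ) ^ (ε * L) ≤ (N l : ℝ)) := by
        intro hc
        exact hmem (mem_filter.2 ⟨mem_range.2 hlm, hc⟩)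
      rw [zero_add]
      exact (not_le.1 this).le
  -- Step 3
  have hp : (0 : ℝ) < (2 : ℝ) ^ (-(β * (j * L : ℕ))) := by positivity
  have hCF : 0 < CF := by
    by_contra hneg
    have hneg' : CF ≤ 0 := not_lt.1 hneg
    have : ((∏ l ∈ range j, N l : ℕ) : ℝ) * (CF * (2 : ℝ) ^ (-(β * (j * L : ℕ)))) ≤ 0 :=
      mul_nonpos_of_nonneg_of_nonpos (Nat.cast_nonneg _) (mul_nonpos_of_nonpos_of_nonneg hneg' hp.le)
    linarith
  have h3 : μ0 ≤ (2 : ℝ) ^ ((L : ℝ) * h + ε * L * j) * (CF * (2 : ℝ) ^ (-(β * (j * L : ℕ)))) :=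
    h1.trans (mul_le_mul_of_nonneg_right h2 (mul_nonneg hCF.le hp.le))
  have h4 : (2 : ℝ) ^ (β * (j * L : ℕ) - ((L : ℝ) * h + ε * L * j)) ≤ CF / μ0 := by
    rw [le_div_iff₀ hμ0, Real.rpow_sub (by norm_num), div_mul_eq_mul_div, div_le_iff₀ (by positivity)]
    rw [Real.rpow_neg (by norm_num)] at h3
    have hq : (0 : ℝ) < (2 : ℝ) ^ (β * (j * L : ℕ)) := by positivity
    calc (2 : ℝ) ^ (β * (j * L : ℕ)) * μ0
        ≤ (2 : ℝ) ^ (β * (j * L : ℕ)) * ((2 : ℝ) ^ ((L : ℝ) * h + ε * L * j) * (CF * ((2 : ℝ) ^ (β * (j * L : ℕ)))⁻¹)) :=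
          mul_le_mul_of_nonneg_left h3 hq.le
      _ = CF * (2 : ℝ) ^ ((L : ℝ) * h + ε * L * j) := by
          field_simp
  have h5 : β * (j * L : ℕ) - ((L : ℝ) * h + ε * L * j) ≤ Real.logb 2 (CF / μ0) := by
    rw [Real.le_logb_iff_rpow_le (by norm_num) (by positivity)]
    exact h4
  have e3 : Real.logb 2 (CF / μ0) / (m * L : ℕ) * m = Real.logb 2 (CF / μ0) / L := by
    push_cast
    field_simp
  rw [e3, sub_le_iff_le_add, ← sub_le_iff_le_add', le_div_iff₀ (by linarith)]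
  push_cast at h5
  nlinarith [h5]

end Claimed.Agent.RW
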