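import Claimed.Agent.RW.TreeDefs

/-!
# Team RW.  Unit TREE, leaf TREE-LEVEL: pruning the last level.

Nodes `C = P.image (· / 2^L)`; `k c = #{x ∈ P : x / 2^L = c} ∈ [1, 2^L]` (the map `x ↦ x % 2^L` is injective on the fibre);
class of `c` : `Nat.log 2 (k c) ∈ [0, L]` (`Nat.pow_log_le_self`, `Nat.lt_pow_succ_log_self`, `Nat.log_mono_right`, `Nat.log_pow`).
`#P = ∑_{c ∈ C} k c = ∑_{i ≤ L} ∑_{c ∈ C, class c = i} k c` (`Finset.card_eq_sum_card_image`/`card_eq_sum_card_fiberwise`,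
`Finset.sum_fiberwise_of_maps_to`), so some class `C_i` has `#P ≤ (L+1) ∑_{C_i} k` (`Finset.exists_le_of_sum_le` or by contradiction
with `Finset.sum_lt_sum_of_nonempty`).  For `c ∈ C_i` choose `A c ⊆` fibre with `#(A c) = 2^i` (`Finset.exists_subset_card_eq`);
`Q = C_i.biUnion A` (disjoint union: `Finset.card_biUnion`), `#Q = 2^i #C_i`, `∑_{C_i} k ≤ 2^(i+1) #C_i = 2 #Q`.
-/

set_option autoImplicit false

open Finset

namespace Claimed.Agent.RW

/-- one level: keep one dyadic class of nodes `x / 2^L` and prune every kept node to exactly `2^i` leaves. -/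
theorem tree_prune_level (L : ℕ) (P : Finset ℕ) (hne : P.Nonempty) :
    ∃ (i : ℕ) (Q : Finset ℕ), Q ⊆ P ∧ Q.Nonempty ∧
      (∀ x ∈ Q, (Q.filter fun y => y / 2 ^ L = x / 2 ^ L).card = 2 ^ i) ∧
      P.card ≤ (2 * L + 2) * Q.card := by
  classical
  obtain ⟨D, hD⟩ : ∃ D : ℕ, D = 2 ^ L := ⟨_, rfl⟩
  have hD0 : 0 < D := hD ▸ (by positivity)
  rw [← hD]
  obtain ⟨fib, hfib⟩ : ∃ fib : ℕ → Finset ℕ, fib = fun c => P.filter fun y => y / D = c := ⟨_, rfl⟩
  have hfibmem : ∀ c y, y ∈ fib c ↔ y ∈ P ∧ y / D = c := by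
    intro c y
    rw [hfib]
    exact Finset.mem_filter
  obtain ⟨C, hC⟩ : ∃ C : Finset ℕ, C = P.image (fun y => y / D) := ⟨_, rfl⟩
  have hk1 : ∀ c ∈ C, 1 ≤ #(fib c) := by
    intro c hc
    rw [hC] at hc
    obtain ⟨y, hy, rfl⟩ := Finset.mem_image.1 hc
    exact Finset.card_pos.2 ⟨y, (hfibmem _ _).2 ⟨hy, rfl⟩⟩
  have hkD : ∀ c, #(fib c) ≤ D := by
    intro c
    have : #(fib c) ≤ #(Finset.range D) := by
      refine Finset.card_le_card_of_injOn (fun y => y % D) ?_ ?_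
      · intro y _
        exact Finset.mem_coe.2 (Finset.mem_range.2 (Nat.mod_lt _ hD0))
      · intro a ha b hb hab
        have ha' := ((hfibmem _ _).1 (Finset.mem_coe.1 ha)).2
        have hb' := ((hfibmem _ _).1 (Finset.mem_coe.1 hb)).2
        have h1 := Nat.div_add_mod a D
        have h2 := Nat.div_add_mod b D
        simp only at hab
        rw [ha'] at h1
        rw [hb', ← hab] at h2
        omega
    simpa using this
  have hcard : #P = ∑ c ∈ C, #(fib c) := by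
    rw [hC, hfib]
    exact Finset.card_eq_sum_card_image _ _
  have hcls : ∀ c ∈ C, Nat.log 2 #(fib c) ∈ range (L + 1) := by
    intro c _
    rw [Finset.mem_range, Nat.lt_succ_iff]
    calc Nat.log 2 #(fib c) ≤ Nat.log 2 D := Nat.log_mono_right (hkD c)
      _ = L := by rw [hD, Nat.log_pow (by norm_num)]
  have hsplit : #P = ∑ i ∈ range (L + 1), ∑ c ∈ C with Nat.log 2 #(fib c) = i, #(fib c) := by
    rw [hcard, Finset.sum_fiberwise_of_maps_to hcls]
  obtain ⟨i, -, hi⟩ : ∃ i ∈ range (L + 1), #P ≤ (L + 1) * ∑ c ∈ C with Nat.log 2 #(fib c) = i, #(fib c) := by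
    by_contra hcon
    push Not at hcon
    have h1 : ∑ i ∈ range (L + 1), (L + 1) * ∑ c ∈ C with Nat.log 2 #(fib c) = i, #(fib c) <
        ∑ i ∈ range (L + 1), #P :=
      Finset.sum_lt_sum_of_nonempty ⟨0, by simp⟩ hcon
    rw [← Finset.mul_sum, ← hsplit, Finset.sum_const, Finset.card_range, smul_eq_mul] at h1
    exact lt_irrefl _ h1
  obtain ⟨Ci, hCi⟩ : ∃ Ci : Finset ℕ, Ci = C.filter fun c => Nat.log 2 #(fib c) = i := ⟨_, rfl⟩
  rw [← hCi] at hi
  have hlo : ∀ c ∈ Ci, 2 ^ i ≤ #(fib c) := by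
    intro c hc
    rw [hCi] at hc
    obtain ⟨hc1, hc2⟩ := Finset.mem_filter.1 hc
    rw [← hc2]
    exact Nat.pow_log_le_self 2 (by have := hk1 c hc1; omega)
  have hhi : ∀ c ∈ Ci, #(fib c) ≤ 2 * 2 ^ i := by
    intro c hc
    rw [hCi] at hc
    obtain ⟨_, hc2⟩ := Finset.mem_filter.1 hc
    have := Nat.lt_pow_succ_log_self (b := 2) (by norm_num) #(fib c)
    rw [hc2, pow_succ] at this
    omega
  have hch : ∀ c, ∃ t : Finset ℕ, t ⊆ fib c ∧ (c ∈ Ci → #t = 2 ^ i) := by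
    intro c
    by_cases hc : c ∈ Ci
    · obtain ⟨t, ht, htc⟩ := Finset.exists_subset_card_eq (hlo c hc)
      exact ⟨t, ht, fun _ => htc⟩
    · exact ⟨∅, Finset.empty_subset _, fun h => absurd h hc⟩
  choose A hA1 hA2 using hch
  have hQmem : ∀ y, y ∈ Ci.biUnion A ↔ y / D ∈ Ci ∧ y ∈ A (y / D) := by
    intro y
    rw [Finset.mem_biUnion]
    constructor
    · rintro ⟨c, hc, hy⟩
      have := ((hfibmem _ _).1 (hA1 c hy)).2
      rw [this]
      exact ⟨hc, hy⟩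
    · rintro ⟨h1, h2⟩
      exact ⟨_, h1, h2⟩
  have hQcard : #(Ci.biUnion A) = #Ci * 2 ^ i := by
    rw [Finset.card_biUnion]
    · rw [Finset.sum_congr rfl fun c hc => hA2 c hc, Finset.sum_const, smul_eq_mul]
    · intro c _ c' _ hcc
      show Disjoint (A c) (A c')
      rw [Finset.disjoint_left]
      intro y hy hy'
      exact hcc ((((hfibmem _ _).1 (hA1 c hy)).2).symm.trans ((hfibmem _ _).1 (hA1 c' hy')).2)
  have hfin : #P ≤ (2 * L + 2) * #(Ci.biUnion A) := by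
    calc #P ≤ (L + 1) * ∑ c ∈ Ci, #(fib c) := hi
      _ ≤ (L + 1) * ∑ c ∈ Ci, 2 * 2 ^ i := Nat.mul_le_mul_left _ (Finset.sum_le_sum hhi)
      _ = (2 * L + 2) * #(Ci.biUnion A) := by
          rw [hQcard, Finset.sum_const, smul_eq_mul]
          ring
  refine ⟨i, Ci.biUnion A, ?_, ?_, ?_, hfin⟩
  · intro y hy
    exact ((hfibmem _ _).1 (hA1 _ ((hQmem y).1 hy).2)).1
  · rw [← Finset.card_pos]
    have := Finset.card_pos.2 hne
    by_contra h0
    have h0' : #(Ci.biUnion A) = 0 := by omega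
    rw [h0'] at hfin
    omega
  · intro x hx
    obtain ⟨hx1, hx2⟩ := (hQmem x).1 hx
    rw [← hA2 _ hx1]
    congr 1
    ext y
    rw [Finset.mem_filter, hQmem]
    constructor
    · rintro ⟨⟨_, h2⟩, h3⟩
      rwa [h3] at h2
    · intro hy
      have h3 := ((hfibmem _ _).1 (hA1 _ hy)).2
      rw [h3]
      exact ⟨⟨hx1, hy⟩, rfl⟩

end Claimed.Agent.RW
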