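import Claimed.Agent.RW.TupCell

/-!
# Team RW, unit TUPLE, leaf TP-BAL: balance of node masses in a uniform tree with balanced leaves; annuli are not empty.
Setting: `S = T'.image c` is a `UTree (m*L) L m S Mb`, slope fibres `{x ∈ T' : c x = c t}` have `ν`-masses within a factor 2.
* `tp_split`   : `tpN T' l t0 = ∑_{j ∈ children} tpM ν (tpK (l+1)) T' j`, children `= ((S.filter (cell l · = cell l (c t0))).image (cell (l+1)))`, a set of `Mb l` elements
                 (`UTree.branch`).  (`Finset.sum_fiberwise_of_maps_to`; a tag with level-`(l+1)` key `j = cell (l+1) y`, `cell l y = cell l (c t0)`, is in the level-`l` node by `tp_cell_ref`.)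
* `tp_bal_lvl` : any two level-`l` nodes have masses within a factor 2.  Downward induction on `l` (write `l = m - i`, or `Nat.decreasingInduction`/`Nat.le_induction` on `m - l`):
                 level `m` is the hypothesis (`tp_cell_top`: `tpK m t = c t`);  step: both nodes have `Mb l` children; fix one child `j0` of the node of `t'` of minimal mass `a`
                 (or avoid minima: for EVERY child `j'` of `t'` and every child `j` of `t`: `mass j ≤ 2 mass j'`; so `Mb l · mass(node t) = ∑_{j'} ∑_j mass j ≤ ∑_{j'} ∑_j 2 mass j' = 2 Mb l mass(node t')`, `Mb l ≥ 1`).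
* `tp_bal`     : `mass(node_z t0) = ∑_{children j} mass j ≥ ∑_{children} mass(own child)/2 = Mb z · mass(own child)/2`.
* `tp_fib_pos` : `ν(T') > 0` ⟹ some slope fibre has positive mass ⟹ (balance) all have.
* `tp_ann_pos` : `Mb z ≥ 4` children, at most 3 of them have key in `{K-1, K, K+1}` (`K` = key of the own child; `Finset.card_le_three`/erase three times), so some `y ∈ S` in the node has
                 `cell (z+1) y ∉ {K-1,K,K+1}`, i.e. `Ann z (c t0) y`; `y = c t`, `t ∈ T'`; the slope fibre of `t` lies in the annulus and has positive mass.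
-/

set_option autoImplicit false

open Finset

namespace Claimed.Agent.RW

section
variable {T : Type} [DecidableEq T] (L m : ℕ) (ν : T → ℝ) (c : T → ℕ) (T' : Finset T) (Mb : ℕ → ℕ)

/-- the children of the level-`l` node of `t0` -/
def tpCh (n L : ℕ) (c : T → ℕ) (T' : Finset T) (l : ℕ) (t0 : T) : Finset ℕ :=
  ((T'.image c).filter fun y => cell n L l y = cell n L l (c t0)).image (cell n L (l + 1))

theorem tp_mem_ch {n L : ℕ} {c : T → ℕ} {T' : Finset T} {l : ℕ} {t0 : T} {j : ℕ} :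
    j ∈ tpCh n L c T' l t0 ↔ ∃ s ∈ T', cell n L l (c s) = cell n L l (c t0) ∧ cell n L (l + 1) (c s) = j := by
  unfold tpCh
  constructor
  · intro h
    obtain ⟨y, hy, rfl⟩ := mem_image.1 h
    rw [mem_filter] at hy
    obtain ⟨s, hs, rfl⟩ := mem_image.1 hy.1
    exact ⟨s, hs, hy.2, rfl⟩
  · rintro ⟨s, hs, h1, rfl⟩
    exact mem_image.2 ⟨c s, mem_filter.2 ⟨mem_image_of_mem c hs, h1⟩, rfl⟩

theorem tp_split (n L : ℕ) (ν : T → ℝ) (c : T → ℕ) (T' : Finset T) (l : ℕ) (t0 : T) :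
    tpN n L c ν T' l t0 = ∑ j ∈ tpCh n L c T' l t0, tpM ν (tpK n L c (l + 1)) T' j := by
  unfold tpN tpM tpK
  rw [← sum_fiberwise_of_maps_to (s := T'.filter fun t => cell n L l (c t) = cell n L l (c t0))
    (t := tpCh n L c T' l t0) (g := fun t => cell n L (l + 1) (c t))
    (fun t ht => tp_mem_ch.2 ⟨t, (mem_filter.1 ht).1, (mem_filter.1 ht).2, rfl⟩)]
  refine sum_congr rfl fun j hj => ?_
  obtain ⟨s, hs, h1, h2⟩ := tp_mem_ch.1 hj
  rw [filter_filter]
  refine sum_congr (filter_congr fun t _ => ?_) fun _ _ => rfl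
  constructor
  · exact fun h => h.2
  · intro h
    exact ⟨(tp_cell_ref n L l _ _ (h.trans h2.symm)).trans h1, h⟩

theorem tp_ch_card {L m : ℕ} {c : T → ℕ} {T' : Finset T} {Mb : ℕ → ℕ} (hU : UTree (m * L) L m (T'.image c) Mb)
    {l : ℕ} (hl : l < m) {t0 : T} (ht0 : t0 ∈ T') : (tpCh (m * L) L c T' l t0).card = Mb l :=
  hU.branch l hl (c t0) (mem_image_of_mem c ht0)

theorem tp_ch_mass {n L : ℕ} (ν : T → ℝ) {c : T → ℕ} {T' : Finset T} {l : ℕ} {t0 : T} {j : ℕ}
    (hj : j ∈ tpCh n L c T' l t0) : ∃ s ∈ T', tpM ν (tpK n L c (l + 1)) T' j = tpN n L c ν T' (l + 1) s := by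
  obtain ⟨s, hs, -, h2⟩ := tp_mem_ch.1 hj
  refine ⟨s, hs, ?_⟩
  unfold tpN
  rw [← h2]
  rfl

theorem tp_bal_lvl (hν : ∀ t, 0 ≤ ν t) (hU : UTree (m * L) L m (T'.image c) Mb)
    (hbal : ∀ t ∈ T', ∀ t' ∈ T', (∑ x ∈ T' with c x = c t, ν x) ≤ 2 * ∑ x ∈ T' with c x = c t', ν x)
    (l : ℕ) (hl : l ≤ m) (t : T) (ht : t ∈ T') (t' : T) (ht' : t' ∈ T') :
    tpN (m * L) L c ν T' l t ≤ 2 * tpN (m * L) L c ν T' l t' := by
  obtain ⟨i, rfl⟩ : ∃ i, l = m - i := ⟨m - l, by omega⟩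
  clear hl
  induction i generalizing t t' with
  | zero =>
    have e : ∀ u : T, tpN (m * L) L c ν T' (m - 0) u = ∑ x ∈ T' with c x = c u, ν x := by
      intro u
      unfold tpN tpM tpK
      simp only [Nat.sub_zero, tp_cell_top]
    rw [e, e]
    exact hbal t ht t' ht'
  | succ i ih =>
    by_cases hi : m ≤ i
    · have e : m - (i + 1) = m - i := by omega
      rw [e]
      exact ih t ht t' ht'
    · obtain ⟨l, hl⟩ : ∃ l, l = m - (i + 1) := ⟨_, rfl⟩
      have hl1 : m - i = l + 1 := by omega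
      have hlm : l < m := by omega
      rw [hl1] at ih
      rw [← hl]
      have hc1 := tp_ch_card hU hlm ht
      have hc2 := tp_ch_card hU hlm ht'
      have hM1 : (1 : ℝ) ≤ Mb l := by
        have : 0 < (tpCh (m * L) L c T' l t).card :=
          card_pos.2 ⟨_, tp_mem_ch.2 ⟨t, ht, rfl, rfl⟩⟩
        rw [hc1] at this
        exact_mod_cast this
      have key : (Mb l : ℝ) * tpN (m * L) L c ν T' l t ≤ (Mb l : ℝ) * (2 * tpN (m * L) L c ν T' l t') := by
        calc (Mb l : ℝ) * tpN (m * L) L c ν T' l t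
            = ∑ _j' ∈ tpCh (m * L) L c T' l t', ∑ j ∈ tpCh (m * L) L c T' l t,
                tpM ν (tpK (m * L) L c (l + 1)) T' j := by
              rw [sum_const, hc2, nsmul_eq_mul, ← tp_split]
          _ ≤ ∑ j' ∈ tpCh (m * L) L c T' l t', ∑ _j ∈ tpCh (m * L) L c T' l t,
                2 * tpM ν (tpK (m * L) L c (l + 1)) T' j' := by
              refine sum_le_sum fun j' hj' => sum_le_sum fun j hj => ?_
              obtain ⟨s, hs, e1⟩ := tp_ch_mass ν hj
              obtain ⟨s', hs', e2⟩ := tp_ch_mass ν hj'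
              rw [e1, e2]
              exact ih s hs s' hs'
          _ = (Mb l : ℝ) * (2 * tpN (m * L) L c ν T' l t') := by
              simp_rw [sum_const, hc1, nsmul_eq_mul]
              rw [← mul_sum, ← mul_sum, ← tp_split]
      exact le_of_mul_le_mul_left key (by linarith)

theorem tp_bal (hν : ∀ t, 0 ≤ ν t) (hU : UTree (m * L) L m (T'.image c) Mb)
    (hbal : ∀ t ∈ T', ∀ t' ∈ T', (∑ x ∈ T' with c x = c t, ν x) ≤ 2 * ∑ x ∈ T' with c x = c t', ν x)
    (z : ℕ) (hz : z < m) (t0 : T) (ht0 : t0 ∈ T') :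
    (Mb z : ℝ) * tpN (m * L) L c ν T' (z + 1) t0 ≤ 2 * tpN (m * L) L c ν T' z t0 := by
  have hc := tp_ch_card hU hz ht0
  rw [tp_split (m * L) L ν c T' z t0, mul_sum, ← hc, ← nsmul_eq_mul, ← sum_const]
  refine sum_le_sum fun j hj => ?_
  obtain ⟨s, hs, e1⟩ := tp_ch_mass ν hj
  rw [e1]
  exact tp_bal_lvl L m ν c T' Mb hν hU hbal (z + 1) hz t0 ht0 s hs

theorem tp_fib_pos (hν : ∀ t, 0 ≤ ν t)
    (hbal : ∀ t ∈ T', ∀ t' ∈ T', (∑ x ∈ T' with c x = c t, ν x) ≤ 2 * ∑ x ∈ T' with c x = c t', ν x)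
    (hpos : 0 < ∑ t ∈ T', ν t) (t : T) (ht : t ∈ T') : 0 < ∑ x ∈ T' with c x = c t, ν x := by
  obtain ⟨t1, ht1, hp⟩ := exists_lt_of_sum_lt (s := T') (f := fun _ => (0 : ℝ)) (g := ν) (by simpa using hpos)
  have h1 : ν t1 ≤ ∑ x ∈ T' with c x = c t1, ν x :=
    single_le_sum (f := ν) (fun x _ => hν x) (mem_filter.2 ⟨ht1, rfl⟩)
  have h2 := hbal t1 ht1 t ht
  linarith

theorem tp_ann_pos (hν : ∀ t, 0 ≤ ν t) (hU : UTree (m * L) L m (T'.image c) Mb)
    (hbal : ∀ t ∈ T', ∀ t' ∈ T', (∑ x ∈ T' with c x = c t, ν x) ≤ 2 * ∑ x ∈ T' with c x = c t', ν x)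
    (hpos : 0 < ∑ t ∈ T', ν t) (z : ℕ) (hz : z < m) (h4 : 4 ≤ Mb z) (t0 : T) (ht0 : t0 ∈ T') :
    0 < tpA (m * L) L c ν T' z t0 := by
  have hc := tp_ch_card hU hz ht0
  obtain ⟨K, hK⟩ : ∃ K, K = cell (m * L) L (z + 1) (c t0) := ⟨_, rfl⟩
  have h3 : ({K - 1, K, K + 1} : Finset ℕ).card ≤ 3 := card_le_three
  have hlt : ({K - 1, K, K + 1} : Finset ℕ).card < (tpCh (m * L) L c T' z t0).card := by omega
  obtain ⟨j, hj, hjn⟩ := exists_mem_notMem_of_card_lt_card hlt
  obtain ⟨t, ht, h1, h2⟩ := tp_mem_ch.1 hj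
  simp only [mem_insert, mem_singleton, not_or] at hjn
  have hA : Ann (m * L) L z (c t0) (c t) := by
    refine ⟨h1, ?_⟩
    rw [h2, ← hK]
    omega
  have hp := tp_fib_pos ν c T' hν hbal hpos t ht
  refine lt_of_lt_of_le hp ?_
  unfold tpA
  refine sum_le_sum_of_subset_of_nonneg ?_ fun x _ _ => hν x
  intro x hx
  rw [mem_filter] at hx
  rw [mem_filter]
  exact ⟨hx.1, hx.2 ▸ hA⟩

end

end Claimed.Agent.RW
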