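import Claimed.Agent.RW.TupDefs

/-!
# Team RW, unit TUPLE, leaves TP-CELL (cell arithmetic, `ann_dist`) and TP-COVER.   Pure `ℕ`/`Finset`.
`cell n L l x = x / 2^(n - l*L)`.
* `tp_cell_ref` : `cell n L l x = cell n L (l+1) x / 2^((n - l*L) - (n - (l+1)*L))` (`Nat.div_div_eq_div_mul`, `← pow_add`, `n-(l+1)L ≤ n-lL`).
* `ann_dist`    : put `u = 2^(mL-(z+1)L)`, `U = 2^(mL-zL)`.  Same level-`z` cell `j`: both `c, c0 ∈ [jU, (j+1)U)` ⟹ `|c-c0| < U`.
                  `c0/u + 2 ≤ c/u` ⟹ `c ≥ (c0/u+2) u > c0 + u` (`Nat.div_add_mod`, `Nat.mod_lt`, or `Nat.le_div_iff_mul_le`, `Nat.lt_succ_div..`).  `hz` is not needed.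
* `tp_cover`    : pointwise, a `t` in the level-`z` node of `t0` is in the annulus, or its level-`(z+1)` key `K t` satisfies `K t = K t0`, `K t = K t0 + 1` or `K t + 1 = K t0`
                  (`omega` after unfolding `Ann`).  Write all five sums as `∑ t ∈ C, if .. then ν t else 0` (`Finset.sum_filter`), `← sum_add_distrib`, `sum_le_sum`, split_ifs.
-/

set_option autoImplicit false

open Finset

namespace Claimed.Agent.RW

theorem tp_cell_ref (n L l x y : ℕ) (h : cell n L (l + 1) x = cell n L (l + 1) y) : cell n L l x = cell n L l y := by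
  unfold cell at *
  have hle : n - (l + 1) * L ≤ n - l * L := by
    apply Nat.sub_le_sub_left
    exact Nat.mul_le_mul_right L (Nat.le_succ l)
  have e : (2 : ℕ) ^ (n - l * L) = 2 ^ (n - (l + 1) * L) * 2 ^ ((n - l * L) - (n - (l + 1) * L)) := by
    rw [← pow_add, Nat.add_sub_cancel' hle]
  rw [e, ← Nat.div_div_eq_div_mul, ← Nat.div_div_eq_div_mul, h]

theorem tp_cell_zero (n L x : ℕ) (h : x < 2 ^ n) : cell n L 0 x = 0 := by
  unfold cell
  simpa using h

theorem tp_cell_top (L m x : ℕ) : cell (m * L) L m x = x := by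
  unfold cell
  simp

theorem ann_dist (L m z c0 c : ℕ) (hz : z < m) (h : Ann (m * L) L z c0 c) :
    (2 : ℤ) ^ (m * L - (z + 1) * L) ≤ |(c : ℤ) - c0| ∧ |(c : ℤ) - c0| < (2 : ℤ) ^ (m * L - z * L) := by
  obtain ⟨h1, h2⟩ := h
  unfold cell at h1 h2
  generalize hu : (2 : ℕ) ^ (m * L - (z + 1) * L) = u at h2
  generalize hU : (2 : ℕ) ^ (m * L - z * L) = U at h1
  have hu0 : 0 < u := by rw [← hu]; positivity
  have hU0 : 0 < U := by rw [← hU]; positivity
  have eu : (2 : ℤ) ^ (m * L - (z + 1) * L) = (u : ℤ) := by rw [← hu]; push_cast; rfl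
  have eU : (2 : ℤ) ^ (m * L - z * L) = (U : ℤ) := by rw [← hU]; push_cast; rfl
  rw [eu, eU]
  have a1 := Nat.div_add_mod c U
  have a2 := Nat.div_add_mod c0 U
  have a3 := Nat.mod_lt c hU0
  have a4 := Nat.mod_lt c0 hU0
  have b1 := Nat.div_add_mod c u
  have b2 := Nat.div_add_mod c0 u
  have b3 := Nat.mod_lt c hu0
  have b4 := Nat.mod_lt c0 hu0
  constructor
  · rcases h2 with h2 | h2
    · have : u * (c0 / u + 2) ≤ u * (c / u) := Nat.mul_le_mul_left u h2
      rw [le_abs]; left
      rw [Nat.mul_add] at this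
      have : c0 + u ≤ c := by omega
      zify at this; linarith
    · have : u * (c / u + 2) ≤ u * (c0 / u) := Nat.mul_le_mul_left u h2
      rw [le_abs]; right
      rw [Nat.mul_add] at this
      have : c + u ≤ c0 := by omega
      zify at this; linarith
  · rw [h1] at a1
    rw [abs_lt]
    constructor
    · have : c0 < c + U := by omega
      zify at this; linarith
    · have : c < c0 + U := by omega
      zify at this; linarith

/-- the level-`z` node of `t0` is covered by the annulus, the own child and the two neighbouring children -/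
theorem tp_cover {T : Type} (n L : ℕ) (c : T → ℕ) (ν : T → ℝ) (hν : ∀ t, 0 ≤ ν t) (C : Finset T) (z : ℕ) (t0 : T) :
    tpN n L c ν C z t0 ≤ tpA n L c ν C z t0 + tpN n L c ν C (z + 1) t0 +
      tpM ν (tpK n L c (z + 1)) C (tpK n L c (z + 1) t0 + 1) +
      tpM ν (fun t => tpK n L c (z + 1) t + 1) C (tpK n L c (z + 1) t0) := by
  unfold tpN tpA tpM
  simp only [sum_filter]
  rw [← sum_add_distrib, ← sum_add_distrib, ← sum_add_distrib]
  refine sum_le_sum fun t _ => ?_
  have h0 := hν t
  by_cases hz : tpK n L c z t = tpK n L c z t0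
  · have hcases : Ann n L z (c t0) (c t) ∨ tpK n L c (z + 1) t = tpK n L c (z + 1) t0 ∨
        tpK n L c (z + 1) t = tpK n L c (z + 1) t0 + 1 ∨ tpK n L c (z + 1) t + 1 = tpK n L c (z + 1) t0 := by
      unfold Ann
      unfold tpK at hz ⊢
      by_cases ha : cell n L (z + 1) (c t0) + 2 ≤ cell n L (z + 1) (c t) ∨ cell n L (z + 1) (c t) + 2 ≤ cell n L (z + 1) (c t0)
      · exact Or.inl ⟨hz, ha⟩
      · right; omega
    rw [if_pos hz]
    rcases hcases with h | h | h | h
    · rw [if_pos h]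
      have e1 : 0 ≤ (if tpK n L c (z + 1) t = tpK n L c (z + 1) t0 then ν t else 0) := by split_ifs <;> simp [h0]
      have e2 : 0 ≤ (if tpK n L c (z + 1) t = tpK n L c (z + 1) t0 + 1 then ν t else 0) := by split_ifs <;> simp [h0]
      have e3 : 0 ≤ (if tpK n L c (z + 1) t + 1 = tpK n L c (z + 1) t0 then ν t else 0) := by split_ifs <;> simp [h0]
      linarith
    · rw [if_pos h]
      have e1 : 0 ≤ (if Ann n L z (c t0) (c t) then ν t else 0) := by split_ifs <;> simp [h0]
      have e2 : 0 ≤ (if tpK n L c (z + 1) t = tpK n L c (z + 1) t0 + 1 then ν t else 0) := by split_ifs <;> simp [h0]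
      have e3 : 0 ≤ (if tpK n L c (z + 1) t + 1 = tpK n L c (z + 1) t0 then ν t else 0) := by split_ifs <;> simp [h0]
      linarith
    · rw [if_pos h]
      have e1 : 0 ≤ (if Ann n L z (c t0) (c t) then ν t else 0) := by split_ifs <;> simp [h0]
      have e2 : 0 ≤ (if tpK n L c (z + 1) t = tpK n L c (z + 1) t0 then ν t else 0) := by split_ifs <;> simp [h0]
      have e3 : 0 ≤ (if tpK n L c (z + 1) t + 1 = tpK n L c (z + 1) t0 then ν t else 0) := by split_ifs <;> simp [h0]
      linarith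
    · rw [if_pos h]
      have e1 : 0 ≤ (if Ann n L z (c t0) (c t) then ν t else 0) := by split_ifs <;> simp [h0]
      have e2 : 0 ≤ (if tpK n L c (z + 1) t = tpK n L c (z + 1) t0 then ν t else 0) := by split_ifs <;> simp [h0]
      have e3 : 0 ≤ (if tpK n L c (z + 1) t = tpK n L c (z + 1) t0 + 1 then ν t else 0) := by split_ifs <;> simp [h0]
      linarith
  · rw [if_neg hz]
    have e0 : 0 ≤ (if Ann n L z (c t0) (c t) then ν t else 0) := by split_ifs <;> simp [h0]
    have e1 : 0 ≤ (if tpK n L c (z + 1) t = tpK n L c (z + 1) t0 then ν t else 0) := by split_ifs <;> simp [h0]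
    have e2 : 0 ≤ (if tpK n L c (z + 1) t = tpK n L c (z + 1) t0 + 1 then ν t else 0) := by split_ifs <;> simp [h0]
    have e3 : 0 ≤ (if tpK n L c (z + 1) t + 1 = tpK n L c (z + 1) t0 then ν t else 0) := by split_ifs <;> simp [h0]
    linarith

end Claimed.Agent.RW
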