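import Claimed.Agent.RW.TupDefs

/-!
# Team RW, unit TUPLE, leaf TP-CMP (Mathlib only).
`tp_cmp`: the part of `C` lying in `κ`-fibres whose `C`-mass is `< s ×` (the `D`-mass of the `κ'`-fibre with the same label) has mass `≤ s ν(D)`.
PROOF.  Group the left side by `j = κ t` (`Finset.sum_fiberwise_of_maps_to` into `C.image κ`, or `sum_comm'`):
`LHS = ∑_{j ∈ C.image κ, tpM ν κ C j < s tpM ν κ' D j} tpM ν κ C j ≤ ∑_{j ∈ C.image κ} s tpM ν κ' D j ≤ s ∑_{j ∈ C.image κ ∪ D.image κ'} tpM ν κ' D j = s ν(D)`.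
-/

set_option autoImplicit false

open Finset

namespace Claimed.Agent.RW

open Classical in
theorem tp_cmp {T : Type} (ν : T → ℝ) (hν : ∀ t, 0 ≤ ν t) (κ κ' : T → ℕ) (C D : Finset T) (s : ℝ) (hs : 0 ≤ s) :
    ∑ t ∈ C with tpM ν κ C (κ t) < s * tpM ν κ' D (κ t), ν t ≤ s * ∑ t ∈ D, ν t := by
  set J := (C.image κ).filter (fun j => tpM ν κ C j < s * tpM ν κ' D j) with hJ
  have hmaps : ∀ t ∈ C.filter (fun t => tpM ν κ C (κ t) < s * tpM ν κ' D (κ t)), κ t ∈ J := by
    intro t ht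
    rw [mem_filter] at ht
    exact mem_filter.2 ⟨mem_image_of_mem κ ht.1, ht.2⟩
  rw [← sum_fiberwise_of_maps_to hmaps]
  calc _ = ∑ j ∈ J, tpM ν κ C j := by
        refine sum_congr rfl fun j hj => ?_
        unfold tpM
        rw [filter_filter]
        refine sum_congr (filter_congr fun t _ => ?_) fun _ _ => rfl
        constructor
        · exact fun h => h.2
        · intro h
          refine ⟨?_, h⟩
          rw [h]; exact (mem_filter.1 hj).2
    _ ≤ ∑ j ∈ J, s * tpM ν κ' D j := sum_le_sum fun j hj => (mem_filter.1 hj).2.le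
    _ = s * ∑ j ∈ J, tpM ν κ' D j := by rw [mul_sum]
    _ ≤ s * ∑ t ∈ D, ν t := by
        apply mul_le_mul_of_nonneg_left _ hs
        unfold tpM
        exact sum_fiberwise_le_sum_of_sum_fiber_nonneg fun j _ => sum_nonneg fun t _ => hν t

end Claimed.Agent.RW
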