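import Mathlib

/-!
# Team RW, unit TUPLE, leaf TP-POT (Mathlib only; a lemma on real sequences).
`tp_pot`: a positive sequence `r 0, .., r m` with `r m ≤ 1` jumps by a factor `≥ A` at most `(-log r 0 + ∑ r l / r (l+1)) / log A` times.
PROOF.  `∑_{l<m} log (r (l+1) / r l) = log r m - log r 0 ≤ - log r 0` (`Finset.sum_range_sub`, `Real.log_div`, `Real.log_nonpos`).
For each `l < m`:  `log (r (l+1)/r l) ≥ (if l ∈ J then log A else 0) - r l / r (l+1)`:
 * `l ∈ J`: `r (l+1)/r l ≥ A`, and `r l / r (l+1) ≥ 0`;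
 * `l ∉ J`: `log (r (l+1)/r l) = - log (r l / r (l+1)) ≥ -(r l / r (l+1) - 1)` (`Real.log_le_sub_one_of_pos`).
Sum over `l ∈ range m` (`Finset.sum_ite_mem`, `Finset.card_eq_sum_ones`).
-/

set_option autoImplicit false

open Finset

namespace Claimed.Agent.RW

theorem tp_pot (m : ℕ) (r : ℕ → ℝ) (hr : ∀ l, l ≤ m → 0 < r l) (hm : r m ≤ 1) (A : ℝ) (hA : 1 ≤ A)
    (J : Finset ℕ) (hJ : J ⊆ range m) (hjump : ∀ l ∈ J, A * r l ≤ r (l + 1)) :
    (J.card : ℝ) * Real.log A ≤ -Real.log (r 0) + ∑ l ∈ range m, r l / r (l + 1) := by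
  classical
  have hA0 : 0 < A := by linarith
  have htel : ∑ l ∈ range m, (Real.log (r (l + 1)) - Real.log (r l)) = Real.log (r m) - Real.log (r 0) :=
    sum_range_sub (fun l => Real.log (r l)) m
  have hlogm : Real.log (r m) ≤ 0 := Real.log_nonpos (hr m le_rfl).le hm
  have hstep : ∀ l ∈ range m, (if l ∈ J then Real.log A else 0) - r l / r (l + 1) ≤
      Real.log (r (l + 1)) - Real.log (r l) := by
    intro l hl
    have hl' : l < m := mem_range.1 hl
    have h0 : 0 < r l := hr l hl'.le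
    have h1 : 0 < r (l + 1) := hr (l + 1) hl'
    have hq : 0 < r l / r (l + 1) := div_pos h0 h1
    split_ifs with hlJ
    · have h2 : Real.log (A * r l) ≤ Real.log (r (l + 1)) := Real.log_le_log (by positivity) (hjump l hlJ)
      rw [Real.log_mul hA0.ne' h0.ne'] at h2
      linarith
    · have h2 := Real.log_le_sub_one_of_pos hq
      rw [Real.log_div h0.ne' h1.ne'] at h2
      linarith
  have hsum := sum_le_sum hstep
  rw [sum_sub_distrib, htel, sum_ite_mem, inter_eq_right.2 hJ, sum_const, nsmul_eq_mul] at hsum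
  linarith

end Claimed.Agent.RW
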