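import Claimed.Agent.RW.TupDefs

/-!
# Team RW, unit TUPLE, leaf TP-RATIO (Mathlib only).
`tp_ratio`: `E_{t ~ ν|C} [ρ(t)/ρ'(t)] ≤ 1`, `ρ` = density of `C` in `D` on the coarse fibre of `t`, `ρ'` = density on the fine fibre (`κ'` refines `κ`).
PROOF.  `ρ/ρ' = (mC · mD')/(mD · mC')` (real division, `x/0 = 0`).  Group by the fine label `j' = κ' t`: on a fine fibre all four numbers are constant
(the coarse label is a function of the fine one on `D ⊇ C`), and `∑_{t ∈ C, κ' t = j'} ν t = mC'(j')`; so the fibre contributes `mC'·(mC mD')/(mD mC') ≤ mC mD'/mD`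
(equality if `mC' ≠ 0`, `0` otherwise).  Then group the fine labels by the coarse one: `∑_{j' ⊂ j} mD'(j') ≤ mD(j)`, so the total is
`≤ ∑_j mC(j) mD(j)/mD(j) ≤ ∑_j mC(j) = ν(C)`.
Alternative without labels: `LHS ≤ ∑_{t ∈ C} ν t/mC'(t) · mC(t)/mD(t) · mD'(t)`, expand `mD'(t) = ∑_{x ∈ D, κ' x = κ' t} ν x`, swap the sums.
-/

set_option autoImplicit false

open Finset

namespace Claimed.Agent.RW

/-- exchange of two finite sums along a key -/
theorem tpr_swap {T : Type} (ν : T → ℝ) (κ : T → ℕ) (C D : Finset T) (h : T → ℝ)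
    (hh : ∀ t ∈ C, ∀ x ∈ D, κ t = κ x → h t = h x) :
    ∑ t ∈ C, ν t * (h t * tpM ν κ D (κ t)) = ∑ x ∈ D, ν x * (h x * tpM ν κ C (κ x)) := by
  unfold tpM
  simp_rw [mul_sum, sum_filter]
  rw [sum_comm]
  refine sum_congr rfl fun x hx => sum_congr rfl fun t ht => ?_
  by_cases e : κ t = κ x
  · rw [if_pos e, if_pos e.symm, hh t ht x hx e]
    ring
  · rw [if_neg e, if_neg fun e' => e e'.symm]

theorem tpr_div_mul_le {y z : ℝ} (hy : 0 ≤ y) : y / z * z ≤ y := by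
  by_cases hz : z = 0
  · rw [hz, mul_zero]
    exact hy
  · rw [div_mul_cancel₀ _ hz]

theorem tpr_nonneg {T : Type} (ν : T → ℝ) (hν : ∀ t, 0 ≤ ν t) (κ : T → ℕ) (C : Finset T) (j : ℕ) :
    0 ≤ tpM ν κ C j := sum_nonneg fun t _ => hν t

theorem tp_ratio {T : Type} [DecidableEq T] (ν : T → ℝ) (hν : ∀ t, 0 ≤ ν t) (κ κ' : T → ℕ) (C D : Finset T) (hCD : C ⊆ D)
    (href : ∀ t ∈ D, ∀ t' ∈ D, κ' t = κ' t' → κ t = κ t') :
    ∑ t ∈ C, ν t * ((tpM ν κ C (κ t) / tpM ν κ D (κ t)) / (tpM ν κ' C (κ' t) / tpM ν κ' D (κ' t))) ≤ ∑ t ∈ C, ν t := by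
  have hM := tpr_nonneg ν hν
  calc ∑ t ∈ C, ν t * ((tpM ν κ C (κ t) / tpM ν κ D (κ t)) / (tpM ν κ' C (κ' t) / tpM ν κ' D (κ' t)))
      = ∑ t ∈ C, ν t * ((tpM ν κ C (κ t) / tpM ν κ D (κ t) / tpM ν κ' C (κ' t)) * tpM ν κ' D (κ' t)) := by
        refine sum_congr rfl fun t _ => ?_
        rw [div_div_eq_mul_div]
        ring
    _ = ∑ x ∈ D, ν x * ((tpM ν κ C (κ x) / tpM ν κ D (κ x) / tpM ν κ' C (κ' x)) * tpM ν κ' C (κ' x)) := by
        refine tpr_swap ν κ' C D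
          (fun t => tpM ν κ C (κ t) / tpM ν κ D (κ t) / tpM ν κ' C (κ' t)) fun t ht x hx e => ?_
        rw [href t (hCD ht) x hx e, e]
    _ ≤ ∑ x ∈ D, ν x * (1 / tpM ν κ D (κ x) * tpM ν κ C (κ x)) := by
        refine sum_le_sum fun x _ => mul_le_mul_of_nonneg_left ?_ (hν x)
        refine (tpr_div_mul_le (div_nonneg (hM _ _ _) (hM _ _ _))).trans (le_of_eq ?_)
        ring
    _ = ∑ t ∈ C, ν t * (1 / tpM ν κ D (κ t) * tpM ν κ D (κ t)) := by
        refine tpr_swap ν κ D C (fun t => 1 / tpM ν κ D (κ t)) fun t _ x _ e => ?_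
        rw [e]
    _ ≤ ∑ t ∈ C, ν t := by
        refine sum_le_sum fun t _ => ?_
        calc ν t * (1 / tpM ν κ D (κ t) * tpM ν κ D (κ t)) ≤ ν t * 1 :=
              mul_le_mul_of_nonneg_left (tpr_div_mul_le zero_le_one) (hν t)
          _ = ν t := mul_one _

end Claimed.Agent.RW
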