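import Claimed.Agent.RW.TupCmp
import Claimed.Agent.RW.TupRatio
import Claimed.Agent.RW.TupPot
import Claimed.Agent.RW.TupBal

/-!
# Team RW, unit TUPLE: `tp_jump` (a bad level with harmless neighbours is a density jump) and `tp_count` (expected number of bad rich levels).
See the header of `TupDefs.lean`.  (helper37 proves this file.)
-/

set_option autoImplicit false

open Finset

namespace Claimed.Agent.RW

/-- abstract form of JUMP -/
theorem tp_jump (mC mT own nxt prv aC aT mT' Mb η θ X : ℝ)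
    (hcover : mC ≤ aC + own + nxt + prv) (haT : aT ≤ mT) (hdense : 2 * η * mT ≤ mC) (hbad : aC < η * aT)
    (hn : θ * nxt ≤ own) (hp : θ * prv ≤ own) (hθ0 : 0 < θ) (hθ1 : θ ≤ 1) (hbal : Mb * mT' ≤ 2 * mT) (hX : X ≤ Mb)
    (hmT : 0 < mT) (hmT' : 0 < mT') (hη : 0 ≤ η) (hown : 0 ≤ own) (hX0 : 0 ≤ X) :
    θ * X / 12 * (mC / mT) ≤ own / mT' := by
  have h1 : aC ≤ mC / 2 := by
    have : η * aT ≤ η * mT := mul_le_mul_of_nonneg_left haT hη
    linarith
  have h2 : mC / 2 ≤ own + nxt + prv := by linarith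
  have h3 : θ * mC ≤ 6 * own := by
    have h4 : θ * (mC / 2) ≤ θ * (own + nxt + prv) := mul_le_mul_of_nonneg_left h2 hθ0.le
    have h5 : θ * own ≤ own := by nlinarith
    nlinarith
  have h6 : X * mT' ≤ 2 * mT := le_trans (mul_le_mul_of_nonneg_right hX hmT'.le) hbal
  have h7 : (θ * mC) * (X * mT') ≤ (6 * own) * (2 * mT) :=
    le_trans (mul_le_mul_of_nonneg_right h3 (by positivity)) (mul_le_mul_of_nonneg_left h6 (by positivity))
  rw [mul_div_assoc', div_le_div_iff₀ hmT hmT']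
  nlinarith

section
variable {T : Type} [DecidableEq T] (L m : ℕ) (ν : T → ℝ) (c : T → ℕ) (T' : Finset T) (Mb : ℕ → ℕ)

omit [DecidableEq T] in
theorem tp_node_ge (n : ℕ) (hν : ∀ t, 0 ≤ ν t) (C : Finset T) (l : ℕ) (t0 : T) (ht0 : t0 ∈ C) :
    ν t0 ≤ tpN n L c ν C l t0 := by
  unfold tpN tpM
  exact single_le_sum (f := ν) (fun t _ => hν t) (mem_filter.2 ⟨ht0, rfl⟩)

omit [DecidableEq T] in
theorem tp_node_mono (n : ℕ) (hν : ∀ t, 0 ≤ ν t) (C D : Finset T) (hCD : C ⊆ D) (l : ℕ) (t0 : T) :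
    tpN n L c ν C l t0 ≤ tpN n L c ν D l t0 := by
  unfold tpN tpM
  exact sum_le_sum_of_subset_of_nonneg (filter_subset_filter _ hCD) fun t _ _ => hν t

omit [DecidableEq T] in
theorem tp_ann_le_node (n : ℕ) (hν : ∀ t, 0 ≤ ν t) (C : Finset T) (z : ℕ) (t0 : T) :
    tpA n L c ν C z t0 ≤ tpN n L c ν C z t0 := by
  unfold tpA tpN tpM tpK
  refine sum_le_sum_of_subset_of_nonneg ?_ fun t _ _ => hν t
  intro t ht
  rw [mem_filter] at ht ⊢
  exact ⟨ht.1, ht.2.1⟩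

omit [DecidableEq T] in
theorem tp_node_zero (n : ℕ) (C : Finset T) (hlt : ∀ t ∈ C, c t < 2 ^ n) (t0 : T) (ht0 : t0 ∈ C) :
    tpN n L c ν C 0 t0 = ∑ t ∈ C, ν t := by
  unfold tpN tpM tpK
  rw [filter_true_of_mem]
  intro t ht
  rw [tp_cell_zero n L _ (hlt t ht), tp_cell_zero n L _ (hlt t0 ht0)]

open Classical in
/-- pointwise count -/
theorem tp_count_pt (hν : ∀ t, 0 ≤ ν t) (hU : UTree (m * L) L m (T'.image c) Mb)
    (hbal : ∀ t ∈ T', ∀ t' ∈ T', (∑ x ∈ T' with c x = c t, ν x) ≤ 2 * ∑ x ∈ T' with c x = c t', ν x)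
    (C : Finset T) (hC : C ⊆ T') (η θ X : ℝ) (hη : 0 ≤ η) (hθ0 : 0 < θ) (hθ1 : θ ≤ 1)
    (hA : 1 < θ * X / 12) (Zs : Finset ℕ) (hZs : Zs ⊆ range m) (hX : ∀ z ∈ Zs, X ≤ (Mb z : ℝ))
    (t0 : T) (ht0 : t0 ∈ C) (hpos : 0 < ν t0) :
    ((Zs.filter fun z => TpBad (m * L) L c ν T' C η z t0).card : ℝ) ≤
      (((range m).filter fun z => tpM ν (fun t => tpK (m * L) L c (z + 1) t + 1) C (tpK (m * L) L c (z + 1) t0 + 1) <
          θ * tpM ν (tpK (m * L) L c (z + 1)) C (tpK (m * L) L c (z + 1) t0 + 1)).card : ℝ) +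
      (((range m).filter fun z => tpM ν (tpK (m * L) L c (z + 1)) C (tpK (m * L) L c (z + 1) t0) <
          θ * tpM ν (fun t => tpK (m * L) L c (z + 1) t + 1) C (tpK (m * L) L c (z + 1) t0)).card : ℝ) +
      (Real.log ((∑ t ∈ T', ν t) / ∑ t ∈ C, ν t) +
        ∑ l ∈ range m, (tpN (m * L) L c ν C l t0 / tpN (m * L) L c ν T' l t0) /
          (tpN (m * L) L c ν C (l + 1) t0 / tpN (m * L) L c ν T' (l + 1) t0)) / Real.log (θ * X / 12) := by
  have hlogA : 0 < Real.log (θ * X / 12) := Real.log_pos hA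
  have hX0 : 0 ≤ X := by
    by_contra h
    push Not at h
    have : θ * X / 12 < 0 := by
      apply div_neg_of_neg_of_pos (mul_neg_of_pos_of_neg hθ0 h) (by norm_num)
    linarith
  have ht0' : t0 ∈ T' := hC ht0
  have hCl : ∀ l, 0 < tpN (m * L) L c ν C l t0 := fun l => lt_of_lt_of_le hpos (tp_node_ge L ν c _ hν C l t0 ht0)
  have hTl : ∀ l, 0 < tpN (m * L) L c ν T' l t0 := fun l => lt_of_lt_of_le (hCl l) (tp_node_mono L ν c _ hν C T' hC l t0)
  set r : ℕ → ℝ := fun l => tpN (m * L) L c ν C l t0 / tpN (m * L) L c ν T' l t0 with hr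
  have hrpos : ∀ l, 0 < r l := fun l => div_pos (hCl l) (hTl l)
  have hrm : r m ≤ 1 := (div_le_one (hTl m)).2 (tp_node_mono L ν c _ hν C T' hC m t0)
  have hlt : ∀ t ∈ T', c t < 2 ^ (m * L) := fun t ht => hU.lt _ (mem_image_of_mem c ht)
  have hr0 : -Real.log (r 0) = Real.log ((∑ t ∈ T', ν t) / ∑ t ∈ C, ν t) := by
    rw [hr]
    simp only
    rw [tp_node_zero L ν c _ C (fun t ht => hlt t (hC ht)) t0 ht0, tp_node_zero L ν c _ T' hlt t0 ht0',
      ← Real.log_inv, inv_div]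
  have hpot := tp_pot m r (fun l _ => hrpos l) hrm (θ * X / 12) hA.le
    (Zs.filter fun z => θ * X / 12 * r z ≤ r (z + 1)) ((filter_subset _ _).trans hZs)
    (fun l hl => (mem_filter.1 hl).2)
  rw [hr0] at hpot
  have hJ : ((Zs.filter fun z => θ * X / 12 * r z ≤ r (z + 1)).card : ℝ) ≤
      (Real.log ((∑ t ∈ T', ν t) / ∑ t ∈ C, ν t) + ∑ l ∈ range m, r l / r (l + 1)) / Real.log (θ * X / 12) := by
    rw [le_div_iff₀ hlogA]; exact hpot
  refine le_trans ?_ (add_le_add_right hJ _)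
  have hsub : (Zs.filter fun z => TpBad (m * L) L c ν T' C η z t0) ⊆
      ((range m).filter fun z => tpM ν (fun t => tpK (m * L) L c (z + 1) t + 1) C (tpK (m * L) L c (z + 1) t0 + 1) <
          θ * tpM ν (tpK (m * L) L c (z + 1)) C (tpK (m * L) L c (z + 1) t0 + 1)) ∪
      ((range m).filter fun z => tpM ν (tpK (m * L) L c (z + 1)) C (tpK (m * L) L c (z + 1) t0) <
          θ * tpM ν (fun t => tpK (m * L) L c (z + 1) t + 1) C (tpK (m * L) L c (z + 1) t0)) ∪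
      (Zs.filter fun z => θ * X / 12 * r z ≤ r (z + 1)) := by
    intro z hz
    obtain ⟨hzs, hbad⟩ := mem_filter.1 hz
    have hzm : z ∈ range m := hZs hzs
    by_cases h1 : tpM ν (fun t => tpK (m * L) L c (z + 1) t + 1) C (tpK (m * L) L c (z + 1) t0 + 1) <
          θ * tpM ν (tpK (m * L) L c (z + 1)) C (tpK (m * L) L c (z + 1) t0 + 1)
    · exact mem_union_left _ (mem_union_left _ (mem_filter.2 ⟨hzm, h1⟩))
    by_cases h2 : tpM ν (tpK (m * L) L c (z + 1)) C (tpK (m * L) L c (z + 1) t0) <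
          θ * tpM ν (fun t => tpK (m * L) L c (z + 1) t + 1) C (tpK (m * L) L c (z + 1) t0)
    · exact mem_union_left _ (mem_union_right _ (mem_filter.2 ⟨hzm, h2⟩))
    refine mem_union_right _ (mem_filter.2 ⟨hzs, ?_⟩)
    have hown : tpM ν (fun t => tpK (m * L) L c (z + 1) t + 1) C (tpK (m * L) L c (z + 1) t0 + 1) =
        tpN (m * L) L c ν C (z + 1) t0 := by
      unfold tpN tpM
      simp only [add_left_inj]
    rw [hown] at h1
    exact tp_jump _ _ _ _ _ _ _ _ _ η θ X (tp_cover (m * L) L c ν hν C z t0) (tp_ann_le_node L ν c _ hν T' z t0)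
      hbad.1 hbad.2 (not_lt.1 h1) (not_lt.1 h2) hθ0 hθ1
      (tp_bal L m ν c T' Mb hν hU hbal z (mem_range.1 hzm) t0 ht0') (hX z hzs) (hTl z) (hTl (z + 1)) hη (hCl (z + 1)).le hX0
  have hcard := (card_le_card hsub).trans ((card_union_le _ _).trans (Nat.add_le_add_right (card_union_le _ _) _))
  exact_mod_cast hcard

open Classical in
theorem tp_count
    (hν : ∀ t, 0 ≤ ν t) (hU : UTree (m * L) L m (T'.image c) Mb)
    (hbal : ∀ t ∈ T', ∀ t' ∈ T', (∑ x ∈ T' with c x = c t, ν x) ≤ 2 * ∑ x ∈ T' with c x = c t', ν x)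
    (C : Finset T) (hC : C ⊆ T') (hCpos : 0 < ∑ t ∈ C, ν t) (η θ X : ℝ) (hη : 0 ≤ η) (hθ0 : 0 < θ) (hθ1 : θ ≤ 1)
    (hA : 1 < θ * X / 12) (Zs : Finset ℕ) (hZs : Zs ⊆ range m) (hX : ∀ z ∈ Zs, X ≤ (Mb z : ℝ)) :
    ∑ t0 ∈ C, ν t0 * ((Zs.filter fun z => TpBad (m * L) L c ν T' C η z t0).card : ℝ) ≤
      (2 * θ * m + (Real.log ((∑ t ∈ T', ν t) / ∑ t ∈ C, ν t) + m) / Real.log (θ * X / 12)) * ∑ t ∈ C, ν t := by
  have hlogA : 0 < Real.log (θ * X / 12) := Real.log_pos hA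
  -- the two neighbour events
  have hN1 : ∑ t0 ∈ C, ν t0 * (((range m).filter fun z =>
        tpM ν (fun t => tpK (m * L) L c (z + 1) t + 1) C (tpK (m * L) L c (z + 1) t0 + 1) <
          θ * tpM ν (tpK (m * L) L c (z + 1)) C (tpK (m * L) L c (z + 1) t0 + 1)).card : ℝ) ≤ m * (θ * ∑ t ∈ C, ν t) := by
    have e : ∀ t0 ∈ C, ν t0 * (((range m).filter fun z =>
        tpM ν (fun t => tpK (m * L) L c (z + 1) t + 1) C (tpK (m * L) L c (z + 1) t0 + 1) <
          θ * tpM ν (tpK (m * L) L c (z + 1)) C (tpK (m * L) L c (z + 1) t0 + 1)).card : ℝ) =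
        ∑ z ∈ range m, if tpM ν (fun t => tpK (m * L) L c (z + 1) t + 1) C (tpK (m * L) L c (z + 1) t0 + 1) <
          θ * tpM ν (tpK (m * L) L c (z + 1)) C (tpK (m * L) L c (z + 1) t0 + 1) then ν t0 else 0 := by
      intro t0 _
      rw [← sum_filter, sum_const, nsmul_eq_mul, mul_comm]
    rw [sum_congr rfl e, sum_comm]
    calc _ ≤ ∑ z ∈ range m, θ * ∑ t ∈ C, ν t := by
          refine sum_le_sum fun z _ => ?_
          rw [← sum_filter]
          exact tp_cmp ν hν (fun t => tpK (m * L) L c (z + 1) t + 1) (tpK (m * L) L c (z + 1)) C C θ hθ0.le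
      _ = _ := by rw [sum_const, card_range, nsmul_eq_mul]
  have hN2 : ∑ t0 ∈ C, ν t0 * (((range m).filter fun z =>
        tpM ν (tpK (m * L) L c (z + 1)) C (tpK (m * L) L c (z + 1) t0) <
          θ * tpM ν (fun t => tpK (m * L) L c (z + 1) t + 1) C (tpK (m * L) L c (z + 1) t0)).card : ℝ) ≤
        m * (θ * ∑ t ∈ C, ν t) := by
    have e : ∀ t0 ∈ C, ν t0 * (((range m).filter fun z =>
        tpM ν (tpK (m * L) L c (z + 1)) C (tpK (m * L) L c (z + 1) t0) <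
          θ * tpM ν (fun t => tpK (m * L) L c (z + 1) t + 1) C (tpK (m * L) L c (z + 1) t0)).card : ℝ) =
        ∑ z ∈ range m, if tpM ν (tpK (m * L) L c (z + 1)) C (tpK (m * L) L c (z + 1) t0) <
          θ * tpM ν (fun t => tpK (m * L) L c (z + 1) t + 1) C (tpK (m * L) L c (z + 1) t0) then ν t0 else 0 := by
      intro t0 _
      rw [← sum_filter, sum_const, nsmul_eq_mul, mul_comm]
    rw [sum_congr rfl e, sum_comm]
    calc _ ≤ ∑ z ∈ range m, θ * ∑ t ∈ C, ν t := by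
          refine sum_le_sum fun z _ => ?_
          rw [← sum_filter]
          exact tp_cmp ν hν (tpK (m * L) L c (z + 1)) (fun t => tpK (m * L) L c (z + 1) t + 1) C C θ hθ0.le
      _ = _ := by rw [sum_const, card_range, nsmul_eq_mul]
  -- the ratios
  have hR : ∑ t0 ∈ C, ν t0 * ∑ l ∈ range m, (tpN (m * L) L c ν C l t0 / tpN (m * L) L c ν T' l t0) /
          (tpN (m * L) L c ν C (l + 1) t0 / tpN (m * L) L c ν T' (l + 1) t0) ≤ m * ∑ t ∈ C, ν t := by
    rw [sum_congr rfl (fun t0 _ => mul_sum _ _ _), sum_comm]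
    calc _ ≤ ∑ l ∈ range m, ∑ t ∈ C, ν t := by
          refine sum_le_sum fun l _ => ?_
          exact tp_ratio ν hν (tpK (m * L) L c l) (tpK (m * L) L c (l + 1)) C T' hC
            (fun t _ t' _ h => tp_cell_ref (m * L) L l _ _ h)
      _ = _ := by rw [sum_const, card_range, nsmul_eq_mul]
  -- pointwise
  have hpt : ∀ t0 ∈ C, ν t0 * ((Zs.filter fun z => TpBad (m * L) L c ν T' C η z t0).card : ℝ) ≤
      ν t0 * (((range m).filter fun z => tpM ν (fun t => tpK (m * L) L c (z + 1) t + 1) C (tpK (m * L) L c (z + 1) t0 + 1) <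
          θ * tpM ν (tpK (m * L) L c (z + 1)) C (tpK (m * L) L c (z + 1) t0 + 1)).card : ℝ) +
      ν t0 * (((range m).filter fun z => tpM ν (tpK (m * L) L c (z + 1)) C (tpK (m * L) L c (z + 1) t0) <
          θ * tpM ν (fun t => tpK (m * L) L c (z + 1) t + 1) C (tpK (m * L) L c (z + 1) t0)).card : ℝ) +
      (ν t0 * Real.log ((∑ t ∈ T', ν t) / ∑ t ∈ C, ν t) +
        ν t0 * ∑ l ∈ range m, (tpN (m * L) L c ν C l t0 / tpN (m * L) L c ν T' l t0) /
          (tpN (m * L) L c ν C (l + 1) t0 / tpN (m * L) L c ν T' (l + 1) t0)) / Real.log (θ * X / 12) := by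
    intro t0 ht0
    rcases (hν t0).eq_or_lt with h0 | hpos
    · rw [← h0]; simp
    · have := mul_le_mul_of_nonneg_left
        (tp_count_pt L m ν c T' Mb hν hU hbal C hC η θ X hη hθ0 hθ1 hA Zs hZs hX t0 ht0 hpos) hpos.le
      refine this.trans (le_of_eq ?_)
      ring
  refine (sum_le_sum hpt).trans ?_
  rw [sum_add_distrib, sum_add_distrib, ← sum_div, sum_add_distrib, ← sum_mul]
  have h3 : ((∑ t ∈ C, ν t) * Real.log ((∑ t ∈ T', ν t) / ∑ t ∈ C, ν t) +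
      ∑ t0 ∈ C, ν t0 * ∑ l ∈ range m, (tpN (m * L) L c ν C l t0 / tpN (m * L) L c ν T' l t0) /
          (tpN (m * L) L c ν C (l + 1) t0 / tpN (m * L) L c ν T' (l + 1) t0)) / Real.log (θ * X / 12) ≤
      ((∑ t ∈ C, ν t) * Real.log ((∑ t ∈ T', ν t) / ∑ t ∈ C, ν t) + m * ∑ t ∈ C, ν t) / Real.log (θ * X / 12) := by
    gcongr
  refine (add_le_add (add_le_add hN1 hN2) h3).trans (le_of_eq ?_)
  field_simp
  ring

end

end Claimed.Agent.RW
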