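import Claimed.Agent.RW.Tree

/-!
# Team RW.  Unit TUPLE (architect helper37): definitions.

Tags `t : T` with slopes `c t < 2^n`, `n = m*L`, weights `ν t ≥ 0`.
* `tpM ν κ C j`      : `ν`-mass of the fibre `{t ∈ C : κ t = j}` of an arbitrary key `κ : T → ℕ`.
* `tpK n L c l t`    : the level-`l` key `cell n L l (c t)`.
* `tpN n L c ν C l t0` : `ν`-mass of `C` in the level-`l` node of `t0`.
* `tpA n L c ν C z t0` : `ν`-mass of `C` in the annulus `Ann_z(t0)`.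
* `TpBad`            : `C` has density `≥ 2η` in the level-`z` node of `t0`, but density `< η` in the annulus.
* `tpC G T' q`       : the fibre `{t ∈ T' : (q,t) ∈ G}`.

## The proof of `tuple_main` (all constants; `η = ρ0/(100(k+1))`, `δ1 = 1/(8(k+1))`, `θ = 2^(-εL/2)`, `A = θ 2^(εL)/12`)
For a point `q`: `C_q = tpC G T' q`;  `Pt' = {q ∈ Pt : ν(C_q) ≥ (ρ0/2) ν(T')}`;  `Wt = ∑_{q ∈ Pt'} w q ν(C_q) ≥ (ρ0/2) w(Pt) ν(T')`  (`tp_heavy`).
Fix `C ⊆ T'`, `ρ_l(t0) = tpN C l t0 / tpN T' l t0`.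
* LOW:  `{t0 ∈ C : ρ_z(t0) < 2η}` has mass `≤ 2η ν(T')`                                   (`tp_cmp`).
* NBR:  `{t0 ∈ C : own child mass < θ × mass of the next (previous) child}` has mass `≤ θ ν(C)`  (`tp_cmp` with shifted keys).
* JUMP: `TpBad` and both NBR events fail and `2^(εL) ≤ Mb z`  ⟹  `A ρ_z ≤ ρ_{z+1}`        (`tp_jump` ⟸ `tp_cover`, `tp_bal`).
* POT:  `#{l < m : A ρ_l ≤ ρ_{l+1}} log A ≤ -log ρ_0 + ∑_{l<m} ρ_l/ρ_{l+1}`              (`tp_pot`),   `∑_{t0 ∈ C} ν t0 ρ_l/ρ_{l+1} ≤ ν(C)` (`tp_ratio`).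
* COUNT: `∑_{t0 ∈ C} ν t0 #{z ∈ Zhi : TpBad} ≤ (2θm + (log(ν(T')/ν(C)) + m)/log A) ν(C)`  (`tp_count`).
`β_z = ∑_{q ∈ Pt'} w q ∑_{t0 ∈ C_q, TpBad z} ν t0`,  `Z = {z ∈ Zhi : β_z ≤ δ1 Wt}`; Markov + `tp_num`: `#(Zhi \ Z) ≤ ε4 m`.
For `Z0 ⊆ Z`, `#Z0 ≤ k`: the `(q,t0)` with some `z ∈ Z0` of annulus density `< η` have mass `≤ k (δ1 + 4η/ρ0) Wt ≤ Wt/2`.
Average over `t0 ~ ν`, then `tp_pick` (average over `τ z ~ ν|Ann_z(t0)`): fibre weight `≥ (ρ0/4) η^#Z0 w(Pt) ≥ η^(k+1) w(Pt)`.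
-/

set_option autoImplicit false

open Finset

namespace Claimed.Agent.RW

/-- `c` lies in the level-`z` node of `c0`, in a child not equal or adjacent to the child of `c0`.
Consequence: `2^(n-(z+1)L) ≤ |c - c0| < 2^(n-zL)`. -/
def Ann (n L z c0 c : ℕ) : Prop :=
  cell n L z c = cell n L z c0 ∧
    (cell n L (z + 1) c0 + 2 ≤ cell n L (z + 1) c ∨ cell n L (z + 1) c + 2 ≤ cell n L (z + 1) c0)

instance tpAnnDec (n L z c0 c : ℕ) : Decidable (Ann n L z c0 c) := by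
  unfold Ann; infer_instance

section
variable {T : Type}

/-- `ν`-mass of the fibre `{t ∈ C : κ t = j}` -/
def tpM (ν : T → ℝ) (κ : T → ℕ) (C : Finset T) (j : ℕ) : ℝ := ∑ t ∈ C with κ t = j, ν t

/-- level-`l` key of a tag -/
def tpK (n L : ℕ) (c : T → ℕ) (l : ℕ) (t : T) : ℕ := cell n L l (c t)

/-- `ν`-mass of `C` in the level-`l` node of `t0` -/
def tpN (n L : ℕ) (c : T → ℕ) (ν : T → ℝ) (C : Finset T) (l : ℕ) (t0 : T) : ℝ :=
  tpM ν (tpK n L c l) C (tpK n L c l t0)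

/-- `ν`-mass of `C` in the annulus of level `z` around `t0` -/
def tpA (n L : ℕ) (c : T → ℕ) (ν : T → ℝ) (C : Finset T) (z : ℕ) (t0 : T) : ℝ :=
  ∑ t ∈ C with Ann n L z (c t0) (c t), ν t

/-- `C` is not thin in the level-`z` node of `t0` but thin in the annulus -/
def TpBad (n L : ℕ) (c : T → ℕ) (ν : T → ℝ) (D C : Finset T) (η : ℝ) (z : ℕ) (t0 : T) : Prop :=
  2 * η * tpN n L c ν D z t0 ≤ tpN n L c ν C z t0 ∧ tpA n L c ν C z t0 < η * tpA n L c ν D z t0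

/-- the fibre of `G` over the point `q` -/
def tpC {Q : Type} [DecidableEq Q] [DecidableEq T] (G : Finset (Q × T)) (D : Finset T) (q : Q) : Finset T :=
  D.filter fun t => (q, t) ∈ G

end

end Claimed.Agent.RW
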