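import Claimed.Agent.RW.TupDefs

/-!
# Team RW, unit TUPLE, leaves TP-PICK and TP-HEAVY (Mathlib only; finite averaging).
* `tp_pick`: choose `τ z ∈ As z` (`z ∈ Z0`) so that the `u`-weight of the common fibre is at least its average over `τ z ~ ν|As z` (independent).
  PROOF.  `Finset.induction_on Z0`, GENERALISING `P` (or `u`).  `Z0 = ∅`: `τ = fun _ => t₀`, both sides `∑_{q ∈ P} u q`.
  `insert z0 Z0`: with `a = ∑_{t ∈ As z0} ν t > 0`, `F q = u q ∏_{z ∈ Z0} (..)` (`prod_insert`):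
  `∑_q F q (∑_{t ∈ As z0, (q,t) ∈ G} ν t)/a = (1/a) ∑_{t ∈ As z0} ν t ∑_{q ∈ P, (q,t) ∈ G} F q` (`sum_comm`, `sum_filter`), so some `t ∈ As z0` has
  `∑_{q ∈ P, (q,t) ∈ G} F q ≥ LHS` (else `∑ ν t (..) < a · LHS`; `Finset.exists_le_of_sum_le` or by contradiction with `sum_lt_sum`).
  Induction hypothesis for `P.filter ((·,t) ∈ G)`, then `τ' = Function.update τ z0 t` (`z0 ∉ Z0`).
* `tp_heavy`: points with thin fibres carry at most half of the mass of `G`.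
  `∑_{g ∈ G} w ν = ∑_{q ∈ Pt} w q ν(C_q)` (`G ⊆ Pt ×ˢ T'`: `Finset.sum_finset_product'`/`sum_product` + `sum_filter`, or `sum_fiberwise_of_maps_to` along `Prod.fst`),
  split `Pt` by the condition (`sum_filter_add_sum_filter_not`); the light part is `≤ ∑_q w q (ρ0/2) ν(T')`.
-/

set_option autoImplicit false

open Finset

namespace Claimed.Agent.RW

theorem tp_pick {T Q : Type} [DecidableEq T] [DecidableEq Q] (ν : T → ℝ) (hν : ∀ t, 0 ≤ ν t) (G : Finset (Q × T))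
    (Z0 : Finset ℕ) (As : ℕ → Finset T) (hAs : ∀ z ∈ Z0, 0 < ∑ t ∈ As z, ν t) (t₀ : T)
    (P : Finset Q) (u : Q → ℝ) (hu : ∀ q ∈ P, 0 ≤ u q) :
    ∃ τ : ℕ → T, (∀ z ∈ Z0, τ z ∈ As z) ∧
      ∑ q ∈ P, u q * ∏ z ∈ Z0, ((∑ t ∈ As z with (q, t) ∈ G, ν t) / ∑ t ∈ As z, ν t) ≤
        ∑ q ∈ P with (∀ z ∈ Z0, (q, τ z) ∈ G), u q := by
  classical
  induction Z0 using Finset.induction_on generalizing P with
  | empty =>
    refine ⟨fun _ => t₀, by simp, ?_⟩
    simp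
  | insert z0 Z0 hz0 ih =>
    obtain ⟨a, ha⟩ : ∃ a : ℝ, a = ∑ t ∈ As z0, ν t := ⟨_, rfl⟩
    have ha0 : 0 < a := by rw [ha]; exact hAs z0 (mem_insert_self _ _)
    obtain ⟨F, hF⟩ : ∃ F : Q → ℝ, ∀ q, F q = u q * ∏ z ∈ Z0,
      ((∑ t ∈ As z with (q, t) ∈ G, ν t) / ∑ t ∈ As z, ν t) := ⟨_, fun _ => rfl⟩
    obtain ⟨Φ, hΦ⟩ : ∃ Φ : T → ℝ, ∀ t, Φ t = ∑ q ∈ P with (q, t) ∈ G, F q := ⟨_, fun _ => rfl⟩
    obtain ⟨X, hX⟩ : ∃ X : ℝ, X = ∑ q ∈ P, u q * ∏ z ∈ insert z0 Z0,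
      ((∑ t ∈ As z with (q, t) ∈ G, ν t) / ∑ t ∈ As z, ν t) := ⟨_, rfl⟩
    have hXa : a * X = ∑ t ∈ As z0, ν t * Φ t := by
      have hX2 : a * X = ∑ q ∈ P, F q * ∑ t ∈ As z0 with (q, t) ∈ G, ν t := by
        rw [hX, mul_sum]
        refine sum_congr rfl fun q _ => ?_
        rw [prod_insert hz0, ← ha, hF]
        field_simp
      rw [hX2]
      simp_rw [hΦ, sum_filter, mul_sum]
      rw [sum_comm]
      refine sum_congr rfl fun t _ => sum_congr rfl fun q _ => ?_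
      split_ifs
      · ring
      · ring
    obtain ⟨s, hs⟩ : ∃ s : Finset T, s = (As z0).filter fun t => 0 < ν t := ⟨_, rfl⟩
    have hres : ∀ f : T → ℝ, ∑ t ∈ s, ν t * f t = ∑ t ∈ As z0, ν t * f t := by
      intro f
      rw [hs, sum_filter]
      refine sum_congr rfl fun t _ => ?_
      split_ifs with h0
      · rfl
      · have : ν t = 0 := le_antisymm (not_lt.1 h0) (hν t)
        rw [this, zero_mul]
    have hsne : s.Nonempty := by
      by_contra hne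
      rw [not_nonempty_iff_eq_empty] at hne
      have h1 := hres fun _ => 1
      rw [hne, sum_empty] at h1
      simp only [mul_one] at h1
      rw [← ha] at h1
      exact ha0.ne h1
    have hsum : ∑ t ∈ s, ν t * X ≤ ∑ t ∈ s, ν t * Φ t := by
      rw [hres Φ, hres fun _ => X, ← hXa, ← sum_mul, ← ha]
    obtain ⟨t, hts, ht⟩ := exists_le_of_sum_le hsne hsum
    rw [hs, mem_filter] at hts
    have hXΦ : X ≤ Φ t := le_of_mul_le_mul_left ht hts.2
    obtain ⟨τ, hτ1, hτ2⟩ := ih (fun z hz => hAs z (mem_insert_of_mem hz)) (P.filter fun q => (q, t) ∈ G)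
      (fun q hq => hu q (mem_filter.1 hq).1)
    refine ⟨Function.update τ z0 t, ?_, ?_⟩
    · intro z hz
      rcases mem_insert.1 hz with rfl | hz
      · rw [Function.update_self]
        exact hts.1
      · have hne : z ≠ z0 := fun h => hz0 (h ▸ hz)
        rw [Function.update_of_ne hne]
        exact hτ1 z hz
    · rw [← hX]
      refine hXΦ.trans ?_
      rw [hΦ]
      simp_rw [hF]
      refine hτ2.trans (le_of_eq ?_)
      rw [filter_filter]
      refine sum_congr (filter_congr fun q _ => ?_) fun _ _ => rfl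
      constructor
      · rintro ⟨h1, h2⟩ z hz
        rcases mem_insert.1 hz with rfl | hz
        · rw [Function.update_self]
          exact h1
        · have hne : z ≠ z0 := fun h => hz0 (h ▸ hz)
          rw [Function.update_of_ne hne]
          exact h2 z hz
      · intro h1
        refine ⟨?_, fun z hz => ?_⟩
        · have := h1 z0 (mem_insert_self _ _)
          rwa [Function.update_self] at this
        · have hne : z ≠ z0 := fun h => hz0 (h ▸ hz)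
          have := h1 z (mem_insert_of_mem hz)
          rwa [Function.update_of_ne hne] at this

theorem tp_heavy {T Q : Type} [DecidableEq T] [DecidableEq Q] (ν : T → ℝ) (hν : ∀ t, 0 ≤ ν t) (T' : Finset T)
    (Pt : Finset Q) (w : Q → ℝ) (hw : ∀ q ∈ Pt, 0 ≤ w q) (G : Finset (Q × T)) (hG : G ⊆ Pt ×ˢ T') (ρ0 : ℝ)
    (hmass : ρ0 * (∑ q ∈ Pt, w q) * (∑ t ∈ T', ν t) ≤ ∑ g ∈ G, w g.1 * ν g.2) :
    ρ0 / 2 * (∑ q ∈ Pt, w q) * (∑ t ∈ T', ν t) ≤
      ∑ q ∈ Pt with ρ0 / 2 * (∑ t ∈ T', ν t) ≤ ∑ t ∈ tpC G T' q, ν t, w q * ∑ t ∈ tpC G T' q, ν t := by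
  classical
  obtain ⟨x, hx⟩ : ∃ x : ℝ, x = ρ0 / 2 * ∑ t ∈ T', ν t := ⟨_, rfl⟩
  obtain ⟨W, hW⟩ : ∃ W : ℝ, W = ∑ q ∈ Pt, w q := ⟨_, rfl⟩
  have hW0 : 0 ≤ W := by rw [hW]; exact sum_nonneg hw
  have hC0 : ∀ q, 0 ≤ ∑ t ∈ tpC G T' q, ν t := fun q => sum_nonneg fun t _ => hν t
  have htot : ∑ g ∈ G, w g.1 * ν g.2 = ∑ q ∈ Pt, w q * ∑ t ∈ tpC G T' q, ν t := by
    have hGeq : G = (Pt ×ˢ T').filter fun g => g ∈ G := by
      ext g
      rw [mem_filter]
      exact ⟨fun h => ⟨hG h, h⟩, fun h => h.2⟩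
    conv_lhs => rw [hGeq]
    rw [sum_filter, sum_product]
    refine sum_congr rfl fun q _ => ?_
    unfold tpC
    rw [sum_filter, mul_sum]
    refine sum_congr rfl fun t _ => ?_
    split_ifs
    · rfl
    · rw [mul_zero]
  have e1 : ρ0 / 2 * (∑ q ∈ Pt, w q) * (∑ t ∈ T', ν t) = x * W := by rw [hx, hW]; ring
  have e2 : ρ0 * (∑ q ∈ Pt, w q) * (∑ t ∈ T', ν t) = 2 * (x * W) := by rw [hx, hW]; ring
  rw [e2, htot] at hmass
  rw [e1, ← hx]
  rcases lt_or_ge x 0 with hx0 | hx0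
  · have h1 : x * W ≤ 0 := mul_nonpos_of_nonpos_of_nonneg hx0.le hW0
    refine h1.trans (sum_nonneg fun q hq => mul_nonneg (hw q (mem_filter.1 hq).1) (hC0 q))
  · have hsplit := sum_filter_add_sum_filter_not Pt (fun q => x ≤ ∑ t ∈ tpC G T' q, ν t)
      (fun q => w q * ∑ t ∈ tpC G T' q, ν t)
    have hlight : ∑ q ∈ Pt with ¬ (x ≤ ∑ t ∈ tpC G T' q, ν t), w q * ∑ t ∈ tpC G T' q, ν t ≤ x * W := by
      calc ∑ q ∈ Pt with ¬ (x ≤ ∑ t ∈ tpC G T' q, ν t), w q * ∑ t ∈ tpC G T' q, ν t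
          ≤ ∑ q ∈ Pt with ¬ (x ≤ ∑ t ∈ tpC G T' q, ν t), w q * x := by
            refine sum_le_sum fun q hq => ?_
            rw [mem_filter] at hq
            exact mul_le_mul_of_nonneg_left (not_le.1 hq.2).le (hw q hq.1)
        _ ≤ ∑ q ∈ Pt, w q * x :=
            sum_le_sum_of_subset_of_nonneg (filter_subset _ _)
              fun q hq _ => mul_nonneg (hw q hq) hx0
        _ = x * W := by rw [← sum_mul, ← hW]; ring
    linarith

end Claimed.Agent.RW
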