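import Claimed.Agent.RW.TupCount
import Claimed.Agent.RW.TupPick

/-!
# Team RW, unit TUPLE: the steps of the glue of `tuple_main` (helper37).  See the header of `TupDefs.lean`.
-/

set_option autoImplicit false

open Finset

namespace Claimed.Agent.RW

section core
variable {T Q : Type} [DecidableEq T] [DecidableEq Q] (L m : ℕ) (ν : T → ℝ) (c : T → ℕ) (T' : Finset T) (Mb : ℕ → ℕ)
  (w : Q → ℝ) (G : Finset (Q × T))

open Classical in
/-- `β_z`: the `w × ν`-mass of the pairs `(q,t0) ∈ G`, `q ∈ P`, for which `z` is bad -/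
noncomputable def tpBeta (P : Finset Q) (η : ℝ) (z : ℕ) : ℝ :=
  ∑ q ∈ P, w q * ∑ t0 ∈ tpC G T' q with TpBad (m * L) L c ν T' (tpC G T' q) η z t0, ν t0

theorem tp_beta_nonneg (hν : ∀ t, 0 ≤ ν t) (P : Finset Q) (hw : ∀ q ∈ P, 0 ≤ w q) (η : ℝ) (z : ℕ) :
    0 ≤ tpBeta L m ν c T' w G P η z := by
  unfold tpBeta
  exact sum_nonneg fun q hq => mul_nonneg (hw q hq) (sum_nonneg fun t _ => hν t)

theorem tp_sumbeta (hν : ∀ t, 0 ≤ ν t) (hU : UTree (m * L) L m (T'.image c) Mb)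
    (hbal : ∀ t ∈ T', ∀ t' ∈ T', (∑ x ∈ T' with c x = c t, ν x) ≤ 2 * ∑ x ∈ T' with c x = c t', ν x)
    (hpos : 0 < ∑ t ∈ T', ν t) (P : Finset Q) (hw : ∀ q ∈ P, 0 ≤ w q) (ρ0 : ℝ) (hρ0 : 0 < ρ0)
    (hP : ∀ q ∈ P, ρ0 / 2 * ∑ t ∈ T', ν t ≤ ∑ t ∈ tpC G T' q, ν t)
    (η θ X : ℝ) (hη : 0 ≤ η) (hθ0 : 0 < θ) (hθ1 : θ ≤ 1)
    (hA : 1 < θ * X / 12) (Zs : Finset ℕ) (hZs : Zs ⊆ range m) (hX : ∀ z ∈ Zs, X ≤ (Mb z : ℝ)) :
    ∑ z ∈ Zs, tpBeta L m ν c T' w G P η z ≤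
      (2 * θ * m + (Real.log (2 / ρ0) + m) / Real.log (θ * X / 12)) * ∑ q ∈ P, w q * ∑ t ∈ tpC G T' q, ν t := by
  classical
  unfold tpBeta
  rw [sum_comm, mul_sum]
  refine sum_le_sum fun q hq => ?_
  have hCpos : 0 < ∑ t ∈ tpC G T' q, ν t := lt_of_lt_of_le (by positivity) (hP q hq)
  have hsub : tpC G T' q ⊆ T' := filter_subset _ _
  have hcount := tp_count L m ν c T' Mb hν hU hbal (tpC G T' q) hsub hCpos η θ X hη hθ0 hθ1 hA Zs hZs hX
  have hswap : ∑ z ∈ Zs, ∑ t0 ∈ tpC G T' q with TpBad (m * L) L c ν T' (tpC G T' q) η z t0, ν t0 =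
      ∑ t0 ∈ tpC G T' q, ν t0 * ((Zs.filter fun z => TpBad (m * L) L c ν T' (tpC G T' q) η z t0).card : ℝ) := by
    simp_rw [sum_filter]
    rw [sum_comm]
    refine sum_congr rfl fun t0 _ => ?_
    rw [← sum_filter, sum_const, nsmul_eq_mul, mul_comm]
  have hlogA : 0 < Real.log (θ * X / 12) := Real.log_pos hA
  have hlog : Real.log ((∑ t ∈ T', ν t) / ∑ t ∈ tpC G T' q, ν t) ≤ Real.log (2 / ρ0) := by
    apply Real.log_le_log (by positivity)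
    rw [div_le_div_iff₀ hCpos hρ0]
    have := hP q hq
    nlinarith
  rw [← mul_sum, hswap]
  calc w q * ∑ t0 ∈ tpC G T' q, ν t0 * ((Zs.filter fun z => TpBad (m * L) L c ν T' (tpC G T' q) η z t0).card : ℝ)
      ≤ w q * ((2 * θ * m + (Real.log ((∑ t ∈ T', ν t) / ∑ t ∈ tpC G T' q, ν t) + m) / Real.log (θ * X / 12)) *
          ∑ t ∈ tpC G T' q, ν t) := mul_le_mul_of_nonneg_left hcount (hw q hq)
    _ ≤ w q * ((2 * θ * m + (Real.log (2 / ρ0) + m) / Real.log (θ * X / 12)) * ∑ t ∈ tpC G T' q, ν t) := by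
        apply mul_le_mul_of_nonneg_left _ (hw q hq)
        apply mul_le_mul_of_nonneg_right _ hCpos.le
        gcongr
    _ = _ := by ring

end core

open Classical in
/-- Markov -/
theorem tp_markov (Zs : Finset ℕ) (β : ℕ → ℝ) (hβ : ∀ z ∈ Zs, 0 ≤ β z) (E Wt δ1 B : ℝ) (hWt : 0 ≤ Wt) (hδ1 : 0 < δ1)
    (hB : 0 ≤ B) (hsum : ∑ z ∈ Zs, β z ≤ E * Wt) (hE : E ≤ δ1 * B) :
    ((Zs \ Zs.filter fun z => β z ≤ δ1 * Wt).card : ℝ) ≤ B := by
  rcases hWt.eq_or_lt with h0 | hpos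
  · subst h0
    have hz : ∀ z ∈ Zs, β z = 0 := by
      have : ∑ z ∈ Zs, β z = 0 := le_antisymm (by simpa using hsum) (sum_nonneg hβ)
      exact (sum_eq_zero_iff_of_nonneg hβ).1 this
    have : Zs \ Zs.filter (fun z => β z ≤ δ1 * 0) = ∅ := by
      ext z
      simp only [mem_sdiff, mem_filter, not_and, not_le, mul_zero, notMem_empty, iff_false, not_and, not_forall, not_lt]
      intro hzs
      exact ⟨hzs, (hz z hzs).le⟩
    rw [this]; simpa using hB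
  · have h1 : ((Zs \ Zs.filter fun z => β z ≤ δ1 * Wt).card : ℝ) * (δ1 * Wt) ≤
        ∑ z ∈ Zs \ Zs.filter (fun z => β z ≤ δ1 * Wt), β z := by
      rw [← nsmul_eq_mul, ← sum_const]
      refine sum_le_sum fun z hz => ?_
      simp only [mem_sdiff, mem_filter, not_and, not_le] at hz
      exact (hz.2 hz.1).le
    have h2 : ∑ z ∈ Zs \ Zs.filter (fun z => β z ≤ δ1 * Wt), β z ≤ ∑ z ∈ Zs, β z :=
      sum_le_sum_of_subset_of_nonneg sdiff_subset fun z hz _ => hβ z hz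
    have h3 : ((Zs \ Zs.filter fun z => β z ≤ δ1 * Wt).card : ℝ) * (δ1 * Wt) ≤ B * (δ1 * Wt) := by
      calc _ ≤ E * Wt := h1.trans (h2.trans hsum)
        _ ≤ δ1 * B * Wt := mul_le_mul_of_nonneg_right hE hpos.le
        _ = _ := by ring
    exact le_of_mul_le_mul_right h3 (by positivity)

section good
variable {T : Type} [DecidableEq T] (n L : ℕ) (ν : T → ℝ) (c : T → ℕ) (T' : Finset T)

omit [DecidableEq T] in
open Classical in
/-- union bound: not good ⟹ low or bad at some `z ∈ Z0` -/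
theorem tp_notgood (hν : ∀ t, 0 ≤ ν t) (C : Finset T) (η : ℝ) (hη : 0 ≤ η) (Z0 : Finset ℕ) :
    ∑ t0 ∈ C with ¬ (∀ z ∈ Z0, η * tpA n L c ν T' z t0 ≤ tpA n L c ν C z t0), ν t0 ≤
      ∑ z ∈ Z0, (2 * η * ∑ t ∈ T', ν t + ∑ t0 ∈ C with TpBad n L c ν T' C η z t0, ν t0) := by
  have h1 : ∀ z, ∑ t0 ∈ C with tpA n L c ν C z t0 < η * tpA n L c ν T' z t0, ν t0 ≤
      2 * η * ∑ t ∈ T', ν t + ∑ t0 ∈ C with TpBad n L c ν T' C η z t0, ν t0 := by
    intro z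
    have hlow := tp_cmp ν hν (tpK n L c z) (tpK n L c z) C T' (2 * η) (by positivity)
    refine le_trans ?_ (add_le_add_left hlow _)
    simp_rw [sum_filter]
    rw [← sum_add_distrib]
    refine sum_le_sum fun t0 _ => ?_
    by_cases hb : tpA n L c ν C z t0 < η * tpA n L c ν T' z t0
    · by_cases hl : tpM ν (tpK n L c z) C (tpK n L c z t0) < 2 * η * tpM ν (tpK n L c z) T' (tpK n L c z t0)
      · rw [if_pos hb, if_pos hl]
        have : 0 ≤ (if TpBad n L c ν T' C η z t0 then ν t0 else 0) := by split_ifs <;> simp [hν t0]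
        linarith
      · have hbad : TpBad n L c ν T' C η z t0 := ⟨not_lt.1 hl, hb⟩
        rw [if_pos hb, if_neg hl, if_pos hbad]; simp
    · rw [if_neg hb]
      have h1 : 0 ≤ (if TpBad n L c ν T' C η z t0 then ν t0 else 0) := by split_ifs <;> simp [hν t0]
      have h2 : 0 ≤ (if tpM ν (tpK n L c z) C (tpK n L c z t0) < 2 * η * tpM ν (tpK n L c z) T' (tpK n L c z t0)
          then ν t0 else 0) := by split_ifs <;> simp [hν t0]
      linarith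
  refine le_trans ?_ (sum_le_sum fun z _ => h1 z)
  simp_rw [sum_filter]
  rw [sum_comm]
  refine sum_le_sum fun t0 _ => ?_
  by_cases hg : ∀ z ∈ Z0, η * tpA n L c ν T' z t0 ≤ tpA n L c ν C z t0
  · rw [if_neg (not_not.2 hg)]
    exact sum_nonneg fun z _ => by split_ifs <;> simp [hν t0]
  · rw [if_pos hg]
    push Not at hg
    obtain ⟨z, hz, hlt⟩ := hg
    calc ν t0 = (if tpA n L c ν C z t0 < η * tpA n L c ν T' z t0 then ν t0 else 0) := by rw [if_pos hlt]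
      _ ≤ _ := single_le_sum (f := fun z => if tpA n L c ν C z t0 < η * tpA n L c ν T' z t0 then ν t0 else 0)
          (fun z _ => by split_ifs <;> simp [hν t0]) hz

end good

section core2
variable {T Q : Type} [DecidableEq T] [DecidableEq Q] (L m : ℕ) (ν : T → ℝ) (c : T → ℕ) (T' : Finset T)
  (w : Q → ℝ) (G : Finset (Q × T))

open Classical in
theorem tp_goodmass (hν : ∀ t, 0 ≤ ν t) (P : Finset Q) (hw : ∀ q ∈ P, 0 ≤ w q)
    (ρ0 : ℝ) (hρ0 : 0 < ρ0) (hP : ∀ q ∈ P, ρ0 / 2 * ∑ t ∈ T', ν t ≤ ∑ t ∈ tpC G T' q, ν t)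
    (η δ1 : ℝ) (hη : 0 ≤ η) (hδ1 : 0 ≤ δ1) (Z0 : Finset ℕ) (k : ℕ) (hk : Z0.card ≤ k)
    (hZ0 : ∀ z ∈ Z0, tpBeta L m ν c T' w G P η z ≤ δ1 * ∑ q ∈ P, w q * ∑ t ∈ tpC G T' q, ν t)
    (hδ : (k : ℝ) * (δ1 + 4 * η / ρ0) ≤ 1 / 2) :
    (∑ q ∈ P, w q * ∑ t ∈ tpC G T' q, ν t) / 2 ≤
      ∑ q ∈ P, w q * ∑ t0 ∈ tpC G T' q with
        (∀ z ∈ Z0, η * tpA (m * L) L c ν T' z t0 ≤ tpA (m * L) L c ν (tpC G T' q) z t0), ν t0 := by
  set Wt := ∑ q ∈ P, w q * ∑ t ∈ tpC G T' q, ν t with hWt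
  have hWt0 : 0 ≤ Wt := sum_nonneg fun q hq => mul_nonneg (hw q hq) (sum_nonneg fun t _ => hν t)
  -- the mass of `P × T'` is at most `(2/ρ0) Wt`
  have hPT : (∑ q ∈ P, w q) * ∑ t ∈ T', ν t ≤ 2 / ρ0 * Wt := by
    rw [hWt, sum_mul, mul_sum]
    refine sum_le_sum fun q hq => ?_
    have h1 := hP q hq
    have h2 : ∑ t ∈ T', ν t ≤ 2 / ρ0 * ∑ t ∈ tpC G T' q, ν t := by
      rw [div_mul_eq_mul_div, le_div_iff₀ hρ0]; linarith
    calc w q * ∑ t ∈ T', ν t ≤ w q * (2 / ρ0 * ∑ t ∈ tpC G T' q, ν t) := mul_le_mul_of_nonneg_left h2 (hw q hq)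
      _ = _ := by ring
  have hbadsum : ∑ q ∈ P, w q * ∑ t0 ∈ tpC G T' q with
        ¬ (∀ z ∈ Z0, η * tpA (m * L) L c ν T' z t0 ≤ tpA (m * L) L c ν (tpC G T' q) z t0), ν t0 ≤ Wt / 2 := by
    calc _ ≤ ∑ q ∈ P, w q * ∑ z ∈ Z0, (2 * η * ∑ t ∈ T', ν t +
            ∑ t0 ∈ tpC G T' q with TpBad (m * L) L c ν T' (tpC G T' q) η z t0, ν t0) :=
          sum_le_sum fun q hq => mul_le_mul_of_nonneg_left (tp_notgood (m * L) L ν c T' hν _ η hη Z0) (hw q hq)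
      _ = ∑ z ∈ Z0, (2 * η * ((∑ q ∈ P, w q) * ∑ t ∈ T', ν t) + tpBeta L m ν c T' w G P η z) := by
          unfold tpBeta
          rw [sum_congr rfl (fun q _ => mul_sum _ _ _), sum_comm]
          refine sum_congr rfl fun z _ => ?_
          simp only [mul_add, sum_add_distrib]
          congr 1
          rw [← sum_mul]; ring
      _ ≤ ∑ z ∈ Z0, (2 * η * (2 / ρ0 * Wt) + δ1 * Wt) :=
          sum_le_sum fun z hz => add_le_add (mul_le_mul_of_nonneg_left hPT (by positivity)) (hZ0 z hz)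
      _ = (Z0.card : ℝ) * ((δ1 + 4 * η / ρ0) * Wt) := by
          rw [sum_const, nsmul_eq_mul]; ring
      _ ≤ (k : ℝ) * ((δ1 + 4 * η / ρ0) * Wt) := by
          apply mul_le_mul_of_nonneg_right (by exact_mod_cast hk)
          positivity
      _ = ((k : ℝ) * (δ1 + 4 * η / ρ0)) * Wt := by ring
      _ ≤ 1 / 2 * Wt := mul_le_mul_of_nonneg_right hδ hWt0
      _ = Wt / 2 := by ring
  have hsplit : Wt = ∑ q ∈ P, w q * ∑ t0 ∈ tpC G T' q with
        (∀ z ∈ Z0, η * tpA (m * L) L c ν T' z t0 ≤ tpA (m * L) L c ν (tpC G T' q) z t0), ν t0 +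
      ∑ q ∈ P, w q * ∑ t0 ∈ tpC G T' q with
        ¬ (∀ z ∈ Z0, η * tpA (m * L) L c ν T' z t0 ≤ tpA (m * L) L c ν (tpC G T' q) z t0), ν t0 := by
    rw [hWt, ← sum_add_distrib]
    refine sum_congr rfl fun q _ => ?_
    rw [← mul_add, sum_filter_add_sum_filter_not]
  linarith

open Classical in
theorem tp_avg (hν : ∀ t, 0 ≤ ν t) (hpos : 0 < ∑ t ∈ T', ν t) (P : Finset Q) (hw : ∀ q ∈ P, 0 ≤ w q)
    (η : ℝ) (hη : 0 ≤ η) (Z0 : Finset ℕ) (M : ℝ)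
    (hgood : M ≤ ∑ q ∈ P, w q * ∑ t0 ∈ tpC G T' q with
        (∀ z ∈ Z0, η * tpA (m * L) L c ν T' z t0 ≤ tpA (m * L) L c ν (tpC G T' q) z t0), ν t0)
    (haT : ∀ z ∈ Z0, ∀ t0 ∈ T', 0 < tpA (m * L) L c ν T' z t0) :
    ∃ t0 ∈ T', η ^ Z0.card * M / ∑ t ∈ T', ν t ≤
      ∑ q ∈ P with (q, t0) ∈ G, w q * ∏ z ∈ Z0, (tpA (m * L) L c ν (tpC G T' q) z t0 / tpA (m * L) L c ν T' z t0) := by
  set Φ : T → ℝ := fun t0 =>
    ∑ q ∈ P with (q, t0) ∈ G, w q * ∏ z ∈ Z0, (tpA (m * L) L c ν (tpC G T' q) z t0 / tpA (m * L) L c ν T' z t0) with hΦ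
  have htot : η ^ Z0.card * M ≤ ∑ t0 ∈ T', ν t0 * Φ t0 := by
    have e1 : ∑ t0 ∈ T', ν t0 * Φ t0 = ∑ q ∈ P, w q * ∑ t0 ∈ tpC G T' q,
        ν t0 * ∏ z ∈ Z0, (tpA (m * L) L c ν (tpC G T' q) z t0 / tpA (m * L) L c ν T' z t0) := by
      simp only [hΦ, tpC, sum_filter, mul_sum]
      rw [sum_comm]
      refine sum_congr rfl fun q _ => sum_congr rfl fun t0 _ => ?_
      split_ifs
      · ring
      · simp
    rw [e1]
    calc η ^ Z0.card * M ≤ η ^ Z0.card * ∑ q ∈ P, w q * ∑ t0 ∈ tpC G T' q with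
          (∀ z ∈ Z0, η * tpA (m * L) L c ν T' z t0 ≤ tpA (m * L) L c ν (tpC G T' q) z t0), ν t0 :=
          mul_le_mul_of_nonneg_left hgood (by positivity)
      _ = ∑ q ∈ P, w q * ∑ t0 ∈ tpC G T' q with
          (∀ z ∈ Z0, η * tpA (m * L) L c ν T' z t0 ≤ tpA (m * L) L c ν (tpC G T' q) z t0), ν t0 * η ^ Z0.card := by
          rw [mul_sum]
          refine sum_congr rfl fun q _ => ?_
          rw [← sum_mul]; ring
      _ ≤ _ := by
          refine sum_le_sum fun q hq => mul_le_mul_of_nonneg_left ?_ (hw q hq)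
          rw [sum_filter]
          refine sum_le_sum fun t0 ht0 => ?_
          have ht0' : t0 ∈ T' := (mem_filter.1 ht0).1
          have hprod0 : 0 ≤ ∏ z ∈ Z0, (tpA (m * L) L c ν (tpC G T' q) z t0 / tpA (m * L) L c ν T' z t0) :=
            prod_nonneg fun z hz => div_nonneg (sum_nonneg fun t _ => hν t) (haT z hz t0 ht0').le
          split_ifs with hg
          · apply mul_le_mul_of_nonneg_left _ (hν t0)
            rw [← prod_const]
            refine prod_le_prod (fun _ _ => hη) fun z hz => ?_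
            rw [le_div_iff₀ (haT z hz t0 ht0')]
            exact hg z hz
          · exact mul_nonneg (hν t0) hprod0
  by_contra hcon
  push Not at hcon
  have hlt : ∑ t0 ∈ T', ν t0 * Φ t0 < ∑ t0 ∈ T', ν t0 * (η ^ Z0.card * M / ∑ t ∈ T', ν t) := by
    obtain ⟨t1, ht1, hpos1⟩ : ∃ t1 ∈ T', 0 < ν t1 := by
      by_contra hno
      push Not at hno
      have : ∑ t ∈ T', ν t ≤ 0 := sum_nonpos hno
      linarith
    exact sum_lt_sum (fun t0 ht0 => mul_le_mul_of_nonneg_left (hcon t0 ht0).le (hν t0))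
      ⟨t1, ht1, mul_lt_mul_of_pos_left (hcon t1 ht1) hpos1⟩
  rw [← sum_mul, mul_div_cancel₀ _ hpos.ne'] at hlt
  linarith

end core2

end Claimed.Agent.RW
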