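import Claimed.Agent.RW.ExDefs

/-!
# Team RW.  Unit W2 (prefix `w2`), file 1/4: thin tubes, typical tags, the window lemma.        Architect: helper236.

GOAL of the unit (`W2Main.lean`): `ex_W2`: point law HEREDITARILY Frostman `s ≤ 1` (`ExHered`), slopes Frostman `u < s`, dense graph, every tag covers the projection of
its neighbours by `M` intervals of length `ρ`  ⟹  `M ≥ ρ^(-u-ε)`.

## The proof (complete; constants `K` depend on `A,s,u` only; `n` = number of dyadic scales, `(1/2)^(n+1) < ρ ≤ (1/2)^n`)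
Parameters: `κ = min(u,s-u)/2`, `γ = u-κ`, `β = s-u`, `σ = u`  (`σ < min(1,β+γ)`), `χ` from `ex_W1 β γ σ A'`, `c` from the window lemma,
`Cμ = Cν = ρ^(-η)`, `Θ = ρ^(-4η)`, `lam = ρ^(3η)`, `15η+ε ≤ χc/2`.   Assume `M < ρ^(-u-ε)`.
0. THIN TUBES (this file).  For every point `p` and `ρ ≤ r ≤ R ≤ 1`:  `∑_b ν_b μ(B(p,R) ∩ tube_b(p,r)) ≤ K Cμ Cν (r/R)^u μ(B(p,R))`   (`w2_thin_avg`: Kaufman's computation on the
   shells `dist ~ 2^-j R`, `ExHered` gives `μ(B(p,2^-j R)) ≤ Cμ 2^(-js) μ(B(p,R))`, `kf_collision` gives `ν{..} ≤ Cν (4A 2^j r/R)^u`, geometric series because `u < s`).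
   Markov + union over the `≤ (n+2)²` dyadic pairs: all pairs `(p,b)` outside a set of `μ×ν`-mass `≤ K (n+2)² Cμ Cν/Θ` are THIN (`W2Thin`, real radii, ball doubled).
1. TYPICAL TAGS, WINDOW (this file).  `w2C i b` = `ν`-mass of the dyadic cell of level `i` of the slope of `b`.  Outside `ν`-mass `≤ ((n+1)²+2A+2) lam'` a tag is typical (`W2Typ`):
   `w2C i' b ≥ lam' 2^-(i'-i) w2C i b`, `w2C 0 b ≥ lam'` (a cell has `2^(i'-i)` subcells).  So `f(i) = -log₂ w2C i b` satisfies `f(i) ≥ ui-E`, `f(i')-f(i) ≤ i'-i+E`, `f(0) ≤ E`;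
   WINDOW LEMMA `w2_window`: there are `i0 ≤ i1 ≤ 2 i0`, `i1-i0 ≥ cn` with `f(i)-f(i0) ≥ γ(i-i0)` on `[i0,i1]`  (`W2Win`).    `w = 2^-i0`, `r = 2^-i1`, `δ' = r/w`;  `w² ≤ r`.
   Pigeonhole `(i0,i1)` (`(n+1)²` classes): `G1 ⊆ G`, all pairs thin, all tags in the window class, mass `q1 ≥ ρ^(2η)`.
2. PER TAG (`W2Tag.lean`).  `Gb` = fibre of `G1`.  (count) at `R ∈ {r,w}`: after deleting mass `≤ K lam`, `π_b` of the rest is covered by `N_R ≤ K M Θ (ρ/R)^u/lam` intervals of length `R`.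
   (tubes) after deleting `≤ lam`: every window of length `~w` of `π_b` contains `≤ K H`, `H = 2 N_r Θ w^u/lam ≈ ρ^(-ε-14η) δ'^(-u)`, intervals of the `r`-cover.
   (heavy) after deleting `≤ lam`: the `w`-tube through every surviving point has `Gb`-mass `≥ thr = lam/N_w ≈ ρ^(ε+10η) w^u`.
3. SELECTION (`W2Cfg.lean`).  Pigeonhole a dyadic cell `J = [θ0,θ0+w)` of slopes, then a tube `T_k = {⌊π_θ0/w⌋ = k}`: graph mass `≥ q1/K` relative to `ν(J) μ(P)`,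
   `P = {p : (p,b) ∈ G1 for some b ∈ J} ∩ {|π_θ0 - kw| ≤ (2A+2)w}`.
4. RESCALING (`W2Cfg.lean`).  `pt' = (x, (π_θ0 - kw)/w)`, `sl' = (sl-θ0)/w`, so `kfProj sl' pt' = (π_b - kw)/w`; scale `δ'`; `μ' = μ|P/μ(P)`, `ν' = ν|J∩class/ν(J)`;
   reference law `lam' = ` first coordinate of `μ|T2/μ(P)`, `T2 = 2w`-neighbourhood of `P`.
   (tags) `ν'` Frostman `γ`, constant 6 (window class).   (lam) `μ(T2 ∩ {|x-c| ≤ R}) ≤ K Θ Cμ w^u R^(s-u)` (thin at `(~R,~w)` + Frostman), `μ(P) ≥ thr`.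
   (U) a `δ' × r` parallelogram: cut into `w`-cells; in a `w`-ball all tubes of slopes in `J` agree up to `w² ≤ r`; thin at `(w,3r)`: mass `≤ K Θ δ'^u μ(T2 ∩ {|x-z₁| ≤ 3δ'})`.
   `ex_W1` at the scale `δ'` gives `δ'^(-u-χ) ≤ K H`: contradiction since `δ'^(-χ) ≥ (2ρ)^(-χc)`.
-/

set_option autoImplicit false

namespace Claimed.Agent.RW

open Finset

/-- mass of the ball of radius `R` about the member `i` of a weighted population -/
noncomputable def w2B {ι Y : Type} [Fintype ι] [PseudoMetricSpace Y] (w : ι → ℝ) (pos : ι → Y) (i : ι) (R : ℝ) : ℝ :=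
  ∑ j with dist (pos j) (pos i) ≤ R, w j

/-- mass of the part of the ball `B(p,R)` inside the tube of slope `a` and half width `r` through `p` -/
noncomputable def w2Tb {X : Type} [Fintype X] (μ : X → ℝ) (pt : X → ℝ × ℝ) (a : ℝ) (p : X) (R r : ℝ) : ℝ :=
  ∑ x with dist (pt x) (pt p) ≤ R ∧ |kfProj a (pt x) - kfProj a (pt p)| ≤ r, μ x

/-- mass of the whole tube of slope `a` and half width `r` through `p` -/
noncomputable def w2Tg {X : Type} [Fintype X] (μ : X → ℝ) (pt : X → ℝ × ℝ) (a : ℝ) (p : X) (r : ℝ) : ℝ :=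
  ∑ x with |kfProj a (pt x) - kfProj a (pt p)| ≤ r, μ x

/-- the pair (point `p`, slope `a`) has THIN TUBES of exponent `u` at all scales -/
def W2Thin {X : Type} [Fintype X] (μ : X → ℝ) (pt : X → ℝ × ℝ) (u Θ ρ a : ℝ) (p : X) : Prop :=
  (∀ R r : ℝ, ρ ≤ r → r ≤ R → R ≤ 1 / 2 → w2Tb μ pt a p R r ≤ Θ * (r / R) ^ u * w2B μ pt p (2 * R)) ∧
  (∀ r : ℝ, ρ ≤ r → w2Tg μ pt a p r ≤ Θ * r ^ u)

/-- shell summation over a finite set of points -/
theorem w2_shell {X : Type} [DecidableEq X] {μ g : X → ℝ} (hμ0 : ∀ x, 0 ≤ μ x) (S : Finset X) (J : ℕ) (B : ℕ → Finset X)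
    (c m : ℕ → ℝ) (hc : ∀ j, 0 ≤ c j) (hB : ∀ j, j ≤ J → ∑ y ∈ B j, μ y ≤ m j)
    (hg : ∀ y ∈ S, ∃ j, j ≤ J ∧ y ∈ B j ∧ g y ≤ c j) :
    ∑ y ∈ S, μ y * g y ≤ ∑ j ∈ range (J + 1), c j * m j := by
  have h1 : ∀ y ∈ S, μ y * g y ≤ ∑ j ∈ range (J + 1), if y ∈ B j then c j * μ y else 0 := by
    intro y hyS
    obtain ⟨j, hj, hy, hgy⟩ := hg y hyS
    have h2 : (if y ∈ B j then c j * μ y else 0) ≤ ∑ j ∈ range (J + 1), if y ∈ B j then c j * μ y else 0 :=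
      Finset.single_le_sum (f := fun j => if y ∈ B j then c j * μ y else 0)
        (fun k _ => by
          split_ifs
          · exact mul_nonneg (hc k) (hμ0 y)
          · exact le_rfl) (Finset.mem_range.2 (by omega))
    rw [if_pos hy] at h2
    refine le_trans ?_ h2
    rw [mul_comm]
    exact mul_le_mul_of_nonneg_right hgy (hμ0 y)
  refine le_trans (Finset.sum_le_sum h1) ?_
  rw [Finset.sum_comm]
  refine Finset.sum_le_sum fun j hj => ?_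
  rw [← Finset.sum_filter, ← Finset.mul_sum]
  refine mul_le_mul_of_nonneg_left (le_trans ?_ (hB j (by have := Finset.mem_range.1 hj; omega))) (hc j)
  refine Finset.sum_le_sum_of_subset_of_nonneg ?_ fun i _ _ => hμ0 i
  intro y hy
  exact (Finset.mem_filter.1 hy).2

/-- exchange of the two sums -/
theorem w2_swap {X T : Type} [Fintype X] [Fintype T] (μ : X → ℝ) (ν : T → ℝ) (pt : X → ℝ × ℝ) (sl : T → ℝ) (p : X) (r : ℝ)
    (P : X → Prop) [DecidablePred P] :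
    ∑ b, ν b * (∑ x with P x ∧ |kfProj (sl b) (pt x) - kfProj (sl b) (pt p)| ≤ r, μ x) =
      ∑ x with P x, μ x * ∑ b with |kfProj (sl b) (pt x) - kfProj (sl b) (pt p)| ≤ r, ν b := by
  simp_rw [Finset.mul_sum, Finset.sum_filter]
  rw [Finset.sum_comm]
  refine Finset.sum_congr rfl fun x _ => ?_
  by_cases hP : P x
  · simp only [hP, true_and, if_true]
    refine Finset.sum_congr rfl fun b _ => ?_
    split_ifs
    · ring
    · ring
  · simp [hP]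

/-- the dyadic shell of a point of the ball -/
theorem w2_find_shell {R d : ℝ} (hd : d ≤ R) (J : ℕ) :
    d ≤ R / 2 ^ J ∨ ∃ j, j < J ∧ R / 2 ^ (j + 1) < d ∧ d ≤ R / 2 ^ j := by
  induction J with
  | zero => left; simpa using hd
  | succ J ih =>
    rcases ih with h | ⟨j, hj, h1, h2⟩
    · by_cases h3 : d ≤ R / 2 ^ (J + 1)
      · exact Or.inl h3
      · exact Or.inr ⟨J, by omega, not_le.1 h3, h⟩
    · exact Or.inr ⟨j, by omega, h1, h2⟩

/-- the mass of the tags for which `x` lies in the tube through `p`, far points -/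
theorem w2_far {T : Type} [Fintype T] {ν : T → ℝ} {sl : T → ℝ} (hν0 : ∀ b, 0 ≤ ν b) (hν1 : ∑ b, ν b ≤ 1) {A Cν u ρ r : ℝ}
    (hA : 1 ≤ A) (hsl : ∀ b, |sl b| ≤ A) (hCν : 1 ≤ Cν) (hu : 0 < u) (hρ : 0 < ρ) (hF : KfFrost ν sl Cν u ρ) (hr : ρ ≤ r)
    {x q : ℝ × ℝ} {t : ℝ} (ht : 2 * A * r ≤ t * dist x q) (hrt : r ≤ t) :
    ∑ b with |kfProj (sl b) x - kfProj (sl b) q| ≤ r, ν b ≤ Cν * t ^ u := by
  have hr0 : 0 < r := lt_of_lt_of_le hρ hr
  by_cases h1 : 1 ≤ t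
  · have h2 : ∑ b with |kfProj (sl b) x - kfProj (sl b) q| ≤ r, ν b ≤ ∑ b, ν b :=
      Finset.sum_le_sum_of_subset_of_nonneg (Finset.filter_subset _ _) fun i _ _ => hν0 i
    have h3 : 1 ≤ t ^ u := Real.one_le_rpow h1 hu.le
    nlinarith
  · push Not at h1
    have hd0 : 0 ≤ dist x q := dist_nonneg
    refine kf_collision hν0 hA hsl hr0 (fun z r' h => kf_frost_ext hν0 hν1 hCν hu.le hF z r' (hr.trans h)) ?_ ht hrt
    have h2 : t * dist x q ≤ dist x q := by nlinarith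
    nlinarith

/-- **thin tubes on average** (leaf W2-THIN-AVG) -/
theorem w2_thin_avg (A s u : ℝ) (hA : 1 ≤ A) (hu : 0 < u) (hus : u < s) :
    ∃ K : ℝ, 1 ≤ K ∧ ∀ (X T : Type) [Fintype X] [Fintype T] (μ : X → ℝ) (ν : T → ℝ) (pt : X → ℝ × ℝ) (sl : T → ℝ)
      (Cμ Cν ρ : ℝ), (∀ x, 0 ≤ μ x) → (∀ b, 0 ≤ ν b) → ∑ b, ν b ≤ 1 → (∀ b, |sl b| ≤ A) → 1 ≤ Cμ → 1 ≤ Cν → 0 < ρ →
      ExHered μ pt Cμ s ρ → KfFrost ν sl Cν u ρ →
      ∀ (p : X) (R r : ℝ), ρ ≤ r → r ≤ R → R ≤ 1 →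
        ∑ b, ν b * w2Tb μ pt (sl b) p R r ≤ K * Cμ * Cν * (r / R) ^ u * w2B μ pt p R := by
  have hq0 : (0:ℝ) < 2 ^ (u - s) := Real.rpow_pos_of_pos (by norm_num) _
  have hq1 : (2:ℝ) ^ (u - s) < 1 := Real.rpow_lt_one_of_one_lt_of_neg (by norm_num) (by linarith)
  have hA4 : 1 ≤ (4 * A) ^ u := Real.one_le_rpow (by linarith) hu.le
  have hG1 : 1 ≤ (1 - (2:ℝ) ^ (u - s))⁻¹ := (one_le_inv₀ (by linarith)).2 (by linarith)
  refine ⟨(4 * A) ^ u * (1 - (2:ℝ) ^ (u - s))⁻¹, by nlinarith, ?_⟩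
  intro X T _ _ μ ν pt sl Cμ Cν ρ hμ0 hν0 hν1 hsl hCμ hCν hρ hH hF p R r hρr hrR hR1
  classical
  have hr0 : 0 < r := lt_of_lt_of_le hρ hρr
  have hR0 : 0 < R := lt_of_lt_of_le hr0 hrR
  have hW0 : 0 ≤ w2B μ pt p R := Finset.sum_nonneg fun i _ => hμ0 i
  obtain ⟨J, hJ1, hJ2⟩ := exists_nat_pow_near ((one_le_div hr0).2 hrR) (by norm_num : (1:ℝ) < 2)
  have e0 : ∑ b, ν b * w2Tb μ pt (sl b) p R r =
      ∑ x with dist (pt x) (pt p) ≤ R, μ x * ∑ b with |kfProj (sl b) (pt x) - kfProj (sl b) (pt p)| ≤ r, ν b :=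
    w2_swap μ ν pt sl p r (fun x => dist (pt x) (pt p) ≤ R)
  rw [e0]
  have hsh := w2_shell (g := fun x => ∑ b with |kfProj (sl b) (pt x) - kfProj (sl b) (pt p)| ≤ r, ν b) hμ0
    (Finset.univ.filter fun x => dist (pt x) (pt p) ≤ R) J
    (fun j => Finset.univ.filter fun x => dist (pt x) (pt p) ≤ R / 2 ^ j)
    (fun j => Cν * (4 * A * (r / R) * 2 ^ j) ^ u) (fun j => Cμ * (1 / 2 ^ j) ^ s * w2B μ pt p R)
    (fun j => by positivity) ?_ ?_
  · refine le_trans hsh ?_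
    have e1 : ∀ j : ℕ, Cν * (4 * A * (r / R) * 2 ^ j) ^ u * (Cμ * (1 / 2 ^ j) ^ s * w2B μ pt p R) =
        (Cμ * Cν * (4 * A) ^ u * (r / R) ^ u * w2B μ pt p R) * ((2:ℝ) ^ (u - s)) ^ j := by
      intro j
      have h1 : (4 * A * (r / R) * 2 ^ j) ^ u = (4 * A) ^ u * (r / R) ^ u * ((2:ℝ) ^ j) ^ u := by
        rw [Real.mul_rpow (by positivity) (by positivity), Real.mul_rpow (by positivity) (by positivity)]
      have h2 : ((2:ℝ) ^ j) ^ u * (1 / 2 ^ j) ^ s = ((2:ℝ) ^ (u - s)) ^ j := by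
        rw [one_div, Real.inv_rpow (by positivity), ← Real.rpow_natCast, ← Real.rpow_natCast, ← Real.rpow_mul (by norm_num),
          ← Real.rpow_mul (by norm_num), ← Real.rpow_mul (by norm_num), ← Real.rpow_neg (by norm_num),
          ← Real.rpow_add (by norm_num)]
        congr 1
        ring
      rw [h1, ← h2]
      ring
    simp_rw [e1]
    rw [← Finset.mul_sum]
    have h3 : ∑ j ∈ range (J + 1), ((2:ℝ) ^ (u - s)) ^ j ≤ (1 - (2:ℝ) ^ (u - s))⁻¹ := by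
      rw [← tsum_geometric_of_lt_one hq0.le hq1]
      exact (summable_geometric_of_lt_one hq0.le hq1).sum_le_tsum _ fun i _ => by positivity
    have h4 : 0 ≤ Cμ * Cν * (4 * A) ^ u * (r / R) ^ u * w2B μ pt p R := by positivity
    calc (Cμ * Cν * (4 * A) ^ u * (r / R) ^ u * w2B μ pt p R) * ∑ j ∈ range (J + 1), ((2:ℝ) ^ (u - s)) ^ j
        ≤ (Cμ * Cν * (4 * A) ^ u * (r / R) ^ u * w2B μ pt p R) * (1 - (2:ℝ) ^ (u - s))⁻¹ :=
          mul_le_mul_of_nonneg_left h3 h4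
      _ = _ := by ring
  · intro j hj
    have hp : (0:ℝ) < 2 ^ j := by positivity
    have h1 : (2:ℝ) ^ j ≤ 2 ^ J := pow_le_pow_right₀ (by norm_num) hj
    have h2 : (2:ℝ) ^ j * r ≤ R := by
      have := (le_div_iff₀ hr0).1 (h1.trans hJ1)
      exact this
    have h3 := hH (pt p) (R / 2 ^ j) R (hρr.trans ((le_div_iff₀ hp).2 (by linarith)))
      (div_le_self hR0.le (one_le_pow₀ (by norm_num))) hR1
    have h4 : R / 2 ^ j / R = 1 / 2 ^ j := by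
      field_simp
    rw [h4] at h3
    exact h3
  · intro x hx
    have hx' : dist (pt x) (pt p) ≤ R := (Finset.mem_filter.1 hx).2
    have hrR0 : 0 < r / R := div_pos hr0 hR0
    have hrr : r ≤ r / R := (le_div_iff₀ hR0).2 (by nlinarith)
    have hrt : ∀ j : ℕ, r ≤ 4 * A * (r / R) * 2 ^ j := by
      intro j
      have h1 : (1:ℝ) ≤ 2 ^ j := one_le_pow₀ (by norm_num)
      have h2 : r / R ≤ 4 * A * (r / R) := by nlinarith
      have h3 : 4 * A * (r / R) ≤ 4 * A * (r / R) * 2 ^ j := le_mul_of_one_le_right (by positivity) h1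
      linarith
    rcases w2_find_shell hx' J with h | ⟨j, hj, h1, h2⟩
    · refine ⟨J, le_rfl, Finset.mem_filter.2 ⟨Finset.mem_univ _, h⟩, ?_⟩
      have h2 : ∑ b with |kfProj (sl b) (pt x) - kfProj (sl b) (pt p)| ≤ r, ν b ≤ ∑ b, ν b :=
        Finset.sum_le_sum_of_subset_of_nonneg (Finset.filter_subset _ _) fun i _ _ => hν0 i
      have h3 : 1 ≤ 4 * A * (r / R) * 2 ^ J := by
        have h4 : R < 2 ^ (J + 1) * r := (div_lt_iff₀ hr0).1 hJ2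
        have h5 : 1 < 2 ^ (J + 1) * (r / R) := by
          rw [← mul_div_assoc, lt_div_iff₀ hR0]
          linarith
        have h6 : (2:ℝ) ^ (J + 1) = 2 * 2 ^ J := by ring
        rw [h6] at h5
        have h7 : 0 < (r / R) * 2 ^ J := by positivity
        nlinarith
      have h4 : 1 ≤ (4 * A * (r / R) * 2 ^ J) ^ u := Real.one_le_rpow h3 hu.le
      nlinarith
    · refine ⟨j, hj.le, Finset.mem_filter.2 ⟨Finset.mem_univ _, h2⟩, ?_⟩
      refine w2_far hν0 hν1 hA hsl hCν hu hρ hF hρr ?_ (hrt j)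
      have hp : (0:ℝ) < 2 ^ j := by positivity
      have h6 : (2:ℝ) ^ (j + 1) = 2 * 2 ^ j := by ring
      rw [h6] at h1
      have h7 : 4 * A * (r / R) * 2 ^ j * (R / (2 * 2 ^ j)) = 2 * A * r := by
        field_simp
        ring
      rw [← h7]
      exact mul_le_mul_of_nonneg_left h1.le (by positivity)

/-- **global thin tubes on average** (leaf W2-THIN-GLOB): `w2_thin_avg` at `R = 1` + the points at distance `> 1` (`kf_collision` with `t = 2Ar`) -/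
theorem w2_thin_avg_glob (A s u : ℝ) (hA : 1 ≤ A) (hu : 0 < u) (hus : u < s) :
    ∃ K : ℝ, 1 ≤ K ∧ ∀ (X T : Type) [Fintype X] [Fintype T] (μ : X → ℝ) (ν : T → ℝ) (pt : X → ℝ × ℝ) (sl : T → ℝ)
      (Cμ Cν ρ : ℝ), (∀ x, 0 ≤ μ x) → (∀ b, 0 ≤ ν b) → ∑ x, μ x ≤ 1 → ∑ b, ν b ≤ 1 → (∀ b, |sl b| ≤ A) → 1 ≤ Cμ → 1 ≤ Cν →
      0 < ρ → ExHered μ pt Cμ s ρ → KfFrost ν sl Cν u ρ →
      ∀ (p : X) (r : ℝ), ρ ≤ r → r ≤ 1 →
        ∑ b, ν b * w2Tg μ pt (sl b) p r ≤ K * Cμ * Cν * r ^ u := by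
  obtain ⟨K, hK1, hK⟩ := w2_thin_avg A s u hA hu hus
  have hA2 : 0 ≤ (2 * A) ^ u := by positivity
  refine ⟨K + (2 * A) ^ u, by linarith, ?_⟩
  intro X T _ _ μ ν pt sl Cμ Cν ρ hμ0 hν0 hμ1 hν1 hsl hCμ hCν hρ hH hF p r hρr hr1
  classical
  have hr0 : 0 < r := lt_of_lt_of_le hρ hρr
  have hru : 0 ≤ r ^ u := by positivity
  have e1 : ∀ b, w2Tg μ pt (sl b) p r = w2Tb μ pt (sl b) p 1 r +
      ∑ x with ¬ dist (pt x) (pt p) ≤ 1 ∧ |kfProj (sl b) (pt x) - kfProj (sl b) (pt p)| ≤ r, μ x := by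
    intro b
    unfold w2Tg w2Tb
    rw [← Finset.sum_filter_add_sum_filter_not (Finset.univ.filter fun x => |kfProj (sl b) (pt x) - kfProj (sl b) (pt p)| ≤ r)
      (fun x => dist (pt x) (pt p) ≤ 1), Finset.filter_filter, Finset.filter_filter]
    congr 1
    · refine Finset.sum_congr (Finset.filter_congr fun x _ => ?_) fun _ _ => rfl
      exact and_comm
    · refine Finset.sum_congr (Finset.filter_congr fun x _ => ?_) fun _ _ => rfl
      exact and_comm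
  simp_rw [e1, mul_add]
  rw [Finset.sum_add_distrib, w2_swap μ ν pt sl p r (fun x => ¬ dist (pt x) (pt p) ≤ 1)]
  have h1 := hK X T μ ν pt sl Cμ Cν ρ hμ0 hν0 hν1 hsl hCμ hCν hρ hH hF p 1 r hρr hr1 le_rfl
  rw [div_one] at h1
  have hB1 : w2B μ pt p 1 ≤ 1 :=
    le_trans (Finset.sum_le_sum_of_subset_of_nonneg (Finset.filter_subset _ _) fun i _ _ => hμ0 i) hμ1
  have h2 : K * Cμ * Cν * r ^ u * w2B μ pt p 1 ≤ K * Cμ * Cν * r ^ u :=
    mul_le_of_le_one_right (by positivity) hB1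
  have h3 : ∑ x with ¬ dist (pt x) (pt p) ≤ 1, μ x * ∑ b with |kfProj (sl b) (pt x) - kfProj (sl b) (pt p)| ≤ r, ν b ≤
      ∑ x with ¬ dist (pt x) (pt p) ≤ 1, μ x * (Cν * (2 * A * r) ^ u) := by
    refine Finset.sum_le_sum fun x hx => mul_le_mul_of_nonneg_left ?_ (hμ0 x)
    have hx' : 1 < dist (pt x) (pt p) := not_le.1 (Finset.mem_filter.1 hx).2
    refine w2_far hν0 hν1 hA hsl hCν hu hρ hF hρr ?_ (by nlinarith)
    exact le_mul_of_one_le_right (by positivity) hx'.le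
  rw [← Finset.sum_mul] at h3
  have h4 : ∑ x with ¬ dist (pt x) (pt p) ≤ 1, μ x ≤ 1 :=
    le_trans (Finset.sum_le_sum_of_subset_of_nonneg (Finset.filter_subset _ _) fun i _ _ => hμ0 i) hμ1
  have h5 : (∑ x with ¬ dist (pt x) (pt p) ≤ 1, μ x) * (Cν * (2 * A * r) ^ u) ≤ Cν * (2 * A * r) ^ u :=
    mul_le_of_le_one_left (by positivity) h4
  have h6 : (2 * A * r) ^ u = (2 * A) ^ u * r ^ u := Real.mul_rpow (by positivity) hr0.le
  have h7 : Cν * ((2 * A) ^ u * r ^ u) ≤ (2 * A) ^ u * Cμ * Cν * r ^ u := by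
    have h8 : 0 ≤ (2 * A) ^ u * Cν * r ^ u := by positivity
    nlinarith
  rw [h6] at h3 h5
  have h9 : (K + (2 * A) ^ u) * Cμ * Cν * r ^ u = K * Cμ * Cν * r ^ u + (2 * A) ^ u * Cμ * Cν * r ^ u := by ring
  rw [h9]
  linarith

/-- **Markov on pairs** (leaf W2-MARKOV) -/
theorem w2_markov {X T : Type} [Fintype X] [Fintype T] (μ : X → ℝ) (ν : T → ℝ) (hμ0 : ∀ x, 0 ≤ μ x) (hν0 : ∀ b, 0 ≤ ν b)
    (hμ1 : ∑ x, μ x ≤ 1) (F : X → T → ℝ) (Bd : X → ℝ) (hF0 : ∀ x b, 0 ≤ F x b) (hB0 : ∀ x, 0 ≤ Bd x)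
    (hF : ∀ x, ∑ b, ν b * F x b ≤ Bd x) {L : ℝ} (hL : 0 < L) (S : Finset (X × T)) (hS : ∀ q ∈ S, L * Bd q.1 < F q.1 q.2) :
    ∑ q ∈ S, μ q.1 * ν q.2 ≤ 1 / L := by
  classical
  have e0 : ∑ q ∈ S, μ q.1 * ν q.2 = ∑ x, μ x * ∑ b, (if (x, b) ∈ S then ν b else 0) := by
    have e1 : ∑ q ∈ S, μ q.1 * ν q.2 = ∑ q : X × T, (if q ∈ S then μ q.1 * ν q.2 else 0) := by
      rw [← Finset.sum_filter, Finset.filter_mem_eq_inter, Finset.univ_inter]
    rw [e1, Fintype.sum_prod_type]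
    refine Finset.sum_congr rfl fun x _ => ?_
    rw [Finset.mul_sum]
    refine Finset.sum_congr rfl fun b _ => ?_
    split_ifs
    · rfl
    · ring
  have h1 : ∀ x, ∑ b, (if (x, b) ∈ S then ν b else 0) ≤ 1 / L := by
    intro x
    rcases (hB0 x).lt_or_eq with hB | hB
    · have h2 : ∀ b, (if (x, b) ∈ S then ν b else 0) * (L * Bd x) ≤ ν b * F x b := by
        intro b
        split_ifs with h
        · exact mul_le_mul_of_nonneg_left (hS (x, b) h).le (hν0 b)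
        · rw [zero_mul]
          exact mul_nonneg (hν0 b) (hF0 x b)
      have h3 : (∑ b, (if (x, b) ∈ S then ν b else 0)) * (L * Bd x) ≤ Bd x := by
        rw [Finset.sum_mul]
        exact le_trans (Finset.sum_le_sum fun b _ => h2 b) (hF x)
      rw [le_div_iff₀ hL]
      have h4 : (∑ b, (if (x, b) ∈ S then ν b else 0)) * L * Bd x ≤ 1 * Bd x := by linarith
      exact le_of_mul_le_mul_right h4 hB
    · have h2 : ∀ b, (if (x, b) ∈ S then ν b else 0) = 0 := by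
        intro b
        split_ifs with h
        · have h3 : 0 < F x b := by
            have := hS (x, b) h
            simp only [← hB, mul_zero] at this
            exact this
          have h4 : ν b * F x b ≤ 0 := by
            have h5 := Finset.single_le_sum (f := fun b => ν b * F x b) (fun b _ => mul_nonneg (hν0 b) (hF0 x b))
              (Finset.mem_univ b)
            have h6 := hF x
            rw [← hB] at h6
            exact h5.trans h6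
          have h7 := hν0 b
          nlinarith
        · rfl
      simp only [h2, Finset.sum_const_zero]
      positivity
  rw [e0]
  calc ∑ x, μ x * ∑ b, (if (x, b) ∈ S then ν b else 0) ≤ ∑ x, μ x * (1 / L) :=
        Finset.sum_le_sum fun x _ => mul_le_mul_of_nonneg_left (h1 x) (hμ0 x)
    _ = (∑ x, μ x) * (1 / L) := by rw [Finset.sum_mul]
    _ ≤ 1 / L := mul_le_of_le_one_left (by positivity) hμ1

/-- union bound in predicate form -/
theorem w2_union_bound {α ι : Type} (S : Finset α) (I : Finset ι) (f : α → ℝ) (hf : ∀ a, 0 ≤ f a) (P : ι → α → Prop)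
    (c : ℝ) (hcov : ∀ a ∈ S, ∃ i ∈ I, P i a)
    (hb : ∀ i ∈ I, ∀ S' : Finset α, (∀ a ∈ S', P i a) → ∑ a ∈ S', f a ≤ c) : ∑ a ∈ S, f a ≤ I.card * c := by
  classical
  have h1 : ∀ a ∈ S, f a ≤ ∑ i ∈ I, if P i a then f a else 0 := by
    intro a ha
    obtain ⟨i, hi, hP⟩ := hcov a ha
    have h2 : (if P i a then f a else 0) ≤ ∑ i ∈ I, if P i a then f a else 0 :=
      Finset.single_le_sum (f := fun i => if P i a then f a else 0)
        (fun k _ => by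
          split_ifs
          · exact hf a
          · exact le_rfl) hi
    rwa [if_pos hP] at h2
  refine le_trans (Finset.sum_le_sum h1) ?_
  rw [Finset.sum_comm]
  calc ∑ i ∈ I, ∑ a ∈ S, (if P i a then f a else 0) ≤ ∑ i ∈ I, c := by
        refine Finset.sum_le_sum fun i hi => ?_
        rw [← Finset.sum_filter]
        exact hb i hi _ fun a ha => (Finset.mem_filter.1 ha).2
    _ = I.card * c := by rw [Finset.sum_const, nsmul_eq_mul]

theorem w2_Tb_mono {X : Type} [Fintype X] (μ : X → ℝ) (hμ : ∀ x, 0 ≤ μ x) (pt : X → ℝ × ℝ) (a : ℝ) (p : X)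
    {R r R' r' : ℝ} (hR : R ≤ R') (hr : r ≤ r') : w2Tb μ pt a p R r ≤ w2Tb μ pt a p R' r' := by
  unfold w2Tb
  apply Finset.sum_le_sum_of_subset_of_nonneg
  · intro x hx
    rw [Finset.mem_filter] at hx ⊢
    exact ⟨hx.1, le_trans hx.2.1 hR, le_trans hx.2.2 hr⟩
  · intro i _ _
    exact hμ i

theorem w2_Tg_mono {X : Type} [Fintype X] (μ : X → ℝ) (hμ : ∀ x, 0 ≤ μ x) (pt : X → ℝ × ℝ) (a : ℝ) (p : X)
    {r r' : ℝ} (hr : r ≤ r') : w2Tg μ pt a p r ≤ w2Tg μ pt a p r' := by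
  unfold w2Tg
  apply Finset.sum_le_sum_of_subset_of_nonneg
  · intro x hx
    rw [Finset.mem_filter] at hx ⊢
    exact ⟨hx.1, le_trans hx.2 hr⟩
  · intro i _ _
    exact hμ i

theorem w2_B_mono {ι Y : Type} [Fintype ι] [PseudoMetricSpace Y] (w : ι → ℝ) (hw : ∀ x, 0 ≤ w x) (pos : ι → Y) (i : ι)
    {R R' : ℝ} (hR : R ≤ R') : w2B w pos i R ≤ w2B w pos i R' := by
  unfold w2B
  apply Finset.sum_le_sum_of_subset_of_nonneg
  · intro x hx
    rw [Finset.mem_filter] at hx ⊢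
    exact ⟨hx.1, le_trans hx.2 hR⟩
  · intro i _ _
    exact hw i

theorem w2_B_nonneg {ι Y : Type} [Fintype ι] [PseudoMetricSpace Y] (w : ι → ℝ) (hw : ∀ x, 0 ≤ w x) (pos : ι → Y) (i : ι)
    (R : ℝ) : 0 ≤ w2B w pos i R := Finset.sum_nonneg fun j _ => hw j

theorem w2_Tb_nonneg {X : Type} [Fintype X] (μ : X → ℝ) (hμ : ∀ x, 0 ≤ μ x) (pt : X → ℝ × ℝ) (a : ℝ) (p : X)
    (R r : ℝ) : 0 ≤ w2Tb μ pt a p R r := Finset.sum_nonneg fun j _ => hμ j

theorem w2_Tg_nonneg {X : Type} [Fintype X] (μ : X → ℝ) (hμ : ∀ x, 0 ≤ μ x) (pt : X → ℝ × ℝ) (a : ℝ) (p : X)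
    (r : ℝ) : 0 ≤ w2Tg μ pt a p r := Finset.sum_nonneg fun j _ => hμ j

theorem w2_Tg_le_one {X : Type} [Fintype X] (μ : X → ℝ) (hμ : ∀ x, 0 ≤ μ x) (hμ1 : ∑ x, μ x ≤ 1) (pt : X → ℝ × ℝ)
    (a : ℝ) (p : X) (r : ℝ) : w2Tg μ pt a p r ≤ 1 :=
  le_trans (Finset.sum_le_sum_of_subset_of_nonneg (Finset.filter_subset _ _) fun i _ _ => hμ i) hμ1

/-- dyadic rounding upwards -/
theorem w2_dyadic_up {x : ℝ} (h0 : 0 < x) (h1 : x < 1) : ∃ j : ℕ, x ≤ (1 / 2 : ℝ) ^ j ∧ (1 / 2 : ℝ) ^ j < 2 * x := by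
  obtain ⟨j, hj1, hj2⟩ := exists_nat_pow_near_of_lt_one h0 h1.le (by norm_num : (0 : ℝ) < 1 / 2) (by norm_num)
  refine ⟨j, hj2, ?_⟩
  rw [pow_succ] at hj1
  linarith

theorem w2_pow_lt_imp {i j : ℕ} (h : (1 / 2 : ℝ) ^ i < (1 / 2 : ℝ) ^ j) : j < i := by
  by_contra hc
  push Not at hc
  exact absurd (pow_le_pow_of_le_one (by norm_num : (0 : ℝ) ≤ 1 / 2) (by norm_num) hc) (not_le.2 h)

/-- **most pairs are thin** (leaf W2-THIN-MOST): dyadic radii `(1/2)^i ≥ (1/2)^j ≥ ρ`, `w2_markov` for each pair with `L = Θ/(2 K Cμ Cν)`, rounding of real radii upwards. -/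
theorem w2_thin_most (A s u : ℝ) (hA : 1 ≤ A) (hu : 0 < u) (hus : u < s) :
    ∃ K : ℝ, 1 ≤ K ∧ ∀ (X T : Type) [Fintype X] [Fintype T] (μ : X → ℝ) (ν : T → ℝ) (pt : X → ℝ × ℝ) (sl : T → ℝ)
      (Cμ Cν ρ Θ : ℝ) (n : ℕ), (∀ x, 0 ≤ μ x) → (∀ b, 0 ≤ ν b) → ∑ x, μ x ≤ 1 → ∑ b, ν b ≤ 1 → (∀ b, |sl b| ≤ A) →
      1 ≤ Cμ → 1 ≤ Cν → 0 < ρ → ρ ≤ 1 → (1 / 2 : ℝ) ^ (n + 1) < ρ → 0 < Θ →
      ExHered μ pt Cμ s ρ → KfFrost ν sl Cν u ρ →
      ∀ S : Finset (X × T), (∀ q ∈ S, ¬ W2Thin μ pt u Θ ρ (sl q.2) q.1) →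
        ∑ q ∈ S, μ q.1 * ν q.2 ≤ K * ((n : ℝ) + 2) ^ 2 * Cμ * Cν / Θ := by
  obtain ⟨K1, hK1, H1⟩ := w2_thin_avg A s u hA hu hus
  obtain ⟨K2, hK2, H2⟩ := w2_thin_avg_glob A s u hA hu hus
  have h2u : (1 : ℝ) ≤ 2 ^ u := Real.one_le_rpow (by norm_num) hu.le
  set K0 : ℝ := max K1 K2 with hK0
  have hK01 : 1 ≤ K0 := le_trans hK1 (le_max_left _ _)
  refine ⟨2 ^ u * K0, by nlinarith, ?_⟩
  intro X T _ _ μ ν pt sl Cμ Cν ρ Θ n hμ0 hν0 hμ1 hν1 hsl hCμ hCν hρ hρ1 hn hΘ hH hF S hS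
  have hn0 : (0 : ℝ) ≤ n := Nat.cast_nonneg n
  have hf0 : ∀ q : X × T, 0 ≤ μ q.1 * ν q.2 := fun q => mul_nonneg (hμ0 _) (hν0 _)
  have hbig : 1 ≤ 2 ^ u * K0 * ((n : ℝ) + 2) ^ 2 * Cμ * Cν := by
    have a1 : (1 : ℝ) ≤ 2 ^ u * K0 := by nlinarith
    have a2 : (1 : ℝ) ≤ ((n : ℝ) + 2) ^ 2 := by nlinarith
    have a3 : (1 : ℝ) ≤ 2 ^ u * K0 * ((n : ℝ) + 2) ^ 2 := by nlinarith
    have a4 : (1 : ℝ) ≤ 2 ^ u * K0 * ((n : ℝ) + 2) ^ 2 * Cμ := by nlinarith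
    nlinarith
  -- trivial case
  by_cases hΘ1 : Θ < 1
  · have t1 : ∑ q ∈ S, μ q.1 * ν q.2 ≤ 1 := by
      calc ∑ q ∈ S, μ q.1 * ν q.2 ≤ ∑ q : X × T, μ q.1 * ν q.2 :=
            Finset.sum_le_sum_of_subset_of_nonneg (Finset.subset_univ _) fun q _ _ => hf0 q
        _ = (∑ x, μ x) * ∑ b, ν b := by
            rw [Finset.sum_mul_sum, ← Finset.univ_product_univ, Finset.sum_product]
        _ ≤ 1 := by
            have := Finset.sum_nonneg fun b (_ : b ∈ (univ : Finset T)) => hν0 b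
            have := Finset.sum_nonneg fun x (_ : x ∈ (univ : Finset X)) => hμ0 x
            nlinarith
    refine le_trans t1 ?_
    rw [le_div_iff₀ hΘ]
    linarith
  push Not at hΘ1
  set L : ℝ := Θ / (2 ^ u * K0 * Cμ * Cν) with hL
  have hden : 0 < 2 ^ u * K0 * Cμ * Cν := by positivity
  have hL0 : 0 < L := div_pos hΘ hden
  -- the predicates
  let P : (ℕ × ℕ) ⊕ ℕ → X × T → Prop := fun idx q =>
    match idx with
    | Sum.inl ij => L * (K1 * Cμ * Cν * ((1 / 2 : ℝ) ^ ij.2 / (1 / 2 : ℝ) ^ ij.1) ^ u * w2B μ pt q.1 ((1 / 2 : ℝ) ^ ij.1))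
        < w2Tb μ pt (sl q.2) q.1 ((1 / 2 : ℝ) ^ ij.1) ((1 / 2 : ℝ) ^ ij.2) ∧ ij.1 ≤ ij.2 ∧ ρ ≤ (1 / 2 : ℝ) ^ ij.2
    | Sum.inr j => L * (K2 * Cμ * Cν * ((1 / 2 : ℝ) ^ j) ^ u) < w2Tg μ pt (sl q.2) q.1 ((1 / 2 : ℝ) ^ j) ∧
        ρ ≤ (1 / 2 : ℝ) ^ j
  let I : Finset ((ℕ × ℕ) ⊕ ℕ) := (range (n + 1) ×ˢ range (n + 1)).disjSum (range (n + 1))
  have key := w2_union_bound S I (fun q => μ q.1 * ν q.2) hf0 P (1 / L) ?_ ?_
  · refine le_trans key ?_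
    have hcard : (I.card : ℝ) = ((n : ℝ) + 1) * ((n : ℝ) + 1) + ((n : ℝ) + 1) := by
      simp [I, Finset.card_disjSum, Finset.card_product]
    rw [hcard, hL, one_div_div]
    rw [mul_div_assoc', div_le_div_iff_of_pos_right hΘ]
    have e : ((n : ℝ) + 1) * ((n : ℝ) + 1) + ((n : ℝ) + 1) ≤ ((n : ℝ) + 2) ^ 2 := by nlinarith
    calc (((n : ℝ) + 1) * ((n : ℝ) + 1) + ((n : ℝ) + 1)) * (2 ^ u * K0 * Cμ * Cν)
        ≤ ((n : ℝ) + 2) ^ 2 * (2 ^ u * K0 * Cμ * Cν) := mul_le_mul_of_nonneg_right e hden.le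
      _ = 2 ^ u * K0 * ((n : ℝ) + 2) ^ 2 * Cμ * Cν := by ring
  · -- covering
    intro q hq
    have hnot := hS q hq
    unfold W2Thin at hnot
    rw [not_and_or] at hnot
    rcases hnot with hnot | hnot
    · push Not at hnot
      obtain ⟨R, r, hρr, hrR, hR, hlt⟩ := hnot
      have hr0 : 0 < r := lt_of_lt_of_le hρ hρr
      have hR0 : 0 < R := lt_of_lt_of_le hr0 hrR
      obtain ⟨i, hi1, hi2⟩ := w2_dyadic_up hR0 (by linarith)
      obtain ⟨j, hj1, hj2⟩ := w2_dyadic_up hr0 (by linarith)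
      have hij : i ≤ j := by
        have : (1 / 2 : ℝ) ^ (j + 1) < (1 / 2 : ℝ) ^ i := by
          rw [pow_succ]; linarith
        have := w2_pow_lt_imp this
        omega
      have hjn : j ≤ n := by
        have : (1 / 2 : ℝ) ^ (n + 1) < (1 / 2 : ℝ) ^ j := by linarith
        have := w2_pow_lt_imp this
        omega
      refine ⟨Sum.inl (i, j), ?_, ?_⟩
      · simp only [I, Finset.inl_mem_disjSum, Finset.mem_product, Finset.mem_range]
        omega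
      · refine ⟨?_, hij, le_trans hρr hj1⟩
        by_contra hc
        push Not at hc
        simp only [] at hc
        have m1 := w2_Tb_mono μ hμ0 pt (sl q.2) q.1 hi1 hj1
        have m2 := w2_B_mono μ hμ0 pt q.1 hi2.le
        have m3 : ((1 / 2 : ℝ) ^ j / (1 / 2 : ℝ) ^ i) ^ u ≤ 2 ^ u * (r / R) ^ u := by
          rw [← Real.mul_rpow (by norm_num) (by positivity)]
          apply Real.rpow_le_rpow (by positivity) _ hu.le
          rw [div_le_iff₀ (by positivity)]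
          calc (1 / 2 : ℝ) ^ j ≤ 2 * r := hj2.le
            _ = 2 * (r / R) * R := by field_simp
            _ ≤ 2 * (r / R) * (1 / 2 : ℝ) ^ i := by gcongr
        have b0 := w2_B_nonneg μ hμ0 pt q.1 (2 * R)
        have b1 := w2_B_nonneg μ hμ0 pt q.1 ((1 / 2 : ℝ) ^ i)
        have p0 : 0 ≤ (r / R) ^ u := by positivity
        have hfin : w2Tb μ pt (sl q.2) q.1 R r ≤ Θ * (r / R) ^ u * w2B μ pt q.1 (2 * R) := by
          calc w2Tb μ pt (sl q.2) q.1 R r ≤ _ := m1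
            _ ≤ _ := hc
            _ ≤ L * (K0 * Cμ * Cν * (2 ^ u * (r / R) ^ u) * w2B μ pt q.1 (2 * R)) := by
                have : K1 ≤ K0 := le_max_left _ _
                gcongr
            _ = (L * (2 ^ u * K0 * Cμ * Cν)) * (r / R) ^ u * w2B μ pt q.1 (2 * R) := by ring
            _ = Θ * (r / R) ^ u * w2B μ pt q.1 (2 * R) := by
                rw [hL, div_mul_cancel₀ _ hden.ne']
        linarith
    · push Not at hnot
      obtain ⟨r, hρr, hlt⟩ := hnot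
      have hr0 : 0 < r := lt_of_lt_of_le hρ hρr
      by_cases hr1 : 1 ≤ r
      · exfalso
        have := w2_Tg_le_one μ hμ0 hμ1 pt (sl q.2) q.1 r
        have h3 : 1 ≤ r ^ u := Real.one_le_rpow hr1 hu.le
        nlinarith
      push Not at hr1
      obtain ⟨j, hj1, hj2⟩ := w2_dyadic_up hr0 hr1
      have hjn : j ≤ n := by
        have : (1 / 2 : ℝ) ^ (n + 1) < (1 / 2 : ℝ) ^ j := by linarith
        have := w2_pow_lt_imp this
        omega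
      refine ⟨Sum.inr j, ?_, ?_⟩
      · simp only [I, Finset.inr_mem_disjSum, Finset.mem_range]
        omega
      · refine ⟨?_, le_trans hρr hj1⟩
        by_contra hc
        have hc' : w2Tg μ pt (sl q.2) q.1 ((1 / 2 : ℝ) ^ j) ≤ L * (K2 * Cμ * Cν * ((1 / 2 : ℝ) ^ j) ^ u) := not_lt.1 hc
        have m1 := w2_Tg_mono μ hμ0 pt (sl q.2) q.1 hj1
        have m3 : ((1 / 2 : ℝ) ^ j) ^ u ≤ 2 ^ u * r ^ u := by
          rw [← Real.mul_rpow (by norm_num) hr0.le]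
          exact Real.rpow_le_rpow (by positivity) hj2.le hu.le
        have p0 : 0 ≤ r ^ u := by positivity
        have hfin : w2Tg μ pt (sl q.2) q.1 r ≤ Θ * r ^ u := by
          calc w2Tg μ pt (sl q.2) q.1 r ≤ _ := m1
            _ ≤ _ := hc'
            _ ≤ L * (K0 * Cμ * Cν * (2 ^ u * r ^ u)) := by
                have : K2 ≤ K0 := le_max_right _ _
                gcongr
            _ = (L * (2 ^ u * K0 * Cμ * Cν)) * r ^ u := by ring
            _ = Θ * r ^ u := by rw [hL, div_mul_cancel₀ _ hden.ne']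
        linarith
  · -- each piece
    intro idx hidx S' hS'
    rcases idx with ⟨i, j⟩ | j
    · simp only [I, Finset.inl_mem_disjSum, Finset.mem_product, Finset.mem_range] at hidx
      by_cases hij : i ≤ j ∧ ρ ≤ (1 / 2 : ℝ) ^ j
      · have hpij : (1 / 2 : ℝ) ^ j ≤ (1 / 2 : ℝ) ^ i := pow_le_pow_of_le_one (by norm_num) (by norm_num) hij.1
        have hpi1 : (1 / 2 : ℝ) ^ i ≤ 1 := pow_le_one₀ (by norm_num) (by norm_num)
        exact w2_markov μ ν hμ0 hν0 hμ1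
          (fun x b => w2Tb μ pt (sl b) x ((1 / 2 : ℝ) ^ i) ((1 / 2 : ℝ) ^ j))
          (fun x => K1 * Cμ * Cν * ((1 / 2 : ℝ) ^ j / (1 / 2 : ℝ) ^ i) ^ u * w2B μ pt x ((1 / 2 : ℝ) ^ i))
          (fun x b => w2_Tb_nonneg μ hμ0 pt _ _ _ _)
          (fun x => by
            have := w2_B_nonneg μ hμ0 pt x ((1 / 2 : ℝ) ^ i)
            positivity)
          (fun x => H1 X T μ ν pt sl Cμ Cν ρ hμ0 hν0 hν1 hsl hCμ hCν hρ hH hF x _ _ hij.2 hpij hpi1)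
          hL0 S' (fun q hq => (hS' q hq).1)
      · have : S' = ∅ := by
          apply Finset.eq_empty_of_forall_notMem
          intro q hq
          exact hij (hS' q hq).2
        rw [this]
        simp only [Finset.sum_empty]
        positivity
    · by_cases hj : ρ ≤ (1 / 2 : ℝ) ^ j
      · have hpj1 : (1 / 2 : ℝ) ^ j ≤ 1 := pow_le_one₀ (by norm_num) (by norm_num)
        exact w2_markov μ ν hμ0 hν0 hμ1
          (fun x b => w2Tg μ pt (sl b) x ((1 / 2 : ℝ) ^ j))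
          (fun _ => K2 * Cμ * Cν * ((1 / 2 : ℝ) ^ j) ^ u)
          (fun x b => w2_Tg_nonneg μ hμ0 pt _ _ _)
          (fun x => by positivity)
          (fun x => H2 X T μ ν pt sl Cμ Cν ρ hμ0 hν0 hμ1 hν1 hsl hCμ hCν hρ hH hF x _ hj hpj1)
          hL0 S' (fun q hq => (hS' q hq).1)
      · have : S' = ∅ := by
          apply Finset.eq_empty_of_forall_notMem
          intro q hq
          exact hj (hS' q hq).2
        rw [this]
        simp only [Finset.sum_empty]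
        positivity

/-! ### tags -/

/-- `ν`-mass of the dyadic cell of level `i` containing the slope of `b` -/
noncomputable def w2C {T : Type} [Fintype T] (ν sl : T → ℝ) (i : ℕ) (b : T) : ℝ :=
  ∑ b' with ⌊(2 : ℝ) ^ i * sl b'⌋ = ⌊(2 : ℝ) ^ i * sl b⌋, ν b'

/-- typical tag: no cell of the tag is much lighter than the average subcell of its ancestors -/
def W2Typ {T : Type} [Fintype T] (ν sl : T → ℝ) (l : ℝ) (n : ℕ) (b : T) : Prop :=
  l ≤ w2C ν sl 0 b ∧ ∀ i i' : ℕ, i ≤ i' → i' ≤ n → l * (1 / 2 : ℝ) ^ (i' - i) * w2C ν sl i b ≤ w2C ν sl i' b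

/-- the tag is Frostman `γ` (no loss) on the window of scales `[i0,i1]` -/
def W2Win {T : Type} [Fintype T] (ν sl : T → ℝ) (γ : ℝ) (i0 i1 : ℕ) (b : T) : Prop :=
  ∀ i : ℕ, i0 ≤ i → i ≤ i1 → w2C ν sl i b ≤ (1 / 2 : ℝ) ^ (γ * ((i : ℝ) - i0)) * w2C ν sl i0 b

/-- a set all of whose members lie in light fibres of `k` -/
theorem w2_light {T : Type} [Fintype T] (ν : T → ℝ) (hν0 : ∀ b, 0 ≤ ν b) (k : T → ℤ) (S : Finset T) (f : ℤ → ℝ)
    (hS : ∀ b ∈ S, ∑ b' with k b' = k b, ν b' ≤ f (k b)) : ∑ b ∈ S, ν b ≤ ∑ c ∈ S.image k, f c := by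
  classical
  rw [← Finset.sum_fiberwise_of_maps_to (s := S) (t := S.image k) (g := k) fun b hb => Finset.mem_image_of_mem k hb]
  refine Finset.sum_le_sum fun c hc => ?_
  obtain ⟨b, hb, rfl⟩ := Finset.mem_image.1 hc
  refine le_trans (Finset.sum_le_sum_of_subset_of_nonneg ?_ fun i _ _ => hν0 i) (hS b hb)
  intro x hx
  exact Finset.mem_filter.2 ⟨Finset.mem_univ _, (Finset.mem_filter.1 hx).2⟩

/-- the cell of level `i` is determined by the cell of level `i + m` -/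
theorem w2_floor_div (x : ℝ) (i m : ℕ) : ⌊(2 : ℝ) ^ i * x⌋ = ⌊(2 : ℝ) ^ (i + m) * x⌋ / ((2 ^ m : ℕ) : ℤ) := by
  rw [← Int.floor_div_natCast]
  congr 1
  push_cast
  rw [pow_add]
  field_simp

/-- (leaf W2-CELL-LIP) a cell of level `i` has at most `2^(i'-i)` subcells of level `i'`; the light ones carry `≤ l ν(cell)`. -/
theorem w2_cell_lip {T : Type} [Fintype T] (ν sl : T → ℝ) (hν0 : ∀ b, 0 ≤ ν b) (l : ℝ) (hl : 0 ≤ l) (i i' : ℕ) (hii : i ≤ i')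
    (S : Finset T) (hS : ∀ b ∈ S, w2C ν sl i' b < l * (1 / 2 : ℝ) ^ (i' - i) * w2C ν sl i b) :
    ∑ b ∈ S, ν b ≤ l * ∑ b, ν b := by
  classical
  obtain ⟨m, rfl⟩ := Nat.exists_eq_add_of_le hii
  have hm : i + m - i = m := by omega
  rw [hm] at hS
  have h1 := w2_light ν hν0 (fun b => ⌊(2 : ℝ) ^ (i + m) * sl b⌋) S
    (fun c => l * (1 / 2 : ℝ) ^ m * ∑ b' with ⌊(2 : ℝ) ^ i * sl b'⌋ = c / ((2 ^ m : ℕ) : ℤ), ν b') (by
      intro b hb
      have h2 := (hS b hb).le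
      unfold w2C at h2
      rw [w2_floor_div (sl b) i m] at h2
      exact h2)
  refine le_trans h1 ?_
  rw [← Finset.mul_sum]
  simp_rw [Finset.sum_filter]
  rw [Finset.sum_comm]
  have h3 : ∀ b : T, ∑ c ∈ S.image (fun b => ⌊(2 : ℝ) ^ (i + m) * sl b⌋),
      (if ⌊(2 : ℝ) ^ i * sl b⌋ = c / ((2 ^ m : ℕ) : ℤ) then ν b else 0) ≤ 2 ^ m * ν b := by
    intro b
    rw [← Finset.sum_filter, Finset.sum_const, nsmul_eq_mul]
    refine mul_le_mul_of_nonneg_right ?_ (hν0 b)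
    have h4 : ((S.image (fun b => ⌊(2 : ℝ) ^ (i + m) * sl b⌋)).filter
        fun c => ⌊(2 : ℝ) ^ i * sl b⌋ = c / ((2 ^ m : ℕ) : ℤ)) ⊆
        Finset.Ico (⌊(2 : ℝ) ^ i * sl b⌋ * ((2 ^ m : ℕ) : ℤ)) (⌊(2 : ℝ) ^ i * sl b⌋ * ((2 ^ m : ℕ) : ℤ) + ((2 ^ m : ℕ) : ℤ)) := by
      intro c hc
      have hc2 := (Finset.mem_filter.1 hc).2
      have hp : (0 : ℤ) < ((2 ^ m : ℕ) : ℤ) := by positivity
      rw [Finset.mem_Ico, hc2]
      constructor
      · exact Int.ediv_mul_le c hp.ne'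
      · have := Int.lt_ediv_add_one_mul_self c hp
        linarith
    have h5 := Finset.card_le_card h4
    rw [Int.card_Ico] at h5
    have h6 : (⌊(2 : ℝ) ^ i * sl b⌋ * ((2 ^ m : ℕ) : ℤ) + ((2 ^ m : ℕ) : ℤ) - ⌊(2 : ℝ) ^ i * sl b⌋ * ((2 ^ m : ℕ) : ℤ)).toNat = 2 ^ m := by
      rw [add_sub_cancel_left, Int.toNat_natCast]
    rw [h6] at h5
    exact_mod_cast h5
  have h7 : ∑ b : T, ∑ c ∈ S.image (fun b => ⌊(2 : ℝ) ^ (i + m) * sl b⌋),
      (if ⌊(2 : ℝ) ^ i * sl b⌋ = c / ((2 ^ m : ℕ) : ℤ) then ν b else 0) ≤ 2 ^ m * ∑ b, ν b := by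
    rw [Finset.mul_sum]
    exact Finset.sum_le_sum fun b _ => h3 b
  have h8 : l * (1 / 2 : ℝ) ^ m * (2 ^ m * ∑ b, ν b) = l * ∑ b, ν b := by
    rw [one_div, inv_pow]
    field_simp
  rw [← h8]
  exact mul_le_mul_of_nonneg_left h7 (by positivity)

/-- (leaf W2-CELL-TOP) at most `2A+2` cells of level `0` -/
theorem w2_cell_top {T : Type} [Fintype T] (ν sl : T → ℝ) (hν0 : ∀ b, 0 ≤ ν b) (A : ℝ) (hA : 1 ≤ A) (hsl : ∀ b, |sl b| ≤ A)
    (l : ℝ) (hl : 0 ≤ l) (S : Finset T) (hS : ∀ b ∈ S, w2C ν sl 0 b < l) :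
    ∑ b ∈ S, ν b ≤ (2 * A + 2) * l := by
  classical
  have h1 := w2_light ν hν0 (fun b => ⌊(2 : ℝ) ^ 0 * sl b⌋) S (fun _ => l) (fun b hb => (hS b hb).le)
  refine le_trans h1 ?_
  rw [Finset.sum_const, nsmul_eq_mul]
  refine mul_le_mul_of_nonneg_right ?_ hl
  have h4 : S.image (fun b => ⌊(2 : ℝ) ^ 0 * sl b⌋) ⊆ Finset.Icc ⌊-A⌋ ⌊A⌋ := by
    intro c hc
    obtain ⟨b, -, rfl⟩ := Finset.mem_image.1 hc
    have h5 := abs_le.1 (hsl b)
    rw [Finset.mem_Icc, pow_zero, one_mul]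
    exact ⟨Int.floor_le_floor h5.1, Int.floor_le_floor h5.2⟩
  have h5 := Finset.card_le_card h4
  rw [Int.card_Icc] at h5
  have h6 : ((⌊A⌋ + 1 - ⌊-A⌋).toNat : ℝ) ≤ 2 * A + 2 := by
    have h7 : (0 : ℤ) ≤ ⌊A⌋ + 1 - ⌊-A⌋ := by
      have : ⌊-A⌋ ≤ ⌊A⌋ := Int.floor_le_floor (by linarith)
      linarith
    have h8 : ((⌊A⌋ + 1 - ⌊-A⌋).toNat : ℝ) = ((⌊A⌋ + 1 - ⌊-A⌋ : ℤ) : ℝ) := by
      have := Int.toNat_of_nonneg h7
      exact_mod_cast this
    rw [h8]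
    push_cast
    have h9 := Int.floor_le A
    have h10 := Int.lt_floor_add_one (-A)
    linarith
  refine le_trans ?_ h6
  exact_mod_cast h5

/-- **most tags are typical** (leaf W2-TAG-MOST) -/
theorem w2_tag_most {T : Type} [Fintype T] (ν sl : T → ℝ) (hν0 : ∀ b, 0 ≤ ν b) (hν1 : ∑ b, ν b ≤ 1) (A : ℝ) (hA : 1 ≤ A)
    (hsl : ∀ b, |sl b| ≤ A) (l : ℝ) (hl : 0 ≤ l) (n : ℕ) (S : Finset T) (hS : ∀ b ∈ S, ¬ W2Typ ν sl l n b) :
    ∑ b ∈ S, ν b ≤ (((n : ℝ) + 1) ^ 2 + 2 * A + 2) * l := by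
  classical
  have h1 : ∀ b ∈ S, ν b ≤ (if w2C ν sl 0 b < l then ν b else 0) +
      ∑ q ∈ range (n + 1) ×ˢ range (n + 1),
        (if q.1 ≤ q.2 ∧ w2C ν sl q.2 b < l * (1 / 2 : ℝ) ^ (q.2 - q.1) * w2C ν sl q.1 b then ν b else 0) := by
    intro b hb
    have h2 : 0 ≤ ∑ q ∈ range (n + 1) ×ˢ range (n + 1),
        (if q.1 ≤ q.2 ∧ w2C ν sl q.2 b < l * (1 / 2 : ℝ) ^ (q.2 - q.1) * w2C ν sl q.1 b then ν b else 0) :=
      Finset.sum_nonneg fun q _ => by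
        split_ifs
        · exact hν0 b
        · exact le_rfl
    by_cases h0 : w2C ν sl 0 b < l
    · rw [if_pos h0]
      linarith
    · rw [if_neg h0, zero_add]
      have h3 := hS b hb
      unfold W2Typ at h3
      push Not at h3 h0
      obtain ⟨i, i', hii, hin, h4⟩ := h3 h0
      have h5 := Finset.single_le_sum (s := range (n + 1) ×ˢ range (n + 1))
        (f := fun q : ℕ × ℕ =>
          (if q.1 ≤ q.2 ∧ w2C ν sl q.2 b < l * (1 / 2 : ℝ) ^ (q.2 - q.1) * w2C ν sl q.1 b then ν b else 0))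
        (fun q _ => by
          split_ifs
          · exact hν0 b
          · exact le_rfl) (a := (i, i'))
        (Finset.mem_product.2 ⟨Finset.mem_range.2 (by simp only; omega), Finset.mem_range.2 (by simp only; omega)⟩)
      beta_reduce at h5
      rw [if_pos ⟨hii, h4⟩] at h5
      exact h5
  refine le_trans (Finset.sum_le_sum h1) ?_
  rw [Finset.sum_add_distrib, Finset.sum_comm, ← Finset.sum_filter]
  have h2 : ∑ b ∈ S with w2C ν sl 0 b < l, ν b ≤ (2 * A + 2) * l :=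
    w2_cell_top ν sl hν0 A hA hsl l hl _ fun b hb => (Finset.mem_filter.1 hb).2
  have h3 : ∀ q ∈ range (n + 1) ×ˢ range (n + 1), ∑ b ∈ S,
      (if q.1 ≤ q.2 ∧ w2C ν sl q.2 b < l * (1 / 2 : ℝ) ^ (q.2 - q.1) * w2C ν sl q.1 b then ν b else 0) ≤ l := by
    intro q _
    rw [← Finset.sum_filter]
    by_cases hq : q.1 ≤ q.2
    · have h4 := w2_cell_lip ν sl hν0 l hl q.1 q.2 hq
        (S.filter fun b => q.1 ≤ q.2 ∧ w2C ν sl q.2 b < l * (1 / 2 : ℝ) ^ (q.2 - q.1) * w2C ν sl q.1 b)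
        fun b hb => (Finset.mem_filter.1 hb).2.2
      refine le_trans h4 ?_
      exact mul_le_of_le_one_right hl hν1
    · rw [Finset.filter_false_of_mem fun b _ h => hq h.1, Finset.sum_empty]
      exact hl
  have h4 := Finset.sum_le_sum h3
  rw [Finset.sum_const, nsmul_eq_mul, Finset.card_product, Finset.card_range] at h4
  push_cast at h4
  nlinarith

/-- **WINDOW LEMMA** (leaf W2-WINDOW; pure).  `t = (u+γ)/2`, `2^-J ≤ (u-t)/2`, `n' = 2^J ⌊n/2^J⌋`, `N_j = n'/2^j`.  If all `f(N_j)-f(N_(j+1)) < t (N_j-N_(j+1))`, `j < J`, then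
`u n' - E ≤ f(n') < t(n'-N_J) + f(N_J) ≤ t n' + (1-t) N_J + 2E`: false.  On a window `[N_(j+1),N_j]` of average slope `≥ t` let `i0` = LAST minimiser of `f(i)-γ i`, `i1 = N_j = 2N_(j+1) ≤ 2 i0`;
`(t-γ) N_(j+1) ≤ g(i1)-g(i0) ≤ (1-γ)(i1-i0)+E`. -/
theorem w2_window (u γ : ℝ) (hγ : 0 < γ) (hγu : γ < u) (hu1 : u ≤ 1) :
    ∃ c : ℝ, 0 < c ∧ ∃ n₀ : ℕ, ∀ (n : ℕ) (f : ℕ → ℝ) (E : ℝ), n₀ ≤ n → 0 ≤ E → E ≤ c * n →
      (∀ i, i ≤ n → u * i - E ≤ f i) → (∀ i i', i ≤ i' → i' ≤ n → f i' - f i ≤ ((i' : ℝ) - i) + E) → f 0 ≤ E →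
      ∃ i0 i1 : ℕ, i0 ≤ i1 ∧ i1 ≤ n ∧ i1 ≤ 2 * i0 ∧ c * n ≤ (i1 : ℝ) - i0 ∧
        ∀ i, i0 ≤ i → i ≤ i1 → γ * ((i : ℝ) - i0) ≤ f i - f i0 := by
  obtain ⟨δ, hδ⟩ : ∃ δ : ℝ, δ = (u - γ) / 2 := ⟨_, rfl⟩
  have hδ0 : 0 < δ := by rw [hδ]; linarith
  obtain ⟨t, ht⟩ : ∃ t : ℝ, t = (u + γ) / 2 := ⟨_, rfl⟩
  have ht0 : 0 ≤ t := by rw [ht]; linarith
  obtain ⟨J, hJ⟩ := exists_pow_lt_of_lt_one (show 0 < δ / 2 by positivity)
    (show (1 / 2 : ℝ) < 1 by norm_num)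
  refine ⟨δ / 2 ^ (J + 4), by positivity, 2 ^ (J + 1), ?_⟩
  intro n f E hn hE0 hE hlow hlip hf0
  obtain ⟨q, hq⟩ : ∃ q : ℕ, q = n / 2 ^ J := ⟨_, rfl⟩
  have hq1 : 2 ^ J * q ≤ n := by rw [hq]; exact Nat.mul_div_le n (2 ^ J)
  have hq2 : n < 2 ^ J * (q + 1) := by rw [hq]; exact Nat.lt_mul_div_succ n (by positivity)
  obtain ⟨P, hPdef⟩ : ∃ P : ℝ, P = 2 ^ J := ⟨_, rfl⟩
  obtain ⟨Q, hQdef⟩ : ∃ Q : ℝ, Q = (q : ℝ) := ⟨_, rfl⟩
  have hP1 : 1 ≤ P := by rw [hPdef]; exact one_le_pow₀ (by norm_num)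
  have hP0 : 0 < P := by linarith
  have hQ0 : 0 ≤ Q := by rw [hQdef]; positivity
  have hq1r : P * Q ≤ n := by rw [hPdef, hQdef]; exact_mod_cast hq1
  have hq2r : (n : ℝ) < P * (Q + 1) := by rw [hPdef, hQdef]; exact_mod_cast hq2
  have hnr : P * 2 ≤ n := by
    rw [hPdef, ← pow_succ]
    exact_mod_cast hn
  have hn0 : (0 : ℝ) < n := by linarith
  have hqn : (n : ℝ) / 2 < P * Q := by linarith
  have hJ' : 1 < δ / 2 * P := by
    have h1 : (1 / 2 : ℝ) ^ J * P = 1 := by rw [hPdef, ← mul_pow]; norm_num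
    calc (1 : ℝ) = (1 / 2 : ℝ) ^ J * P := h1.symm
      _ < δ / 2 * P := mul_lt_mul_of_pos_right hJ hP0
  obtain ⟨K, hK⟩ : ∃ K : ℝ, K = δ * n / P := ⟨_, rfl⟩
  have hK0 : 0 < K := by rw [hK]; positivity
  have hcn : δ / 2 ^ (J + 4) * n = K / 16 := by
    rw [hK, pow_add, ← hPdef]
    field_simp
    norm_num
  rw [hcn] at hE ⊢
  have hKle : K ≤ δ * n := by
    rw [hK]
    exact div_le_self (by positivity) hP1
  have hKQ : K / 2 < δ * Q := by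
    have h1 : K / 2 = δ * ((n : ℝ) / 2) / P := by rw [hK]; ring
    rw [h1, div_lt_iff₀ hP0]
    have h2 := mul_lt_mul_of_pos_left hqn hδ0
    linarith
  have hcast : ∀ j : ℕ, ((2 ^ j * q : ℕ) : ℝ) = 2 ^ j * Q := fun j => by
    rw [hQdef]
    push_cast
    rfl
  -- a good dyadic window
  have hex : ∃ j, j < J ∧ t * (2 ^ j * Q) ≤ f (2 ^ (j + 1) * q) - f (2 ^ j * q) := by
    by_contra hcon
    push Not at hcon
    have hind : ∀ j, j ≤ J → f (2 ^ j * q) - f q ≤ t * ((2 ^ j - 1) * Q) := by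
      intro j
      induction j with
      | zero => intro _; simp
      | succ j ih =>
        intro hj
        have h1 := ih (by omega)
        have h2 := hcon j (by omega)
        have h3 : t * ((2 ^ (j + 1) - 1) * Q) = t * ((2 ^ j - 1) * Q) + t * (2 ^ j * Q) := by
          rw [pow_succ]; ring
        rw [h3]
        linarith
    have h1 := hind J le_rfl
    rw [← hPdef] at h1
    have h2 := hlow (2 ^ J * q) hq1
    rw [hcast, ← hPdef] at h2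
    have hqn' : q ≤ n := le_trans (Nat.le_mul_of_pos_left q (by positivity)) hq1
    have h3 := hlip 0 q (Nat.zero_le _) hqn'
    rw [← hQdef] at h3
    simp only [Nat.cast_zero, sub_zero] at h3
    -- `δ P Q ≤ Q + 3 E`
    have h4 : δ * (P * Q) ≤ Q + 3 * E := by
      have h5 : u * (P * Q) - t * ((P - 1) * Q) = δ * (P * Q) + t * Q := by
        rw [hδ, ht]; ring
      have h6 : 0 ≤ t * Q := mul_nonneg ht0 hQ0
      linarith
    have h8 : 1 * Q ≤ δ / 2 * P * Q := mul_le_mul_of_nonneg_right hJ'.le hQ0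
    have h9 : δ * ((n : ℝ) / 2) < δ * (P * Q) := mul_lt_mul_of_pos_left hqn hδ0
    have h10 : 0 < δ * n := by positivity
    linarith
  obtain ⟨j, hjJ, hj⟩ := hex
  obtain ⟨a, ha⟩ : ∃ a : ℕ, a = 2 ^ j * q := ⟨_, rfl⟩
  obtain ⟨b, hb⟩ : ∃ b : ℕ, b = 2 ^ (j + 1) * q := ⟨_, rfl⟩
  have hb2 : b = 2 * a := by rw [hb, ha, pow_succ]; ring
  have hbn : b ≤ n := by
    refine le_trans ?_ hq1
    rw [hb]
    exact Nat.mul_le_mul_right q (Nat.pow_le_pow_right (by norm_num) hjJ)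
  obtain ⟨A, hA⟩ : ∃ A : ℝ, A = (a : ℝ) := ⟨_, rfl⟩
  have hAQ : Q ≤ A := by
    rw [hA, ha, hcast]
    have : (1 : ℝ) ≤ 2 ^ j := one_le_pow₀ (by norm_num)
    exact le_mul_of_one_le_left hQ0 this
  have hbA : (b : ℝ) = 2 * A := by rw [hb2, hA]; push_cast; rfl
  rw [← hb, ← ha, ← hcast, ← ha, ← hA] at hj
  obtain ⟨i0, hi0mem, hi0min⟩ := Finset.exists_min_image (Finset.Icc a b)
    (fun i : ℕ => f i - γ * i) ⟨a, Finset.mem_Icc.2 ⟨le_rfl, by omega⟩⟩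
  rw [Finset.mem_Icc] at hi0mem
  refine ⟨i0, b, hi0mem.2, hbn, by omega, ?_, ?_⟩
  · have h1 := hi0min a (Finset.mem_Icc.2 ⟨le_rfl, by omega⟩)
    rw [← hA] at h1
    have h2 := hlip i0 b hi0mem.2 hbn
    have h3 : (i0 : ℝ) ≤ b := by exact_mod_cast hi0mem.2
    rw [hbA] at h2 h3 ⊢
    have h4 : 0 ≤ γ * (2 * A - i0) := mul_nonneg hγ.le (by linarith)
    have h5 : t * A = δ * A + γ * A := by rw [hδ, ht]; ring
    have h6 : δ * Q ≤ δ * A := mul_le_mul_of_nonneg_left hAQ hδ0.le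
    linarith
  · intro i hi1 hi2
    have h1 := hi0min i (Finset.mem_Icc.2 ⟨by omega, hi2⟩)
    rw [mul_sub]
    linarith

/-- **a typical tag has a window** (leaf W2-TAG-WINDOW): `f i = - logb 2 (w2C i b)`, `E = logb 2 (Cν / l)`; the cell of level `i` lies in the ball of radius `(1/2)^i` about `sl b`. -/
theorem w2_tag_window (u γ : ℝ) (hγ : 0 < γ) (hγu : γ < u) (hu1 : u ≤ 1) :
    ∃ c : ℝ, 0 < c ∧ ∃ n₀ : ℕ, ∀ (T : Type) [Fintype T] (ν sl : T → ℝ) (Cν ρ l : ℝ) (n : ℕ) (b : T),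
      (∀ b, 0 ≤ ν b) → ∑ b, ν b ≤ 1 → 1 ≤ Cν → 0 < l → l ≤ 1 → 0 < ρ → ρ ≤ (1 / 2 : ℝ) ^ n → n₀ ≤ n →
      Real.logb 2 (Cν / l) ≤ c * n → KfFrost ν sl Cν u ρ → W2Typ ν sl l n b →
      ∃ i0 i1 : ℕ, i0 ≤ i1 ∧ i1 ≤ n ∧ i1 ≤ 2 * i0 ∧ c * n ≤ (i1 : ℝ) - i0 ∧ W2Win ν sl γ i0 i1 b := by
  obtain ⟨c, hc, n₀, hW⟩ := w2_window u γ hγ hγu hu1
  refine ⟨c, hc, n₀, ?_⟩
  intro T _ ν sl Cν ρ l n b hν0 hν1 hCν hl0 hl1 hρ hρn hn hE hF hT
  have h2 : (1:ℝ) < 2 := by norm_num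
  have hC0 : 0 < Cν := by linarith
  have hlC : 0 ≤ Real.logb 2 Cν := Real.logb_nonneg h2 hCν
  have hll : Real.logb 2 l ≤ 0 := Real.logb_nonpos h2 hl0.le hl1
  have hEe : Real.logb 2 (Cν / l) = Real.logb 2 Cν - Real.logb 2 l := Real.logb_div hC0.ne' hl0.ne'
  have hpos0 : 0 < w2C ν sl 0 b := lt_of_lt_of_le hl0 hT.1
  have hpos : ∀ i, i ≤ n → 0 < w2C ν sl i b := by
    intro i hi
    refine lt_of_lt_of_le ?_ (hT.2 0 i (Nat.zero_le _) hi)
    positivity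
  have hhalf : ∀ x : ℝ, Real.logb 2 ((1 / 2 : ℝ) ^ x) = -x := by
    intro x
    rw [Real.logb_rpow_eq_mul_logb_of_pos (by norm_num), one_div, Real.logb_inv, Real.logb_self_eq_one h2]
    ring
  have c1 : ∀ i, i ≤ n → u * i - Real.logb 2 (Cν / l) ≤ - Real.logb 2 (w2C ν sl i b) := by
    intro i hi
    have hp := hpos i hi
    have h3 : w2C ν sl i b ≤ Cν * ((1 / 2 : ℝ) ^ i) ^ u := by
      refine le_trans (Finset.sum_le_sum_of_subset_of_nonneg ?_ fun j _ _ => hν0 j)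
        (hF (sl b) ((1 / 2 : ℝ) ^ i) (hρn.trans (pow_le_pow_of_le_one (by norm_num) (by norm_num) hi))
          (pow_le_one₀ (by norm_num) (by norm_num)))
      intro b' hb'
      have h4 := (Finset.mem_filter.1 hb').2
      refine Finset.mem_filter.2 ⟨Finset.mem_univ _, ?_⟩
      have h5 := Int.abs_sub_lt_one_of_floor_eq_floor h4
      rw [← mul_sub, abs_mul, abs_of_pos (by positivity : (0:ℝ) < 2 ^ i)] at h5
      rw [Real.dist_eq, one_div, inv_pow, ← one_div, le_div_iff₀ (by positivity)]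
      linarith
    have hq : (0:ℝ) < ((1 / 2 : ℝ) ^ i) ^ u := by positivity
    have h4 := (Real.logb_le_logb h2 hp (mul_pos hC0 hq)).2 h3
    rw [Real.logb_mul hC0.ne' hq.ne', ← Real.rpow_natCast, ← Real.rpow_mul (by norm_num), hhalf] at h4
    rw [hEe]
    nlinarith
  have c2 : ∀ i i', i ≤ i' → i' ≤ n →
      - Real.logb 2 (w2C ν sl i' b) - - Real.logb 2 (w2C ν sl i b) ≤ ((i' : ℝ) - i) + Real.logb 2 (Cν / l) := by
    intro i i' hii hi'
    have hp := hpos i (hii.trans hi')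
    have hp' := hpos i' hi'
    have h3 := hT.2 i i' hii hi'
    have hq : (0:ℝ) < (1 / 2 : ℝ) ^ (i' - i) := by positivity
    have h4 := (Real.logb_le_logb h2 (by positivity) hp').2 h3
    rw [Real.logb_mul (by positivity) hp.ne', Real.logb_mul hl0.ne' hq.ne', ← Real.rpow_natCast, hhalf,
      Nat.cast_sub hii] at h4
    rw [hEe]
    linarith
  have c3 : - Real.logb 2 (w2C ν sl 0 b) ≤ Real.logb 2 (Cν / l) := by
    have h4 := (Real.logb_le_logb h2 hl0 hpos0).2 hT.1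
    rw [hEe]
    linarith
  obtain ⟨i0, i1, h01, h1n, h12, hcn, hwin⟩ := hW n (fun i => - Real.logb 2 (w2C ν sl i b)) (Real.logb 2 (Cν / l)) hn
    (by rw [hEe]; linarith) hE c1 c2 c3
  refine ⟨i0, i1, h01, h1n, h12, hcn, ?_⟩
  intro i hi0 hi1
  have h3 := hwin i hi0 hi1
  beta_reduce at h3
  have hp := hpos i (hi1.trans h1n)
  have hp0 := hpos i0 (h01.trans h1n)
  have hq : (0:ℝ) < (1 / 2 : ℝ) ^ (γ * ((i : ℝ) - i0)) := Real.rpow_pos_of_pos (by norm_num) _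
  rw [← Real.logb_le_logb h2 hp (mul_pos hq hp0), Real.logb_mul hq.ne' hp0.ne', hhalf]
  linarith

/-- **pigeonhole with weights** (leaf W2-PIGEON) -/
theorem w2_pigeon {ι : Type} (I : Finset ι) (a b : ι → ℝ) (ha : ∀ i ∈ I, 0 ≤ a i) (hb : ∀ i ∈ I, 0 ≤ b i) (q : ℝ) (hq : 0 ≤ q)
    (hpos : 0 < ∑ i ∈ I, a i) (h : q * ∑ i ∈ I, b i ≤ ∑ i ∈ I, a i) :
    ∃ i ∈ I, 0 < a i ∧ q * b i ≤ a i := by
  by_contra hcon
  push Not at hcon
  obtain ⟨i, hi, hai⟩ := Finset.exists_lt_of_sum_lt (s := I) (f := fun _ => (0:ℝ)) (g := a) (by simpa using hpos)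
  have h1 : ∑ i ∈ I, a i < ∑ i ∈ I, q * b i := by
    refine Finset.sum_lt_sum (fun j hj => ?_) ⟨i, hi, hcon i hi hai⟩
    rcases (ha j hj).lt_or_eq with h2 | h2
    · exact (hcon j hj h2).le
    · rw [← h2]
      exact mul_nonneg hq (hb j hj)
  rw [← Finset.mul_sum] at h1
  linarith

end Claimed.Agent.RW
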