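import Claimed.Agent.RW.W2Tag

/-!
# Team RW.  Unit W2, file 3/4: selection of the slope cell and of the tube, the rescaled configuration, application of `ex_W1`.      Architect: helper236.
(Overall proof: header of `W2Base.lean`, items 3 and 4.)      Notation: `w = (1/2)^i0`, `r = (1/2)^i1`, `δ = (1/2)^(i1-i0) = r/w`, `θ0 = l w`, `t0 = k w`.

* `w2_cfg_tags` (leaf W2-CFG-TAGS).  Ball of radius `ϱ ∈ [δ,1]` in the rescaled slope line: `m` = largest with `(1/2)^m ≥ ϱ` (`m ≤ i1-i0`); the ball meets `≤ 3` dyadic cells of level `i0+m`;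
  a cell containing a tag `b* ∈ Tt` has mass `w2C (i0+m) b* ≤ (1/2)^(γ m) N ≤ (2ϱ)^γ N`.
* `w2_cfg_lam` (leaf W2-CFG-LAM).  If the set is nonempty fix `x*` in it and `p0 ∈ P`, `dist x* p0 ≤ 2w`, with its slope `a`.  For `x` in the set: `|π_θ0 x - π_θ0 p0| ≤ (6A+6) w`, `|Δ₁| ≤ 4R`,
  `dist x p0 ≤ (10A+6) R =: C3 R`, `|π_a x - π_a p0| ≤ (6A+10) w =: C4 w ≤ C3 R`.  If `C3 R ≤ 1/2`: thin at `(C3 R, C4 w)` and `kf_frost_ext`: `≤ Θ (C4 w/(C3 R))^u Cμ (2 C3 R)^s`;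
  otherwise the global clause: `≤ Θ (C4 w)^u ≤ Θ (C4 w)^u (2 C3 R)^(s-u)`.
* `w2_cfg_U` (leaf W2-CFG-U).  `S` = the points of `P` in the parallelogram.  Cells of side `w`; for a cell `Q` meeting `S` fix `p_Q ∈ S ∩ Q` with its slope `a`:
  `S ∩ Q ⊆ B(p_Q,w) ∩ {|π_a x - π_a p_Q| ≤ 2r + w·w ≤ 3r}`, mass `≤ Θ (3r/w)^u μ(B(p_Q,2w))` (if `3r > w` trivially `≤ 3^u (r/w)^u μ(B(p_Q,2w))`);
  `B(p_Q,2w) ⊆ T2 ∩ {|x₁-z₁| ≤ δ+2w ≤ 3δ} ∩ (6×6 block of Q)`: overlap `≤ 36`.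
* `w2_select` (leaf W2-SELECT).  `w2_pigeon` twice: over `l` (`a_l` = mass of `G2` over the cell `l`, `b_l = ν(cell l)`, `∑ b_l ≤ 1`), then over `k` (`b_k = N μ(P_k)`, every point lies in `≤ 4A+5` sets `P_k`).
* `w2_core` (leaf W2-CORE): assembly (list of verifications in the docstring).
-/

set_option autoImplicit false

namespace Claimed.Agent.RW

open Finset
open scoped Classical

/-- the statement of `ex_W1` at ONE scale `δ` -/
def ExW1At (β γ σ A χ δ : ℝ) : Prop :=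
  ∀ (X T J : Type) [Fintype X] [Fintype T] [Fintype J] (μ : X → ℝ) (ν : T → ℝ) (pt : X → ℝ × ℝ) (sl : T → ℝ)
    (G : Finset (X × T)) (M : ℕ) (lam xr : J → ℝ),
    ExTest δ χ A γ μ ν pt sl G M →
    (∀ j, 0 ≤ lam j) → KfFrost lam xr (δ ^ (-χ)) β δ →
    (∀ z : ℝ × ℝ, ∑ x with dist (pt x) z ≤ δ, μ x ≤ δ ^ (σ - χ) * ∑ j with dist (xr j) z.1 ≤ A * δ, lam j) →
    δ ^ (-σ - χ) ≤ (M : ℝ)

theorem w2_geo_lam {A w R θ0 a t0 c x1 x2 p1 p2 y1 q1 q2 : ℝ} (hA : 1 ≤ A) (hw0 : 0 < w) (hwR : w ≤ R) (hR1 : R ≤ 1)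
    (hθ0 : |θ0| ≤ A) (haθ : |a - θ0| ≤ w) (d1 : |x1 - p1| ≤ 2 * w) (d2 : |x2 - p2| ≤ 2 * w) (e1 : |y1 - q1| ≤ 2 * w)
    (hx : |x1 - c| ≤ R) (hy : |y1 - c| ≤ R) (hp : |(p2 - θ0 * p1) - t0| ≤ (2 * A + 2) * w)
    (hq : |(q2 - θ0 * q1) - t0| ≤ (2 * A + 2) * w) :
    |x1 - q1| ≤ (10 * A + 6) * R ∧ |x2 - q2| ≤ (10 * A + 6) * R ∧ |(x2 - a * x1) - (q2 - a * q1)| ≤ (6 * A + 10) * w := by
  have D1 : |x1 - q1| ≤ 4 * R := by
    have h1 := abs_le.1 hx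
    have h2 := abs_le.1 hy
    have h3 := abs_le.1 e1
    rw [abs_le]
    constructor <;> linarith [h1.1, h1.2, h2.1, h2.2, h3.1, h3.2]
  have q1' : |θ0 * (x1 - p1)| ≤ A * (2 * w) := by
    rw [abs_mul]
    exact mul_le_mul hθ0 d1 (abs_nonneg _) (by linarith)
  have Q : |(x2 - θ0 * x1) - (q2 - θ0 * q1)| ≤ (6 * A + 6) * w := by
    have e : (x2 - θ0 * x1) - (q2 - θ0 * q1)
        = (x2 - p2) - θ0 * (x1 - p1) + ((p2 - θ0 * p1) - t0) - ((q2 - θ0 * q1) - t0) := by ring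
    rw [e]
    have h1 := abs_le.1 d2
    have h2 := abs_le.1 q1'
    have h3 := abs_le.1 hp
    have h4 := abs_le.1 hq
    rw [abs_le]
    constructor <;> linarith [h1.1, h1.2, h2.1, h2.2, h3.1, h3.2, h4.1, h4.2]
  have q2' : |θ0 * (x1 - q1)| ≤ A * (4 * R) := by
    rw [abs_mul]
    exact mul_le_mul hθ0 D1 (abs_nonneg _) (by linarith)
  have q3 : |(a - θ0) * (x1 - q1)| ≤ w * (4 * R) := by
    rw [abs_mul]
    exact mul_le_mul haθ D1 (abs_nonneg _) hw0.le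
  have hR0 : 0 < R := lt_of_lt_of_le hw0 hwR
  have m1 : (6 * A + 6) * w ≤ (6 * A + 6) * R := mul_le_mul_of_nonneg_left hwR (by linarith)
  have m2 : w * (4 * R) ≤ 4 * w := by nlinarith
  have m3 : 0 ≤ A * R := by positivity
  refine ⟨?_, ?_, ?_⟩
  · refine le_trans D1 ?_
    nlinarith
  · have e : x2 - q2 = ((x2 - θ0 * x1) - (q2 - θ0 * q1)) + θ0 * (x1 - q1) := by ring
    rw [e]
    have h1 := abs_le.1 Q
    have h2 := abs_le.1 q2'
    rw [abs_le]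
    constructor <;> linarith [h1.1, h1.2, h2.1, h2.2]
  · have e : (x2 - a * x1) - (q2 - a * q1) = ((x2 - θ0 * x1) - (q2 - θ0 * q1)) - (a - θ0) * (x1 - q1) := by ring
    rw [e]
    have h1 := abs_le.1 Q
    have h2 := abs_le.1 q3
    rw [abs_le]
    constructor <;> linarith [h1.1, h1.2, h2.1, h2.2]

theorem w2_floor_close {a b : ℝ} (h : |a - b| ≤ 2) : |⌊a⌋ - ⌊b⌋| ≤ 2 := by
  have h' := abs_le.1 h
  have a1 := Int.floor_le a
  have a2 := Int.lt_floor_add_one a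
  have b1 := Int.floor_le b
  have b2 := Int.lt_floor_add_one b
  rw [abs_le]
  constructor
  · have : ((⌊b⌋ : ℤ) : ℝ) < ((⌊a⌋ + 3 : ℤ) : ℝ) := by push_cast; linarith [h'.1]
    have := Int.cast_lt.1 this
    omega
  · have : ((⌊a⌋ : ℤ) : ℝ) < ((⌊b⌋ + 3 : ℤ) : ℝ) := by push_cast; linarith [h'.2]
    have := Int.cast_lt.1 this
    omega

theorem w2_floor_same {a b : ℝ} (h : ⌊a⌋ = ⌊b⌋) : |a - b| ≤ 1 := by
  have a1 := Int.floor_le a
  have a2 := Int.lt_floor_add_one a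
  have b1 := Int.floor_le b
  have b2 := Int.lt_floor_add_one b
  rw [h] at a1 a2
  rw [abs_le]
  constructor <;> linarith

theorem w2_block_card (c : ℤ × ℤ) (S : Finset (ℤ × ℤ)) (hS : ∀ Q ∈ S, |c.1 - Q.1| ≤ 2 ∧ |c.2 - Q.2| ≤ 2) :
    S.card ≤ 25 := by
  have : S ⊆ Finset.Icc (c.1 - 2) (c.1 + 2) ×ˢ Finset.Icc (c.2 - 2) (c.2 + 2) := by
    intro Q hQ
    obtain ⟨h1, h2⟩ := hS Q hQ
    rw [abs_le] at h1 h2
    rw [Finset.mem_product, Finset.mem_Icc, Finset.mem_Icc]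
    refine ⟨⟨?_, ?_⟩, ?_, ?_⟩ <;> omega
  refine le_trans (Finset.card_le_card this) ?_
  rw [Finset.card_product, Int.card_Icc, Int.card_Icc]
  have e1 : (c.1 + 2 + 1 - (c.1 - 2)).toNat = 5 := by
    have : c.1 + 2 + 1 - (c.1 - 2) = 5 := by ring
    rw [this]; rfl
  have e2 : (c.2 + 2 + 1 - (c.2 - 2)).toNat = 5 := by
    have : c.2 + 2 + 1 - (c.2 - 2) = 5 := by ring
    rw [this]; rfl
  rw [e1, e2]

section

variable {X T : Type} [Fintype X] [Fintype T]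

/-- tags whose slope lies in the dyadic cell `l` of level `i0` -/
noncomputable def w2Tl (sl : T → ℝ) (i0 : ℕ) (l : ℤ) : Finset T := univ.filter fun b => ⌊(2 : ℝ) ^ i0 * sl b⌋ = l

/-- the points of the rescaled configuration: neighbours (in `G1`) of a tag of the cell, in the enlarged tube `k` -/
noncomputable def w2P (pt : X → ℝ × ℝ) (sl : T → ℝ) (A : ℝ) (i0 : ℕ) (l k : ℤ) (G1 : Finset (X × T)) : Finset X :=
  univ.filter fun p => (∃ b ∈ w2Tl sl i0 l, (p, b) ∈ G1) ∧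
    |kfProj (l * (1 / 2 : ℝ) ^ i0) (pt p) - k * (1 / 2 : ℝ) ^ i0| ≤ (2 * A + 2) * (1 / 2 : ℝ) ^ i0

/-- the part of the graph over the cell `l` and the tube `k` -/
noncomputable def w2Gs (pt : X → ℝ × ℝ) (sl : T → ℝ) (i0 : ℕ) (l k : ℤ) (G2 : Finset (X × T)) : Finset (X × T) :=
  G2.filter fun q => q.2 ∈ w2Tl sl i0 l ∧ ⌊(2 : ℝ) ^ i0 * kfProj (l * (1 / 2 : ℝ) ^ i0) (pt q.1)⌋ = k

/-- **rescaled tags are Frostman `γ`** -/
theorem w2_cfg_tags (ν sl : T → ℝ) (hν0 : ∀ b, 0 ≤ ν b) (γ : ℝ) (hγ0 : 0 < γ) (hγ1 : γ ≤ 1) (i0 i1 : ℕ) (h01 : i0 ≤ i1)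
    (l : ℤ) (Tt : Finset T) (hcell : Tt ⊆ w2Tl sl i0 l) (hwin : ∀ b ∈ Tt, W2Win ν sl γ i0 i1 b)
    (hN : 0 < ∑ b ∈ w2Tl sl i0 l, ν b) :
    KfFrost (fun b => if b ∈ Tt then ν b / ∑ b ∈ w2Tl sl i0 l, ν b else 0)
      (fun b => if b ∈ Tt then (2 : ℝ) ^ i0 * sl b - l else 0) 6 γ ((1 / 2 : ℝ) ^ (i1 - i0)) := by
  intro z r hr0 hr1
  generalize hNdef : ∑ b ∈ w2Tl sl i0 l, ν b = N at hN ⊢
  have hδpos : 0 < (1 / 2 : ℝ) ^ (i1 - i0) := by positivity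
  have hrpos : 0 < r := lt_of_lt_of_le hδpos hr0
  obtain ⟨mm, hmm1, hmm2, hmm3⟩ : ∃ mm : ℕ, mm ≤ i1 - i0 ∧ r ≤ (1 / 2 : ℝ) ^ mm ∧ (1 / 2 : ℝ) ^ mm ≤ 2 * r := by
    obtain ⟨n, hn1, hn2⟩ := exists_nat_pow_near_of_lt_one hrpos hr1 (by norm_num : (0 : ℝ) < 1 / 2) (by norm_num)
    refine ⟨n, ?_, hn2, ?_⟩
    · by_contra hcon
      push Not at hcon
      have h5 : (1 / 2 : ℝ) ^ n ≤ (1 / 2 : ℝ) ^ (i1 - i0 + 1) :=
        pow_le_pow_of_le_one (by norm_num) (by norm_num) hcon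
      rw [pow_succ] at h5
      linarith
    · rw [pow_succ] at hn1; linarith
  obtain ⟨S, hS⟩ : ∃ S : Finset T, S = Tt.filter (fun b => dist ((2 : ℝ) ^ i0 * sl b - l) z ≤ r) := ⟨_, rfl⟩
  have hLHS : ∑ b with dist (if b ∈ Tt then (2 : ℝ) ^ i0 * sl b - l else 0) z ≤ r, (if b ∈ Tt then ν b / N else 0) =
      (∑ b ∈ S, ν b) / N := by
    rw [sum_div, hS, sum_filter, sum_filter]
    symm
    calc ∑ b ∈ Tt, (if dist ((2 : ℝ) ^ i0 * sl b - l) z ≤ r then ν b / N else 0)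
        = ∑ b ∈ Tt, (if dist (if b ∈ Tt then (2 : ℝ) ^ i0 * sl b - l else 0) z ≤ r then
            (if b ∈ Tt then ν b / N else 0) else 0) := sum_congr rfl fun b hb => by simp [hb]
      _ = _ := sum_subset (subset_univ _) fun b _ hb => by simp [hb]
  rw [hLHS]
  have hlight := w2_light ν hν0 (fun b => ⌊(2 : ℝ) ^ (i0 + mm) * sl b⌋) S (fun _ => (1 / 2 : ℝ) ^ (γ * mm) * N) (by
    intro b hb
    have hbT : b ∈ Tt := by rw [hS] at hb; exact (mem_filter.1 hb).1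
    have h1 := hwin b hbT (i0 + mm) (Nat.le_add_right _ _) (by omega)
    have h2 : w2C ν sl i0 b = N := by
      have hl : ⌊(2 : ℝ) ^ i0 * sl b⌋ = l := by
        have := hcell hbT
        simpa [w2Tl] using this
      rw [← hNdef]
      unfold w2C w2Tl
      rw [hl]
    rw [h2] at h1
    have e : ((i0 + mm : ℕ) : ℝ) - i0 = mm := by push_cast; ring
    rw [e] at h1
    exact h1)
  have hcard : (S.image fun b => ⌊(2 : ℝ) ^ (i0 + mm) * sl b⌋).card ≤ 3 := by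
    have hsub : (S.image fun b => ⌊(2 : ℝ) ^ (i0 + mm) * sl b⌋) ⊆
        Finset.Icc (⌊(2 : ℝ) ^ mm * (l + z)⌋ - 1) (⌊(2 : ℝ) ^ mm * (l + z)⌋ + 1) := by
      intro j hj
      obtain ⟨b, hb, rfl⟩ := mem_image.1 hj
      rw [hS] at hb
      have hd := (mem_filter.1 hb).2
      rw [Real.dist_eq, abs_le] at hd
      have h2 : (0 : ℝ) < (2 : ℝ) ^ mm := by positivity
      have h3 : (2 : ℝ) ^ mm * r ≤ 1 := by
        have : (2 : ℝ) ^ mm * (1 / 2 : ℝ) ^ mm = 1 := by rw [← mul_pow]; norm_num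
        calc (2 : ℝ) ^ mm * r ≤ (2 : ℝ) ^ mm * (1 / 2 : ℝ) ^ mm := mul_le_mul_of_nonneg_left hmm2 h2.le
          _ = 1 := this
      have e : (2 : ℝ) ^ (i0 + mm) * sl b = (2 : ℝ) ^ mm * (l + z) + (2 : ℝ) ^ mm * ((2 : ℝ) ^ i0 * sl b - l - z) := by
        rw [pow_add]; ring
      have hlo : -1 ≤ (2 : ℝ) ^ mm * ((2 : ℝ) ^ i0 * sl b - l - z) := by nlinarith [hd.1]
      have hhi : (2 : ℝ) ^ mm * ((2 : ℝ) ^ i0 * sl b - l - z) ≤ 1 := by nlinarith [hd.2]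
      rw [mem_Icc]
      constructor
      · rw [Int.le_floor]
        push_cast
        have := Int.floor_le ((2 : ℝ) ^ mm * (l + z))
        linarith
      · rw [← Int.floor_add_one]
        apply Int.floor_le_floor
        linarith
    calc _ ≤ (Finset.Icc (⌊(2 : ℝ) ^ mm * (l + z)⌋ - 1) (⌊(2 : ℝ) ^ mm * (l + z)⌋ + 1)).card := card_le_card hsub
      _ = 3 := by
        rw [Int.card_Icc]
        have : ⌊(2 : ℝ) ^ mm * (l + z)⌋ + 1 + 1 - (⌊(2 : ℝ) ^ mm * (l + z)⌋ - 1) = 3 := by ring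
        rw [this]; rfl
  rw [sum_const, nsmul_eq_mul] at hlight
  have hpow : (1 / 2 : ℝ) ^ (γ * mm) ≤ 2 * r ^ γ := by
    have e1 : (1 / 2 : ℝ) ^ (γ * mm) = ((1 / 2 : ℝ) ^ mm) ^ γ := by
      rw [mul_comm, Real.rpow_mul (by norm_num), Real.rpow_natCast]
    rw [e1]
    calc ((1 / 2 : ℝ) ^ mm) ^ γ ≤ (2 * r) ^ γ := Real.rpow_le_rpow (by positivity) hmm3 hγ0.le
      _ = 2 ^ γ * r ^ γ := Real.mul_rpow (by norm_num) hrpos.le
      _ ≤ 2 * r ^ γ := by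
        apply mul_le_mul_of_nonneg_right _ (by positivity)
        calc (2 : ℝ) ^ γ ≤ (2 : ℝ) ^ (1 : ℝ) := Real.rpow_le_rpow_of_exponent_le (by norm_num) hγ1
          _ = 2 := by simp
  rw [div_le_iff₀ hN]
  have hc3 : ((S.image fun b => ⌊(2 : ℝ) ^ (i0 + mm) * sl b⌋).card : ℝ) ≤ 3 := by exact_mod_cast hcard
  have hrγ : 0 ≤ r ^ γ := by positivity
  calc ∑ b ∈ S, ν b ≤ ((S.image fun b => ⌊(2 : ℝ) ^ (i0 + mm) * sl b⌋).card : ℝ) * ((1 / 2 : ℝ) ^ (γ * mm) * N) := hlight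
    _ ≤ 3 * ((2 * r ^ γ) * N) := by
        apply mul_le_mul hc3 (mul_le_mul_of_nonneg_right hpow hN.le) (by positivity) (by norm_num)
    _ = 6 * r ^ γ * N := by ring

/-- **the reference law is Frostman `s-u`** (before normalisation) -/
theorem w2_cfg_lam (A s u : ℝ) (hA : 1 ≤ A) (hu : 0 < u) (hus : u < s) :
    ∃ K : ℝ, 1 ≤ K ∧ ∀ (X : Type) [Fintype X] (μ : X → ℝ) (pt : X → ℝ × ℝ) (Cμ Θ ρ θ0 t0 w : ℝ) (P T2 : Finset X),
      (∀ x, 0 ≤ μ x) → ∑ x, μ x ≤ 1 → 1 ≤ Cμ → 1 ≤ Θ → 0 < ρ → ρ ≤ w → w ≤ 1 → |θ0| ≤ A → KfFrost μ pt Cμ s ρ →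
      (∀ p ∈ P, |kfProj θ0 (pt p) - t0| ≤ (2 * A + 2) * w ∧ ∃ a : ℝ, |a - θ0| ≤ w ∧ W2Thin μ pt u Θ ρ a p) →
      (∀ x ∈ T2, ∃ p ∈ P, dist (pt x) (pt p) ≤ 2 * w) →
      ∀ c R : ℝ, w ≤ R → R ≤ 1 →
        ∑ x ∈ T2 with |(pt x).1 - c| ≤ R, μ x ≤ K * Θ * Cμ * w ^ u * R ^ (s - u) := by
  set C3 : ℝ := 10 * A + 6 with hC3
  set C4 : ℝ := 6 * A + 10 with hC4
  have hC31 : 1 ≤ C3 := by rw [hC3]; linarith
  have hC41 : 1 ≤ C4 := by rw [hC4]; linarith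
  have hC43 : C4 ≤ C3 := by rw [hC3, hC4]; linarith
  have hs0 : 0 < s := lt_trans hu hus
  have k1 : 1 ≤ C4 ^ u := Real.one_le_rpow hC41 hu.le
  have k2 : 1 ≤ (2 * C3) ^ s := Real.one_le_rpow (by linarith) hs0.le
  refine ⟨C4 ^ u * (2 * C3) ^ s, by nlinarith, ?_⟩
  intro X _ μ pt Cμ Θ ρ θ0 t0 w P T2 hμ0 hμ1 hCμ hΘ hρ hρw hw1 hθ0 hF hP hT2 c R hwR hR1
  have hw0 : 0 < w := lt_of_lt_of_le hρ hρw
  have hR0 : 0 < R := lt_of_lt_of_le hw0 hwR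
  have hrhs : 0 ≤ C4 ^ u * (2 * C3) ^ s * Θ * Cμ * w ^ u * R ^ (s - u) := by positivity
  by_cases hne : (T2.filter fun x => |(pt x).1 - c| ≤ R).Nonempty
  swap
  · rw [Finset.not_nonempty_iff_eq_empty] at hne
    rw [hne]
    simpa using hrhs
  obtain ⟨xs, hxs⟩ := hne
  rw [Finset.mem_filter] at hxs
  obtain ⟨p0, hp0P, hp0d⟩ := hT2 xs hxs.1
  obtain ⟨hp0t, a, haθ, hthin⟩ := hP p0 hp0P
  -- geometry
  have geo : ∀ x ∈ T2.filter (fun x => |(pt x).1 - c| ≤ R),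
      dist (pt x) (pt p0) ≤ C3 * R ∧ |kfProj a (pt x) - kfProj a (pt p0)| ≤ C4 * w := by
    intro x hx
    rw [Finset.mem_filter] at hx
    obtain ⟨p, hpP, hpd⟩ := hT2 x hx.1
    have hpt := (hP p hpP).1
    rw [Prod.dist_eq, Real.dist_eq, Real.dist_eq] at hpd
    have hp0d' := hp0d
    rw [Prod.dist_eq, Real.dist_eq, Real.dist_eq] at hp0d'
    have d1 : |(pt x).1 - (pt p).1| ≤ 2 * w := le_trans (le_max_left _ _) hpd
    have d2 : |(pt x).2 - (pt p).2| ≤ 2 * w := le_trans (le_max_right _ _) hpd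
    have e1 : |(pt xs).1 - (pt p0).1| ≤ 2 * w := le_trans (le_max_left _ _) hp0d'
    obtain ⟨g1, g2, g3⟩ := w2_geo_lam hA hw0 hwR hR1 hθ0 haθ d1 d2 e1 hx.2 hxs.2 hpt hp0t
    refine ⟨?_, g3⟩
    rw [Prod.dist_eq, Real.dist_eq, Real.dist_eq]
    exact max_le g1 g2
  have hρC4 : ρ ≤ C4 * w := by nlinarith
  have hC4w0 : 0 < C4 * w := by positivity
  by_cases hcase : C3 * R ≤ 1 / 2
  · -- local clause
    have s1 : ∑ x ∈ T2 with |(pt x).1 - c| ≤ R, μ x ≤ w2Tb μ pt a p0 (C3 * R) (C4 * w) := by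
      unfold w2Tb
      apply Finset.sum_le_sum_of_subset_of_nonneg
      · intro x hx
        rw [Finset.mem_filter]
        exact ⟨Finset.mem_univ _, geo x hx⟩
      · intro i _ _
        exact hμ0 i
    have s2 := hthin.1 (C3 * R) (C4 * w) hρC4 (by nlinarith) hcase
    have s3 : w2B μ pt p0 (2 * (C3 * R)) ≤ Cμ * (2 * (C3 * R)) ^ s :=
      hF (pt p0) (2 * (C3 * R)) (by nlinarith) (by linarith)
    have p1 : 0 ≤ (C4 * w / (C3 * R)) ^ u := by positivity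
    have e1 : (C4 * w / (C3 * R)) ^ u * (2 * (C3 * R)) ^ s ≤ C4 ^ u * (2 * C3) ^ s * (w ^ u * R ^ (s - u)) := by
      have a1 : (C4 * w / (C3 * R)) ^ u = C4 ^ u * w ^ u / (C3 ^ u * R ^ u) := by
        rw [Real.div_rpow (by positivity) (by positivity), Real.mul_rpow (by positivity) hw0.le,
          Real.mul_rpow (by positivity) hR0.le]
      have a2 : (2 * (C3 * R)) ^ s = (2 * C3) ^ s * R ^ s := by
        rw [← mul_assoc, Real.mul_rpow (by positivity) hR0.le]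
      have a3 : R ^ s = R ^ u * R ^ (s - u) := by
        rw [← Real.rpow_add hR0]; congr 1; ring
      have a4 : 1 ≤ C3 ^ u := Real.one_le_rpow hC31 hu.le
      have hRu : 0 < R ^ u := Real.rpow_pos_of_pos hR0 _
      rw [a1, a2, a3]
      have : C4 ^ u * w ^ u / (C3 ^ u * R ^ u) * ((2 * C3) ^ s * (R ^ u * R ^ (s - u)))
          = (C4 ^ u * (2 * C3) ^ s * (w ^ u * R ^ (s - u))) / C3 ^ u := by
        field_simp
      rw [this]
      exact div_le_self (by positivity) a4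
    calc ∑ x ∈ T2 with |(pt x).1 - c| ≤ R, μ x ≤ _ := s1
      _ ≤ Θ * (C4 * w / (C3 * R)) ^ u * w2B μ pt p0 (2 * (C3 * R)) := s2
      _ ≤ Θ * (C4 * w / (C3 * R)) ^ u * (Cμ * (2 * (C3 * R)) ^ s) := by gcongr
      _ = Θ * Cμ * ((C4 * w / (C3 * R)) ^ u * (2 * (C3 * R)) ^ s) := by ring
      _ ≤ Θ * Cμ * (C4 ^ u * (2 * C3) ^ s * (w ^ u * R ^ (s - u))) := by gcongr
      _ = C4 ^ u * (2 * C3) ^ s * Θ * Cμ * w ^ u * R ^ (s - u) := by ring
  · -- global clause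
    push Not at hcase
    have s1 : ∑ x ∈ T2 with |(pt x).1 - c| ≤ R, μ x ≤ w2Tg μ pt a p0 (C4 * w) := by
      unfold w2Tg
      apply Finset.sum_le_sum_of_subset_of_nonneg
      · intro x hx
        rw [Finset.mem_filter]
        exact ⟨Finset.mem_univ _, (geo x hx).2⟩
      · intro i _ _
        exact hμ0 i
    have s2 := hthin.2 (C4 * w) hρC4
    have a1 : (C4 * w) ^ u = C4 ^ u * w ^ u := Real.mul_rpow (by positivity) hw0.le
    have a2 : 1 ≤ (2 * C3 * R) ^ (s - u) := Real.one_le_rpow (by linarith) (by linarith)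
    have a3 : (2 * C3 * R) ^ (s - u) = (2 * C3) ^ (s - u) * R ^ (s - u) := Real.mul_rpow (by positivity) hR0.le
    have a4 : (2 * C3) ^ (s - u) ≤ (2 * C3) ^ s := Real.rpow_le_rpow_of_exponent_le (by linarith) (by linarith)
    have hRsu : 0 ≤ R ^ (s - u) := (Real.rpow_pos_of_pos hR0 _).le
    have a5 : 1 ≤ (2 * C3) ^ s * R ^ (s - u) := by
      calc (1 : ℝ) ≤ (2 * C3) ^ (s - u) * R ^ (s - u) := by rw [← a3]; exact a2
        _ ≤ (2 * C3) ^ s * R ^ (s - u) := by gcongr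
    have hb : 0 ≤ Θ * (C4 ^ u * w ^ u) := by positivity
    calc ∑ x ∈ T2 with |(pt x).1 - c| ≤ R, μ x ≤ _ := s1
      _ ≤ Θ * (C4 * w) ^ u := s2
      _ = Θ * (C4 ^ u * w ^ u) * 1 := by rw [a1]; ring
      _ ≤ Θ * (C4 ^ u * w ^ u) * (Cμ * ((2 * C3) ^ s * R ^ (s - u))) := by
          apply mul_le_mul_of_nonneg_left _ hb
          nlinarith
      _ = C4 ^ u * (2 * C3) ^ s * Θ * Cμ * w ^ u * R ^ (s - u) := by ring

/-- **hypothesis (U)** (before normalisation) -/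
theorem w2_cfg_U (A u : ℝ) (hA : 1 ≤ A) (hu : 0 < u) :
    ∃ K : ℝ, 1 ≤ K ∧ ∀ (X : Type) [Fintype X] (μ : X → ℝ) (pt : X → ℝ × ℝ) (Θ ρ θ0 w r δ : ℝ) (P T2 : Finset X),
      (∀ x, 0 ≤ μ x) → 1 ≤ Θ → 0 < ρ → ρ ≤ r → r ≤ w → w * w ≤ r → w ≤ δ → w ≤ 1 / 2 →
      (∀ p ∈ P, ∃ a : ℝ, |a - θ0| ≤ w ∧ W2Thin μ pt u Θ ρ a p) →
      (∀ p ∈ P, ∀ x, dist (pt x) (pt p) ≤ 2 * w → x ∈ T2) →
      ∀ z₁ τ : ℝ,
        ∑ x ∈ P with |(pt x).1 - z₁| ≤ δ ∧ |kfProj θ0 (pt x) - τ| ≤ r, μ x ≤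
          K * Θ * (r / w) ^ u * ∑ x ∈ T2 with |(pt x).1 - z₁| ≤ 3 * δ, μ x := by
  have h3u : (1 : ℝ) ≤ 3 ^ u := Real.one_le_rpow (by norm_num) hu.le
  refine ⟨25 * 3 ^ u, by linarith, ?_⟩
  intro X _ μ pt Θ ρ θ0 w r δ P T2 hμ0 hΘ hρ hρr hrw hww hwδ hw2 hP hT2 z₁ τ
  have hr0 : 0 < r := lt_of_lt_of_le hρ hρr
  have hw0 : 0 < w := lt_of_lt_of_le hr0 hrw
  set S : Finset X := P.filter fun x => |(pt x).1 - z₁| ≤ δ ∧ |kfProj θ0 (pt x) - τ| ≤ r with hS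
  set T3 : Finset X := T2.filter fun x => |(pt x).1 - z₁| ≤ 3 * δ with hT3
  set cell : X → ℤ × ℤ := fun x => (⌊(pt x).1 / w⌋, ⌊(pt x).2 / w⌋) with hcell
  set c0 : ℝ := Θ * 3 ^ u * (r / w) ^ u with hc0
  have hc00 : 0 ≤ c0 := by positivity
  -- one cell
  have hone : ∀ Q ∈ S.image cell, ∑ x ∈ S with cell x = Q, μ x ≤
      c0 * ∑ x ∈ T3, if |(cell x).1 - Q.1| ≤ 2 ∧ |(cell x).2 - Q.2| ≤ 2 then μ x else 0 := by
    intro Q hQ
    obtain ⟨p, hpS, hpQ⟩ := Finset.mem_image.1 hQ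
    have hpS' := (Finset.mem_filter.1 hpS)
    obtain ⟨a, haθ, hthin⟩ := hP p hpS'.1
    -- the fibre lies in ball ∩ tube
    have sub1 : ∀ x ∈ S.filter (fun x => cell x = Q),
        dist (pt x) (pt p) ≤ w ∧ |kfProj a (pt x) - kfProj a (pt p)| ≤ 3 * r := by
      intro x hx
      rw [Finset.mem_filter] at hx
      have hxS := (Finset.mem_filter.1 hx.1).2
      have hc : cell x = cell p := by rw [hx.2, hpQ]
      have c1 : ⌊(pt x).1 / w⌋ = ⌊(pt p).1 / w⌋ := congrArg Prod.fst hc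
      have c2 : ⌊(pt x).2 / w⌋ = ⌊(pt p).2 / w⌋ := congrArg Prod.snd hc
      have d1 : |(pt x).1 - (pt p).1| ≤ w := by
        have := w2_floor_same c1
        rw [← sub_div, abs_div, abs_of_pos hw0, div_le_one hw0] at this
        exact this
      have d2 : |(pt x).2 - (pt p).2| ≤ w := by
        have := w2_floor_same c2
        rw [← sub_div, abs_div, abs_of_pos hw0, div_le_one hw0] at this
        exact this
      refine ⟨?_, ?_⟩
      · rw [Prod.dist_eq, Real.dist_eq, Real.dist_eq]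
        exact max_le d1 d2
      · have e : kfProj a (pt x) - kfProj a (pt p)
            = (kfProj θ0 (pt x) - τ) - (kfProj θ0 (pt p) - τ) - (a - θ0) * ((pt x).1 - (pt p).1) := by
          unfold kfProj; ring
        have q3 : |(a - θ0) * ((pt x).1 - (pt p).1)| ≤ w * w := by
          rw [abs_mul]
          exact mul_le_mul haθ d1 (abs_nonneg _) hw0.le
        rw [e]
        have h1 := abs_le.1 hxS.2
        have h2 := abs_le.1 hpS'.2.2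
        have h3 := abs_le.1 q3
        rw [abs_le]
        constructor <;> linarith [h1.1, h1.2, h2.1, h2.2, h3.1, h3.2]
    -- mass of the fibre
    have m1 : ∑ x ∈ S with cell x = Q, μ x ≤ c0 * w2B μ pt p (2 * w) := by
      have hB0 : 0 ≤ w2B μ pt p (2 * w) := Finset.sum_nonneg fun j _ => hμ0 j
      by_cases h3 : 3 * r ≤ w
      · have t1 : ∑ x ∈ S with cell x = Q, μ x ≤ w2Tb μ pt a p w (3 * r) := by
          unfold w2Tb
          apply Finset.sum_le_sum_of_subset_of_nonneg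
          · intro x hx
            rw [Finset.mem_filter]
            exact ⟨Finset.mem_univ _, sub1 x hx⟩
          · intro i _ _
            exact hμ0 i
        have t2 := hthin.1 w (3 * r) (by linarith) h3 hw2
        have t3 : (3 * r / w) ^ u = 3 ^ u * (r / w) ^ u := by
          rw [mul_div_assoc, Real.mul_rpow (by norm_num) (by positivity)]
        calc ∑ x ∈ S with cell x = Q, μ x ≤ _ := t1
          _ ≤ _ := t2
          _ = c0 * w2B μ pt p (2 * w) := by rw [t3, hc0]; ring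
      · push Not at h3
        have t1 : ∑ x ∈ S with cell x = Q, μ x ≤ w2B μ pt p (2 * w) := by
          unfold w2B
          apply Finset.sum_le_sum_of_subset_of_nonneg
          · intro x hx
            rw [Finset.mem_filter]
            exact ⟨Finset.mem_univ _, le_trans (sub1 x hx).1 (by linarith)⟩
          · intro i _ _
            exact hμ0 i
        have t3 : 1 ≤ 3 ^ u * (r / w) ^ u := by
          rw [← Real.mul_rpow (by norm_num) (by positivity)]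
          apply Real.one_le_rpow _ hu.le
          rw [← mul_div_assoc, le_div_iff₀ hw0]
          linarith
        have t4 : 1 ≤ c0 := by
          rw [hc0, mul_assoc]
          nlinarith
        nlinarith
    -- the ball lies in the block
    have m2 : w2B μ pt p (2 * w) ≤
        ∑ x ∈ T3, if |(cell x).1 - Q.1| ≤ 2 ∧ |(cell x).2 - Q.2| ≤ 2 then μ x else 0 := by
      unfold w2B
      rw [← Finset.sum_filter]
      apply Finset.sum_le_sum_of_subset_of_nonneg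
      · intro x hx
        rw [Finset.mem_filter] at hx
        have hd := hx.2
        have hxT2 := hT2 p hpS'.1 x hd
        rw [Prod.dist_eq, Real.dist_eq, Real.dist_eq] at hd
        have d1 : |(pt x).1 - (pt p).1| ≤ 2 * w := le_trans (le_max_left _ _) hd
        have d2 : |(pt x).2 - (pt p).2| ≤ 2 * w := le_trans (le_max_right _ _) hd
        rw [Finset.mem_filter, hT3, Finset.mem_filter]
        refine ⟨⟨hxT2, ?_⟩, ?_, ?_⟩
        · have h1 := abs_le.1 d1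
          have h2 := abs_le.1 hpS'.2.1
          rw [abs_le]
          constructor <;> linarith [h1.1, h1.2, h2.1, h2.2]
        · rw [← hpQ]
          apply w2_floor_close
          rw [← sub_div, abs_div, abs_of_pos hw0, div_le_iff₀ hw0]
          exact d1
        · rw [← hpQ]
          apply w2_floor_close
          rw [← sub_div, abs_div, abs_of_pos hw0, div_le_iff₀ hw0]
          exact d2
      · intro i _ _
        exact hμ0 i
    exact le_trans m1 (mul_le_mul_of_nonneg_left m2 hc00)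
  -- sum over the cells
  have hsum : ∑ x ∈ S, μ x = ∑ Q ∈ S.image cell, ∑ x ∈ S with cell x = Q, μ x :=
    (Finset.sum_fiberwise_of_maps_to (fun x hx => Finset.mem_image_of_mem cell hx) μ).symm
  have hover : ∑ Q ∈ S.image cell, ∑ x ∈ T3, (if |(cell x).1 - Q.1| ≤ 2 ∧ |(cell x).2 - Q.2| ≤ 2 then μ x else 0)
      ≤ 25 * ∑ x ∈ T3, μ x := by
    rw [Finset.sum_comm, Finset.mul_sum]
    refine Finset.sum_le_sum fun x _ => ?_
    rw [← Finset.sum_filter, Finset.sum_const, nsmul_eq_mul]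
    have hc := w2_block_card (cell x) ((S.image cell).filter fun Q => |(cell x).1 - Q.1| ≤ 2 ∧ |(cell x).2 - Q.2| ≤ 2)
      (fun Q hQ => (Finset.mem_filter.1 hQ).2)
    have : (((S.image cell).filter fun Q => |(cell x).1 - Q.1| ≤ 2 ∧ |(cell x).2 - Q.2| ≤ 2).card : ℝ) ≤ 25 := by
      exact_mod_cast hc
    exact mul_le_mul_of_nonneg_right this (hμ0 x)
  calc ∑ x ∈ S, μ x = _ := hsum
    _ ≤ ∑ Q ∈ S.image cell, c0 * ∑ x ∈ T3, (if |(cell x).1 - Q.1| ≤ 2 ∧ |(cell x).2 - Q.2| ≤ 2 then μ x else 0) :=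
        Finset.sum_le_sum hone
    _ = c0 * ∑ Q ∈ S.image cell, ∑ x ∈ T3, (if |(cell x).1 - Q.1| ≤ 2 ∧ |(cell x).2 - Q.2| ≤ 2 then μ x else 0) := by
        rw [Finset.mul_sum]
    _ ≤ c0 * (25 * ∑ x ∈ T3, μ x) := mul_le_mul_of_nonneg_left hover hc00
    _ = 25 * 3 ^ u * Θ * (r / w) ^ u * ∑ x ∈ T3, μ x := by rw [hc0]; ring

/-- **selection of the cell of slopes and of the tube** -/
theorem w2_select (μ : X → ℝ) (ν : T → ℝ) (pt : X → ℝ × ℝ) (sl : T → ℝ) (hμ0 : ∀ x, 0 ≤ μ x) (hν0 : ∀ b, 0 ≤ ν b)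
    (hμ1 : ∑ x, μ x ≤ 1) (hν1 : ∑ b, ν b ≤ 1) (A : ℝ) (hA : 1 ≤ A) (i0 : ℕ) (G1 G2 : Finset (X × T)) (q : ℝ) (hq : 0 < q)
    (hG : q ≤ ∑ e ∈ G2, μ e.1 * ν e.2) :
    ∃ l k : ℤ, 0 < ∑ e ∈ w2Gs pt sl i0 l k G2, μ e.1 * ν e.2 ∧
      q / (4 * A + 5) * ((∑ b ∈ w2Tl sl i0 l, ν b) * ∑ p ∈ w2P pt sl A i0 l k G1, μ p) ≤
        ∑ e ∈ w2Gs pt sl i0 l k G2, μ e.1 * ν e.2 := by
  classical
  obtain ⟨f, hf⟩ : ∃ f : X × T → ℝ, f = fun e => μ e.1 * ν e.2 := ⟨_, rfl⟩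
  have hf0 : ∀ e, 0 ≤ f e := fun e => by rw [hf]; exact mul_nonneg (hμ0 _) (hν0 _)
  have hfe : ∀ S : Finset (X × T), ∑ e ∈ S, μ e.1 * ν e.2 = ∑ e ∈ S, f e := fun S => by rw [hf]
  simp only [hfe] at hG ⊢
  -- step 1: the cell of slopes
  obtain ⟨I1, hI1⟩ : ∃ I1 : Finset ℤ, I1 = univ.image fun b : T => ⌊(2 : ℝ) ^ i0 * sl b⌋ := ⟨_, rfl⟩
  have hmemTl : ∀ (l : ℤ) (b : T), b ∈ w2Tl sl i0 l ↔ ⌊(2 : ℝ) ^ i0 * sl b⌋ = l := fun l b => by
    simp [w2Tl]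
  have ha1 : ∑ l ∈ I1, ∑ e ∈ G2.filter (fun e => e.2 ∈ w2Tl sl i0 l), f e = ∑ e ∈ G2, f e := by
    have h1 := Finset.sum_fiberwise_of_maps_to (s := G2) (t := I1)
      (g := fun e : X × T => ⌊(2 : ℝ) ^ i0 * sl e.2⌋)
      (fun e _ => by rw [hI1]; exact Finset.mem_image_of_mem _ (Finset.mem_univ _)) f
    rw [← h1]
    refine Finset.sum_congr rfl fun l _ => Finset.sum_congr ?_ fun _ _ => rfl
    ext e
    simp only [Finset.mem_filter, hmemTl]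
  have hb1 : ∑ l ∈ I1, ∑ b ∈ w2Tl sl i0 l, ν b = ∑ b, ν b := by
    have h1 := Finset.sum_fiberwise_of_maps_to (s := (univ : Finset T)) (t := I1)
      (g := fun b : T => ⌊(2 : ℝ) ^ i0 * sl b⌋)
      (fun b _ => by rw [hI1]; exact Finset.mem_image_of_mem _ (Finset.mem_univ _)) ν
    rw [← h1]
    refine Finset.sum_congr rfl fun l _ => Finset.sum_congr ?_ fun _ _ => rfl
    ext b
    simp only [Finset.mem_filter, hmemTl, Finset.mem_univ, true_and]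
  obtain ⟨l, -, hl0, hl⟩ := w2_pigeon I1 (fun l => ∑ e ∈ G2.filter (fun e => e.2 ∈ w2Tl sl i0 l), f e)
    (fun l => ∑ b ∈ w2Tl sl i0 l, ν b) (fun l _ => Finset.sum_nonneg fun e _ => hf0 e)
    (fun l _ => Finset.sum_nonneg fun b _ => hν0 b) q hq.le (by rw [ha1]; linarith)
    (by
      rw [ha1, hb1]
      calc q * ∑ b, ν b ≤ q * 1 := mul_le_mul_of_nonneg_left hν1 hq.le
        _ ≤ _ := by linarith)
  obtain ⟨N, hN⟩ : ∃ N : ℝ, N = ∑ b ∈ w2Tl sl i0 l, ν b := ⟨_, rfl⟩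
  have hN0 : 0 ≤ N := by rw [hN]; exact Finset.sum_nonneg fun b _ => hν0 b
  simp only [← hN] at hl ⊢
  -- step 2: the tube
  obtain ⟨g, hg⟩ : ∃ g : X → ℝ, g = fun x => (2 : ℝ) ^ i0 * kfProj (l * (1 / 2 : ℝ) ^ i0) (pt x) :=
    ⟨_, rfl⟩
  obtain ⟨I2, hI2⟩ : ∃ I2 : Finset ℤ, I2 = univ.image fun x : X => ⌊g x⌋ := ⟨_, rfl⟩
  have ha2 : ∑ k ∈ I2, ∑ e ∈ w2Gs pt sl i0 l k G2, f e =
      ∑ e ∈ G2.filter (fun e => e.2 ∈ w2Tl sl i0 l), f e := by
    have h1 := Finset.sum_fiberwise_of_maps_to (s := G2.filter (fun e => e.2 ∈ w2Tl sl i0 l)) (t := I2)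
      (g := fun e : X × T => ⌊g e.1⌋)
      (fun e _ => by rw [hI2]; exact Finset.mem_image_of_mem _ (Finset.mem_univ _)) f
    rw [← h1]
    refine Finset.sum_congr rfl fun k _ => Finset.sum_congr ?_ fun _ _ => rfl
    ext e
    simp only [w2Gs, Finset.mem_filter, hg, and_assoc]
  have hcount : ∀ (c D : ℝ), 0 ≤ D → ((I2.filter fun k : ℤ => |c - k| ≤ D).card : ℝ) ≤ 2 * D + 1 := by
    intro c D hD
    have hsub : (I2.filter fun k : ℤ => |c - k| ≤ D) ⊆ Finset.Icc ⌈c - D⌉ ⌊c + D⌋ := by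
      intro k hk
      rw [Finset.mem_filter] at hk
      have := abs_le.1 hk.2
      rw [Finset.mem_Icc]
      exact ⟨Int.ceil_le.2 (by linarith), Int.le_floor.2 (by linarith)⟩
    have h1 := Finset.card_le_card hsub
    rw [Int.card_Icc] at h1
    have h2 : ((⌊c + D⌋ + 1 - ⌈c - D⌉).toNat : ℝ) ≤ 2 * D + 1 := by
      rcases le_total 0 (⌊c + D⌋ + 1 - ⌈c - D⌉) with h3 | h3
      · have h4 : (((⌊c + D⌋ + 1 - ⌈c - D⌉).toNat : ℤ) : ℝ) = ((⌊c + D⌋ + 1 - ⌈c - D⌉ : ℤ) : ℝ) := by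
          rw [Int.toNat_of_nonneg h3]
        rw [Int.cast_natCast] at h4
        rw [h4]
        push_cast
        have h5 := Int.floor_le (c + D)
        have h6 := Int.le_ceil (c - D)
        linarith
      · rw [Int.toNat_of_nonpos h3]
        simp only [Nat.cast_zero]
        linarith
    exact le_trans (by exact_mod_cast h1) h2
  have hw : (0 : ℝ) < (1 / 2 : ℝ) ^ i0 := by positivity
  have hw2 : (2 : ℝ) ^ i0 * (1 / 2 : ℝ) ^ i0 = 1 := by rw [← mul_pow]; norm_num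
  have hPk : ∀ (k : ℤ) (p : X), p ∈ w2P pt sl A i0 l k G1 → |g p - k| ≤ 2 * A + 2 := by
    intro k p hp
    simp only [w2P, Finset.mem_filter, Finset.mem_univ, true_and] at hp
    have h1 := hp.2
    have h2 : g p - k = (2 : ℝ) ^ i0 *
        (kfProj (l * (1 / 2 : ℝ) ^ i0) (pt p) - k * (1 / 2 : ℝ) ^ i0) := by
      rw [hg]
      have : (2 : ℝ) ^ i0 * (k * (1 / 2 : ℝ) ^ i0) = k := by
        rw [mul_left_comm, hw2, mul_one]
      rw [mul_sub, this]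
    rw [h2, abs_mul, abs_of_pos (by positivity : (0 : ℝ) < 2 ^ i0)]
    calc (2 : ℝ) ^ i0 * |kfProj (l * (1 / 2 : ℝ) ^ i0) (pt p) - k * (1 / 2 : ℝ) ^ i0|
        ≤ (2 : ℝ) ^ i0 * ((2 * A + 2) * (1 / 2 : ℝ) ^ i0) :=
          mul_le_mul_of_nonneg_left h1 (by positivity)
      _ = 2 * A + 2 := by rw [mul_left_comm, hw2, mul_one]
  have hb2 : ∑ k ∈ I2, ∑ p ∈ w2P pt sl A i0 l k G1, μ p ≤ 4 * A + 5 := by
    have h1 : ∀ k ∈ I2, ∑ p ∈ w2P pt sl A i0 l k G1, μ p ≤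
        ∑ p, if |g p - k| ≤ 2 * A + 2 then μ p else 0 := by
      intro k _
      rw [← Finset.sum_filter]
      refine Finset.sum_le_sum_of_subset_of_nonneg ?_ fun p _ _ => hμ0 p
      intro p hp
      exact Finset.mem_filter.2 ⟨Finset.mem_univ _, hPk k p hp⟩
    refine le_trans (Finset.sum_le_sum h1) ?_
    rw [Finset.sum_comm]
    have h2 : ∀ p ∈ (univ : Finset X), ∑ k ∈ I2, (if |g p - k| ≤ 2 * A + 2 then μ p else 0) ≤
        (4 * A + 5) * μ p := by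
      intro p _
      rw [← Finset.sum_filter, Finset.sum_const, nsmul_eq_mul]
      refine mul_le_mul_of_nonneg_right ?_ (hμ0 p)
      have := hcount (g p) (2 * A + 2) (by linarith)
      linarith
    refine le_trans (Finset.sum_le_sum h2) ?_
    rw [← Finset.mul_sum]
    calc (4 * A + 5) * ∑ p, μ p ≤ (4 * A + 5) * 1 :=
          mul_le_mul_of_nonneg_left hμ1 (by linarith)
      _ = 4 * A + 5 := mul_one _
  have hA5 : (0 : ℝ) < 4 * A + 5 := by linarith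
  obtain ⟨k, -, hk0, hk⟩ := w2_pigeon I2 (fun k => ∑ e ∈ w2Gs pt sl i0 l k G2, f e)
    (fun k => N * ∑ p ∈ w2P pt sl A i0 l k G1, μ p) (fun k _ => Finset.sum_nonneg fun e _ => hf0 e)
    (fun k _ => mul_nonneg hN0 (Finset.sum_nonneg fun p _ => hμ0 p)) (q / (4 * A + 5))
    (by positivity) (by rw [ha2]; exact hl0)
    (by
      rw [ha2, ← Finset.mul_sum]
      refine le_trans ?_ hl
      calc q / (4 * A + 5) * (N * ∑ k ∈ I2, ∑ p ∈ w2P pt sl A i0 l k G1, μ p)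
          ≤ q / (4 * A + 5) * (N * (4 * A + 5)) :=
            mul_le_mul_of_nonneg_left (mul_le_mul_of_nonneg_left hb2 hN0) (by positivity)
        _ = q * N := by field_simp)
  rw [hN] at hk
  exact ⟨l, k, hk0, hk⟩

end

set_option maxHeartbeats 1600000 in
/-- **CORE**: a refined graph contradicts `ex_W1` at the scale `δ = (1/2)^(i1-i0)`.
Take `l,k` from `w2_select`, `w = (1/2)^i0`, `θ0 = l w`, `P = w2P ..`, `Z = μ(P)`, `N = ν(w2Tl ..)`, `Tt` = tags of `w2Tl` having a neighbour in `G1`, `T2 = {x : ∃ p ∈ P, dist ≤ 2w}`,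
`μ' = μ/Z` on `P` (else 0), `pt' = ((pt x).1, 2^i0 (π_θ0 x) - k)` on `P` (else 0), `ν' = ν/N`, `sl' = 2^i0 sl - l` on `Tt` (else 0), `lam = μ/Z` on `T2` (else 0), `xr = (pt ·).1`, graph `w2Gs ..`.
Checks: `kfProj sl' pt' = 2^i0 (π_b - k w)`;  `|π_b - π_θ0| ≤ A w` on the cell;  a neighbour in `w2Gs` lies in `P` and has `|π_b p - k w| ≤ (A+1) w` (so `hP1` at `t0 = k w` gives the cover, rescaled by `e ↦ 2^i0 (e - k w)`);
`Z ≥ thr` (`hP2` at one edge of `w2Gs`: its `w`-tube lies in `P`);  graph mass `= mass(w2Gs)/(Z N) ≥ q/(4A+5)`;  `w2_cfg_tags`, `w2_cfg_lam` (divided by `Z`), `w2_cfg_U` (divided by `Z`; `τ = k w + w z₂`, `(r/w)^u = δ^u`). -/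
theorem w2_core (A s u γ : ℝ) (hA : 1 ≤ A) (hu : 0 < u) (hus : u < s) (hγ0 : 0 < γ) (hγ1 : γ ≤ 1) :
    ∃ K : ℝ, 1 ≤ K ∧ ∀ (X T : Type) [Fintype X] [Fintype T] (μ : X → ℝ) (ν : T → ℝ) (pt : X → ℝ × ℝ) (sl : T → ℝ)
      (Cμ Θ ρ q thr χ : ℝ) (Hc i0 i1 : ℕ) (G1 G2 : Finset (X × T)),
      (∀ x, 0 ≤ μ x) → (∀ b, 0 ≤ ν b) → ∑ x, μ x ≤ 1 → ∑ b, ν b ≤ 1 →
      (∀ x, |(pt x).1| ≤ A ∧ |(pt x).2| ≤ A) → (∀ b, |sl b| ≤ A) →
      1 ≤ Cμ → 1 ≤ Θ → 0 < ρ → 0 < q → 0 < thr → 0 < χ →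
      1 ≤ i0 → i0 ≤ i1 → i1 ≤ 2 * i0 → ρ ≤ (1 / 2 : ℝ) ^ i1 →
      KfFrost μ pt Cμ s ρ →
      (∀ e ∈ G1, W2Thin μ pt u Θ ρ (sl e.2) e.1 ∧ W2Win ν sl γ i0 i1 e.2) →
      G2 ⊆ G1 → q ≤ ∑ e ∈ G2, μ e.1 * ν e.2 →
      (∀ (b : T) (t0 : ℝ), ∃ c' : Finset ℝ,
        KfCov c' ((1 / 2 : ℝ) ^ i1) ((fun x => kfProj (sl b) (pt x)) ''
          {p | (p, b) ∈ G2 ∧ |kfProj (sl b) (pt p) - t0| ≤ (A + 1) * (1 / 2 : ℝ) ^ i0}) ∧ c'.card ≤ Hc) →
      (∀ e ∈ G2, thr ≤ ∑ x with (x, e.2) ∈ G1 ∧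
        |kfProj (sl e.2) (pt x) - kfProj (sl e.2) (pt e.1)| ≤ (1 / 2 : ℝ) ^ i0, μ x) →
      ExW1At (s - u) γ u (2 * A + 3) χ ((1 / 2 : ℝ) ^ (i1 - i0)) →
      K / q ≤ ((1 / 2 : ℝ) ^ (i1 - i0)) ^ (-χ) →
      K * Θ * Cμ * ((1 / 2 : ℝ) ^ i0) ^ u / thr ≤ ((1 / 2 : ℝ) ^ (i1 - i0)) ^ (-χ) →
      K * Θ ≤ ((1 / 2 : ℝ) ^ (i1 - i0)) ^ (-χ) →
      ((1 / 2 : ℝ) ^ (i1 - i0)) ^ (-u - χ) ≤ (Hc : ℝ) := by
  obtain ⟨K1, hK1, hlam⟩ := w2_cfg_lam (A + 1) s u (by linarith) hu hus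
  obtain ⟨K2, hK2, hU⟩ := w2_cfg_U A u hA hu
  refine ⟨max (max K1 K2) (4 * A + 6),
    le_trans hK1 (le_trans (le_max_left _ _) (le_max_left _ _)), ?_⟩
  intro X T _ _ μ ν pt sl Cμ Θ ρ q thr χ Hc i0 i1 G1 G2 hμ0 hν0 hμ1 hν1 hpt hsl hCμ hΘ hρ hq hthr hχ
    hi0 hi01 hi12 hρr hF hG1 hG21 hG2 hP1 hP2 hW1 hKq hKthr hKΘ
  obtain ⟨K, hK⟩ : ∃ K, K = max (max K1 K2) (4 * A + 6) := ⟨_, rfl⟩
  rw [← hK] at hKq hKthr hKΘ
  have hKK1 : K1 ≤ K := hK ▸ le_trans (le_max_left _ _) (le_max_left _ _)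
  have hKK2 : K2 ≤ K := hK ▸ le_trans (le_max_right _ _) (le_max_left _ _)
  have hKA : 4 * A + 6 ≤ K := hK ▸ le_max_right _ _
  have hK0 : 0 < K := by linarith
  obtain ⟨l, k, hGs0, hGs⟩ := w2_select μ ν pt sl hμ0 hν0 hμ1 hν1 A hA i0 G1 G2 q hq hG2
  -- the scales
  obtain ⟨w, hw⟩ : ∃ w : ℝ, w = (1 / 2 : ℝ) ^ i0 := ⟨_, rfl⟩
  obtain ⟨r, hr⟩ : ∃ r : ℝ, r = (1 / 2 : ℝ) ^ i1 := ⟨_, rfl⟩
  obtain ⟨δ, hδ⟩ : ∃ δ : ℝ, δ = (1 / 2 : ℝ) ^ (i1 - i0) := ⟨_, rfl⟩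
  obtain ⟨E, hE⟩ : ∃ E : ℝ, E = (2 : ℝ) ^ i0 := ⟨_, rfl⟩
  have hw0 : 0 < w := by rw [hw]; positivity
  have hr0 : 0 < r := by rw [hr]; positivity
  have hδ0 : 0 < δ := by rw [hδ]; positivity
  have hE0 : 0 < E := by rw [hE]; positivity
  have hEw : E * w = 1 := by rw [hE, hw, ← mul_pow]; norm_num
  have hw12 : w ≤ 1 / 2 := by
    rw [hw]
    calc (1 / 2 : ℝ) ^ i0 ≤ (1 / 2 : ℝ) ^ 1 := pow_le_pow_of_le_one (by norm_num) (by norm_num) hi0
      _ = 1 / 2 := pow_one _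
  have hδ1 : δ ≤ 1 := by rw [hδ]; exact pow_le_one₀ (by norm_num) (by norm_num)
  have hrδw : r = δ * w := by
    rw [hr, hδ, hw, ← pow_add, Nat.sub_add_cancel hi01]
  have hwδ : w ≤ δ := by
    rw [hw, hδ]
    exact pow_le_pow_of_le_one (by norm_num) (by norm_num) (by omega)
  have hrw : r ≤ w := by
    rw [hrδw]
    exact mul_le_of_le_one_left hw0.le hδ1
  have hww : w * w ≤ r := by
    rw [hrδw]
    exact mul_le_mul_of_nonneg_right hwδ hw0.le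
  have hEr : E * r = δ := by rw [hrδw, mul_left_comm, hEw, mul_one]
  have hrwδ : r / w = δ := by rw [hrδw]; field_simp
  rw [← hr] at hρr
  have hρw : ρ ≤ w := hρr.trans hrw
  obtain ⟨θ0, hθ0⟩ : ∃ θ0 : ℝ, θ0 = (l : ℝ) * w := ⟨_, rfl⟩
  have hEθ : E * θ0 = l := by rw [hθ0, mul_left_comm, hEw, mul_one]
  simp only [← hδ] at hW1 hKq hKthr hKΘ ⊢
  simp only [← hw] at hKthr hP1 hP2
  simp only [← hr] at hP1
  -- the sets
  obtain ⟨Tl, hTl⟩ : ∃ Tl, Tl = w2Tl sl i0 l := ⟨_, rfl⟩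
  obtain ⟨P, hP⟩ : ∃ P, P = w2P pt sl A i0 l k G1 := ⟨_, rfl⟩
  obtain ⟨Gs, hGsd⟩ : ∃ Gs, Gs = w2Gs pt sl i0 l k G2 := ⟨_, rfl⟩
  rw [← hTl, ← hP, ← hGsd] at hGs
  rw [← hGsd] at hGs0
  have hmemTl : ∀ b, b ∈ Tl ↔ ⌊E * sl b⌋ = l := fun b => by
    rw [hTl, hE]
    simp [w2Tl]
  have hmemP : ∀ p, p ∈ P ↔ (∃ b ∈ Tl, (p, b) ∈ G1) ∧
      |kfProj θ0 (pt p) - k * w| ≤ (2 * A + 2) * w := fun p => by
    rw [hP, hTl, hθ0, hw]
    simp [w2P]
  have hmemGs : ∀ e, e ∈ Gs ↔ e ∈ G2 ∧ e.2 ∈ Tl ∧ ⌊E * kfProj θ0 (pt e.1)⌋ = k := fun e => by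
    rw [hGsd, hTl, hθ0, hw, hE]
    simp [w2Gs]
  have hfl : ∀ (a : ℝ) (m : ℤ), ⌊E * a⌋ = m → 0 ≤ a - m * w ∧ a - m * w ≤ w ∧
      0 ≤ E * a - m ∧ E * a - m ≤ 1 := by
    intro a m hm
    obtain ⟨h1, h2⟩ := Int.floor_eq_iff.1 hm
    have h3 : a - m * w = w * (E * a - m) := by
      have : w * (E * a) = a := by rw [← mul_assoc, mul_comm w E, hEw, one_mul]
      rw [mul_sub, this]
      ring
    refine ⟨?_, ?_, by linarith, by linarith⟩
    · rw [h3]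
      exact mul_nonneg hw0.le (by linarith)
    · rw [h3]
      calc w * (E * a - m) ≤ w * 1 := mul_le_mul_of_nonneg_left (by linarith) hw0.le
        _ = w := mul_one _
  have hTlw : ∀ b ∈ Tl, |sl b - θ0| ≤ w := by
    intro b hb
    obtain ⟨h1, h2, -, -⟩ := hfl _ _ ((hmemTl b).1 hb)
    rw [hθ0, abs_of_nonneg h1]
    exact h2
  have hdiff : ∀ b ∈ Tl, ∀ x : X, |kfProj (sl b) (pt x) - kfProj θ0 (pt x)| ≤ A * w := by
    intro b hb x
    have h1 : kfProj (sl b) (pt x) - kfProj θ0 (pt x) = -((sl b - θ0) * (pt x).1) := by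
      unfold kfProj
      ring
    rw [h1, abs_neg, abs_mul, mul_comm]
    exact mul_le_mul (hpt x).1 (hTlw b hb) (abs_nonneg _) (by linarith)
  obtain ⟨Tt, hTt⟩ : ∃ Tt : Finset T, Tt = Tl.filter fun b => ∃ p, (p, b) ∈ G1 := ⟨_, rfl⟩
  obtain ⟨T2, hT2⟩ : ∃ T2 : Finset X, T2 = univ.filter fun x => ∃ p ∈ P, dist (pt x) (pt p) ≤ 2 * w :=
    ⟨_, rfl⟩
  have hTtl : Tt ⊆ Tl := hTt ▸ Finset.filter_subset _ _
  have hGsP : ∀ e ∈ Gs, e ∈ G2 ∧ e.1 ∈ P ∧ e.2 ∈ Tt ∧ |kfProj θ0 (pt e.1) - k * w| ≤ w := by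
    intro e he
    obtain ⟨h1, h2, h3⟩ := (hmemGs e).1 he
    obtain ⟨h4, h5, -, -⟩ := hfl _ _ h3
    have h6 : |kfProj θ0 (pt e.1) - k * w| ≤ w := by rw [abs_of_nonneg h4]; exact h5
    refine ⟨h1, (hmemP _).2 ⟨⟨e.2, h2, hG21 h1⟩, h6.trans ?_⟩, ?_, h6⟩
    · nlinarith
    · rw [hTt]
      exact Finset.mem_filter.2 ⟨h2, e.1, hG21 h1⟩
  obtain ⟨Z, hZ⟩ : ∃ Z : ℝ, Z = ∑ p ∈ P, μ p := ⟨_, rfl⟩
  obtain ⟨N, hN⟩ : ∃ N : ℝ, N = ∑ b ∈ Tl, ν b := ⟨_, rfl⟩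
  rw [← hZ, ← hN] at hGs
  have hZ0' : 0 ≤ Z := hZ ▸ Finset.sum_nonneg fun p _ => hμ0 p
  have hN0' : 0 ≤ N := hN ▸ Finset.sum_nonneg fun b _ => hν0 b
  have hmass : ∑ e ∈ Gs, μ e.1 * ν e.2 ≤ Z * N := by
    rw [hZ, hN, Finset.sum_mul_sum, ← Finset.sum_product']
    refine Finset.sum_le_sum_of_subset_of_nonneg ?_ fun e _ _ => mul_nonneg (hμ0 _) (hν0 _)
    intro e he
    obtain ⟨-, h2, h3, -⟩ := hGsP e he
    exact Finset.mem_product.2 ⟨h2, hTtl h3⟩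
  have hZN : 0 < Z * N := lt_of_lt_of_le hGs0 hmass
  have hZ0 : 0 < Z := by
    rcases hZ0'.lt_or_eq with h | h
    · exact h
    · rw [← h, zero_mul] at hZN
      exact absurd hZN (lt_irrefl _)
  have hN0 : 0 < N := by
    rcases hN0'.lt_or_eq with h | h
    · exact h
    · rw [← h, mul_zero] at hZN
      exact absurd hZN (lt_irrefl _)
  obtain ⟨e₀, he₀⟩ : Gs.Nonempty := by
    by_contra hne
    rw [Finset.not_nonempty_iff_eq_empty] at hne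
    rw [hne, Finset.sum_empty] at hGs0
    exact lt_irrefl _ hGs0
  obtain ⟨he₀2, he₀P, he₀T, he₀w⟩ := hGsP e₀ he₀
  have hθA : |θ0| ≤ A + 1 := by
    have h1 := hTlw e₀.2 (hTtl he₀T)
    have h2 := hsl e₀.2
    have h3 : θ0 = sl e₀.2 - (sl e₀.2 - θ0) := by ring
    rw [h3]
    calc |sl e₀.2 - (sl e₀.2 - θ0)| ≤ |sl e₀.2| + |sl e₀.2 - θ0| := abs_sub _ _
      _ ≤ A + 1 := by linarith
  have hthrZ : thr ≤ Z := by
    refine (hP2 e₀ he₀2).trans ?_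
    rw [hZ]
    refine Finset.sum_le_sum_of_subset_of_nonneg ?_ fun p _ _ => hμ0 p
    intro x hx
    obtain ⟨-, hx1, hx2⟩ := Finset.mem_filter.1 hx
    refine (hmemP x).2 ⟨⟨e₀.2, hTtl he₀T, hx1⟩, ?_⟩
    have h1 := hdiff e₀.2 (hTtl he₀T) x
    have h2 := hdiff e₀.2 (hTtl he₀T) e₀.1
    have h3 : kfProj θ0 (pt x) - k * w =
        -(kfProj (sl e₀.2) (pt x) - kfProj θ0 (pt x)) +
          (kfProj (sl e₀.2) (pt x) - kfProj (sl e₀.2) (pt e₀.1)) +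
          (kfProj (sl e₀.2) (pt e₀.1) - kfProj θ0 (pt e₀.1)) + (kfProj θ0 (pt e₀.1) - k * w) := by
      ring
    rw [h3]
    refine (abs_add_le _ _).trans ?_
    refine (add_le_add_left (abs_add_le _ _) _).trans ?_
    refine (add_le_add_left (add_le_add_left (abs_add_le _ _) _) _).trans ?_
    rw [abs_neg]
    linarith
  have hq1 : q ≤ 1 := by
    refine hG2.trans ?_
    calc ∑ e ∈ G2, μ e.1 * ν e.2 ≤ ∑ e ∈ (univ : Finset X) ×ˢ (univ : Finset T), μ e.1 * ν e.2 :=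
          Finset.sum_le_sum_of_subset_of_nonneg (fun e _ => by simp)
            fun e _ _ => mul_nonneg (hμ0 _) (hν0 _)
      _ = (∑ x, μ x) * ∑ b, ν b := by rw [Finset.sum_mul_sum, ← Finset.sum_product']
      _ ≤ 1 * 1 := mul_le_mul hμ1 hν1 (Finset.sum_nonneg fun b _ => hν0 b) (by norm_num)
      _ = 1 := mul_one _
  have hδχ0 : 0 < δ ^ (-χ) := Real.rpow_pos_of_pos hδ0 _
  have hKδ : K ≤ δ ^ (-χ) := by
    refine le_trans ?_ hKq
    rw [le_div_iff₀ hq]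
    calc K * q ≤ K * 1 := mul_le_mul_of_nonneg_left hq1 hK0.le
      _ = K := mul_one _
  -- sums of normalised weights
  have hsumif : ∀ (S : Finset X) (p : X → Prop) [DecidablePred p],
      ∑ x with p x, (if x ∈ S then μ x / Z else 0) = (∑ x ∈ S with p x, μ x) / Z := by
    intro S p _
    rw [Finset.sum_div, Finset.sum_filter, Finset.sum_filter]
    refine (Finset.sum_subset (Finset.subset_univ S) fun x _ hx => ?_).symm.trans ?_
    · rw [if_neg hx]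
      simp
    · refine Finset.sum_congr rfl fun x hx => ?_
      rw [if_pos hx]
  have hthin : ∀ p ∈ P, ∃ a : ℝ, |a - θ0| ≤ w ∧ W2Thin μ pt u Θ ρ a p := by
    intro p hp
    obtain ⟨⟨b, hb, hpb⟩, -⟩ := (hmemP p).1 hp
    exact ⟨sl b, hTlw b hb, (hG1 _ hpb).1⟩
  have hmemT2 : ∀ x, x ∈ T2 ↔ ∃ p ∈ P, dist (pt x) (pt p) ≤ 2 * w := fun x => by
    rw [hT2]
    simp
  -- the test
  have hTest : ExTest δ χ (2 * A + 3) γ (fun x => if x ∈ P then μ x / Z else 0)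
      (fun b => if b ∈ Tt then ν b / N else 0)
      (fun x => if x ∈ P then ((pt x).1, E * kfProj θ0 (pt x) - k) else (0, 0))
      (fun b => if b ∈ Tt then E * sl b - l else 0) Gs Hc := by
    refine ⟨fun x => ?_, fun b => ?_, ?_, ?_, fun x => ?_, fun b => ?_, ?_, ?_, ?_⟩
    · show 0 ≤ if x ∈ P then μ x / Z else 0
      split_ifs
      · exact div_nonneg (hμ0 x) hZ0.le
      · exact le_rfl
    · show 0 ≤ if b ∈ Tt then ν b / N else 0
      split_ifs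
      · exact div_nonneg (hν0 b) hN0.le
      · exact le_rfl
    · rw [Finset.sum_ite_mem, Finset.univ_inter, ← Finset.sum_div, ← hZ, div_self hZ0.ne']
    · rw [Finset.sum_ite_mem, Finset.univ_inter, ← Finset.sum_div, div_le_one hN0, hN]
      exact Finset.sum_le_sum_of_subset_of_nonneg hTtl fun b _ _ => hν0 b
    · show |(if x ∈ P then ((pt x).1, E * kfProj θ0 (pt x) - k) else ((0 : ℝ), (0 : ℝ))).1| ≤ _ ∧
        |(if x ∈ P then ((pt x).1, E * kfProj θ0 (pt x) - k) else ((0 : ℝ), (0 : ℝ))).2| ≤ _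
      split_ifs with hx
      · refine ⟨(hpt x).1.trans (by linarith), ?_⟩
        show |E * kfProj θ0 (pt x) - k| ≤ _
        have h1 := ((hmemP x).1 hx).2
        have h2 : E * kfProj θ0 (pt x) - k = E * (kfProj θ0 (pt x) - k * w) := by
          rw [mul_sub, mul_left_comm, hEw, mul_one]
        rw [h2, abs_mul, abs_of_pos hE0]
        calc E * |kfProj θ0 (pt x) - k * w| ≤ E * ((2 * A + 2) * w) :=
              mul_le_mul_of_nonneg_left h1 hE0.le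
          _ = 2 * A + 2 := by rw [mul_left_comm, hEw, mul_one]
          _ ≤ 2 * A + 3 := by linarith
      · simp only [abs_zero]
        constructor <;> linarith
    · show |if b ∈ Tt then E * sl b - l else 0| ≤ _
      split_ifs with hb
      · obtain ⟨-, -, h3, h4⟩ := hfl _ _ ((hmemTl b).1 (hTtl hb))
        rw [abs_of_nonneg h3]
        linarith
      · rw [abs_zero]
        linarith
    · have h1 := w2_cfg_tags ν sl hν0 γ hγ0 hγ1 i0 i1 hi01 l Tt (hTl ▸ hTtl)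
        (fun b hb => by
          rw [hTt] at hb
          obtain ⟨-, p, hp⟩ := Finset.mem_filter.1 hb
          exact (hG1 _ hp).2) (by rw [← hTl, ← hN]; exact hN0)
      rw [← hTl, ← hN, ← hE, ← hδ] at h1
      intro z R hR1 hR2
      refine (h1 z R hR1 hR2).trans ?_
      refine mul_le_mul_of_nonneg_right ?_ (Real.rpow_nonneg (hδ0.le.trans hR1) _)
      linarith
    · have h1 : ∑ e ∈ Gs, (fun x => if x ∈ P then μ x / Z else 0) e.1 *
          (fun b => if b ∈ Tt then ν b / N else 0) e.2 = (∑ e ∈ Gs, μ e.1 * ν e.2) / (Z * N) := by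
        rw [Finset.sum_div]
        refine Finset.sum_congr rfl fun e he => ?_
        obtain ⟨-, h2, h3, -⟩ := hGsP e he
        simp only [if_pos h2, if_pos h3]
        field_simp
      rw [h1, le_div_iff₀ hZN]
      refine le_trans ?_ hGs
      have h2 : δ ^ χ ≤ q / (4 * A + 5) := by
        have h3 : δ ^ χ = (δ ^ (-χ))⁻¹ := by rw [Real.rpow_neg hδ0.le, inv_inv]
        rw [h3, inv_le_comm₀ hδχ0 (by positivity), inv_div]
        refine le_trans ?_ hKq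
        exact div_le_div_of_nonneg_right (by linarith) hq.le
      calc δ ^ χ * (Z * N) ≤ q / (4 * A + 5) * (Z * N) := mul_le_mul_of_nonneg_right h2 hZN.le
        _ = q / (4 * A + 5) * (N * Z) := by ring
    · choose c' hc'1 hc'2 using fun b => hP1 b (k * w)
      refine ⟨fun b => (c' b).image fun e => E * e - k,
        fun b => (Finset.card_image_le).trans (hc'2 b), fun b => ?_⟩
      rintro t ⟨x, hx, rfl⟩
      obtain ⟨h1, h2, h3, h4⟩ := hGsP (x, b) hx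
      have h2' : x ∈ P := h2
      have h3' : b ∈ Tt := h3
      have h5 : kfProj ((fun b => if b ∈ Tt then E * sl b - l else 0) b)
          ((fun x => if x ∈ P then ((pt x).1, E * kfProj θ0 (pt x) - k) else ((0 : ℝ), (0 : ℝ))) x) =
          E * kfProj (sl b) (pt x) - k := by
        simp only [if_pos h2', if_pos h3']
        unfold kfProj
        linear_combination (-(pt x).1) * hEθ
      rw [h5]
      have h6 : |kfProj (sl b) (pt x) - k * w| ≤ (A + 1) * w := by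
        have h7 := hdiff b (hTtl h3') x
        have h8 : kfProj (sl b) (pt x) - k * w =
            (kfProj (sl b) (pt x) - kfProj θ0 (pt x)) + (kfProj θ0 (pt x) - k * w) := by ring
        rw [h8]
        refine (abs_add_le _ _).trans ?_
        have h4' : |kfProj θ0 (pt x) - k * w| ≤ w := h4
        linarith
      obtain ⟨e, he, he1, he2⟩ := hc'1 b (kfProj (sl b) (pt x)) ⟨x, ⟨h1, h6⟩, rfl⟩
      refine ⟨E * e - k, Finset.mem_image_of_mem _ he, ?_, ?_⟩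
      · have := mul_le_mul_of_nonneg_left he1 hE0.le
        linarith
      · have := mul_le_mul_of_nonneg_left he2 hE0.le
        rw [mul_add, hEr] at this
        linarith
  have hlam0 : ∀ j : X, 0 ≤ (fun x => if x ∈ T2 then μ x / Z else 0) j := by
    intro j
    show 0 ≤ if j ∈ T2 then μ j / Z else 0
    split_ifs
    · exact div_nonneg (hμ0 j) hZ0.le
    · exact le_rfl
  have hlamF : KfFrost (fun x => if x ∈ T2 then μ x / Z else 0) (fun x => (pt x).1) (δ ^ (-χ))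
      (s - u) δ := by
    intro z R hR1 hR2
    rw [hsumif T2 (fun x => dist (pt x).1 z ≤ R)]
    have h1 := hlam X μ pt Cμ Θ ρ θ0 (k * w) w P T2 hμ0 hμ1 hCμ hΘ hρ hρw (by linarith) hθA hF
      (fun p hp => ⟨((hmemP p).1 hp).2.trans (by nlinarith), hthin p hp⟩)
      (fun x hx => (hmemT2 x).1 hx) z R (hwδ.trans hR1) hR2
    have h2 : ∑ x ∈ T2 with dist (pt x).1 z ≤ R, μ x = ∑ x ∈ T2 with |(pt x).1 - z| ≤ R, μ x := by
      refine Finset.sum_congr ?_ fun _ _ => rfl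
      ext x
      simp only [Finset.mem_filter, Real.dist_eq]
    rw [h2, div_le_iff₀ hZ0]
    refine h1.trans ?_
    have hR0 : 0 ≤ R ^ (s - u) := Real.rpow_nonneg (hδ0.le.trans hR1) _
    have hwu : 0 ≤ w ^ u := Real.rpow_nonneg hw0.le _
    have h3 : K1 * Θ * Cμ * w ^ u ≤ δ ^ (-χ) * Z := by
      have h4 : K * Θ * Cμ * w ^ u ≤ δ ^ (-χ) * thr := (div_le_iff₀ hthr).1 hKthr
      have h5 : K1 * Θ * Cμ * w ^ u ≤ K * Θ * Cμ * w ^ u := by
        have : 0 ≤ Θ * Cμ * w ^ u := by positivity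
        nlinarith
      have h6 : δ ^ (-χ) * thr ≤ δ ^ (-χ) * Z := mul_le_mul_of_nonneg_left hthrZ hδχ0.le
      linarith
    calc K1 * Θ * Cμ * w ^ u * R ^ (s - u) ≤ δ ^ (-χ) * Z * R ^ (s - u) :=
          mul_le_mul_of_nonneg_right h3 hR0
      _ = δ ^ (-χ) * R ^ (s - u) * Z := by ring
  have hUU : ∀ z : ℝ × ℝ,
      ∑ x with dist ((fun x => if x ∈ P then ((pt x).1, E * kfProj θ0 (pt x) - k)
          else ((0 : ℝ), (0 : ℝ))) x) z ≤ δ, (fun x => if x ∈ P then μ x / Z else 0) x ≤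
        δ ^ (u - χ) * ∑ j with dist ((fun x => (pt x).1) j) z.1 ≤ (2 * A + 3) * δ,
          (fun x => if x ∈ T2 then μ x / Z else 0) j := by
    intro z
    rw [hsumif P, hsumif T2, ← mul_div_assoc]
    refine div_le_div_of_nonneg_right ?_ hZ0.le
    have h1 := hU X μ pt Θ ρ θ0 w r δ P T2 hμ0 hΘ hρ hρr hrw hww hwδ hw12 hthin
      (fun p hp x hx => (hmemT2 x).2 ⟨p, hp, hx⟩) z.1 (k * w + w * z.2)
    have h2 : ∑ x ∈ P with dist ((fun x => if x ∈ P then ((pt x).1, E * kfProj θ0 (pt x) - k)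
          else ((0 : ℝ), (0 : ℝ))) x) z ≤ δ, μ x ≤
        ∑ x ∈ P with |(pt x).1 - z.1| ≤ δ ∧ |kfProj θ0 (pt x) - (k * w + w * z.2)| ≤ r, μ x := by
      refine Finset.sum_le_sum_of_subset_of_nonneg ?_ fun x _ _ => hμ0 x
      intro x hx
      obtain ⟨hxP, hxd⟩ := Finset.mem_filter.1 hx
      simp only [if_pos hxP, Prod.dist_eq, max_le_iff, Real.dist_eq] at hxd
      refine Finset.mem_filter.2 ⟨hxP, hxd.1, ?_⟩
      have h3 : kfProj θ0 (pt x) - (k * w + w * z.2) = w * (E * kfProj θ0 (pt x) - k - z.2) := by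
        have : w * (E * kfProj θ0 (pt x)) = kfProj θ0 (pt x) := by
          rw [← mul_assoc, mul_comm w E, hEw, one_mul]
        rw [mul_sub, mul_sub, this]
        ring
      rw [h3, abs_mul, abs_of_pos hw0, hrδw, mul_comm]
      exact mul_le_mul_of_nonneg_right hxd.2 hw0.le
    have h4 : ∑ x ∈ T2 with |(pt x).1 - z.1| ≤ 3 * δ, μ x ≤
        ∑ x ∈ T2 with dist ((fun x => (pt x).1) x) z.1 ≤ (2 * A + 3) * δ, μ x := by
      refine Finset.sum_le_sum_of_subset_of_nonneg ?_ fun x _ _ => hμ0 x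
      intro x hx
      obtain ⟨hxT, hxd⟩ := Finset.mem_filter.1 hx
      refine Finset.mem_filter.2 ⟨hxT, ?_⟩
      show dist (pt x).1 z.1 ≤ _
      rw [Real.dist_eq]
      refine hxd.trans ?_
      nlinarith
    have hS0 : 0 ≤ ∑ x ∈ T2 with dist ((fun x => (pt x).1) x) z.1 ≤ (2 * A + 3) * δ, μ x :=
      Finset.sum_nonneg fun x _ => hμ0 x
    have hδu : 0 ≤ δ ^ u := Real.rpow_nonneg hδ0.le _
    rw [hrwδ] at h1
    have h5 : δ ^ (u - χ) = δ ^ (-χ) * δ ^ u := by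
      rw [← Real.rpow_add hδ0]
      congr 1
      ring
    have h6 : K2 * Θ ≤ δ ^ (-χ) := by
      refine le_trans ?_ hKΘ
      exact mul_le_mul_of_nonneg_right hKK2 (by linarith)
    calc _ ≤ _ := h2
      _ ≤ _ := h1
      _ ≤ K2 * Θ * δ ^ u * ∑ x ∈ T2 with dist ((fun x => (pt x).1) x) z.1 ≤ (2 * A + 3) * δ, μ x :=
          mul_le_mul_of_nonneg_left h4 (by positivity)
      _ ≤ δ ^ (-χ) * δ ^ u *
            ∑ x ∈ T2 with dist ((fun x => (pt x).1) x) z.1 ≤ (2 * A + 3) * δ, μ x :=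
          mul_le_mul_of_nonneg_right (mul_le_mul_of_nonneg_right h6 hδu) hS0
      _ = _ := by rw [h5]
  exact hW1 X T X _ _ _ _ Gs Hc _ _ hTest hlam0 hlamF hUU

end Claimed.Agent.RW
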