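import Claimed.Agent.RW.W2Base

/-!
# Team RW.  Unit W2, file 2/4: the three refinements of the fibre of ONE tag.        Architect: helper236.   (Overall proof: header of `W2Base.lean`, item 2.)

`π = kfProj a ∘ pt`, `Gb` = the neighbours of the tag (slope `a`), all thin (`W2Thin`), `π(Gb)` covered by `cov` (intervals of length `ρ`).

* `w2_tag_count` (leaf W2-TAG-COUNT).  `Gg = {p ∈ Gb : μ p > 0, l · μ(B(p,5R)) ≤ μ(Gb ∩ B(p,R))}`.
  LOSS: cells of side `R` (`⌊x/R⌋, ⌊y/R⌋`).  A cell `Q` with a bad point `p`: `μ(Gb ∩ Q) ≤ μ(Gb ∩ B(p,R)) < l μ(B(p,5R)) ≤ l μ(12×12 block of Q)`; sum over `Q`: `≤ 144 l`.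
  COUNT: `cov_p = {e ∈ cov : [e,e+ρ] ∋ π x for some x ∈ Gb ∩ B(p,R)}`; the group of `e` lies in `B(x_e,2R) ∩ tube(x_e,ρ)`, mass `≤ Θ (ρ/2R)^u μ(B(x_e,4R)) ≤ Θ (ρ/2R)^u μ(B(p,5R))`;
  so `|cov_p| ≥ l/(Θ (ρ/2R)^u)`.  `cov_p ⊆ [π p - (1+A)R - ρ, π p + (1+A)R]`.  Grid of width `W = (2A+3)R` in the `π`-line, one representative per occupied interval; representatives of
  even (odd) index have disjoint `cov_p`: `#occupied ≤ 2 |cov| Θ (ρ/2R)^u / l`; each grid interval = `≤ 2A+4` intervals of length `R`.   `K = max 144 (4A+8)`.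
* `w2_tag_tubes` (leaf W2-TAG-TUBES).  Grid `I_k = [kw,(k+1)w)`, `n_k = #{e ∈ cR : [e,e+r] meets I_k}`, `∑ n_k ≤ 2|cR|` (`r ≤ w`).  `k` bad if `n_k > H`: `#bad < 2|cR|/H`;
  `μ(Gg ∩ π⁻¹ I_k) ≤ w2Tg .. w ≤ Θ w^u`.  `Gh` = points over good `k`.  `[t0-C7 w, t0+C7 w]` meets `≤ 2 C7+2` grid intervals.
* `w2_tag_heavy` (leaf W2-TAG-HEAVY).  Assign every point to one interval of `cW`; delete the intervals of assigned mass `< thr`.
* `w2_tag` (leaf W2-TAG-GLUE): count at `r`, count at `w`, tubes with `H = 2 Nr Θ w^u / l`, `Nr = K0 M Θ (ρ/r)^u/l`, heavy with `thr = l/Nw`, `Nw = K0 M Θ (ρ/w)^u/l`.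
-/

set_option autoImplicit false

namespace Claimed.Agent.RW

open Finset

/-- close reals have close floors -/
theorem w2t_floor_close (x y : ℝ) (n : ℤ) (h : |x - y| ≤ n) : ⌊x⌋ - ⌊y⌋ ∈ Finset.Icc (-n) n := by
  rw [abs_le] at h
  rw [Finset.mem_Icc]
  have h1 : ⌊x⌋ ≤ ⌊y⌋ + n := by
    rw [← Int.floor_add_intCast]
    exact Int.floor_mono (by linarith [h.2])
  have h2 : ⌊y⌋ ≤ ⌊x⌋ + n := by
    rw [← Int.floor_add_intCast]
    exact Int.floor_mono (by linarith [h.1])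
  constructor <;> omega

/-- the projections are Lipschitz -/
theorem w2t_proj_lip (a A R : ℝ) (x y : ℝ × ℝ) (ha : |a| ≤ A) (h : dist x y ≤ R) :
    |kfProj a x - kfProj a y| ≤ (1 + A) * R := by
  rw [Prod.dist_eq, max_le_iff, Real.dist_eq, Real.dist_eq] at h
  unfold kfProj
  have h1 : x.2 - a * x.1 - (y.2 - a * y.1) = (x.2 - y.2) - a * (x.1 - y.1) := by ring
  rw [h1]
  have h2 : |a * (x.1 - y.1)| ≤ A * R := by
    rw [abs_mul]
    exact mul_le_mul ha h.1 (abs_nonneg _) (le_trans (abs_nonneg _) ha)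
  calc |(x.2 - y.2) - a * (x.1 - y.1)| ≤ |x.2 - y.2| + |a * (x.1 - y.1)| := abs_sub _ _
    _ ≤ R + A * R := add_le_add h.2 h2
    _ = (1 + A) * R := by ring

/-- the loss in `w2_tag_count`: cells of side `R`, blocks of `11 × 11` cells -/
theorem w2t_count_loss {X : Type} [Fintype X] [DecidableEq X] (μ : X → ℝ) (pt : X → ℝ × ℝ) (l R : ℝ)
    (Gb Bad : Finset X) (hμ0 : ∀ x, 0 ≤ μ x) (hμ1 : ∑ x, μ x ≤ 1) (hR : 0 < R) (hl : 0 ≤ l) (hsub : Bad ⊆ Gb)
    (hbad : ∀ p ∈ Bad, ∑ x ∈ Gb with dist (pt x) (pt p) ≤ R, μ x ≤ l * w2B μ pt p (5 * R)) :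
    ∑ x ∈ Bad, μ x ≤ 121 * l := by
  classical
  obtain ⟨c, hc⟩ : ∃ c : X → ℤ × ℤ, ∀ x, c x = (⌊(pt x).1 / R⌋, ⌊(pt x).2 / R⌋) := ⟨_, fun _ => rfl⟩
  obtain ⟨D, hD⟩ : ∃ D : Finset (ℤ × ℤ), D = Finset.Icc (-5 : ℤ) 5 ×ˢ Finset.Icc (-5 : ℤ) 5 := ⟨_, rfl⟩
  have hDc : D.card = 121 := by rw [hD]; simp
  obtain ⟨S, hS⟩ : ∃ S : Finset (ℤ × ℤ), S = Bad.image c := ⟨_, rfl⟩
  have h2 : ∑ x ∈ Bad, μ x = ∑ Q ∈ S, ∑ x ∈ Bad with c x = Q, μ x := by
    refine (Finset.sum_fiberwise_of_maps_to ?_ _).symm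
    intro x hx
    rw [hS]
    exact Finset.mem_image_of_mem _ hx
  have h3 : ∀ Q ∈ S, ∑ x ∈ Bad with c x = Q, μ x ≤ l * ∑ x with c x - Q ∈ D, μ x := by
    intro Q hQ
    rw [hS, Finset.mem_image] at hQ
    obtain ⟨p, hp, rfl⟩ := hQ
    calc ∑ x ∈ Bad with c x = c p, μ x ≤ ∑ x ∈ Gb with dist (pt x) (pt p) ≤ R, μ x := by
          refine Finset.sum_le_sum_of_subset_of_nonneg ?_ (fun _ _ _ => hμ0 _)
          intro x hx
          simp only [Finset.mem_filter] at hx ⊢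
          refine ⟨hsub hx.1, ?_⟩
          have h4 := hx.2
          rw [hc, hc, Prod.mk.injEq] at h4
          rw [Prod.dist_eq, max_le_iff, Real.dist_eq, Real.dist_eq]
          have h5 := Int.abs_sub_lt_one_of_floor_eq_floor h4.1
          have h6 := Int.abs_sub_lt_one_of_floor_eq_floor h4.2
          rw [← sub_div, abs_div, abs_of_pos hR, div_lt_one hR] at h5 h6
          exact ⟨h5.le, h6.le⟩
      _ ≤ l * w2B μ pt p (5 * R) := hbad p hp
      _ ≤ l * ∑ x with c x - c p ∈ D, μ x := by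
          refine mul_le_mul_of_nonneg_left ?_ hl
          unfold w2B
          refine Finset.sum_le_sum_of_subset_of_nonneg ?_ (fun _ _ _ => hμ0 _)
          intro x hx
          simp only [Finset.mem_filter, Finset.mem_univ, true_and] at hx ⊢
          rw [Prod.dist_eq, max_le_iff, Real.dist_eq, Real.dist_eq] at hx
          rw [hc, hc, hD, Prod.mk_sub_mk, Finset.mem_product]
          constructor
          · refine w2t_floor_close _ _ 5 ?_
            rw [← sub_div, abs_div, abs_of_pos hR, div_le_iff₀ hR]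
            exact_mod_cast hx.1
          · refine w2t_floor_close _ _ 5 ?_
            rw [← sub_div, abs_div, abs_of_pos hR, div_le_iff₀ hR]
            exact_mod_cast hx.2
  have h4 : ∑ Q ∈ S, ∑ x with c x - Q ∈ D, μ x = ∑ x, ∑ Q ∈ S with c x - Q ∈ D, μ x := by
    refine Finset.sum_comm' ?_
    intro Q x
    simp only [Finset.mem_filter, Finset.mem_univ, true_and, and_true]
  have h5 : ∀ x, ∑ Q ∈ S with c x - Q ∈ D, μ x ≤ 121 * μ x := by
    intro x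
    rw [Finset.sum_const, nsmul_eq_mul]
    refine mul_le_mul_of_nonneg_right ?_ (hμ0 x)
    have h6 : (S.filter (fun Q => c x - Q ∈ D)).card ≤ D.card := by
      refine Finset.card_le_card_of_injOn (fun Q => c x - Q) ?_ ?_
      · intro Q hQ
        exact (Finset.mem_filter.1 hQ).2
      · intro Q _ Q' _ h
        exact sub_right_injective h
    rw [hDc] at h6
    exact_mod_cast h6
  calc ∑ x ∈ Bad, μ x = ∑ Q ∈ S, ∑ x ∈ Bad with c x = Q, μ x := h2
    _ ≤ ∑ Q ∈ S, l * ∑ x with c x - Q ∈ D, μ x := Finset.sum_le_sum h3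
    _ = l * ∑ x, ∑ Q ∈ S with c x - Q ∈ D, μ x := by rw [← Finset.mul_sum, h4]
    _ ≤ l * ∑ x, 121 * μ x := mul_le_mul_of_nonneg_left (Finset.sum_le_sum fun x _ => h5 x) hl
    _ = l * (121 * ∑ x, μ x) := by rw [← Finset.mul_sum]
    _ ≤ l * (121 * 1) := by gcongr
    _ = 121 * l := by ring

/-- a good point sees many intervals of the `ρ`-cover within distance `R` -/
theorem w2t_count_pt {X : Type} [Fintype X] [DecidableEq X] (μ : X → ℝ) (pt : X → ℝ × ℝ) (a u ρ Θ l R : ℝ)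
    (Gb : Finset X) (ε : X → ℝ) (hμ0 : ∀ x, 0 ≤ μ x) (hρ : 0 < ρ) (hρR : ρ ≤ R) (hR : R ≤ 1 / 4) (hΘ : 0 < Θ)
    (hthin : ∀ p ∈ Gb, W2Thin μ pt u Θ ρ a p)
    (hε : ∀ x ∈ Gb, ε x ≤ kfProj a (pt x) ∧ kfProj a (pt x) ≤ ε x + ρ)
    (p : X) (hp0 : 0 < μ p) (hp : l * w2B μ pt p (5 * R) ≤ ∑ x ∈ Gb with dist (pt x) (pt p) ≤ R, μ x) :
    l ≤ ((Gb.filter (fun x => dist (pt x) (pt p) ≤ R)).image ε).card * (Θ * (ρ / (2 * R)) ^ u) := by
  classical
  have hR0 : 0 < R := lt_of_lt_of_le hρ hρR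
  obtain ⟨F, hF⟩ : ∃ F : Finset X, F = Gb.filter (fun x => dist (pt x) (pt p) ≤ R) := ⟨_, rfl⟩
  rw [← hF] at hp ⊢
  have hB : 0 < w2B μ pt p (5 * R) := by
    unfold w2B
    refine lt_of_lt_of_le hp0 ?_
    refine Finset.single_le_sum (f := μ) (fun x _ => hμ0 x) ?_
    simp only [Finset.mem_filter, Finset.mem_univ, true_and, dist_self]
    positivity
  have h1 : ∑ x ∈ F, μ x = ∑ e ∈ F.image ε, ∑ x ∈ F with ε x = e, μ x :=
    (Finset.sum_fiberwise_of_maps_to (fun x hx => Finset.mem_image_of_mem _ hx) _).symm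
  have hc0 : 0 ≤ Θ * (ρ / (2 * R)) ^ u := mul_nonneg hΘ.le (Real.rpow_nonneg (by positivity) _)
  have h2 : ∀ e ∈ F.image ε, ∑ x ∈ F with ε x = e, μ x ≤ Θ * (ρ / (2 * R)) ^ u * w2B μ pt p (5 * R) := by
    intro e he
    rw [Finset.mem_image] at he
    obtain ⟨y, hy, rfl⟩ := he
    rw [hF, Finset.mem_filter] at hy
    have h3 := (hthin y hy.1).1 (2 * R) ρ le_rfl (by linarith) (by linarith)
    calc ∑ x ∈ F with ε x = ε y, μ x ≤ w2Tb μ pt a y (2 * R) ρ := by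
          unfold w2Tb
          refine Finset.sum_le_sum_of_subset_of_nonneg ?_ (fun _ _ _ => hμ0 _)
          intro x hx
          rw [hF] at hx
          simp only [Finset.mem_filter, Finset.mem_univ, true_and] at hx ⊢
          constructor
          · have := dist_triangle_right (pt x) (pt y) (pt p)
            linarith [hx.1.2, hy.2]
          · have e1 := hε x hx.1.1
            have e2 := hε y hy.1
            rw [hx.2] at e1
            rw [abs_le]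
            constructor <;> linarith [e1.1, e1.2, e2.1, e2.2]
      _ ≤ Θ * (ρ / (2 * R)) ^ u * w2B μ pt y (2 * (2 * R)) := h3
      _ ≤ Θ * (ρ / (2 * R)) ^ u * w2B μ pt p (5 * R) := by
          refine mul_le_mul_of_nonneg_left ?_ hc0
          unfold w2B
          refine Finset.sum_le_sum_of_subset_of_nonneg ?_ (fun _ _ _ => hμ0 _)
          intro x hx
          simp only [Finset.mem_filter, Finset.mem_univ, true_and] at hx ⊢
          have := dist_triangle (pt x) (pt y) (pt p)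
          linarith [hy.2]
  have h4 : l * w2B μ pt p (5 * R) ≤ ((F.image ε).card * (Θ * (ρ / (2 * R)) ^ u)) * w2B μ pt p (5 * R) := by
    calc l * w2B μ pt p (5 * R) ≤ ∑ x ∈ F, μ x := hp
      _ = ∑ e ∈ F.image ε, ∑ x ∈ F with ε x = e, μ x := h1
      _ ≤ ∑ e ∈ F.image ε, Θ * (ρ / (2 * R)) ^ u * w2B μ pt p (5 * R) := Finset.sum_le_sum h2
      _ = ((F.image ε).card * (Θ * (ρ / (2 * R)) ^ u)) * w2B μ pt p (5 * R) := by
          rw [Finset.sum_const, nsmul_eq_mul]; ring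
  exact le_of_mul_le_mul_right h4 hB

/-- number of integers between two floors -/
theorem w2t_card_Icc (x y : ℝ) (hxy : x ≤ y) : ((Finset.Icc ⌊x⌋ ⌊y⌋).card : ℝ) ≤ y - x + 2 := by
  have h1 : ⌊x⌋ ≤ ⌊y⌋ := Int.floor_mono hxy
  have h2 : ((Finset.Icc ⌊x⌋ ⌊y⌋).card : ℤ) = ⌊y⌋ + 1 - ⌊x⌋ := by
    rw [Int.card_Icc, Int.toNat_of_nonneg (by omega)]
  have h3 : ((Finset.Icc ⌊x⌋ ⌊y⌋).card : ℝ) = (⌊y⌋ : ℝ) + 1 - ⌊x⌋ := by
    exact_mod_cast h2
  rw [h3]
  have h4 := Int.floor_le y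
  have h5 := Int.lt_floor_add_one x
  linarith

/-- the losses of two successive refinements add up -/
theorem w2t_loss_add {X : Type} [DecidableEq X] (μ : X → ℝ) (hμ0 : ∀ x, 0 ≤ μ x) (G1 G2 G3 : Finset X) :
    ∑ x ∈ G1 \ G3, μ x ≤ ∑ x ∈ G1 \ G2, μ x + ∑ x ∈ G2 \ G3, μ x := by
  have h1 : G1 \ G3 ⊆ (G1 \ G2) ∪ (G2 \ G3) := by
    intro x hx
    simp only [Finset.mem_sdiff, Finset.mem_union] at hx ⊢
    by_cases h : x ∈ G2
    · exact Or.inr ⟨h, hx.2⟩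
    · exact Or.inl ⟨hx.1, h⟩
  refine le_trans (Finset.sum_le_sum_of_subset_of_nonneg h1 (fun _ _ _ => hμ0 _)) ?_
  have h2 := Finset.sum_union_inter (s₁ := G1 \ G2) (s₂ := G2 \ G3) (f := μ)
  have h3 : 0 ≤ ∑ x ∈ (G1 \ G2) ∩ (G2 \ G3), μ x := Finset.sum_nonneg fun _ _ => hμ0 _
  linarith

/-- **count** -/
theorem w2_tag_count (A u : ℝ) (hA : 1 ≤ A) (hu : 0 < u) :
    ∃ K : ℝ, 1 ≤ K ∧ ∀ (X : Type) [Fintype X] [DecidableEq X] (μ : X → ℝ) (pt : X → ℝ × ℝ) (a ρ Θ l R : ℝ)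
      (Gb : Finset X) (cov : Finset ℝ),
      (∀ x, 0 ≤ μ x) → ∑ x, μ x ≤ 1 → |a| ≤ A → 0 < ρ → ρ ≤ R → R ≤ 1 / 4 → 0 < Θ → 0 < l →
      (∀ p ∈ Gb, W2Thin μ pt u Θ ρ a p) →
      KfCov cov ρ ((fun x => kfProj a (pt x)) '' (Gb : Set X)) →
      ∃ Gg : Finset X, Gg ⊆ Gb ∧ ∑ x ∈ Gb \ Gg, μ x ≤ K * l ∧
        ∃ cR : Finset ℝ, KfCov cR R ((fun x => kfProj a (pt x)) '' (Gg : Set X)) ∧
          (cR.card : ℝ) ≤ K * cov.card * Θ * (ρ / R) ^ u / l := by
  classical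
  refine ⟨2 * A + 121, by linarith, ?_⟩
  intro X _ _ μ pt a ρ Θ l R Gb cov hμ0 hμ1 ha hρ hρR hR hΘ hl hthin hcov
  have hR0 : 0 < R := lt_of_lt_of_le hρ hρR
  obtain ⟨π, hπ⟩ : ∃ π : X → ℝ, ∀ x, π x = kfProj a (pt x) := ⟨_, fun _ => rfl⟩
  -- assignment of the points to the intervals of the cover
  have hex : ∀ x : X, ∃ e : ℝ, x ∈ Gb → e ∈ cov ∧ e ≤ kfProj a (pt x) ∧ kfProj a (pt x) ≤ e + ρ := by
    intro x
    by_cases hx : x ∈ Gb
    · obtain ⟨e, he, h1, h2⟩ := hcov _ ⟨x, hx, rfl⟩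
      exact ⟨e, fun _ => ⟨he, h1, h2⟩⟩
    · exact ⟨0, fun h => absurd h hx⟩
  choose ε hε using hex
  obtain ⟨Gg, hGg⟩ : ∃ Gg : Finset X, Gg = Gb.filter (fun p => 0 < μ p ∧
    l * w2B μ pt p (5 * R) ≤ ∑ x ∈ Gb with dist (pt x) (pt p) ≤ R, μ x) := ⟨_, rfl⟩
  have hGgsub : Gg ⊆ Gb := by rw [hGg]; exact Finset.filter_subset _ _
  refine ⟨Gg, hGgsub, ?_, ?_⟩
  · -- the loss
    have h1 : ∑ x ∈ (Gb \ Gg).filter (fun x => 0 < μ x), μ x = ∑ x ∈ Gb \ Gg, μ x := by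
      refine Finset.sum_subset (Finset.filter_subset _ _) ?_
      intro x hx hx'
      rw [Finset.mem_filter, not_and] at hx'
      exact le_antisymm (not_lt.1 (hx' hx)) (hμ0 x)
    rw [← h1]
    have h2 := w2t_count_loss μ pt l R Gb ((Gb \ Gg).filter (fun x => 0 < μ x)) hμ0 hμ1 hR0 hl.le
      (fun x hx => (Finset.mem_sdiff.1 (Finset.mem_filter.1 hx).1).1) (by
        intro p hp
        rw [Finset.mem_filter, Finset.mem_sdiff, hGg, Finset.mem_filter] at hp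
        by_contra hcon
        exact hp.1.2 ⟨hp.1.1, hp.2, (not_le.1 hcon).le⟩)
    refine le_trans h2 ?_
    refine mul_le_mul_of_nonneg_right ?_ hl.le
    linarith
  · -- the cover
    obtain ⟨κ, hκ⟩ : ∃ κ : X → ℤ, ∀ x, κ x = ⌊π x / R⌋ := ⟨_, fun _ => rfl⟩
    obtain ⟨occ, hocc⟩ : ∃ occ : Finset ℤ, occ = Gg.image κ := ⟨_, rfl⟩
    refine ⟨occ.image (fun j : ℤ => (j : ℝ) * R), ?_, ?_⟩
    · rintro t ⟨p, hp, rfl⟩
      refine ⟨(κ p : ℝ) * R, ?_, ?_, ?_⟩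
      · refine Finset.mem_image_of_mem _ ?_
        rw [hocc]
        exact Finset.mem_image_of_mem _ hp
      · have h1 := Int.floor_le (π p / R)
        rw [le_div_iff₀ hR0, ← hκ, hπ] at h1
        exact h1
      · have h1 := (Int.lt_floor_add_one (π p / R)).le
        rw [div_le_iff₀ hR0, ← hκ, hπ] at h1
        linarith
    · -- representatives
      have hrhs : 0 ≤ (2 * A + 121) * cov.card * Θ * (ρ / R) ^ u / l := by
        have : 0 ≤ (ρ / R) ^ u := Real.rpow_nonneg (by positivity) _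
        positivity
      rcases isEmpty_or_nonempty X with hX | hX
      · have h0 : occ = ∅ := by rw [hocc, Finset.eq_empty_of_isEmpty Gg]; rfl
        rw [h0]
        simpa using hrhs
      have hrep : ∀ j ∈ occ, ∃ p : X, p ∈ Gg ∧ κ p = j := by
        intro j hj
        rw [hocc, Finset.mem_image] at hj
        exact hj
      choose! rep hrep using hrep
      obtain ⟨cp, hcp⟩ : ∃ cp : ℤ → Finset ℝ, ∀ j, cp j =
        (Gb.filter (fun x => dist (pt x) (pt (rep j)) ≤ R)).image ε := ⟨_, fun _ => rfl⟩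
      obtain ⟨c0, hc0⟩ : ∃ c0 : ℝ, c0 = Θ * (ρ / (2 * R)) ^ u := ⟨_, rfl⟩
      have hc00 : 0 ≤ c0 := by
        rw [hc0]
        exact mul_nonneg hΘ.le (Real.rpow_nonneg (by positivity) _)
      have h1 : ∀ j ∈ occ, l ≤ (cp j).card * c0 := by
        intro j hj
        have hp := (hrep j hj).1
        rw [hGg, Finset.mem_filter] at hp
        rw [hcp, hc0]
        exact w2t_count_pt μ pt a u ρ Θ l R Gb ε hμ0 hρ hρR hR hΘ hthin (fun x hx => (hε x hx).2) (rep j)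
          hp.2.1 hp.2.2
      have h2 : ∀ j ∈ occ, (cp j).card ≤ (cov.filter (fun e => e ∈ cp j)).card := by
        intro j _
        refine Finset.card_le_card ?_
        intro e he
        rw [Finset.mem_filter]
        refine ⟨?_, he⟩
        rw [hcp, Finset.mem_image] at he
        obtain ⟨x, hx, rfl⟩ := he
        exact (hε x (Finset.mem_filter.1 hx).1).1
      have h3 : ∑ j ∈ occ, (cov.filter (fun e => e ∈ cp j)).card
          = ∑ e ∈ cov, (occ.filter (fun j => e ∈ cp j)).card :=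
        Finset.sum_card_bipartiteAbove_eq_sum_card_bipartiteBelow (fun (j : ℤ) (e : ℝ) => e ∈ cp j)
      have h4 : ∀ e ∈ cov, ((occ.filter (fun j => e ∈ cp j)).card : ℝ) ≤ 2 * A + 5 := by
        intro e _
        have h5 : occ.filter (fun j => e ∈ cp j) ⊆ Finset.Icc ⌊e / R - (1 + A)⌋ ⌊e / R + (2 + A)⌋ := by
          intro j hj
          rw [Finset.mem_filter] at hj
          obtain ⟨hj1, hj2⟩ := hj
          rw [hcp, Finset.mem_image] at hj2
          obtain ⟨x, hx, rfl⟩ := hj2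
          rw [Finset.mem_filter] at hx
          have e1 := (hε x hx.1).2
          have e2 := abs_le.1 (w2t_proj_lip a A R (pt x) (pt (rep j)) ha hx.2)
          have e3 := (hrep j hj1).2
          rw [Finset.mem_Icc, ← e3, hκ, hπ]
          constructor
          · refine Int.floor_mono ?_
            rw [le_div_iff₀ hR0, sub_mul, div_mul_cancel₀ _ hR0.ne']
            linarith [e1.1, e1.2, e2.1, e2.2]
          · refine Int.floor_mono ?_
            rw [div_le_iff₀ hR0, add_mul, div_mul_cancel₀ _ hR0.ne']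
            linarith [e1.1, e1.2, e2.1, e2.2]
        have h6 := w2t_card_Icc (e / R - (1 + A)) (e / R + (2 + A)) (by linarith)
        have h7 : ((occ.filter (fun j => e ∈ cp j)).card : ℝ)
            ≤ ((Finset.Icc ⌊e / R - (1 + A)⌋ ⌊e / R + (2 + A)⌋).card : ℝ) := by
          exact_mod_cast Finset.card_le_card h5
        linarith
      have h5 : (occ.card : ℝ) * l ≤ (2 * A + 5) * cov.card * c0 := by
        calc (occ.card : ℝ) * l = ∑ j ∈ occ, l := by simp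
          _ ≤ ∑ j ∈ occ, ((cp j).card : ℝ) * c0 := Finset.sum_le_sum h1
          _ ≤ ∑ j ∈ occ, ((cov.filter (fun e => e ∈ cp j)).card : ℝ) * c0 := by
              refine Finset.sum_le_sum fun j hj => ?_
              refine mul_le_mul_of_nonneg_right ?_ hc00
              exact_mod_cast h2 j hj
          _ = (∑ e ∈ cov, ((occ.filter (fun j => e ∈ cp j)).card : ℝ)) * c0 := by
              rw [← Finset.sum_mul]
              congr 1
              exact_mod_cast h3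
          _ ≤ (∑ e ∈ cov, (2 * A + 5)) * c0 := by
              refine mul_le_mul_of_nonneg_right ?_ hc00
              exact Finset.sum_le_sum h4
          _ = (2 * A + 5) * cov.card * c0 := by
              rw [Finset.sum_const, nsmul_eq_mul]; ring
      have h6 : c0 ≤ Θ * (ρ / R) ^ u := by
        rw [hc0]
        refine mul_le_mul_of_nonneg_left ?_ hΘ.le
        refine Real.rpow_le_rpow (by positivity) ?_ hu.le
        exact div_le_div_of_nonneg_left hρ.le hR0 (by linarith)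
      have h7 : ((occ.image (fun j : ℤ => (j : ℝ) * R)).card : ℝ) ≤ occ.card := by
        exact_mod_cast Finset.card_image_le
      refine le_trans h7 ?_
      rw [le_div_iff₀ hl]
      refine le_trans h5 ?_
      have h8 : 0 ≤ (ρ / R) ^ u := Real.rpow_nonneg (by positivity) _
      calc (2 * A + 5) * cov.card * c0 ≤ (2 * A + 5) * cov.card * (Θ * (ρ / R) ^ u) := by
            refine mul_le_mul_of_nonneg_left h6 (by positivity)
        _ ≤ (2 * A + 121) * cov.card * (Θ * (ρ / R) ^ u) := by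
            gcongr
            linarith
        _ = (2 * A + 121) * cov.card * Θ * (ρ / R) ^ u := by ring

/-- **tubes** -/
theorem w2_tag_tubes {X : Type} [Fintype X] [DecidableEq X] (μ : X → ℝ) (pt : X → ℝ × ℝ) (a u ρ Θ w r H C7 : ℝ)
    (Gg : Finset X) (cR : Finset ℝ) (hμ0 : ∀ x, 0 ≤ μ x) (hρ : 0 < ρ) (hρw : ρ ≤ w) (hr0 : 0 < r) (hrw : r ≤ w)
    (hΘ : 0 ≤ Θ) (hH : 0 < H) (hC7 : 0 ≤ C7) (hthin : ∀ p ∈ Gg, W2Thin μ pt u Θ ρ a p)
    (hcov : KfCov cR r ((fun x => kfProj a (pt x)) '' (Gg : Set X))) :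
    ∃ Gh : Finset X, Gh ⊆ Gg ∧ ∑ x ∈ Gg \ Gh, μ x ≤ 2 * cR.card * Θ * w ^ u / H ∧
      ∀ t0 : ℝ, ∃ c' : Finset ℝ,
        KfCov c' r ((fun x => kfProj a (pt x)) '' {p | p ∈ Gh ∧ |kfProj a (pt p) - t0| ≤ C7 * w}) ∧
        (c'.card : ℝ) ≤ (2 * C7 + 3) * H := by
  classical
  have hw0 : 0 < w := lt_of_lt_of_le hr0 hrw
  obtain ⟨π, hπ⟩ : ∃ π : X → ℝ, ∀ x, π x = kfProj a (pt x) := ⟨_, fun _ => rfl⟩
  obtain ⟨κ, hκ⟩ : ∃ κ : X → ℤ, ∀ x, κ x = ⌊π x / w⌋ := ⟨_, fun _ => rfl⟩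
  obtain ⟨N, hN⟩ : ∃ N : ℤ → Finset ℝ, ∀ k, N k = cR.filter (fun e => ⌊e / w⌋ = k ∨ ⌊e / w⌋ + 1 = k) :=
    ⟨_, fun _ => rfl⟩
  -- a point over the grid interval `k` is covered by a member of `N k`
  have hcovN : ∀ p ∈ Gg, ∃ e ∈ N (κ p), e ≤ π p ∧ π p ≤ e + r := by
    intro p hp
    obtain ⟨e, he, h1, h2⟩ := hcov _ ⟨p, hp, rfl⟩
    refine ⟨e, ?_, by rw [hπ]; exact h1, by rw [hπ]; exact h2⟩
    rw [hN, Finset.mem_filter]
    refine ⟨he, ?_⟩
    have h3 : ⌊e / w⌋ ≤ κ p := by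
      rw [hκ, hπ]
      exact Int.floor_mono (div_le_div_of_nonneg_right h1 hw0.le)
    have h4 : κ p ≤ ⌊e / w⌋ + 1 := by
      rw [hκ, hπ, ← Int.floor_add_one]
      refine Int.floor_mono ?_
      rw [div_add_one hw0.ne']
      exact div_le_div_of_nonneg_right (by linarith) hw0.le
    omega
  refine ⟨Gg.filter (fun p => ((N (κ p)).card : ℝ) ≤ H), Finset.filter_subset _ _, ?_, ?_⟩
  · have h1 : Gg \ Gg.filter (fun p => ((N (κ p)).card : ℝ) ≤ H) = Gg.filter (fun p => H < ((N (κ p)).card : ℝ)) := by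
      ext x
      simp only [Finset.mem_sdiff, Finset.mem_filter, not_and, not_le]
      constructor
      · rintro ⟨h1, h2⟩
        exact ⟨h1, h2 h1⟩
      · rintro ⟨h1, h2⟩
        exact ⟨h1, fun _ => h2⟩
    rw [h1]
    obtain ⟨Bd, hBd⟩ : ∃ Bd : Finset X, Bd = Gg.filter (fun p => H < ((N (κ p)).card : ℝ)) := ⟨_, rfl⟩
    rw [← hBd]
    obtain ⟨S, hS⟩ : ∃ S : Finset ℤ, S = Bd.image κ := ⟨_, rfl⟩
    have h2 : ∑ x ∈ Bd, μ x = ∑ k ∈ S, ∑ x ∈ Bd with κ x = k, μ x := by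
      refine (Finset.sum_fiberwise_of_maps_to ?_ _).symm
      intro x hx
      rw [hS]
      exact Finset.mem_image_of_mem _ hx
    have h3 : ∀ k ∈ S, ∑ x ∈ Bd with κ x = k, μ x ≤ Θ * w ^ u := by
      intro k hk
      rw [hS, Finset.mem_image] at hk
      obtain ⟨p, hp, rfl⟩ := hk
      have hpG : p ∈ Gg := by
        rw [hBd] at hp
        exact (Finset.mem_filter.1 hp).1
      refine le_trans ?_ ((hthin p hpG).2 w hρw)
      unfold w2Tg
      refine Finset.sum_le_sum_of_subset_of_nonneg ?_ (fun _ _ _ => hμ0 _)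
      intro x hx
      simp only [Finset.mem_filter, Finset.mem_univ, true_and] at hx ⊢
      have h4 := hx.2
      rw [hκ, hκ] at h4
      rw [← hπ, ← hπ]
      have h5 := Int.abs_sub_lt_one_of_floor_eq_floor h4
      rw [← sub_div, abs_div, abs_of_pos hw0, div_lt_one hw0] at h5
      exact h5.le
    have h4 : (S.card : ℝ) * H ≤ 2 * cR.card := by
      have h5 : (S.card : ℝ) * H ≤ ∑ k ∈ S, ((N k).card : ℝ) := by
        rw [← nsmul_eq_mul]
        refine Finset.card_nsmul_le_sum _ _ _ ?_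
        intro k hk
        rw [hS, Finset.mem_image] at hk
        obtain ⟨p, hp, rfl⟩ := hk
        rw [hBd] at hp
        exact (Finset.mem_filter.1 hp).2.le
      refine le_trans h5 ?_
      have h6 : ∑ k ∈ S, (N k).card = ∑ e ∈ cR, (S.filter (fun k => ⌊e / w⌋ = k ∨ ⌊e / w⌋ + 1 = k)).card := by
        simp only [hN]
        exact Finset.sum_card_bipartiteAbove_eq_sum_card_bipartiteBelow
          (fun (k : ℤ) (e : ℝ) => ⌊e / w⌋ = k ∨ ⌊e / w⌋ + 1 = k)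
      have h7 : ∑ e ∈ cR, (S.filter (fun k => ⌊e / w⌋ = k ∨ ⌊e / w⌋ + 1 = k)).card ≤ ∑ e ∈ cR, 2 := by
        refine Finset.sum_le_sum fun e _ => ?_
        refine le_trans (Finset.card_le_card (t := {⌊e / w⌋, ⌊e / w⌋ + 1}) ?_) Finset.card_le_two
        intro k hk
        simp only [Finset.mem_filter, Finset.mem_insert, Finset.mem_singleton] at hk ⊢
        rcases hk.2 with h | h
        · exact Or.inl h.symm
        · exact Or.inr h.symm
      have h8 : ∑ k ∈ S, (N k).card ≤ 2 * cR.card := by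
        rw [h6]
        refine le_trans h7 ?_
        simp [mul_comm]
      exact_mod_cast h8
    rw [h2]
    have hwu : 0 ≤ Θ * w ^ u := mul_nonneg hΘ (Real.rpow_nonneg hw0.le _)
    calc ∑ k ∈ S, ∑ x ∈ Bd with κ x = k, μ x ≤ ∑ k ∈ S, Θ * w ^ u := Finset.sum_le_sum h3
      _ = S.card * (Θ * w ^ u) := by simp
      _ ≤ (2 * cR.card / H) * (Θ * w ^ u) := by
          refine mul_le_mul_of_nonneg_right ?_ hwu
          rw [le_div_iff₀ hH]
          exact h4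
      _ = 2 * cR.card * Θ * w ^ u / H := by ring
  · intro t0
    obtain ⟨I, hI⟩ : ∃ I : Finset ℤ, I = (Finset.Icc ⌊t0 / w - C7⌋ ⌊t0 / w + C7⌋).filter
      (fun k => ((N k).card : ℝ) ≤ H) := ⟨_, rfl⟩
    refine ⟨I.biUnion N, ?_, ?_⟩
    · rintro t ⟨p, ⟨hp1, hp2⟩, rfl⟩
      rw [Finset.mem_filter] at hp1
      obtain ⟨e, he, h1, h2⟩ := hcovN p hp1.1
      refine ⟨e, ?_, by rw [hπ] at h1; exact h1, by rw [hπ] at h2; exact h2⟩
      rw [Finset.mem_biUnion]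
      refine ⟨κ p, ?_, he⟩
      rw [hI, Finset.mem_filter, Finset.mem_Icc]
      rw [abs_le] at hp2
      refine ⟨⟨?_, ?_⟩, hp1.2⟩
      · rw [hκ, hπ]
        refine Int.floor_mono ?_
        rw [le_div_iff₀ hw0, sub_mul, div_mul_cancel₀ _ hw0.ne']
        linarith [hp2.1]
      · rw [hκ, hπ]
        refine Int.floor_mono ?_
        rw [div_le_iff₀ hw0, add_mul, div_mul_cancel₀ _ hw0.ne']
        linarith [hp2.2]
    · have h1 : ((I.biUnion N).card : ℝ) ≤ ∑ k ∈ I, ((N k).card : ℝ) := by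
        exact_mod_cast Finset.card_biUnion_le
      have h2 : ∑ k ∈ I, ((N k).card : ℝ) ≤ ∑ k ∈ I, H := by
        refine Finset.sum_le_sum fun k hk => ?_
        rw [hI] at hk
        exact (Finset.mem_filter.1 hk).2
      have h3 : (I.card : ℝ) ≤ 2 * C7 + 3 := by
        have h4 : (I.card : ℝ) ≤ ((Finset.Icc ⌊t0 / w - C7⌋ ⌊t0 / w + C7⌋).card : ℝ) := by
          rw [hI]
          exact_mod_cast Finset.card_filter_le _ _
        have h5 := w2t_card_Icc (t0 / w - C7) (t0 / w + C7) (by linarith)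
        linarith
      calc ((I.biUnion N).card : ℝ) ≤ ∑ k ∈ I, H := le_trans h1 h2
        _ = I.card * H := by simp
        _ ≤ (2 * C7 + 3) * H := mul_le_mul_of_nonneg_right h3 hH.le

/-- **heavy** -/
theorem w2_tag_heavy {X : Type} [Fintype X] [DecidableEq X] (μ : X → ℝ) (pt : X → ℝ × ℝ) (a w thr : ℝ)
    (Gc : Finset X) (cW : Finset ℝ) (hμ0 : ∀ x, 0 ≤ μ x) (hw : 0 ≤ w) (hthr : 0 ≤ thr)
    (hcov : KfCov cW w ((fun x => kfProj a (pt x)) '' (Gc : Set X))) :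
    ∃ Gk : Finset X, Gk ⊆ Gc ∧ ∑ x ∈ Gc \ Gk, μ x ≤ cW.card * thr ∧
      ∀ p ∈ Gk, thr ≤ ∑ x ∈ Gc with |kfProj a (pt x) - kfProj a (pt p)| ≤ w, μ x := by
  classical
  have hex : ∀ x : X, ∃ e : ℝ, x ∈ Gc → e ∈ cW ∧ e ≤ kfProj a (pt x) ∧ kfProj a (pt x) ≤ e + w := by
    intro x
    by_cases hx : x ∈ Gc
    · obtain ⟨e, he, h1, h2⟩ := hcov _ ⟨x, hx, rfl⟩
      exact ⟨e, fun _ => ⟨he, h1, h2⟩⟩
    · exact ⟨0, fun h => absurd h hx⟩
  choose ε hε using hex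
  obtain ⟨mass, hmass⟩ : ∃ mass : ℝ → ℝ, ∀ e, mass e = ∑ x ∈ Gc with ε x = e, μ x := ⟨_, fun _ => rfl⟩
  refine ⟨Gc.filter (fun p => thr ≤ mass (ε p)), Finset.filter_subset _ _, ?_, ?_⟩
  · have h1 : Gc \ Gc.filter (fun p => thr ≤ mass (ε p)) = Gc.filter (fun p => mass (ε p) < thr) := by
      ext x
      simp only [Finset.mem_sdiff, Finset.mem_filter, not_and, not_le]
      constructor
      · rintro ⟨h1, h2⟩
        exact ⟨h1, h2 h1⟩
      · rintro ⟨h1, h2⟩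
        exact ⟨h1, fun _ => h2⟩
    rw [h1]
    have h2 : ∑ x ∈ Gc.filter (fun p => mass (ε p) < thr), μ x
        = ∑ e ∈ cW, ∑ x ∈ (Gc.filter (fun p => mass (ε p) < thr)) with ε x = e, μ x := by
      refine (Finset.sum_fiberwise_of_maps_to ?_ _).symm
      intro x hx
      exact (hε x (Finset.mem_filter.1 hx).1).1
    rw [h2]
    calc ∑ e ∈ cW, ∑ x ∈ (Gc.filter (fun p => mass (ε p) < thr)) with ε x = e, μ x
        ≤ ∑ e ∈ cW, thr := by
          refine Finset.sum_le_sum fun e _ => ?_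
          by_cases hm : mass e < thr
          · refine le_trans ?_ hm.le
            rw [hmass]
            refine Finset.sum_le_sum_of_subset_of_nonneg ?_ (fun _ _ _ => hμ0 _)
            intro x hx
            simp only [Finset.mem_filter] at hx ⊢
            exact ⟨hx.1.1, hx.2⟩
          · refine le_trans (le_of_eq ?_) hthr
            refine Finset.sum_eq_zero ?_
            intro x hx
            simp only [Finset.mem_filter] at hx
            exact absurd (hx.2 ▸ hx.1.2) hm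
      _ = cW.card * thr := by simp
  · intro p hp
    rw [Finset.mem_filter] at hp
    refine le_trans hp.2 ?_
    rw [hmass]
    refine Finset.sum_le_sum_of_subset_of_nonneg ?_ (fun _ _ _ => hμ0 _)
    intro x hx
    simp only [Finset.mem_filter] at hx ⊢
    refine ⟨hx.1, ?_⟩
    have h1 := hε x hx.1
    have h2 := hε p hp.1
    rw [hx.2] at h1
    rw [abs_le]
    constructor <;> linarith [h1.2.1, h1.2.2, h2.2.1, h2.2.2]

/-- **the refinement of one fibre** -/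
theorem w2_tag (A u : ℝ) (hA : 1 ≤ A) (hu : 0 < u) :
    ∃ K : ℝ, 1 ≤ K ∧ ∀ (X : Type) [Fintype X] [DecidableEq X] (μ : X → ℝ) (pt : X → ℝ × ℝ) (a ρ Θ l w r : ℝ) (M : ℕ)
      (Gb : Finset X) (cov : Finset ℝ),
      (∀ x, 0 ≤ μ x) → ∑ x, μ x ≤ 1 → |a| ≤ A → 0 < ρ → ρ ≤ r → r ≤ w → w ≤ 1 / 4 → 1 ≤ Θ → 0 < l → 1 ≤ M →
      (∀ p ∈ Gb, W2Thin μ pt u Θ ρ a p) →
      KfCov cov ρ ((fun x => kfProj a (pt x)) '' (Gb : Set X)) → cov.card ≤ M →
      ∃ Gk : Finset X, Gk ⊆ Gb ∧ ∑ x ∈ Gb \ Gk, μ x ≤ K * l ∧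
        (∀ t0 : ℝ, ∃ c' : Finset ℝ,
          KfCov c' r ((fun x => kfProj a (pt x)) '' {p | p ∈ Gk ∧ |kfProj a (pt p) - t0| ≤ (A + 1) * w}) ∧
          (c'.card : ℝ) ≤ K * M * Θ ^ 2 * (ρ / r) ^ u * w ^ u / l ^ 2) ∧
        (∀ p ∈ Gk, l ^ 2 / (K * M * Θ * (ρ / w) ^ u) ≤
          ∑ x ∈ Gb with |kfProj a (pt x) - kfProj a (pt p)| ≤ w, μ x) := by
  obtain ⟨K0, hK0, hcount⟩ := w2_tag_count A u hA hu
  have hKK : K0 ≤ (4 * A + 10) * K0 + 2 := by nlinarith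
  refine ⟨(4 * A + 10) * K0 + 2, by linarith, ?_⟩
  intro X _ _ μ pt a ρ Θ l w r M Gb cov hμ0 hμ1 ha hρ hρr hrw hw hΘ hl hM hthin hcov hcard
  have hr0 : 0 < r := lt_of_lt_of_le hρ hρr
  have hw0 : 0 < w := lt_of_lt_of_le hr0 hrw
  have hΘ0 : 0 < Θ := by linarith
  have hM1 : (1 : ℝ) ≤ M := by exact_mod_cast hM
  have hM0 : (0 : ℝ) < M := by linarith
  have hK00 : 0 < K0 := by linarith
  have hcardR : (cov.card : ℝ) ≤ M := by exact_mod_cast hcard
  obtain ⟨G1, hG1, hloss1, cr, hcr, hcrc⟩ :=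
    hcount X μ pt a ρ Θ l r Gb cov hμ0 hμ1 ha hρ hρr (hrw.trans hw) hΘ0 hl hthin hcov
  have hcov1 : KfCov cov ρ ((fun x => kfProj a (pt x)) '' (G1 : Set X)) := by
    rintro t ⟨x, hx, rfl⟩
    exact hcov _ ⟨x, hG1 hx, rfl⟩
  obtain ⟨G2, hG2, hloss2, cw, hcw, hcwc⟩ :=
    hcount X μ pt a ρ Θ l w G1 cov hμ0 hμ1 ha hρ (hρr.trans hrw) hw hΘ0 hl (fun p hp => hthin p (hG1 hp)) hcov1
  obtain ⟨pr, hpr⟩ : ∃ pr : ℝ, pr = (ρ / r) ^ u := ⟨_, rfl⟩
  obtain ⟨pw, hpw⟩ : ∃ pw : ℝ, pw = (ρ / w) ^ u := ⟨_, rfl⟩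
  obtain ⟨wu, hwu⟩ : ∃ wu : ℝ, wu = w ^ u := ⟨_, rfl⟩
  have hpr0 : 0 < pr := by rw [hpr]; exact Real.rpow_pos_of_pos (div_pos hρ hr0) _
  have hpw0 : 0 < pw := by rw [hpw]; exact Real.rpow_pos_of_pos (div_pos hρ hw0) _
  have hwu0 : 0 < wu := by rw [hwu]; exact Real.rpow_pos_of_pos hw0 _
  rw [← hpr] at hcrc
  rw [← hpw] at hcwc
  rw [← hpr, ← hpw, ← hwu]
  obtain ⟨Nr, hNr⟩ : ∃ Nr : ℝ, Nr = K0 * M * Θ * pr / l := ⟨_, rfl⟩
  obtain ⟨Nw, hNw⟩ : ∃ Nw : ℝ, Nw = K0 * M * Θ * pw / l := ⟨_, rfl⟩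
  have hNr0 : 0 < Nr := by rw [hNr]; positivity
  have hNw0 : 0 < Nw := by rw [hNw]; positivity
  have hcrN : (cr.card : ℝ) ≤ Nr := by
    refine le_trans hcrc ?_
    rw [hNr]
    gcongr
  have hcwN : (cw.card : ℝ) ≤ Nw := by
    refine le_trans hcwc ?_
    rw [hNw]
    gcongr
  obtain ⟨H, hH⟩ : ∃ H : ℝ, H = 2 * Nr * Θ * wu / l := ⟨_, rfl⟩
  have hH0 : 0 < H := by rw [hH]; positivity
  have hcr2 : KfCov cr r ((fun x => kfProj a (pt x)) '' (G2 : Set X)) := by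
    rintro t ⟨x, hx, rfl⟩
    exact hcr _ ⟨x, hG2 hx, rfl⟩
  obtain ⟨G3, hG3, hloss3, hwin⟩ := w2_tag_tubes μ pt a u ρ Θ w r H (A + 1) G2 cr hμ0 hρ (hρr.trans hrw) hr0 hrw
    hΘ0.le hH0 (by linarith) (fun p hp => hthin p (hG1 (hG2 hp))) hcr2
  rw [← hwu] at hloss3
  have hcw3 : KfCov cw w ((fun x => kfProj a (pt x)) '' (G3 : Set X)) := by
    rintro t ⟨x, hx, rfl⟩
    exact hcw _ ⟨x, hG3 hx, rfl⟩
  obtain ⟨Gk, hGk, hloss4, hheavy⟩ := w2_tag_heavy μ pt a w (l / Nw) G3 cw hμ0 hw0.le (by positivity) hcw3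
  have hsub : G3 ⊆ Gb := fun x hx => hG1 (hG2 (hG3 hx))
  refine ⟨Gk, fun x hx => hsub (hGk hx), ?_, ?_, ?_⟩
  · have h3 : ∑ x ∈ G2 \ G3, μ x ≤ l := by
      refine le_trans hloss3 ?_
      rw [div_le_iff₀ hH0, hH]
      have h5 : l * (2 * Nr * Θ * wu / l) = 2 * Nr * Θ * wu := by field_simp
      rw [h5]
      gcongr
    have h4 : ∑ x ∈ G3 \ Gk, μ x ≤ l := by
      refine le_trans hloss4 ?_
      calc (cw.card : ℝ) * (l / Nw) ≤ Nw * (l / Nw) := by gcongr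
        _ = l := by field_simp
    have e1 := w2t_loss_add μ hμ0 Gb G1 Gk
    have e2 := w2t_loss_add μ hμ0 G1 G2 Gk
    have e3 := w2t_loss_add μ hμ0 G2 G3 Gk
    have h6 : (2 * K0 + 2) * l ≤ ((4 * A + 10) * K0 + 2) * l := by
      refine mul_le_mul_of_nonneg_right ?_ hl.le
      nlinarith
    linarith
  · intro t0
    obtain ⟨c', hc', hc'c⟩ := hwin t0
    refine ⟨c', ?_, ?_⟩
    · rintro t ⟨p, ⟨hp1, hp2⟩, rfl⟩
      exact hc' _ ⟨p, ⟨hGk hp1, hp2⟩, rfl⟩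
    · refine le_trans hc'c ?_
      have h1 : (2 * (A + 1) + 3) * H = (4 * A + 10) * K0 * M * Θ ^ 2 * pr * wu / l ^ 2 := by
        rw [hH, hNr]
        field_simp
        ring
      rw [h1]
      gcongr
      linarith
  · intro p hp
    have h1 := hheavy p hp
    have h2 : l / Nw = l ^ 2 / (K0 * M * Θ * pw) := by
      rw [hNw]
      field_simp
    have h3 : l ^ 2 / (((4 * A + 10) * K0 + 2) * M * Θ * pw) ≤ l ^ 2 / (K0 * M * Θ * pw) := by
      gcongr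
    refine le_trans h3 (le_trans (le_of_eq h2.symm) (le_trans h1 ?_))
    refine Finset.sum_le_sum_of_subset_of_nonneg ?_ (fun _ _ _ => hμ0 _)
    intro x hx
    simp only [Finset.mem_filter] at hx ⊢
    exact ⟨hsub hx.1, hx.2⟩

end Claimed.Agent.RW
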